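import Vale.Agent.P363.MathlibUsed
import Vale.Agent.P370.MathlibUsed
attribute [-instance] ProperSMul.toContinuousSMul IsTopologicalTorsor.toContinuousSMul IdemSemiring.toCanonicallyOrderedAdd IdemSemiring.toMulLeftMono IdemSemiring.toMulRightMono AddQuantale.instAddLeftMono AddQuantale.instAddRightMono Quantale.instMulLeftMono Quantale.instMulRightMono FiniteDimensional.rclike_to_real IsScalarTower.complexToReal FiniteDimensional.complexToReal
seal MeasureTheory.ae

set_option linter.all false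

section

section

/-!
Definitions for the Kohn-Sham representability question for Coulomb ground-state densities.
-/

namespace Vale.Agent.P363

open MeasureTheory
open scoped ContDiff ENNReal

noncomputable section

/-- Physical space. -/
abbrev R3 : Type := EuclideanSpace ℝ (Fin 3)

/-- Unit displacement of the `i`-th electron along the `k`-th coordinate axis. -/
def axisDir {N : ℕ} (i : Fin N) (k : Fin 3) : Fin N → R3 :=
  Pi.single i (EuclideanSpace.single k (1 : ℝ))

/-- `g` is the weak (distributional) derivative of `f` in the direction `e`. -/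
def IsWeakDeriv {N : ℕ} (e : Fin N → R3) (f g : (Fin N → R3) → ℂ) : Prop :=
  ∀ φ : (Fin N → R3) → ℝ, ContDiff ℝ ∞ φ → HasCompactSupport φ →
    ∫ x, ((fderiv ℝ φ x e : ℝ) : ℂ) * f x = - ∫ x, ((φ x : ℝ) : ℂ) * g x

/-- A vector of finite kinetic energy in the `N`-electron space, i.e. in the antisymmetric part of
`L²((ℝ³ × spin)^N)`: for each spin configuration a complex `L²` amplitude on `(ℝ³)^N` whose weak
partial derivatives are in `L²`; antisymmetric under simultaneous permutation of the positions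
and the spins. -/
structure ElectronState (N : ℕ) where
  amp : (Fin N → Fin 2) → (Fin N → R3) → ℂ
  grad : (Fin N → Fin 2) → Fin N → Fin 3 → (Fin N → R3) → ℂ
  amp_memLp : ∀ s, MemLp (amp s) 2 volume
  grad_memLp : ∀ s i k, MemLp (grad s i k) 2 volume
  grad_weak : ∀ s i k, IsWeakDeriv (axisDir i k) (amp s) (grad s i k)
  antisymm : ∀ (σ : Equiv.Perm (Fin N)) (s : Fin N → Fin 2),
    ∀ᵐ x : Fin N → R3, amp (s ∘ σ) (x ∘ σ) = ((Equiv.Perm.sign σ : ℤ) : ℂ) * amp s x

/-- Squared norm of a state. -/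
def normSq {N : ℕ} (Ψ : ElectronState N) : ℝ :=
  ∑ s, ∫ x, ‖Ψ.amp s x‖ ^ 2

/-- Quadratic form of the operator `-(1/2) Δ + w` on the `N`-electron space,
`w` acting by multiplication. -/
def energy {N : ℕ} (w : (Fin N → R3) → ℝ) (Ψ : ElectronState N) : ℝ :=
  (1 / 2) * (∑ s, ∑ i, ∑ k, ∫ x, ‖Ψ.grad s i k x‖ ^ 2) + ∑ s, ∫ x, w x * ‖Ψ.amp s x‖ ^ 2

/-- `Ψ` is a normalized ground state of the operator with potential `w`: it minimizes the
quadratic form among all normalized states of finite kinetic energy. -/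
def IsGroundState {N : ℕ} (w : (Fin N → R3) → ℝ) (Ψ : ElectronState N) : Prop :=
  normSq Ψ = 1 ∧ ∀ Φ : ElectronState N, normSq Φ = 1 → energy w Ψ ≤ energy w Φ

/-- Spin-summed one-body density of a state of `n + 1` electrons, with integral `n + 1`. -/
def density {n : ℕ} (Ψ : ElectronState (n + 1)) (r : R3) : ℝ :=
  (n + 1 : ℝ) * ∑ s, ∫ y : Fin n → R3, ‖Ψ.amp s (Fin.cons r y)‖ ^ 2

/-- Potential of a molecule with nuclei of charges `Z j` at the points `R j`: attraction by the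
nuclei and mutual repulsion of the electrons. -/
def coulombPotential {N M : ℕ} (Z : Fin M → ℕ) (R : Fin M → R3) (x : Fin N → R3) : ℝ :=
  (∑ i, ∑ j, -((Z j : ℝ) / ‖x i - R j‖)) + ∑ i, ∑ k ∈ Finset.Ioi i, 1 / ‖x i - x k‖

/-- Potential of noninteracting electrons in the one-body potential `v`. -/
def sumPotential {N : ℕ} (v : R3 → ℝ) (x : Fin N → R3) : ℝ := ∑ i, v (x i)

/-- The class `L^{3/2} + L^∞` of real potentials on `ℝ³`. -/
def MemV (v : R3 → ℝ) : Prop :=
  ∃ a b : R3 → ℝ, MemLp a (3 / 2) volume ∧ MemLp b ⊤ volume ∧ v = a + b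

/-- `ρ` is a noninteracting ensemble representable density of `n + 1` electrons: it is (almost
everywhere) the density of a ground-state ensemble `∑ₖ pₖ |Φₖ⟩⟨Φₖ|` of the noninteracting
Hamiltonian with some potential `v` in `L^{3/2} + L^∞`. -/
def NonintEnsembleRepresentable (n : ℕ) (ρ : R3 → ℝ) : Prop :=
  ∃ v : R3 → ℝ, MemV v ∧
    ∃ (p : ℕ → ℝ) (Φ : ℕ → ElectronState (n + 1)),
      (∀ k, 0 ≤ p k) ∧ HasSum p 1 ∧ (∀ k, IsGroundState (sumPotential v) (Φ k)) ∧
      ∀ᵐ r : R3, HasSum (fun k => p k * density (Φ k) r) (ρ r)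

/-- The assertion of the question for `n + 1` electrons: for every molecule, the density of every
normalized ground state of the Coulomb Hamiltonian is noninteracting ensemble representable. -/
def CoulombDensitiesRepresentable (n : ℕ) : Prop :=
  ∀ (M : ℕ), 1 ≤ M → ∀ (Z : Fin M → ℕ), (∀ j, 1 ≤ Z j) →
    ∀ (R : Fin M → R3), Function.Injective R →
      ∀ Ψ : ElectronState (n + 1), IsGroundState (coulombPotential Z R) Ψ →
        NonintEnsembleRepresentable n (density Ψ)

end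

end Vale.Agent.P363
end
end

section

section

namespace Vale.Agent.P363

open MeasureTheory Set Filter Topology
open scoped ENNReal

noncomputable section

/-- Primitive of `f` with value `c` at `0`. -/
def prim (c : ℝ) (f : ℝ → ℝ) (t : ℝ) : ℝ := c + ∫ s in (0:ℝ)..t, f s

lemma prim_zero (c : ℝ) (f : ℝ → ℝ) : prim c f 0 = c := by simp [prim]

lemma LocInt.ii {f : ℝ → ℝ} (hf : LocallyIntegrable f) (a b : ℝ) :
    IntervalIntegrable f volume a b :=
  intervalIntegrable_iff.mpr <|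
      (hf.integrableOn_isCompact isCompact_uIcc).mono_set uIoc_subset_uIcc

lemma prim_continuous {c : ℝ} {f : ℝ → ℝ} (hf : LocallyIntegrable f) :
    Continuous (prim c f) := by
  have := intervalIntegral.continuous_primitive (fun a b => LocInt.ii hf a b) 0
  exact continuous_const.add this

lemma prim_sub {c : ℝ} {f : ℝ → ℝ} (hf : LocallyIntegrable f) (a b : ℝ) :
    prim c f b - prim c f a = ∫ s in a..b, f s := by
  unfold prim
  rw [add_sub_add_left_eq_sub, intervalIntegral.integral_interval_sub_left (LocInt.ii hf 0 b)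
    (LocInt.ii hf 0 a)]

lemma prim_ac {c : ℝ} {f : ℝ → ℝ} (hf : LocallyIntegrable f) (a b : ℝ) :
    AbsolutelyContinuousOnInterval (prim c f) a b := by
  have h1 : AbsolutelyContinuousOnInterval (fun x ↦ ∫ v in a..x, f v) a b :=
    (LocInt.ii hf a b).absolutelyContinuousOnInterval_intervalIntegral (by simp)
  have h2 : AbsolutelyContinuousOnInterval (fun _ : ℝ => prim c f a) a b := by
    apply LipschitzOnWith.absolutelyContinuousOnInterval (K := 0)
    exact LipschitzWith.lipschitzOnWith (LipschitzWith.const _)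
  have h3 := h1.add h2
  have : prim c f = (fun x ↦ ∫ v in a..x, f v) + (fun _ : ℝ => prim c f a) := by
    funext x
    simp only [Pi.add_apply]
    rw [← prim_sub (c := c) hf a x]; ring
  rw [this]; exact h3

lemma prim_hasDerivAt {c : ℝ} {f : ℝ → ℝ} (hf : LocallyIntegrable f) :
    ∀ᵐ t, HasDerivAt (prim c f) (f t) t := by
  filter_upwards [LocallyIntegrable.ae_hasDerivAt_integral hf] with t ht
  have := (ht 0).const_add c
  exact this

lemma prim_mul {c d : ℝ} {f g : ℝ → ℝ} (hf : LocallyIntegrable f) (hg : LocallyIntegrable g)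
    (t : ℝ) :
    prim c f t * prim d g t = c * d + ∫ s in (0:ℝ)..t, (f s * prim d g s + prim c f s * g s) := by
  have h := AbsolutelyContinuousOnInterval.integral_deriv_mul_eq_sub
    (prim_ac (c := c) hf 0 t) (prim_ac (c := d) hg 0 t)
  rw [prim_zero, prim_zero] at h
  have h2 : ∫ s in (0:ℝ)..t, (f s * prim d g s + prim c f s * g s) =
      ∫ x in (0:ℝ)..t, deriv (prim c f) x * prim d g x + prim c f x * deriv (prim d g) x := by
    apply intervalIntegral.integral_congr_ae
    filter_upwards [prim_hasDerivAt (c := c) hf, prim_hasDerivAt (c := d) hg] with s h1 h2 _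
    rw [h1.deriv, h2.deriv]
  rw [h2, h]; ring

lemma ac_comp {Φ : ℝ → ℝ} {F : ℝ → ℝ} {a b : ℝ} {K : NNReal} {s : Set ℝ}
    (hΦ : LipschitzOnWith K Φ s) (hF : AbsolutelyContinuousOnInterval F a b)
    (hs : ∀ t ∈ uIcc a b, F t ∈ s) :
    AbsolutelyContinuousOnInterval (fun t => Φ (F t)) a b := by
  rw [absolutelyContinuousOnInterval_iff] at hF ⊢
  intro ε hε
  obtain ⟨δ, hδ, h⟩ := hF (ε / (K + 1)) (by positivity)
  refine ⟨δ, hδ, fun E hE hlen => ?_⟩
  have h1 := h E hE hlen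
  calc _ ≤ ∑ i ∈ Finset.range E.1, K * dist (F (E.2 i).1) (F (E.2 i).2) := by
        apply Finset.sum_le_sum
        intro i hi
        exact hΦ.dist_le_mul _ (hs _ (hE.left i hi).left) _ (hs _ (hE.left i hi).right)
    _ = K * ∑ i ∈ Finset.range E.1, dist (F (E.2 i).1) (F (E.2 i).2) := by
        rw [Finset.mul_sum]
    _ ≤ K * (ε / (K + 1)) := by (clear * - h1; gcongr)
    _ < (K + 1) * (ε / (K + 1)) := by gcongr; linarith
    _ = ε := by field

/-- Chain rule on an interval domain. -/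
lemma prim_comp {c : ℝ} {f : ℝ → ℝ} (hf : LocallyIntegrable f) {Φ Φ' : ℝ → ℝ} {Ω : Set ℝ}
    (hd : ∀ y ∈ Ω, HasDerivAt Φ (Φ' y) y) (hc : ContinuousOn Φ' Ω) (t : ℝ)
    (hmem : ∀ s ∈ uIcc 0 t, prim c f s ∈ Ω) :
    Φ (prim c f t) = Φ c + ∫ s in (0:ℝ)..t, Φ' (prim c f s) * f s := by
  have hcont : ContinuousOn (prim c f) (uIcc 0 t) := (prim_continuous hf).continuousOn
  -- compact image
  have himg : IsCompact (prim c f '' uIcc 0 t) := isCompact_uIcc.image_of_continuousOn hcont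
  have hconn : IsPreconnected (prim c f '' uIcc 0 t) := by
    apply IsPreconnected.image _ _ hcont
    exact (convex_uIcc 0 t).isPreconnected
  have hconv : Convex ℝ (prim c f '' uIcc 0 t) := by
    exact (Set.OrdConnected.convex hconn.ordConnected)
  have hsub : prim c f '' uIcc 0 t ⊆ Ω := by
    rintro _ ⟨s, hs, rfl⟩; exact hmem s hs
  obtain ⟨K, hK⟩ := himg.exists_bound_of_continuousOn (hc.mono hsub)
  have hLip : LipschitzOnWith (Real.toNNReal K) Φ (prim c f '' uIcc 0 t) := by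
    apply Convex.lipschitzOnWith_of_nnnorm_hasDerivWithin_le hconv
      (f' := Φ') (fun y hy => (hd y (hsub hy)).hasDerivWithinAt)
    intro y hy
    have := hK y hy
    rw [← NNReal.coe_le_coe]
    simp only [coe_nnnorm]
    exact this.trans (Real.le_coe_toNNReal K)
  have hac := ac_comp hLip (prim_ac (c := c) hf 0 t) (fun s hs => mem_image_of_mem _ hs)
  have h := hac.integral_deriv_eq_sub
  rw [prim_zero] at h
  have h2 : ∫ s in (0:ℝ)..t, Φ' (prim c f s) * f s =
      ∫ x in (0:ℝ)..t, deriv (fun t => Φ (prim c f t)) x := by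
    apply intervalIntegral.integral_congr_ae
    filter_upwards [prim_hasDerivAt (c := c) hf] with s h1 hs
    have := (hd _ (hmem s (uIoc_subset_uIcc hs))).comp s h1
    exact this.deriv.symm
  rw [h2, h]; ring

end

end Vale.Agent.P363
end
end

section

section

namespace Vale.Agent.P363

open MeasureTheory Set Filter Topology
open scoped ENNReal

set_option linter.unusedSectionVars false

noncomputable section

variable {X : Type*} [NormedAddCommGroup X] [NormedSpace ℝ X] [FiniteDimensional ℝ X]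
  [MeasurableSpace X] [BorelSpace X] {μ : Measure X} [μ.IsAddHaarMeasure]

lemma measurable_line (e : X) : Measurable (fun p : X × ℝ => p.1 + p.2 • e) := by
  have : Continuous (fun p : X × ℝ => p.1 + p.2 • e) := by fun_prop
  exact this.measurable

lemma qmp_line (e : X) :
    Measure.QuasiMeasurePreserving (fun p : X × ℝ => p.1 + p.2 • e) (μ.prod volume) μ := by
  refine ⟨measurable_line e, ?_⟩
  refine Measure.AbsolutelyContinuous.mk fun s hs h0 => ?_
  rw [Measure.map_apply (measurable_line e) hs, Measure.prod_apply_symm (measurable_line e hs)]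
  have : ∀ t : ℝ, μ ((fun x => (x, t)) ⁻¹' ((fun p : X × ℝ => p.1 + p.2 • e) ⁻¹' s)) = 0 := by
    intro t
    have h1 : (fun x => (x, t)) ⁻¹' ((fun p : X × ℝ => p.1 + p.2 • e) ⁻¹' s) =
      (fun x => x + t • e) ⁻¹' s := rfl
    rw [h1, measure_preimage_add_right, h0]
  simp [this]

lemma line_ae_prod (e : X) {P : X → Prop} (h : ∀ᵐ x ∂μ, P x) :
    ∀ᵐ p : X × ℝ ∂(μ.prod volume), P (p.1 + p.2 • e) :=
  (qmp_line e).ae h

lemma line_ae (e : X) {P : X → Prop} (h : ∀ᵐ x ∂μ, P x) :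
    ∀ᵐ x ∂μ, ∀ᵐ t : ℝ, P (x + t • e) := by
  have hz := Measure.ae_ae_of_ae_prod (line_ae_prod e h)
  exact hz

lemma shift_ae (e : X) {P : X → Prop} (h : ∀ᵐ x ∂μ, P x) (t : ℝ) :
    ∀ᵐ x ∂μ, P (x + t • e) :=
  (measurePreserving_add_right μ (t • e)).quasiMeasurePreserving.ae h

omit [NormedAddCommGroup X] [NormedSpace ℝ X] [FiniteDimensional ℝ X] [BorelSpace X]
  [μ.IsAddHaarMeasure] in
lemma ae_prod_of_ae_ae {Y : Type*} [MeasurableSpace Y] {ν : Measure Y} [SFinite ν]
    {P : X × Y → Prop} (hm : NullMeasurableSet {p | P p} (μ.prod ν))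
    (h : ∀ᵐ x ∂μ, ∀ᵐ y ∂ν, P (x, y)) : ∀ᵐ p ∂(μ.prod ν), P p := by
  obtain ⟨s, hs1, hs2, hs3⟩ := hm.exists_measurable_subset_ae_eq
  have h4 : ∀ᵐ p ∂(μ.prod ν), (p ∈ s ↔ P p) := by
    have := hs3.mem_iff
    filter_upwards [this] with p hp
    exact hp
  have h5 := Measure.ae_ae_of_ae_prod h4
  have h6 : ∀ᵐ x ∂μ, ∀ᵐ y ∂ν, (x, y) ∈ s := by
    filter_upwards [h, h5] with x hx hx5
    filter_upwards [hx, hx5] with y hy hy5
    exact hy5.mpr hy
  have h7 := (Measure.ae_prod_mem_iff_ae_ae_mem hs2).mpr h6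
  filter_upwards [h7] with p hp
  exact hs1 hp

lemma swap_ae {Y : Type*} [MeasurableSpace Y] {ν : Measure Y} [SFinite ν]
    {P : X × Y → Prop} (h : ∀ᵐ p ∂(μ.prod ν), P p) : ∀ᵐ y ∂ν, ∀ᵐ x ∂μ, P (x, y) := by
  have h1 : ∀ᵐ q : Y × X ∂(ν.prod μ), P q.swap := by
    have := (Measure.measurePreserving_swap (μ := ν) (ν := μ)).quasiMeasurePreserving.ae h
    exact this
  have hz := Measure.ae_ae_of_ae_prod h1
  exact hz

/-- `f'` is the derivative of `f` in the direction `e`, in the sense of absolute continuity on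
almost every line. -/
structure ACL (μ : Measure X) (e : X) (f f' : X → ℝ) : Prop where
  meas : AEStronglyMeasurable f μ
  meas' : AEStronglyMeasurable f' μ
  locInt : ∀ᵐ x ∂μ, LocallyIntegrable (fun t : ℝ => f' (x + t • e)) volume
  ftc : ∀ᵐ x ∂μ, ∀ᵐ t : ℝ, f (x + t • e) = prim (f x) (fun s => f' (x + s • e)) t

lemma stronglyMeasurable_line_integral (e : X) {g : X → ℝ} (hg : StronglyMeasurable g) :
    StronglyMeasurable (fun p : X × ℝ => ∫ s in (0:ℝ)..p.2, g (p.1 + s • e)) := by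
  have h1 : StronglyMeasurable (fun p : X × ℝ =>
      ∫ s : ℝ, (Set.Ioc 0 p.2).indicator (fun s => g (p.1 + s • e)) s) := by
    apply StronglyMeasurable.integral_prod_right
    have : (Function.uncurry fun (p : X × ℝ) (s : ℝ) =>
        (Set.Ioc 0 p.2).indicator (fun s => g (p.1 + s • e)) s) =
        ({q : (X × ℝ) × ℝ | 0 < q.2 ∧ q.2 ≤ q.1.2}).indicator
          (fun q => g (q.1.1 + q.2 • e)) := by
      funext q
      simp only [Function.uncurry, Set.indicator, Set.mem_Ioc, Set.mem_ofPred_eq]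
    rw [this]
    apply StronglyMeasurable.indicator
    · apply hg.comp_measurable
      have : Continuous (fun q : (X × ℝ) × ℝ => q.1.1 + q.2 • e) := by fun_prop
      exact this.measurable
    · apply MeasurableSet.inter
      · exact measurableSet_lt measurable_const measurable_snd
      · exact measurableSet_le measurable_snd (measurable_snd.comp measurable_fst)
  have h2 : StronglyMeasurable (fun p : X × ℝ =>
      ∫ s : ℝ, (Set.Ioc p.2 0).indicator (fun s => g (p.1 + s • e)) s) := by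
    apply StronglyMeasurable.integral_prod_right
    have : (Function.uncurry fun (p : X × ℝ) (s : ℝ) =>
        (Set.Ioc p.2 0).indicator (fun s => g (p.1 + s • e)) s) =
        ({q : (X × ℝ) × ℝ | q.1.2 < q.2 ∧ q.2 ≤ 0}).indicator
          (fun q => g (q.1.1 + q.2 • e)) := by
      funext q
      simp only [Function.uncurry, Set.indicator, Set.mem_Ioc, Set.mem_ofPred_eq]
    rw [this]
    apply StronglyMeasurable.indicator
    · apply hg.comp_measurable
      have : Continuous (fun q : (X × ℝ) × ℝ => q.1.1 + q.2 • e) := by fun_prop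
      exact this.measurable
    · apply MeasurableSet.inter
      · exact measurableSet_lt (measurable_snd.comp measurable_fst) measurable_snd
      · exact measurableSet_le measurable_snd measurable_const
  have h3 : (fun p : X × ℝ => ∫ s in (0:ℝ)..p.2, g (p.1 + s • e)) =
      fun p : X × ℝ => (∫ s : ℝ, (Set.Ioc 0 p.2).indicator (fun s => g (p.1 + s • e)) s) -
        ∫ s : ℝ, (Set.Ioc p.2 0).indicator (fun s => g (p.1 + s • e)) s := by
    funext p
    rw [intervalIntegral, integral_indicator measurableSet_Ioc, integral_indicator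
      measurableSet_Ioc]
  rw [h3]
  exact h1.sub h2

lemma line_integral_congr (e : X) {f g : X → ℝ} (h : f =ᵐ[μ] g) :
    ∀ᵐ x ∂μ, ∀ a b : ℝ, ∫ s in a..b, f (x + s • e) = ∫ s in a..b, g (x + s • e) := by
  filter_upwards [line_ae e h] with x hx a b
  apply intervalIntegral.integral_congr_ae
  filter_upwards [hx] with s hs _
  exact hs

lemma aesm_line_integral (e : X) {f' : X → ℝ} (hf : AEStronglyMeasurable f' μ) :
    AEStronglyMeasurable (fun p : X × ℝ => ∫ s in (0:ℝ)..p.2, f' (p.1 + s • e))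
      (μ.prod volume) := by
  refine ⟨_, stronglyMeasurable_line_integral e hf.stronglyMeasurable_mk, ?_⟩
  have h1 := line_integral_congr e hf.ae_eq_mk
  have h2 := (Measure.quasiMeasurePreserving_fst (μ := μ) (ν := (volume : Measure ℝ))).ae h1
  filter_upwards [h2] with p hp
  exact hp 0 p.2

lemma ftc_nullMeasurable {e : X} {f f' : X → ℝ} (hf : AEStronglyMeasurable f μ)
    (hf' : AEStronglyMeasurable f' μ) :
    NullMeasurableSet {p : X × ℝ | f (p.1 + p.2 • e) =
      prim (f p.1) (fun s => f' (p.1 + s • e)) p.2} (μ.prod volume) := by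
  apply nullMeasurableSet_eq_fun
  · exact (hf.comp_quasiMeasurePreserving (qmp_line e)).aemeasurable
  · apply AEStronglyMeasurable.aemeasurable
    unfold prim
    exact (hf.comp_fst).add (aesm_line_integral e hf')

lemma ACL.ftc_prod {e : X} {f f' : X → ℝ} (h : ACL μ e f f') :
    ∀ᵐ p : X × ℝ ∂(μ.prod volume), f (p.1 + p.2 • e) =
      prim (f p.1) (fun s => f' (p.1 + s • e)) p.2 :=
  ae_prod_of_ae_ae (ftc_nullMeasurable h.meas h.meas') h.ftc

lemma ACL.ftc_swap {e : X} {f f' : X → ℝ} (h : ACL μ e f f') :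
    ∀ᵐ t : ℝ, ∀ᵐ x ∂μ, f (x + t • e) = prim (f x) (fun s => f' (x + s • e)) t :=
  (swap_ae h.ftc_prod :)

/-- Build `ACL` from the identity for each step `t`. -/
lemma ACL.of_forall {e : X} {f f' : X → ℝ} (hf : AEStronglyMeasurable f μ)
    (hf' : AEStronglyMeasurable f' μ)
    (hl : ∀ᵐ x ∂μ, LocallyIntegrable (fun t : ℝ => f' (x + t • e)) volume)
    (h : ∀ t : ℝ, ∀ᵐ x ∂μ, f (x + t • e) = prim (f x) (fun s => f' (x + s • e)) t) :
    ACL μ e f f' := by
  refine ⟨hf, hf', hl, ?_⟩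
  have hm := ftc_nullMeasurable (e := e) hf hf'
  have hsw := Measure.measurePreserving_swap (μ := (volume : Measure ℝ)) (ν := μ)
  have hm2 : NullMeasurableSet (Prod.swap ⁻¹' {p : X × ℝ | f (p.1 + p.2 • e) =
      prim (f p.1) (fun s => f' (p.1 + s • e)) p.2}) (volume.prod μ) :=
    hm.preimage hsw.quasiMeasurePreserving
  have h1 : ∀ᵐ q : ℝ × X ∂((volume : Measure ℝ).prod μ), f (q.2 + q.1 • e) =
      prim (f q.2) (fun s => f' (q.2 + s • e)) q.1 := by
    obtain ⟨s, hs1, hs2, hs3⟩ := hm2.exists_measurable_subset_ae_eq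
    have h4 := hs3.mem_iff
    have h5 := Measure.ae_ae_of_ae_prod h4
    have h6 : ∀ᵐ t : ℝ, ∀ᵐ x ∂μ, (t, x) ∈ s := by
      filter_upwards [h5] with t ht
      filter_upwards [h t, ht] with x hx hx5
      exact hx5.mpr hx
    have h7 := (Measure.ae_prod_mem_iff_ae_ae_mem hs2).mpr h6
    filter_upwards [h7] with p hp
    exact hs1 hp
  have hsw2 := Measure.measurePreserving_swap (μ := μ) (ν := (volume : Measure ℝ))
  have h2 := hsw2.quasiMeasurePreserving.ae h1
  have hz := Measure.ae_ae_of_ae_prod h2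
  exact hz

lemma ACL.congr {e : X} {f f' g g' : X → ℝ} (h : ACL μ e f f') (hf : f =ᵐ[μ] g)
    (hf' : f' =ᵐ[μ] g') : ACL μ e g g' := by
  refine ⟨h.meas.congr hf, h.meas'.congr hf', ?_, ?_⟩
  · filter_upwards [h.locInt, line_ae e hf'] with x hx hx2
    exact hx.congr hx2
  · filter_upwards [h.ftc, line_ae e hf, hf, line_integral_congr e hf'] with x h1 h2 h3 h4
    filter_upwards [h1, h2] with t h5 h6
    rw [← h6, h5, prim, prim, h3, h4]

end

end Vale.Agent.P363
end
end

section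

section

namespace Vale.Agent.P363

open MeasureTheory Set Filter Topology
open scoped ENNReal

set_option linter.unusedSectionVars false

noncomputable section

variable {X : Type*} [NormedAddCommGroup X] [NormedSpace ℝ X] [FiniteDimensional ℝ X]
  [MeasurableSpace X] [BorelSpace X] {μ : Measure X} [μ.IsAddHaarMeasure]

unseal MeasureTheory.ae in
lemma all_of_ae_nonneg {h : ℝ → ℝ} (hc : Continuous h) (h0 : ∀ᵐ t, 0 ≤ h t) : ∀ t, 0 ≤ h t := by
  have ho : IsOpen {t | h t < 0} := isOpen_lt hc continuous_const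
  have hz : volume {t | h t < 0} = 0 := by
    have : {t | h t < 0} = {t | ¬ (0 ≤ h t)} := by ext t; simp
    rw [this]; exact h0
  rw [ho.measure_eq_zero_iff (volume : Measure ℝ)] at hz
  intro t
  by_contra hlt
  have : t ∈ {t | h t < 0} := by simpa using hlt
  rw [hz] at this; exact this

lemma ACL.add {e : X} {f f' g g' : X → ℝ} (hf : ACL μ e f f') (hg : ACL μ e g g') :
    ACL μ e (fun x => f x + g x) (fun x => f' x + g' x) := by
  refine ⟨hf.meas.add hg.meas, hf.meas'.add hg.meas', ?_, ?_⟩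
  · filter_upwards [hf.locInt, hg.locInt] with x h1 h2
    exact h1.add h2
  · filter_upwards [hf.locInt, hg.locInt, hf.ftc, hg.ftc] with x h1 h2 h3 h4
    filter_upwards [h3, h4] with t h5 h6
    rw [h5, h6, prim, prim, prim, intervalIntegral.integral_add (LocInt.ii h1 _ _)
      (LocInt.ii h2 _ _)]
    ring

lemma ACL.const_mul {e : X} {f f' : X → ℝ} (c : ℝ) (hf : ACL μ e f f') :
    ACL μ e (fun x => c * f x) (fun x => c * f' x) := by
  refine ⟨hf.meas.const_mul c, hf.meas'.const_mul c, ?_, ?_⟩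
  · filter_upwards [hf.locInt] with x h1
    exact h1.continuous_mul continuous_const
  · filter_upwards [hf.locInt, hf.ftc] with x h1 h3
    filter_upwards [h3] with t h5
    rw [h5, prim, prim, intervalIntegral.integral_const_mul]
    ring

lemma ACL.zero {e : X} : ACL μ e (fun _ => (0:ℝ)) (fun _ => 0) := by
  refine ⟨aestronglyMeasurable_const, aestronglyMeasurable_const, ?_, ?_⟩
  · filter_upwards with x
    exact continuous_const.locallyIntegrable
  · filter_upwards with x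
    filter_upwards with t
    simp [prim]

lemma ACL.const {e : X} (c : ℝ) : ACL μ e (fun _ => c) (fun _ => 0) := by
  refine ⟨aestronglyMeasurable_const, aestronglyMeasurable_const, ?_, ?_⟩
  · filter_upwards with x
    exact continuous_const.locallyIntegrable
  · filter_upwards with x
    filter_upwards with t
    simp [prim]

lemma ACL.neg {e : X} {f f' : X → ℝ} (hf : ACL μ e f f') :
    ACL μ e (fun x => - f x) (fun x => - f' x) := by
  have := hf.const_mul (-1)
  simpa using this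

lemma ACL.sub {e : X} {f f' g g' : X → ℝ} (hf : ACL μ e f f') (hg : ACL μ e g g') :
    ACL μ e (fun x => f x - g x) (fun x => f' x - g' x) := by
  have := hf.add hg.neg
  simpa [sub_eq_add_neg] using this

lemma ACL.sum {e : X} {ι : Type*} (s : Finset ι) {f f' : ι → X → ℝ}
    (h : ∀ i ∈ s, ACL μ e (f i) (f' i)) :
    ACL μ e (fun x => ∑ i ∈ s, f i x) (fun x => ∑ i ∈ s, f' i x) := by
  classical
  induction s using Finset.induction_on with
  | empty => simpa using ACL.zero (μ := μ) (e := e)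
  | insert a s ha ih =>
    simp only [Finset.sum_insert ha]
    exact (h a (Finset.mem_insert_self a s)).add
      (ih (fun i hi => h i (Finset.mem_insert_of_mem hi)))

lemma ACL.mul {e : X} {f f' g g' : X → ℝ} (hf : ACL μ e f f') (hg : ACL μ e g g') :
    ACL μ e (fun x => f x * g x) (fun x => f' x * g x + f x * g' x) := by
  have key : ∀ᵐ x ∂μ, (fun t : ℝ => f' (x + t • e) * g (x + t • e) +
      f (x + t • e) * g' (x + t • e)) =ᵐ[volume]
      (fun t => f' (x + t • e) * prim (g x) (fun s => g' (x + s • e)) t +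
        prim (f x) (fun s => f' (x + s • e)) t * g' (x + t • e)) := by
    filter_upwards [hf.ftc, hg.ftc] with x h3 h4
    filter_upwards [h3, h4] with t h5 h6
    rw [h5, h6]
  refine ⟨hf.meas.mul hg.meas, (hf.meas'.mul hg.meas).add (hf.meas.mul hg.meas'), ?_, ?_⟩
  · filter_upwards [hf.locInt, hg.locInt, key] with x h1 h2 h3
    refine LocallyIntegrable.congr ?_ h3.symm
    exact (h1.mul_continuous (prim_continuous h2)).add
      (h2.continuous_mul (prim_continuous h1))
  · filter_upwards [hf.locInt, hg.locInt, key, hf.ftc, hg.ftc] with x h1 h2 h3 h4 h5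
    filter_upwards [h4, h5] with t h6 h7
    rw [h6, h7, prim_mul h1 h2]
    unfold prim
    congr 1
    apply intervalIntegral.integral_congr_ae
    filter_upwards [h3] with s hs _
    exact hs.symm

/-- Chain rule. -/
lemma ACL.comp {e : X} {f f' : X → ℝ} (hf : ACL μ e f f') {Φ Φ' : ℝ → ℝ} {Ω : Set ℝ}
    (hd : ∀ y ∈ Ω, HasDerivAt Φ (Φ' y) y) (hc : ContinuousOn Φ' Ω)
    (hm : AEStronglyMeasurable (fun x => Φ (f x)) μ)
    (hm' : AEStronglyMeasurable (fun x => Φ' (f x)) μ)
    (hmem : ∀ᵐ x ∂μ, ∀ t, prim (f x) (fun s => f' (x + s • e)) t ∈ Ω) :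
    ACL μ e (fun x => Φ (f x)) (fun x => Φ' (f x) * f' x) := by
  have key : ∀ᵐ x ∂μ, (fun t : ℝ => Φ' (f (x + t • e)) * f' (x + t • e)) =ᵐ[volume]
      (fun t => Φ' (prim (f x) (fun s => f' (x + s • e)) t) * f' (x + t • e)) := by
    filter_upwards [hf.ftc] with x h3
    filter_upwards [h3] with t h5
    rw [h5]
  refine ⟨hm, hm'.mul hf.meas', ?_, ?_⟩
  · filter_upwards [hf.locInt, key, hmem] with x h1 h3 h4
    refine LocallyIntegrable.congr ?_ h3.symm
    refine h1.continuous_mul ?_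
    exact hc.comp_continuous (prim_continuous h1) h4
  · filter_upwards [hf.locInt, key, hf.ftc, hmem] with x h1 h3 h4 h5
    filter_upwards [h4] with t h6
    rw [h6, prim_comp h1 hd hc t (fun s _ => h5 s)]
    unfold prim
    congr 1
    apply intervalIntegral.integral_congr_ae
    filter_upwards [h3] with s hs _
    exact hs.symm

/-- Membership criterion for the chain rule: bounds by continuous functions. -/
lemma ACL.prim_ge {e : X} {f f' : X → ℝ} (hf : ACL μ e f f') {m : X → ℝ} (hm : Continuous m)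
    (h : ∀ᵐ x ∂μ, m x ≤ f x) :
    ∀ᵐ x ∂μ, ∀ t, m (x + t • e) ≤ prim (f x) (fun s => f' (x + s • e)) t := by
  filter_upwards [hf.locInt, hf.ftc, line_ae e h] with x h1 h2 h3 t
  have hcont : Continuous (fun t : ℝ => prim (f x) (fun s => f' (x + s • e)) t -
      m (x + t • e)) := by
    apply (prim_continuous h1).sub
    fun_prop
  have := all_of_ae_nonneg hcont (by
    filter_upwards [h2, h3] with t h4 h5
    rw [← h4]; linarith) t
  linarith

/-- `C¹` functions. -/
lemma ACL.of_contDiff {e : X} {f : X → ℝ} (hf : ContDiff ℝ 1 f) :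
    ACL μ e f (fun x => fderiv ℝ f x e) := by
  have hc : Continuous (fun x => fderiv ℝ f x e) :=
    (hf.continuous_fderiv (by norm_num)).clm_apply continuous_const
  refine ⟨hf.continuous.aestronglyMeasurable, hc.aestronglyMeasurable, ?_, ?_⟩
  · filter_upwards with x
    apply Continuous.locallyIntegrable
    exact hc.comp (continuous_const.add (continuous_id.smul continuous_const))
  · filter_upwards with x
    filter_upwards with t
    unfold prim
    have hd : ∀ s ∈ uIcc 0 t, HasDerivAt (fun s : ℝ => f (x + s • e)) (fderiv ℝ f (x + s • e) e)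
        s := by
      intro s _
      have h1 : HasFDerivAt f (fderiv ℝ f (x + s • e)) (x + s • e) :=
        ((hf.differentiable (by norm_num)) _).hasFDerivAt
      have h2 : HasDerivAt (fun s : ℝ => x + s • e) e s := by
        simpa only [hasDerivAt_const_add_iff, id_eq, one_smul] using ((hasDerivAt_id s).smul_const e).const_add x
      exact h1.comp_hasDerivAt s h2
    have := intervalIntegral.integral_eq_sub_of_hasDerivAt hd (by
      apply Continuous.intervalIntegrable
      exact hc.comp (continuous_const.add (continuous_id.smul continuous_const)))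
    rw [this]; simp

/-- The integral of a derivative vanishes. -/
lemma ACL.integral_eq_zero {e : X} {f f' : X → ℝ} (h : ACL μ e f f') (hf : Integrable f μ)
    (hf' : Integrable f' μ) : ∫ x, f' x ∂μ = 0 := by
  -- choose a positive step
  obtain ⟨t, ht, h1⟩ : ∃ t : ℝ, t ≠ 0 ∧
      ∀ᵐ x ∂μ, f (x + t • e) = prim (f x) (fun s => f' (x + s • e)) t := by
    have h2 : ∀ᵐ t : ℝ, t ≠ 0 := by simp [ae_iff, measure_singleton]
    obtain ⟨t, ht1, ht2⟩ := (h.ftc_swap.and h2).exists
    exact ⟨t, ht2, ht1⟩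
  have hint : Integrable (Function.uncurry fun (s : ℝ) (x : X) => f' (x + s • e))
      ((volume.restrict (uIoc 0 t)).prod μ) := by
    have hm : AEStronglyMeasurable (Function.uncurry fun (s : ℝ) (x : X) => f' (x + s • e))
        ((volume.restrict (uIoc 0 t)).prod μ) := by
      have q1 : Measure.QuasiMeasurePreserving (fun q : ℝ × X => q.2 + q.1 • e)
          ((volume : Measure ℝ).prod μ) μ :=
        (qmp_line e).comp (Measure.measurePreserving_swap (μ := (volume : Measure ℝ))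
          (ν := μ)).quasiMeasurePreserving
      have hm1 := hf'.1.comp_quasiMeasurePreserving q1
      exact hm1.mono_ac (Measure.AbsolutelyContinuous.prod Measure.restrict_le_self.absolutelyContinuous Measure.AbsolutelyContinuous.rfl)
    rw [integrable_prod_iff hm]
    constructor
    · filter_upwards with s
      exact hf'.comp_add_right (s • e)
    · have : ∀ s : ℝ, ∫ x, ‖(Function.uncurry fun (s : ℝ) (x : X) => f' (x + s • e)) (s, x)‖ ∂μ =
          ∫ x, ‖f' x‖ ∂μ := by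
        intro s
        simp only [Function.uncurry]
        exact integral_add_right_eq_self (fun x => ‖f' x‖) (s • e)
      simp_rw [this]
      have : IsFiniteMeasure ((volume : Measure ℝ).restrict (uIoc 0 t)) := by
        constructor
        rw [Measure.restrict_apply_univ, uIoc]
        exact measure_Ioc_lt_top
      exact integrable_const _
  have h3 : ∫ x, (f (x + t • e) - f x) ∂μ = 0 := by
    rw [integral_sub (hf.comp_add_right (t • e)) hf, integral_add_right_eq_self, sub_self]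
  have h4 : ∫ x, (f (x + t • e) - f x) ∂μ = ∫ x, (∫ s in (0:ℝ)..t, f' (x + s • e)) ∂μ := by
    apply integral_congr_ae
    filter_upwards [h1] with x hx
    rw [hx, prim]; ring
  have h5 := intervalIntegral_integral_swap (μ := μ) hint
  rw [h4, ← h5] at h3
  have h6 : ∀ s : ℝ, ∫ x, f' (x + s • e) ∂μ = ∫ x, f' x ∂μ := fun s =>
    integral_add_right_eq_self _ (s • e)
  simp_rw [h6] at h3
  rw [intervalIntegral.integral_const] at h3
  simp only [sub_zero, smul_eq_mul, mul_eq_zero] at h3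
  exact h3.resolve_left ht

/-- Integration by parts. -/
lemma ACL.integral_mul {e : X} {f f' g g' : X → ℝ} (hf : ACL μ e f f') (hg : ACL μ e g g')
    (h1 : Integrable (fun x => f x * g x) μ) (h2 : Integrable (fun x => f' x * g x) μ)
    (h3 : Integrable (fun x => f x * g' x) μ) :
    ∫ x, f x * g' x ∂μ = - ∫ x, f' x * g x ∂μ := by
  have := (hf.mul hg).integral_eq_zero h1 (h2.add h3)
  rw [integral_add h2 h3] at this
  linarith

end

end Vale.Agent.P363
end
end

section

section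

namespace Vale.Agent.P363

open MeasureTheory Set Filter Topology
open scoped ENNReal ContDiff

set_option linter.unusedSectionVars false

noncomputable section

variable {X : Type*} [NormedAddCommGroup X] [NormedSpace ℝ X] [FiniteDimensional ℝ X]
  [MeasurableSpace X] [BorelSpace X] {μ : Measure X} [μ.IsAddHaarMeasure]

/-- Build `ACL` from the identity for almost every step `t`. -/
lemma ACL.of_ae {e : X} {f f' : X → ℝ} (hf : AEStronglyMeasurable f μ)
    (hf' : AEStronglyMeasurable f' μ)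
    (hl : ∀ᵐ x ∂μ, LocallyIntegrable (fun t : ℝ => f' (x + t • e)) volume)
    (h : ∀ᵐ t : ℝ, ∀ᵐ x ∂μ, f (x + t • e) = prim (f x) (fun s => f' (x + s • e)) t) :
    ACL μ e f f' := by
  refine ⟨hf, hf', hl, ?_⟩
  have hm := ftc_nullMeasurable (e := e) hf hf'
  have hsw := Measure.measurePreserving_swap (μ := (volume : Measure ℝ)) (ν := μ)
  have hm2 : NullMeasurableSet (Prod.swap ⁻¹' {p : X × ℝ | f (p.1 + p.2 • e) =
      prim (f p.1) (fun s => f' (p.1 + s • e)) p.2}) (volume.prod μ) :=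
    hm.preimage hsw.quasiMeasurePreserving
  have h1 : ∀ᵐ q : ℝ × X ∂((volume : Measure ℝ).prod μ), f (q.2 + q.1 • e) =
      prim (f q.2) (fun s => f' (q.2 + s • e)) q.1 := by
    obtain ⟨s, hs1, hs2, hs3⟩ := hm2.exists_measurable_subset_ae_eq
    have h4 := hs3.mem_iff
    have h5 := Measure.ae_ae_of_ae_prod h4
    have h6 : ∀ᵐ t : ℝ, ∀ᵐ x ∂μ, (t, x) ∈ s := by
      filter_upwards [h5, h] with t ht ht2
      filter_upwards [ht2, ht] with x hx hx5
      exact hx5.mpr hx
    have h7 := (Measure.ae_prod_mem_iff_ae_ae_mem hs2).mpr h6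
    filter_upwards [h7] with p hp
    exact hs1 hp
  have hsw2 := Measure.measurePreserving_swap (μ := μ) (ν := (volume : Measure ℝ))
  have h2 := hsw2.quasiMeasurePreserving.ae h1
  have hz := Measure.ae_ae_of_ae_prod h2
  exact hz

/-- Locally integrable functions are locally integrable on almost every line. -/
lemma locInt_line (e : X) {f : X → ℝ} (hf : LocallyIntegrable f μ) :
    ∀ᵐ x ∂μ, LocallyIntegrable (fun t : ℝ => f (x + t • e)) volume := by
  have key : ∀ n : ℕ, ∀ᵐ x ∂μ, x ∈ Metric.closedBall (0:X) n →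
      IntegrableOn (fun t : ℝ => f (x + t • e)) (Icc (-(n:ℝ)) n) volume := by
    intro n
    rw [← ae_restrict_iff' Metric.isClosed_closedBall.measurableSet]
    have hm : AEStronglyMeasurable (fun p : X × ℝ => f (p.1 + p.2 • e)) (μ.prod volume) :=
      hf.aestronglyMeasurable.comp_quasiMeasurePreserving (qmp_line e)
    have hm2 : AEStronglyMeasurable (fun p : X × ℝ => f (p.1 + p.2 • e))
        ((μ.restrict (Metric.closedBall (0:X) n)).prod
          ((volume : Measure ℝ).restrict (Icc (-(n:ℝ)) n))) :=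
      hm.mono_ac (Measure.AbsolutelyContinuous.prod
        Measure.restrict_le_self.absolutelyContinuous
        Measure.restrict_le_self.absolutelyContinuous)
    have hfin : Integrable (fun p : X × ℝ => f (p.1 + p.2 • e))
        ((μ.restrict (Metric.closedBall (0:X) n)).prod
          ((volume : Measure ℝ).restrict (Icc (-(n:ℝ)) n))) := by
      have hK : IsCompact (Metric.closedBall (0:X) (n + n * ‖e‖)) :=
        isCompact_closedBall _ _
      have hfK : IntegrableOn f (Metric.closedBall (0:X) (n + n * ‖e‖)) μ :=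
        hf.integrableOn_isCompact hK
      refine ⟨hm2, ?_⟩
      rw [hasFiniteIntegral_iff_enorm]
      rw [lintegral_prod_symm _ hm2.enorm]
      calc ∫⁻ t in Icc (-(n:ℝ)) n, ∫⁻ x in Metric.closedBall (0:X) n, ‖f (x + t • e)‖ₑ ∂μ
          ≤ ∫⁻ t in Icc (-(n:ℝ)) n,
              ∫⁻ x in Metric.closedBall (0:X) (n + n * ‖e‖), ‖f x‖ₑ ∂μ := by
            apply setLIntegral_mono' measurableSet_Icc
            intro t ht
            have h1 : ∫⁻ x in Metric.closedBall (0:X) n, ‖f (x + t • e)‖ₑ ∂μ =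
                ∫⁻ x, (Metric.closedBall (0:X) n).indicator (fun x => ‖f (x + t • e)‖ₑ) x ∂μ := by
              rw [lintegral_indicator Metric.isClosed_closedBall.measurableSet]
            have h2 : ∫⁻ x in Metric.closedBall (0:X) (n + n * ‖e‖), ‖f x‖ₑ ∂μ =
                ∫⁻ x, (Metric.closedBall (0:X) (n + n * ‖e‖)).indicator
                  (fun x => ‖f x‖ₑ) (x + t • e) ∂μ := by
              rw [lintegral_add_right_eq_self
                (fun x => (Metric.closedBall (0:X) (n + n * ‖e‖)).indicator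
                  (fun x => ‖f x‖ₑ) x) (t • e),
                lintegral_indicator Metric.isClosed_closedBall.measurableSet]
            rw [h1, h2]
            apply lintegral_mono
            intro x
            by_cases hx : x ∈ Metric.closedBall (0:X) n
            · have hx2 : x + t • e ∈ Metric.closedBall (0:X) (n + n * ‖e‖) := by
                rw [mem_closedBall_zero_iff] at hx ⊢
                calc ‖x + t • e‖ ≤ ‖x‖ + ‖t • e‖ := norm_add_le _ _
                  _ ≤ n + n * ‖e‖ := by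
                    rw [norm_smul]
                    have : ‖t‖ ≤ n := by
                      rw [Real.norm_eq_abs, abs_le]; exact ⟨ht.1, ht.2⟩
                    (clear * - hx this; gcongr)
              rw [indicator_of_mem hx]
              beta_reduce
              rw [indicator_of_mem hx2]
            · rw [indicator_of_notMem hx]; exact zero_le
        _ = (∫⁻ x in Metric.closedBall (0:X) (n + n * ‖e‖), ‖f x‖ₑ ∂μ) *
              volume (Icc (-(n:ℝ)) n) := by
            rw [setLIntegral_const]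
        _ < ⊤ := by
            apply ENNReal.mul_lt_top
            · exact hfK.2
            · simp only [Real.volume_Icc, sub_neg_eq_add, ENNReal.ofReal_lt_top]
    exact hfin.prod_right_ae
  have hall := ae_all_iff.mpr key
  filter_upwards [hall] with x hx
  rw [locallyIntegrable_iff]
  intro K hK
  obtain ⟨r, hr⟩ := hK.isBounded.subset_closedBall (0:ℝ)
  obtain ⟨n, hn⟩ := exists_nat_ge (max r ‖x‖)
  have h1 := hx n (by
    rw [mem_closedBall_zero_iff]; exact (le_max_right _ _).trans hn)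
  apply h1.mono_set
  intro t ht
  have := hr ht
  rw [mem_closedBall_zero_iff, Real.norm_eq_abs, abs_le] at this
  have h2 : r ≤ n := (le_max_left _ _).trans hn
  exact ⟨by linarith [this.1], by linarith [this.2]⟩

lemma ACL.to_weak {e : X} {f f' : X → ℝ} (h : ACL μ e f f') (hf : LocallyIntegrable f μ)
    (hf' : LocallyIntegrable f' μ) {φ : X → ℝ} (hφ : ContDiff ℝ ∞ φ) (hc : HasCompactSupport φ) :
    ∫ x, fderiv ℝ φ x e * f x ∂μ = - ∫ x, φ x * f' x ∂μ := by
  have hφ1 : ContDiff ℝ 1 φ := hφ.of_le (by exact_mod_cast le_top)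
  have hd : Continuous (fun x => fderiv ℝ φ x e) :=
    (hφ1.continuous_fderiv (by norm_num)).clm_apply continuous_const
  have hdc : HasCompactSupport (fun x => fderiv ℝ φ x e) :=
    hc.fderiv_apply ℝ e
  have h1 : Integrable (fun x => f x * φ x) μ := by
    have := hf.integrable_smul_left_of_hasCompactSupport hφ.continuous hc
    refine this.congr ?_
    filter_upwards with x; simp [mul_comm]
  have h2 : Integrable (fun x => f' x * φ x) μ := by
    have := hf'.integrable_smul_left_of_hasCompactSupport hφ.continuous hc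
    refine this.congr ?_
    filter_upwards with x; simp [mul_comm]
  have h3 : Integrable (fun x => f x * fderiv ℝ φ x e) μ := by
    have := hf.integrable_smul_left_of_hasCompactSupport hd hdc
    refine this.congr ?_
    filter_upwards with x; simp [mul_comm]
  have := ACL.integral_mul h (ACL.of_contDiff hφ1) h1 h2 h3
  calc ∫ x, fderiv ℝ φ x e * f x ∂μ = ∫ x, f x * fderiv ℝ φ x e ∂μ := by
        congr 1; funext x; ring
    _ = - ∫ x, f' x * φ x ∂μ := this
    _ = _ := by congr 2; funext x; ring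

end

end Vale.Agent.P363
end
end

section

section

namespace Vale.Agent.P363

open MeasureTheory Set Filter Topology
open scoped ENNReal ContDiff

set_option linter.unusedSectionVars false

noncomputable section

variable {X : Type*} [NormedAddCommGroup X] [NormedSpace ℝ X] [FiniteDimensional ℝ X]
  [MeasurableSpace X] [BorelSpace X] {μ : Measure X} [μ.IsAddHaarMeasure]

lemma finite_restrict_uIoc (a b : ℝ) : IsFiniteMeasure ((volume : Measure ℝ).restrict (uIoc a b)) := by
  constructor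
  rw [Measure.restrict_apply_univ, uIoc]
  exact measure_Ioc_lt_top

/-- Fubini for shifts of a compactly supported function against a locally integrable one. -/
lemma integrable_shift_mul (e : X) (t : ℝ) {h : X → ℝ} (hc : Continuous h)
    (hs : HasCompactSupport h) {f : X → ℝ} (hf : LocallyIntegrable f μ) :
    Integrable (Function.uncurry fun (s : ℝ) (x : X) => h (x - s • e) * f x)
      ((volume.restrict (uIoc 0 t)).prod μ) := by
  have := finite_restrict_uIoc 0 t
  obtain ⟨M, hM⟩ := hs.exists_bound_of_continuous hc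
  -- compact set containing all shifted supports
  set K : Set X := (fun q : ℝ × X => q.2 + q.1 • e) '' ((uIcc 0 t) ×ˢ (tsupport h)) with hK
  have hKc : IsCompact K := by
    apply IsCompact.image
    · exact isCompact_uIcc.prod hs
    · fun_prop
  have hfK : Integrable (K.indicator f) μ := by
    rw [integrable_indicator_iff hKc.measurableSet]
    exact hf.integrableOn_isCompact hKc
  have hdom : Integrable (fun q : ℝ × X => M * ‖K.indicator f q.2‖)
      ((volume.restrict (uIoc 0 t)).prod μ) :=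
    (hfK.norm.comp_snd (volume.restrict (uIoc 0 t))).const_mul M
  have hmeas : AEStronglyMeasurable (Function.uncurry fun (s : ℝ) (x : X) => h (x - s • e) * f x)
      ((volume.restrict (uIoc 0 t)).prod μ) := by
    apply AEStronglyMeasurable.mul
    · apply Continuous.aestronglyMeasurable
      have : Continuous (fun q : ℝ × X => h (q.2 - q.1 • e)) := by fun_prop
      exact this
    · exact hf.aestronglyMeasurable.comp_snd
  refine hdom.mono' hmeas ?_
  have hae : ∀ᵐ q : ℝ × X ∂((volume.restrict (uIoc 0 t)).prod μ), q.1 ∈ uIoc 0 t := by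
    have h1 : ∀ᵐ s : ℝ ∂(volume.restrict (uIoc 0 t)), s ∈ uIoc 0 t :=
      ae_restrict_mem measurableSet_uIoc
    exact Measure.quasiMeasurePreserving_fst.ae h1
  filter_upwards [hae] with q hq
  simp only [Function.uncurry, norm_mul]
  by_cases hx : q.2 ∈ K
  · rw [indicator_of_mem hx]
    gcongr
    exact hM _
  · have h0 : h (q.2 - q.1 • e) = 0 := by
      by_contra hne
      apply hx
      refine ⟨(q.1, q.2 - q.1 • e), ⟨uIoc_subset_uIcc hq, subset_tsupport _ hne⟩, by simp⟩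
    rw [h0]
    simp only [norm_zero, zero_mul]
    rw [indicator_of_notMem hx]; simp

/-- Same with the shift on the locally integrable function. -/
lemma integrable_mul_shift (e : X) (t : ℝ) {h : X → ℝ} (hc : Continuous h)
    (hs : HasCompactSupport h) {f : X → ℝ} (hf : LocallyIntegrable f μ) :
    Integrable (Function.uncurry fun (s : ℝ) (x : X) => h x * f (x + s • e))
      ((volume.restrict (uIoc 0 t)).prod μ) := by
  have := finite_restrict_uIoc 0 t
  have hA := integrable_shift_mul e t hc hs hf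
  have hfm : AEStronglyMeasurable (fun q : ℝ × X => f (q.2 + q.1 • e))
      ((volume.restrict (uIoc 0 t)).prod μ) := by
    have q1 : Measure.QuasiMeasurePreserving (fun q : ℝ × X => q.2 + q.1 • e)
        ((volume : Measure ℝ).prod μ) μ :=
      (qmp_line e).comp (Measure.measurePreserving_swap (μ := (volume : Measure ℝ))
        (ν := μ)).quasiMeasurePreserving
    have hm1 := hf.aestronglyMeasurable.comp_quasiMeasurePreserving q1
    exact hm1.mono_ac (Measure.AbsolutelyContinuous.prod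
      Measure.restrict_le_self.absolutelyContinuous Measure.AbsolutelyContinuous.rfl)
  have hm : AEStronglyMeasurable (Function.uncurry fun (s : ℝ) (x : X) => h x * f (x + s • e))
      ((volume.restrict (uIoc 0 t)).prod μ) := by
    apply AEStronglyMeasurable.mul _ hfm
    exact (hc.comp continuous_snd).aestronglyMeasurable
  rw [integrable_prod_iff hm]
  have hshift : ∀ s : ℝ, (fun x => h x * f (x + s • e)) =
      fun x => (fun z => h (z - s • e) * f z) (x + s • e) := by
    intro s; funext x; simp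
  have hcs : ∀ s : ℝ, Integrable (fun z => h (z - s • e) * f z) μ := by
    intro s
    have h1 : Continuous (fun z => h (z - s • e)) := by fun_prop
    have h2 : HasCompactSupport (fun z => h (z - s • e)) :=
      hs.comp_homeomorph (Homeomorph.subRight (s • e))
    have := hf.integrable_smul_left_of_hasCompactSupport h1 h2
    simpa [smul_eq_mul] using this
  constructor
  · filter_upwards with s
    simp only [Function.uncurry]
    rw [hshift s]
    exact (hcs s).comp_add_right (s • e)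
  · rw [integrable_prod_iff hA.1] at hA
    refine hA.2.congr ?_
    filter_upwards with s
    simp only [Function.uncurry]
    have : (fun x => ‖h x * f (x + s • e)‖) =
      fun x => (fun z => ‖h (z - s • e) * f z‖) (x + s • e) := by
      funext x; simp
    rw [this]
    exact (integral_add_right_eq_self (fun z => ‖h (z - s • e) * f z‖) (s • e)).symm

/-- A weak derivative is an `ACL` derivative. -/
lemma ACL.of_weak {e : X} {f f' : X → ℝ} (hf : LocallyIntegrable f μ)
    (hf' : LocallyIntegrable f' μ)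
    (hw : ∀ φ : X → ℝ, ContDiff ℝ ∞ φ → HasCompactSupport φ →
      ∫ x, fderiv ℝ φ x e * f x ∂μ = - ∫ x, φ x * f' x ∂μ) : ACL μ e f f' := by
  apply ACL.of_forall hf.aestronglyMeasurable hf'.aestronglyMeasurable (locInt_line e hf')
  intro t
  -- local integrability of both sides
  have hL : LocallyIntegrable (fun x => f (x + t • e)) μ := by
    rw [locallyIntegrable_iff]
    intro K hK
    have hK' : IsCompact ((fun x => x + t • e) '' K) := hK.image (by fun_prop)
    have h1 := hf.integrableOn_isCompact hK'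
    have hmp := measurePreserving_add_right μ (t • e)
    have hme : MeasurableEmbedding (fun x : X => x + t • e) :=
      (Homeomorph.addRight (t • e)).measurableEmbedding
    exact (hmp.integrableOn_image hme).mp h1
  have hG : LocallyIntegrable (fun x => ∫ s in (0:ℝ)..t, f' (x + s • e)) μ := by
    rw [locallyIntegrable_iff]
    intro K hK
    obtain ⟨r, hr0, hr⟩ := hK.isBounded.subset_closedBall_lt 0 (0:X)
    let b : ContDiffBump (0:X) := ⟨r, r + 1, hr0, by linarith⟩
    have hb1 := integrable_mul_shift (μ := μ) e t b.continuous b.hasCompactSupport hf'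
    have hb2 := hb1.integral_prod_right
    have hb3 : Integrable (fun x => ∫ s in (0:ℝ)..t, b x * f' (x + s • e)) μ := by
      rcases le_total 0 t with h0 | h0
      · refine hb2.congr ?_
        filter_upwards with x
        rw [intervalIntegral.integral_of_le h0, uIoc_of_le h0]
        rfl
      · refine hb2.neg.congr ?_
        filter_upwards with x
        rw [intervalIntegral.integral_of_ge h0, uIoc_of_ge h0]
        rfl
    refine (hb3.integrableOn (s := K)).congr_fun ?_ hK.measurableSet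
    intro x hx
    have : b x = 1 := b.one_of_mem_closedBall (hr hx)
    simp [this]
  have hR : LocallyIntegrable (fun x => prim (f x) (fun s => f' (x + s • e)) t) μ := by
    unfold prim
    exact hf.add hG
  refine ae_eq_of_integral_contDiff_smul_eq hL hR ?_
  intro φ hφ hφc
  have hφ1 : ContDiff ℝ 1 φ := hφ.of_le (by exact_mod_cast le_top)
  have hdcont : Continuous (fun x => fderiv ℝ φ x e) :=
    (hφ1.continuous_fderiv (by norm_num)).clm_apply continuous_const
  have hdc : HasCompactSupport (fun x => fderiv ℝ φ x e) := hφc.fderiv_apply ℝ e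
  simp only [smul_eq_mul]
  -- weak identity for the shifted test functions
  have hs : ∀ s : ℝ, ∫ x, fderiv ℝ φ (x - s • e) e * f x ∂μ = - ∫ x, φ x * f' (x + s • e) ∂μ := by
    intro s
    have h1 : ContDiff ℝ ∞ (fun z => φ (z - s • e)) := hφ.comp (contDiff_id.sub contDiff_const)
    have h2 : HasCompactSupport (fun z => φ (z - s • e)) :=
      hφc.comp_homeomorph (Homeomorph.subRight (s • e))
    have h3 := hw _ h1 h2
    have h4 : ∀ x, fderiv ℝ (fun z => φ (z - s • e)) x e = fderiv ℝ φ (x - s • e) e := by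
      intro x
      rw [fderiv_comp_sub]
    simp_rw [h4] at h3
    rw [h3]
    congr 1
    have h5 : (fun x => φ x * f' (x + s • e)) =
      fun x => (fun z => φ (z - s • e) * f' z) (x + s • e) := by
      funext x; simp
    rw [h5]
    exact (integral_add_right_eq_self (fun z => φ (z - s • e) * f' z) (s • e)).symm
  have hA := intervalIntegral_integral_swap (μ := μ) (integrable_shift_mul e t hdcont hdc hf)
  have hB := intervalIntegral_integral_swap (μ := μ) (integrable_mul_shift e t hφ.continuous hφc hf')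
  simp_rw [hs] at hA
  rw [intervalIntegral.integral_neg, hB] at hA
  -- inner integral of the shifted derivative
  have hin : ∀ x, ∫ s in (0:ℝ)..t, fderiv ℝ φ (x - s • e) e * f x =
      (φ x - φ (x - t • e)) * f x := by
    intro x
    rw [intervalIntegral.integral_mul_const]
    congr 1
    have hd : ∀ s ∈ uIcc 0 t, HasDerivAt (fun s : ℝ => - φ (x - s • e))
        (fderiv ℝ φ (x - s • e) e) s := by
      intro s _
      have h1 : HasFDerivAt φ (fderiv ℝ φ (x - s • e)) (x - s • e) :=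
        ((hφ1.differentiable (by norm_num)) _).hasFDerivAt
      have h2 : HasDerivAt (fun s : ℝ => x - s • e) (-e) s := by
        simpa using ((hasDerivAt_id s).smul_const e).const_sub x
      have h3 := (h1.comp_hasDerivAt s h2).neg
      have h4 : -((fderiv ℝ φ (x - s • e)) (-e)) = (fderiv ℝ φ (x - s • e)) e := by simp only [map_neg, neg_neg]
      rw [h4] at h3
      exact h3
    rw [intervalIntegral.integral_eq_sub_of_hasDerivAt hd]
    · simp; ring
    · apply Continuous.intervalIntegrable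
      exact hdcont.comp (by fun_prop)
  simp_rw [hin] at hA
  have hf1 : Integrable (fun x => φ x * f x) μ := by
    simpa only [smul_eq_mul] using hf.integrable_smul_left_of_hasCompactSupport hφ.continuous hφc
  have hf2 : Integrable (fun x => φ (x - t • e) * f x) μ := by
    have h1 : Continuous (fun z => φ (z - t • e)) := hφ.continuous.comp (by fun_prop)
    have h2 : HasCompactSupport (fun z => φ (z - t • e)) :=
      hφc.comp_homeomorph (Homeomorph.subRight (t • e))
    simpa [smul_eq_mul] using hf.integrable_smul_left_of_hasCompactSupport h1 h2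
  have hf3 : Integrable (fun x => φ x * ∫ s in (0:ℝ)..t, f' (x + s • e)) μ := by
    simpa only [smul_eq_mul] using hG.integrable_smul_left_of_hasCompactSupport hφ.continuous hφc
  have e1 : ∫ x, (φ x - φ (x - t • e)) * f x ∂μ = ∫ x, φ x * f x ∂μ -
      ∫ x, φ (x - t • e) * f x ∂μ := by
    rw [← integral_sub hf1 hf2]; congr 1; funext x; ring
  have e2 : ∫ x, φ (x - t • e) * f x ∂μ = ∫ x, φ x * f (x + t • e) ∂μ := by
    have h5 : (fun x => φ x * f (x + t • e)) =
      fun x => (fun z => φ (z - t • e) * f z) (x + t • e) := by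
      funext x; simp
    rw [h5]
    exact (integral_add_right_eq_self (fun z => φ (z - t • e) * f z) (t • e)).symm
  have e3 : ∫ x, (∫ s in (0:ℝ)..t, φ x * f' (x + s • e)) ∂μ =
      ∫ x, φ x * (∫ s in (0:ℝ)..t, f' (x + s • e)) ∂μ := by
    congr 1; funext x; rw [intervalIntegral.integral_const_mul]
  rw [e1, e2, e3] at hA
  have e4 : ∫ x, φ x * prim (f x) (fun s => f' (x + s • e)) t ∂μ = ∫ x, φ x * f x ∂μ +
      ∫ x, φ x * (∫ s in (0:ℝ)..t, f' (x + s • e)) ∂μ := by
    rw [← integral_add hf1 hf3]; congr 1; funext x; unfold prim; ring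
  rw [e4]
  linarith only [hA]

end

end Vale.Agent.P363
end
end

section

section

namespace Vale.Agent.P363

open MeasureTheory Set Filter Topology
open scoped ENNReal ContDiff

noncomputable section

/-- Two-electron configuration space used in the proofs. -/
abbrev X6 : Type := R3 × R3

instance instAddHaarX6 : (volume : Measure (R3 × R3)).IsAddHaarMeasure :=
  Measure.prod.instIsAddHaarMeasure volume volume

/-- Coordinate direction of the first electron. -/
def dirX (k : Fin 3) : X6 := (EuclideanSpace.single k (1 : ℝ), 0)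

/-- Coordinate direction of the second electron. -/
def dirY (k : Fin 3) : X6 := (0, EuclideanSpace.single k (1 : ℝ))

/-- `f` is an `H¹` function on `X6` with gradient components `fx`, `fy`. -/
structure H1 (f : X6 → ℝ) (fx fy : Fin 3 → X6 → ℝ) : Prop where
  memLp : MemLp f 2 volume
  memLpx : ∀ k, MemLp (fx k) 2 volume
  memLpy : ∀ k, MemLp (fy k) 2 volume
  aclx : ∀ k, ACL volume (dirX k) f (fx k)
  acly : ∀ k, ACL volume (dirY k) f (fy k)

/-- The two-electron Coulomb potential. -/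
def pot {M : ℕ} (Z : Fin M → ℕ) (R : Fin M → R3) (p : X6) : ℝ :=
  (∑ j, -((Z j : ℝ) / ‖p.1 - R j‖)) + (∑ j, -((Z j : ℝ) / ‖p.2 - R j‖)) + 1 / ‖p.1 - p.2‖

/-- Weak form of `-(1/2) Δ f + (V - E) f = 0`, tested with all `H¹` functions. -/
def WeakSol {M : ℕ} (Z : Fin M → ℕ) (R : Fin M → R3) (E : ℝ)
    (f : X6 → ℝ) (fx fy : Fin 3 → X6 → ℝ) : Prop :=
  ∀ (h : X6 → ℝ) (hx hy : Fin 3 → X6 → ℝ), H1 h hx hy →
    (1 / 2) * (∑ k, ∫ p, (fx k p * hx k p + fy k p * hy k p)) +
      ∫ p, (pot Z R p - E) * f p * h p = 0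

/-- Sum of the inverse square roots of the distances to the singular sets. -/
def dsing {M : ℕ} (R : Fin M → R3) (p : X6) : ℝ :=
  1 + (∑ j, ‖p.1 - R j‖ ^ (-(1/2) : ℝ)) + (∑ j, ‖p.2 - R j‖ ^ (-(1/2) : ℝ)) +
    ‖p.1 - p.2‖ ^ (-(1/2) : ℝ)

/-- The analytic input: Harnack inequality and gradient bound. -/
def HarnackGradient : Prop :=
  ∀ {M : ℕ} (Z : Fin M → ℕ) (R : Fin M → R3) (E : ℝ)
    (ι : Type) [Fintype ι] (u : ι → X6 → ℝ) (ux uy : ι → Fin 3 → X6 → ℝ)
    (g : X6 → ℝ) (gx gy : Fin 3 → X6 → ℝ),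
    (∀ i, H1 (u i) (ux i) (uy i)) → (∀ i, WeakSol Z R E (u i) (ux i) (uy i)) →
    (∀ p, g p = √(∑ i, u i p ^ 2)) → H1 g gx gy → WeakSol Z R E g gx gy →
    ¬ (g =ᵐ[volume] 0) →
    ∃ (G : X6 → ℝ) (C r : ℝ), 0 < r ∧ 0 < C ∧ Measurable G ∧ (∀ p, 0 < G p) ∧
      (∀ p q, dist p q ≤ r → G p ≤ C * G q) ∧
      (∀ᵐ p : X6, G p ≤ C * g p) ∧ (∀ᵐ p : X6, g p ≤ C * G p) ∧
      (∀ i k, ∀ᵐ p : X6, |ux i k p| ≤ C * dsing R p * g p) ∧
      (∀ i k, ∀ᵐ p : X6, |uy i k p| ≤ C * dsing R p * g p)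

end

end Vale.Agent.P363
end
end

section

section

namespace Vale.Agent.P363

open MeasureTheory Set Filter Topology
open scoped ENNReal ContDiff

set_option linter.unusedSectionVars false

noncomputable section

/-- Square root of a nonnegative absolutely continuous function on a line. -/
lemma prim_sqrt {c : ℝ} {f k : ℝ → ℝ} (hf : LocallyIntegrable f) (hk : LocallyIntegrable k)
    (h0 : ∀ t, 0 ≤ prim c f t) (hb : ∀ᵐ s, |f s| ≤ 2 * √(prim c f s) * k s) (t : ℝ) :
    √(prim c f t) = √c + ∫ s in (0:ℝ)..t, f s / (2 * √(prim c f s)) := by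
  set P := prim c f with hP
  have hPc : Continuous P := prim_continuous hf
  have hid : ∀ n : ℕ, √((1 / ((n:ℝ) + 1)) + P t) = √((1 / ((n:ℝ) + 1)) + c) +
      ∫ s in (0:ℝ)..t, f s / (2 * √((1 / ((n:ℝ) + 1)) + P s)) := by
    intro n
    have hε : 0 < 1 / ((n:ℝ) + 1) := by positivity
    have := prim_comp (c := c) hf (Φ := fun y => √((1 / ((n:ℝ) + 1)) + y))
      (Φ' := fun y => 1 / (2 * √((1 / ((n:ℝ) + 1)) + y))) (Ω := Ici 0)
      (by
        intro y hy
        have hy' : (1 / ((n:ℝ) + 1)) + y ≠ 0 := by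
          have : 0 ≤ y := hy
          (clear * - this; positivity)
        exact ((hasDerivAt_id y).const_add _).sqrt hy')
      (by
        apply ContinuousOn.div continuousOn_const
        · apply Continuous.continuousOn; fun_prop
        · intro y hy
          have hy' : 0 < (1 / ((n:ℝ) + 1)) + y := by
            have : 0 ≤ y := hy
            positivity
          have := Real.sqrt_pos.mpr hy'
          (clear * - hy'; positivity)) t (fun s _ => h0 s)
    rw [← hP] at this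
    rw [this]
    congr 1
    apply intervalIntegral.integral_congr
    intro s _
    simp only
    ring
  have hlim0 : Tendsto (fun n : ℕ => 1 / ((n:ℝ) + 1)) atTop (𝓝 0) :=
    tendsto_one_div_add_atTop_nhds_zero_nat
  have hL : Tendsto (fun n : ℕ => √((1 / ((n:ℝ) + 1)) + P t)) atTop (𝓝 (√(P t))) := by
    have h1 : Tendsto (fun n : ℕ => (1 / ((n:ℝ) + 1)) + P t) atTop (𝓝 (0 + P t)) :=
      hlim0.add_const _
    rw [zero_add] at h1
    exact (Real.continuous_sqrt.tendsto _).comp h1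
  have hL2 : Tendsto (fun n : ℕ => √((1 / ((n:ℝ) + 1)) + c)) atTop (𝓝 (√c)) := by
    have h1 : Tendsto (fun n : ℕ => (1 / ((n:ℝ) + 1)) + c) atTop (𝓝 (0 + c)) :=
      hlim0.add_const _
    rw [zero_add] at h1
    exact (Real.continuous_sqrt.tendsto _).comp h1
  have hR : Tendsto (fun n : ℕ => ∫ s in (0:ℝ)..t, f s / (2 * √((1 / ((n:ℝ) + 1)) + P s)))
      atTop (𝓝 (∫ s in (0:ℝ)..t, f s / (2 * √(P s)))) := by
    apply intervalIntegral.tendsto_integral_filter_of_dominated_convergence (fun s => |k s|)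
    · filter_upwards with n
      apply AEStronglyMeasurable.restrict
      apply AEStronglyMeasurable.div₀ hf.aestronglyMeasurable
      apply Continuous.aestronglyMeasurable
      fun_prop
    · filter_upwards with n
      filter_upwards [hb] with s hs _
      rw [Real.norm_eq_abs, abs_div]
      have hpos : 0 < (1 / ((n:ℝ) + 1)) + P s := by
        have := h0 s; (clear * - this; positivity)
      have hs1 : √(P s) ≤ √((1 / ((n:ℝ) + 1)) + P s) := by
        apply Real.sqrt_le_sqrt; simp only [one_div, le_add_iff_nonneg_left, inv_nonneg]; positivity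
      have hs2 : 0 < √((1 / ((n:ℝ) + 1)) + P s) := Real.sqrt_pos.mpr hpos
      have hs3 : |2 * √((1 / ((n:ℝ) + 1)) + P s)| = 2 * √((1 / ((n:ℝ) + 1)) + P s) := by
        rw [abs_of_pos]; (clear * - hpos; positivity)
      rw [hs3, div_le_iff₀ (by (clear * - hpos; positivity))]
      calc |f s| ≤ 2 * √(P s) * k s := hs
        _ ≤ 2 * √(P s) * |k s| := by
          apply mul_le_mul_of_nonneg_left (le_abs_self _); (clear * -; positivity)
        _ ≤ 2 * √((1 / ((n:ℝ) + 1)) + P s) * |k s| := by (clear * - hs1; gcongr)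
        _ = |k s| * (2 * √((1 / ((n:ℝ) + 1)) + P s)) := by ring
    · exact (LocInt.ii hk 0 t).abs
    · filter_upwards [hb] with s hs _
      by_cases hPs : P s = 0
      · have hf0 : f s = 0 := by
          rw [hPs] at hs
          simpa using hs
        simp [hf0]
      · apply Tendsto.div tendsto_const_nhds
        · have h1 : Tendsto (fun n : ℕ => (1 / ((n:ℝ) + 1)) + P s) atTop (𝓝 (0 + P s)) :=
            hlim0.add_const _
          rw [zero_add] at h1
          exact ((Real.continuous_sqrt.tendsto _).comp h1).const_mul 2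
        · have : 0 < P s := lt_of_le_of_ne (h0 s) (Ne.symm hPs)
          have := Real.sqrt_pos.mpr this
          positivity
  have hfin := tendsto_nhds_unique hL ((hL2.add hR).congr (fun n => (hid n).symm))
  exact hfin

variable {X : Type*} [NormedAddCommGroup X] [NormedSpace ℝ X] [FiniteDimensional ℝ X]
  [MeasurableSpace X] [BorelSpace X] {μ : Measure X} [μ.IsAddHaarMeasure]

lemma ACL.sqrt {e : X} {ρ ρ' κ : X → ℝ} (h : ACL μ e ρ ρ') (h0 : ∀ᵐ x ∂μ, 0 ≤ ρ x)
    (hκ : ∀ᵐ x ∂μ, LocallyIntegrable (fun t : ℝ => κ (x + t • e)) volume)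
    (hb : ∀ᵐ x ∂μ, |ρ' x| ≤ 2 * √(ρ x) * κ x) :
    ACL μ e (fun x => √(ρ x)) (fun x => ρ' x / (2 * √(ρ x))) := by
  have hge := h.prim_ge (m := fun _ => (0:ℝ)) continuous_const h0
  have hm1 : AEStronglyMeasurable (fun x => √(ρ x)) μ :=
    Real.continuous_sqrt.comp_aestronglyMeasurable h.meas
  have key : ∀ᵐ x ∂μ, (fun t : ℝ => ρ' (x + t • e) / (2 * √(ρ (x + t • e)))) =ᵐ[volume]
      (fun t => ρ' (x + t • e) / (2 * √(prim (ρ x) (fun s => ρ' (x + s • e)) t))) := by
    filter_upwards [h.ftc] with x h3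
    filter_upwards [h3] with t h5
    rw [h5]
  refine ⟨hm1, h.meas'.div₀ (hm1.const_mul 2), ?_, ?_⟩
  · filter_upwards [h.locInt, hκ, key, line_ae e hb, h.ftc] with x h1 h2 h3 h4 h5
    refine LocallyIntegrable.congr ?_ h3.symm
    refine h2.mono ?_ ?_
    · apply AEStronglyMeasurable.div₀ h1.aestronglyMeasurable
      exact ((Real.continuous_sqrt.comp (prim_continuous h1)).const_mul 2).aestronglyMeasurable
    · filter_upwards [h4, h5] with t h6 h7
      rw [← h7, Real.norm_eq_abs, Real.norm_eq_abs, abs_div]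
      by_cases hz : √(ρ (x + t • e)) = 0
      · rw [hz]; simp
      · have hpos : 0 < √(ρ (x + t • e)) := lt_of_le_of_ne (Real.sqrt_nonneg _) (Ne.symm hz)
        rw [abs_of_pos (show 0 < 2 * √(ρ (x + t • e)) by positivity), div_le_iff₀ (by positivity)]
        calc _ ≤ 2 * √(ρ (x + t • e)) * κ (x + t • e) := h6
          _ ≤ 2 * √(ρ (x + t • e)) * |κ (x + t • e)| := by
            apply mul_le_mul_of_nonneg_left (le_abs_self _); positivity
          _ = _ := by ring
  · filter_upwards [h.locInt, hκ, key, line_ae e hb, h.ftc, hge] with x h1 h2 h3 h4 h5 h6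
    have hb' : ∀ᵐ s, |ρ' (x + s • e)| ≤ 2 * √(prim (ρ x) (fun s => ρ' (x + s • e)) s) *
        κ (x + s • e) := by
      filter_upwards [h4, h5] with s h7 h8
      rw [← h8]; exact h7
    filter_upwards [h5] with t h9
    rw [h9, prim_sqrt h1 h2 h6 hb' t]
    unfold prim
    congr 1
    apply intervalIntegral.integral_congr_ae
    filter_upwards [h3] with s hs _
    exact hs.symm

lemma ACL.comp_qmp {Y : Type*} [NormedAddCommGroup Y] [NormedSpace ℝ Y]
    [MeasurableSpace Y] {ν : Measure Y} {T : X → Y} {e : X} {e' : Y}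
    (hT : Measure.QuasiMeasurePreserving T μ ν)
    (hlin : ∀ x (t : ℝ), T (x + t • e) = T x + t • e') {f f' : Y → ℝ} (h : ACL ν e' f f') :
    ACL μ e (fun x => f (T x)) (fun x => f' (T x)) := by
  refine ⟨h.meas.comp_quasiMeasurePreserving hT, h.meas'.comp_quasiMeasurePreserving hT, ?_, ?_⟩
  · filter_upwards [hT.ae h.locInt] with x hx
    simpa [hlin] using hx
  · filter_upwards [hT.ae h.ftc] with x hx
    filter_upwards [hx] with t ht
    simpa [hlin] using ht

lemma ACL.zero_dir {f : X → ℝ} (hf : AEStronglyMeasurable f μ) :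
    ACL μ 0 f (fun _ => 0) := by
  refine ⟨hf, aestronglyMeasurable_const, ?_, ?_⟩
  · filter_upwards with x
    exact continuous_const.locallyIntegrable
  · filter_upwards with x
    filter_upwards with t
    simp [prim]

section prod

variable {Y : Type*} [NormedAddCommGroup Y] [NormedSpace ℝ Y] [FiniteDimensional ℝ Y]
  [MeasurableSpace Y] [BorelSpace Y] {ν : Measure Y} [ν.IsAddHaarMeasure]

lemma ACL.slice {e : X} {F F' : X × Y → ℝ} (h : ACL (μ.prod ν) ((e, 0) : X × Y) F F') :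
    ∀ᵐ y ∂ν, ACL μ e (fun x => F (x, y)) (fun x => F' (x, y)) := by
  have h1 := swap_ae h.locInt
  have h2 := swap_ae h.ftc
  filter_upwards [h1, h2, h.meas.prodMk_right, h.meas'.prodMk_right] with y h3 h4 h5 h6
  refine ⟨h5, h6, ?_, ?_⟩
  · filter_upwards [h3] with x hx
    simpa using hx
  · filter_upwards [h4] with x hx
    filter_upwards [hx] with t ht
    simpa only [Prod.smul_mk, smul_zero, Prod.mk_add_mk, add_zero] using ht

lemma qmp_line_prod (e : X) :
    Measure.QuasiMeasurePreserving (fun q : X × (ℝ × Y) => (q.1 + q.2.1 • e, q.2.2))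
        (μ.prod ((volume : Measure ℝ).prod ν)) (μ.prod ν) := by
  have hmeas : Measurable (fun q : X × (ℝ × Y) => (q.1 + q.2.1 • e, q.2.2)) := by
    have : Continuous (fun q : X × (ℝ × Y) => (q.1 + q.2.1 • e, q.2.2)) := by fun_prop
    exact this.measurable
  refine ⟨hmeas, ?_⟩
  refine Measure.AbsolutelyContinuous.mk fun s hs hs0 => ?_
  rw [Measure.map_apply hmeas hs, Measure.prod_apply_symm (hmeas hs)]
  have hz : ∀ w : ℝ × Y, μ ((fun x => (x, w)) ⁻¹'
      ((fun q : X × (ℝ × Y) => (q.1 + q.2.1 • e, q.2.2)) ⁻¹' s)) =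
      μ ((fun x => (x, w.2)) ⁻¹' s) := by
    intro w
    have : (fun x => (x, w)) ⁻¹'
      ((fun q : X × (ℝ × Y) => (q.1 + q.2.1 • e, q.2.2)) ⁻¹' s) =
      (fun x => x + w.1 • e) ⁻¹' ((fun x => (x, w.2)) ⁻¹' s) := rfl
    rw [this, measure_preimage_add_right]
  simp_rw [hz]
  rw [Measure.prod_apply_symm hs] at hs0
  have h6 : ∀ᵐ y ∂ν, μ ((fun x => (x, y)) ⁻¹' s) = 0 := by
    have := (lintegral_eq_zero_iff (measurable_measure_prodMk_right hs)).mp hs0
    exact this
  have h5 : ∀ᵐ w : ℝ × Y ∂((volume : Measure ℝ).prod ν),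
      μ ((fun x => (x, w.2)) ⁻¹' s) = 0 :=
    (Measure.quasiMeasurePreserving_snd (μ := (volume : Measure ℝ)) (ν := ν)).ae h6
  rw [lintegral_congr_ae h5]; simp

/-- Integrating out the second variable. -/
lemma ACL.marginal {e : X} {F F' : X × Y → ℝ} (h : ACL (μ.prod ν) ((e, 0) : X × Y) F F')
    (hF : Integrable F (μ.prod ν)) (hF' : Integrable F' (μ.prod ν)) :
    ACL μ e (fun x => ∫ y, F (x, y) ∂ν) (fun x => ∫ y, F' (x, y) ∂ν) := by
  have hi := hF.integral_prod_left
  have hi' := hF'.integral_prod_left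
  have hin : Integrable (fun x => ∫ y, ‖F' (x, y)‖ ∂ν) μ := hF'.norm.integral_prod_left
  have hll := locInt_line e hi'.locallyIntegrable
  apply ACL.of_ae hi.1 hi'.1 hll
  filter_upwards [h.ftc_swap] with t ht
  have h1 : ∀ᵐ x ∂μ, ∀ᵐ y ∂ν, F ((x, y) + t • ((e, 0) : X × Y)) =
      prim (F (x, y)) (fun s => F' ((x, y) + s • ((e, 0) : X × Y))) t := by
    have hz := Measure.ae_ae_of_ae_prod ht
    exact hz
  have h2 : ∀ᵐ x ∂μ, Integrable (fun y => F (x, y)) ν := hF.prod_right_ae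
  have h3 : ∀ᵐ x ∂μ, Integrable (fun y => F (x + t • e, y)) ν :=
    shift_ae (P := fun x => Integrable (fun y => F (x, y)) ν) e h2 t
  -- joint integrability of the line integrals
  have h4 : ∀ᵐ x ∂μ, Integrable (Function.uncurry fun (s : ℝ) (y : Y) => F' (x + s • e, y))
      ((volume.restrict (uIoc 0 t)).prod ν) := by
    have hq := qmp_line_prod (μ := μ) (ν := ν) e
    have hm : AEStronglyMeasurable (fun q : X × (ℝ × Y) => F' (q.1 + q.2.1 • e, q.2.2))
        (μ.prod ((volume : Measure ℝ).prod ν)) := hF'.1.comp_quasiMeasurePreserving hq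
    have hm2 := hm.prodMk_left
    have hl := locInt_line e hin.locallyIntegrable
    have hae : ∀ᵐ x ∂μ, ∀ᵐ s : ℝ, Integrable (fun y => F' (x + s • e, y)) ν :=
      line_ae (P := fun x => Integrable (fun y => F' (x, y)) ν) e hF'.prod_right_ae
    filter_upwards [hm2, hl, hae] with x hx hx2 hx3
    have hx4 : AEStronglyMeasurable (Function.uncurry fun (s : ℝ) (y : Y) => F' (x + s • e, y))
        ((volume.restrict (uIoc 0 t)).prod ν) :=
      hx.mono_ac (Measure.AbsolutelyContinuous.prod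
        Measure.restrict_le_self.absolutelyContinuous Measure.AbsolutelyContinuous.rfl)
    rw [integrable_prod_iff hx4]
    constructor
    · exact ae_restrict_of_ae hx3
    · have := (hx2.integrableOn_isCompact (isCompact_uIcc (a := 0) (b := t))).mono_set
        uIoc_subset_uIcc
      exact this
  filter_upwards [h1, h2, h3, h4] with x k1 k2 k3 k4
  have k5 : ∫ y, F (x + t • e, y) ∂ν = ∫ y, (F (x, y) + ∫ s in (0:ℝ)..t, F' (x + s • e, y)) ∂ν := by
    apply integral_congr_ae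
    filter_upwards [k1] with y hy
    simpa only [Prod.smul_mk, smul_zero, Prod.mk_add_mk, add_zero, prim] using hy
  have k6 := intervalIntegral_integral_swap (μ := ν) k4
  have k7 : Integrable (fun y => ∫ s in (0:ℝ)..t, F' (x + s • e, y)) ν := by
    have := k4.integral_prod_right
    rcases le_total 0 t with h0 | h0
    · refine this.congr ?_
      filter_upwards with y
      rw [intervalIntegral.integral_of_le h0, uIoc_of_le h0]
      rfl
    · refine this.neg.congr ?_
      filter_upwards with y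
      rw [intervalIntegral.integral_of_ge h0, uIoc_of_ge h0]
      rfl
  rw [k5, integral_add k2 k7, prim, k6]

end prod

end

end Vale.Agent.P363
end
end

section

section

namespace Vale.Agent.P363

open MeasureTheory Set Filter Topology
open scoped ENNReal ContDiff

set_option linter.unusedSectionVars false

noncomputable section

variable {X : Type*} [NormedAddCommGroup X] [NormedSpace ℝ X] [FiniteDimensional ℝ X]
  [MeasurableSpace X] [BorelSpace X] {μ : Measure X} [μ.IsAddHaarMeasure]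

lemma ACL.of_hasDerivAt {e : X} {f f' : X → ℝ} (hf : Continuous f) (hf' : Continuous f')
    (hd : ∀ x, ∀ t : ℝ, HasDerivAt (fun t : ℝ => f (x + t • e)) (f' (x + t • e)) t) :
    ACL μ e f f' := by
  refine ⟨hf.aestronglyMeasurable, hf'.aestronglyMeasurable, ?_, ?_⟩
  · filter_upwards with x
    apply Continuous.locallyIntegrable
    fun_prop
  · filter_upwards with x
    filter_upwards with t
    unfold prim
    rw [intervalIntegral.integral_eq_sub_of_hasDerivAt (fun s _ => hd x s)]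
    · simp
    · apply Continuous.intervalIntegrable
      fun_prop

lemma norm_add_single_sq (z : R3) (k : Fin 3) (t : ℝ) :
    ‖z + t • (EuclideanSpace.single k (1:ℝ) : R3)‖ ^ 2 = ‖z‖ ^ 2 + 2 * t * z k + t ^ 2 := by
  rw [norm_add_sq_real, inner_smul_right, norm_smul]
  have h1 : inner ℝ z (EuclideanSpace.single k (1:ℝ) : R3) = z k := by
    rw [EuclideanSpace.inner_single_right]; simp
  rw [h1]
  simp only [Real.norm_eq_abs, PiLp.norm_single, norm_one, mul_one, sq_abs, add_left_inj, add_right_inj]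
  ring

/-- Regularized vector field component. -/
def vf (ε : ℝ) (k : Fin 3) (z : R3) : ℝ := z k / √(‖z‖ ^ 2 + ε)

def vf' (ε : ℝ) (k : Fin 3) (z : R3) : ℝ :=
  1 / √(‖z‖ ^ 2 + ε) - (z k) ^ 2 / ((‖z‖ ^ 2 + ε) * √(‖z‖ ^ 2 + ε))

lemma vf_line {ε : ℝ} (hε : 0 < ε) (k : Fin 3) (z : R3) (t : ℝ) :
    HasDerivAt (fun t : ℝ => vf ε k (z + t • (EuclideanSpace.single k (1:ℝ) : R3)))
      (vf' ε k (z + t • (EuclideanSpace.single k (1:ℝ) : R3))) t := by
  unfold vf vf'
  simp only [norm_add_single_sq]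
  have hk : ∀ t : ℝ, (z + t • (EuclideanSpace.single k (1:ℝ) : R3)) k = z k + t := by
    intro t; simp
  simp only [hk]
  have hS : 0 < ‖z‖ ^ 2 + 2 * t * z k + t ^ 2 + ε := by
    have := norm_add_single_sq z k t
    rw [← this]; positivity
  set S : ℝ := ‖z‖ ^ 2 + 2 * t * z k + t ^ 2 + ε with hSdef
  have h1 : HasDerivAt (fun t : ℝ => z k + t) 1 t := (hasDerivAt_id t).const_add _
  have h2 : HasDerivAt (fun t : ℝ => ‖z‖ ^ 2 + 2 * t * z k + t ^ 2 + ε) (2 * z k + 2 * t) t := by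
    have a1 : HasDerivAt (fun t : ℝ => 2 * t * z k) (2 * z k) t := by
      have := ((hasDerivAt_id t).const_mul 2).mul_const (z k)
      simpa using this
    have a2 : HasDerivAt (fun t : ℝ => t ^ 2) (2 * t) t := by
      have := hasDerivAt_pow 2 t
      simpa using this
    exact ((a1.const_add (‖z‖ ^ 2)).add a2).add_const ε
  have h3 := h2.sqrt hS.ne'
  have hsq : 0 < √S := Real.sqrt_pos.mpr hS
  have h4 := h1.div h3 hsq.ne'
  refine h4.congr_deriv ?_
  have hss : √S ^ 2 = S := Real.sq_sqrt hS.le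
  have hss2 : S = √S * √S := (Real.mul_self_sqrt hS.le).symm
  rw [← hSdef]
  field_simp
  rw [hss]
  ring

lemma vf_cont {ε : ℝ} (hε : 0 < ε) (k : Fin 3) : Continuous (vf ε k) := by
  unfold vf
  apply Continuous.div
  · fun_prop
  · fun_prop
  · intro z; exact (Real.sqrt_pos.mpr (by positivity)).ne'

lemma vf'_cont {ε : ℝ} (hε : 0 < ε) (k : Fin 3) : Continuous (vf' ε k) := by
  unfold vf'
  apply Continuous.sub
  · apply Continuous.div continuous_const (by fun_prop)
    intro z; exact (Real.sqrt_pos.mpr (by positivity)).ne'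
  · apply Continuous.div (by fun_prop) (by fun_prop)
    intro z
    have := Real.sqrt_pos.mpr (show 0 < ‖z‖ ^ 2 + ε by positivity)
    positivity

lemma abs_coord_le (z : R3) (k : Fin 3) : |z k| ≤ ‖z‖ := by
  have := PiLp.norm_apply_le z k
  simpa using this

lemma vf_bound {ε : ℝ} (hε : 0 < ε) (k : Fin 3) (z : R3) : |vf ε k z| ≤ 1 := by
  unfold vf
  have h := Real.sqrt_pos.mpr (show 0 < ‖z‖ ^ 2 + ε by positivity)
  rw [abs_div, abs_of_pos h, div_le_one h]
  apply Real.le_sqrt_of_sq_le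
  have := abs_coord_le z k
  have h2 : |z k| ^ 2 ≤ ‖z‖ ^ 2 := by (clear * - this; gcongr)
  linarith

lemma vf'_bound {ε : ℝ} (hε : 0 < ε) (k : Fin 3) (z : R3) : |vf' ε k z| ≤ 2 / √ε := by
  unfold vf'
  have hS : 0 < ‖z‖ ^ 2 + ε := by positivity
  have h := Real.sqrt_pos.mpr hS
  have he := Real.sqrt_pos.mpr hε
  have h1 : 1 / √(‖z‖ ^ 2 + ε) ≤ 1 / √ε := by
    apply one_div_le_one_div_of_le he
    apply Real.sqrt_le_sqrt; simp only [le_add_iff_nonneg_left, norm_nonneg, pow_succ_nonneg]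
  have h2 : (z k) ^ 2 / ((‖z‖ ^ 2 + ε) * √(‖z‖ ^ 2 + ε)) ≤ 1 / √ε := by
    have h3 : (z k) ^ 2 ≤ ‖z‖ ^ 2 + ε := by
      have := abs_coord_le z k
      have h2 : |z k| ^ 2 ≤ ‖z‖ ^ 2 := by gcongr
      rw [sq_abs] at h2; linarith only [hε, h2]
    calc (z k) ^ 2 / ((‖z‖ ^ 2 + ε) * √(‖z‖ ^ 2 + ε))
        ≤ (‖z‖ ^ 2 + ε) / ((‖z‖ ^ 2 + ε) * √(‖z‖ ^ 2 + ε)) := by gcongr
      _ = 1 / √(‖z‖ ^ 2 + ε) := by field_simp
      _ ≤ _ := h1
  have h4 : 0 ≤ (z k) ^ 2 / ((‖z‖ ^ 2 + ε) * √(‖z‖ ^ 2 + ε)) := by (clear * - hε; positivity)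
  have h5 : 0 ≤ 1 / √(‖z‖ ^ 2 + ε) := by positivity
  rw [abs_le]
  have h6 : 2 / √ε = 1 / √ε + 1 / √ε := by ring
  have h7 : 0 < 1 / √ε := by positivity
  constructor <;> linarith only [h1, h4, h6, h7, h2, h5]

lemma vf'_sum {ε : ℝ} (hε : 0 < ε) (z : R3) : 2 / √(‖z‖ ^ 2 + ε) ≤ ∑ k, vf' ε k z := by
  unfold vf'
  have hS : 0 < ‖z‖ ^ 2 + ε := by positivity
  have h := Real.sqrt_pos.mpr hS
  rw [Finset.sum_sub_distrib, ← Finset.sum_div, ← Finset.sum_div]
  have hn : ∑ k, (z k) ^ 2 = ‖z‖ ^ 2 := by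
    rw [EuclideanSpace.norm_sq_eq]; simp
  rw [hn]
  simp only [Finset.sum_const, Finset.card_univ, Fintype.card_fin, nsmul_eq_mul]
  have h1 : ‖z‖ ^ 2 / ((‖z‖ ^ 2 + ε) * √(‖z‖ ^ 2 + ε)) ≤ 1 / √(‖z‖ ^ 2 + ε) := by
    calc ‖z‖ ^ 2 / ((‖z‖ ^ 2 + ε) * √(‖z‖ ^ 2 + ε))
        ≤ (‖z‖ ^ 2 + ε) / ((‖z‖ ^ 2 + ε) * √(‖z‖ ^ 2 + ε)) := by
          gcongr; linarith
      _ = 1 / √(‖z‖ ^ 2 + ε) := by field_simp
  have h2 : 2 / √(‖z‖ ^ 2 + ε) = ((3:ℕ):ℝ) * (1 / √(‖z‖ ^ 2 + ε)) - 1 / √(‖z‖ ^ 2 + ε) := by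
    push_cast; ring
  have h3 : ((3:ℕ):ℝ) * 1 / √(‖z‖ ^ 2 + ε) = ((3:ℕ):ℝ) * (1 / √(‖z‖ ^ 2 + ε)) := by ring
  rw [h2, h3]; linarith only [h1]

/-- Regularized Hardy-type inequality. -/
lemma hardy_reg {a : X → R3} {e : Fin 3 → X} (ha : Continuous a)
    (hae : ∀ x k, ∀ t : ℝ, a (x + t • e k) = a x + t • (EuclideanSpace.single k (1:ℝ) : R3))
    {f : X → ℝ} {f' : Fin 3 → X → ℝ} (hf : MemLp f 2 μ) (hf' : ∀ k, MemLp (f' k) 2 μ)
    (hacl : ∀ k, ACL μ (e k) f (f' k)) {ε : ℝ} (hε : 0 < ε) :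
    Integrable (fun x => f x ^ 2 / √(‖a x‖ ^ 2 + ε)) μ ∧
    ∫ x, f x ^ 2 / √(‖a x‖ ^ 2 + ε) ∂μ ≤ ∑ k, ∫ x, |f x * f' k x| ∂μ := by
  have hf2 : Integrable (fun x => f x ^ 2) μ := hf.integrable_sq
  have hff : ∀ k, Integrable (fun x => f x * f' k x) μ := fun k => hf.integrable_mul (hf' k)
  have hvacl : ∀ k, ACL μ (e k) (fun x => vf ε k (a x)) (fun x => vf' ε k (a x)) := by
    intro k
    apply ACL.of_hasDerivAt ((vf_cont hε k).comp ha) ((vf'_cont hε k).comp ha)
    intro x t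
    have := vf_line hε k (a x) t
    simpa only [Function.comp, hae] using this
  have hsq : ∀ k, ACL μ (e k) (fun x => f x * f x) (fun x => f' k x * f x + f x * f' k x) :=
    fun k => (hacl k).mul (hacl k)
  have hi1 : ∀ k, Integrable (fun x => (f x * f x) * vf ε k (a x)) μ := by
    intro k
    have h1 : Integrable (fun x => f x * f x) μ := by simpa [sq] using hf2
    refine h1.mul_bdd (c := 1) ((vf_cont hε k).comp ha).aestronglyMeasurable ?_
    filter_upwards with x
    exact vf_bound hε k _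
  have hi2 : ∀ k, Integrable (fun x => (f x * f x) * vf' ε k (a x)) μ := by
    intro k
    have h1 : Integrable (fun x => f x * f x) μ := by simpa [sq] using hf2
    refine h1.mul_bdd (c := 2 / √ε) ((vf'_cont hε k).comp ha).aestronglyMeasurable ?_
    filter_upwards with x
    exact vf'_bound hε k _
  have hi3 : ∀ k, Integrable (fun x => (f' k x * f x + f x * f' k x) * vf ε k (a x)) μ := by
    intro k
    have h1 : Integrable (fun x => f' k x * f x + f x * f' k x) μ := by
      have := (hff k)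
      refine (this.add this).congr ?_
      filter_upwards with x
      simp only [Pi.add_apply]; ring
    refine h1.mul_bdd (c := 1) ((vf_cont hε k).comp ha).aestronglyMeasurable ?_
    filter_upwards with x
    exact vf_bound hε k _
  have hkey : ∀ k, ∫ x, (f x * f x) * vf' ε k (a x) ∂μ ≤ 2 * ∫ x, |f x * f' k x| ∂μ := by
    intro k
    rw [ACL.integral_mul (hsq k) (hvacl k) (hi1 k) (hi3 k) (hi2 k), ← integral_neg,
      ← integral_const_mul]
    apply integral_mono (hi3 k).neg (((hff k).abs).const_mul 2)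
    intro x
    simp only [Pi.neg_apply]
    have h1 := vf_bound hε k (a x)
    calc -((f' k x * f x + f x * f' k x) * vf ε k (a x))
        ≤ |(f' k x * f x + f x * f' k x) * vf ε k (a x)| := neg_le_abs _
      _ = |f' k x * f x + f x * f' k x| * |vf ε k (a x)| := abs_mul _ _
      _ ≤ |f' k x * f x + f x * f' k x| * 1 := by (clear * - h1; gcongr)
      _ = 2 * |f x * f' k x| := by
        rw [mul_one, show f' k x * f x + f x * f' k x = 2 * (f x * f' k x) by ring, abs_mul]
        simp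
  have hint : Integrable (fun x => f x ^ 2 / √(‖a x‖ ^ 2 + ε)) μ := by
    have hc : Continuous (fun x => (√(‖a x‖ ^ 2 + ε))⁻¹) := by
      apply Continuous.inv₀ (by fun_prop)
      intro x; exact (Real.sqrt_pos.mpr (by (clear * - hε; positivity))).ne'
    have := hf2.mul_bdd (c := (√ε)⁻¹) hc.aestronglyMeasurable (by
      filter_upwards with x
      rw [Real.norm_eq_abs, abs_of_nonneg (by positivity)]
      apply inv_anti₀ (Real.sqrt_pos.mpr hε)
      apply Real.sqrt_le_sqrt; simp only [le_add_iff_nonneg_left, norm_nonneg, pow_succ_nonneg])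
    simpa only [div_eq_mul_inv] using this
  refine ⟨hint, ?_⟩
  have hsum : ∫ x, (∑ k, (f x * f x) * vf' ε k (a x)) ∂μ ≤ 2 * ∑ k, ∫ x, |f x * f' k x| ∂μ := by
    rw [integral_finsetSum _ (fun k _ => hi2 k), Finset.mul_sum]
    exact Finset.sum_le_sum (fun k _ => hkey k)
  have hlow : ∫ x, 2 * (f x ^ 2 / √(‖a x‖ ^ 2 + ε)) ∂μ ≤
      ∫ x, (∑ k, (f x * f x) * vf' ε k (a x)) ∂μ := by
    apply integral_mono (hint.const_mul 2) (integrable_finsetSum _ (fun k _ => hi2 k))
    intro x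
    simp only
    rw [← Finset.mul_sum]
    have := vf'_sum hε (a x)
    calc 2 * (f x ^ 2 / √(‖a x‖ ^ 2 + ε)) = (f x * f x) * (2 / √(‖a x‖ ^ 2 + ε)) := by ring
      _ ≤ (f x * f x) * ∑ k, vf' ε k (a x) := by
        apply mul_le_mul_of_nonneg_left this (mul_self_nonneg _)
  rw [integral_const_mul] at hlow
  linarith only [hsum, hlow]

/-- Hardy-type inequality. -/
lemma hardy {a : X → R3} {e : Fin 3 → X} (ha : Continuous a)
    (hae : ∀ x k, ∀ t : ℝ, a (x + t • e k) = a x + t • (EuclideanSpace.single k (1:ℝ) : R3))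
    {f : X → ℝ} {f' : Fin 3 → X → ℝ} (hf : MemLp f 2 μ) (hf' : ∀ k, MemLp (f' k) 2 μ)
    (hacl : ∀ k, ACL μ (e k) f (f' k)) :
    Integrable (fun x => f x ^ 2 / ‖a x‖) μ ∧
    ∫ x, f x ^ 2 / ‖a x‖ ∂μ ≤ ∑ k, ∫ x, |f x * f' k x| ∂μ := by
  set C := ∑ k, ∫ x, |f x * f' k x| ∂μ with hC
  have hC0 : 0 ≤ C := Finset.sum_nonneg (fun k _ => integral_nonneg (fun x => abs_nonneg _))
  have hreg : ∀ n : ℕ, ∫⁻ x, ENNReal.ofReal (f x ^ 2 / √(‖a x‖ ^ 2 + 1 / ((n:ℝ) + 1))) ∂μ ≤
      ENNReal.ofReal C := by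
    intro n
    obtain ⟨h1, h2⟩ := hardy_reg ha hae hf hf' hacl (ε := 1 / ((n:ℝ) + 1)) (by positivity)
    rw [← ofReal_integral_eq_lintegral_ofReal h1 (by
      filter_upwards with x; simp only [Pi.zero_apply]; (clear * -; positivity))]
    exact ENNReal.ofReal_le_ofReal h2
  have hm : AEStronglyMeasurable (fun x => f x ^ 2 / ‖a x‖) μ :=
    (hf.1.pow 2).div₀ ha.norm.aestronglyMeasurable
  have hmain : ∫⁻ x, ENNReal.ofReal (f x ^ 2 / ‖a x‖) ∂μ ≤ ENNReal.ofReal C := by
    calc ∫⁻ x, ENNReal.ofReal (f x ^ 2 / ‖a x‖) ∂μ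
        ≤ ∫⁻ x, liminf (fun n : ℕ => ENNReal.ofReal
            (f x ^ 2 / √(‖a x‖ ^ 2 + 1 / ((n:ℝ) + 1)))) atTop ∂μ := by
          apply lintegral_mono
          intro x
          by_cases h0 : ‖a x‖ = 0
          · simp only [h0, div_zero, ENNReal.ofReal_zero, ne_eq, OfNat.ofNat_ne_zero, not_false_eq_true, zero_pow, one_div, zero_add, Real.sqrt_inv, div_inv_eq_mul, zero_le]
          · have hpos : 0 < ‖a x‖ := lt_of_le_of_ne (norm_nonneg _) (Ne.symm h0)
            have hlim : Tendsto (fun n : ℕ => ENNReal.ofReal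
                (f x ^ 2 / √(‖a x‖ ^ 2 + 1 / ((n:ℝ) + 1)))) atTop
                (𝓝 (ENNReal.ofReal (f x ^ 2 / ‖a x‖))) := by
              apply ENNReal.tendsto_ofReal
              apply Tendsto.div tendsto_const_nhds _ h0
              have h1 : Tendsto (fun n : ℕ => ‖a x‖ ^ 2 + 1 / ((n:ℝ) + 1)) atTop
                  (𝓝 (‖a x‖ ^ 2 + 0)) :=
                tendsto_one_div_add_atTop_nhds_zero_nat.const_add _
              rw [add_zero] at h1
              have h2 := (Real.continuous_sqrt.tendsto _).comp h1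
              rw [Real.sqrt_sq hpos.le] at h2
              exact h2
            beta_reduce
            rw [hlim.liminf_eq]
      _ ≤ liminf (fun n : ℕ => ∫⁻ x, ENNReal.ofReal
            (f x ^ 2 / √(‖a x‖ ^ 2 + 1 / ((n:ℝ) + 1))) ∂μ) atTop := by
          apply lintegral_liminf_le'
          intro n
          apply AEMeasurable.ennreal_ofReal
          apply AEStronglyMeasurable.aemeasurable
          exact (hardy_reg ha hae hf hf' hacl (ε := 1 / ((n:ℝ) + 1)) (by positivity)).1.1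
      _ ≤ ENNReal.ofReal C := by
          apply liminf_le_of_le
          · isBoundedDefault
          · intro b hb
            obtain ⟨n, hn⟩ := hb.exists
            exact hn.trans (hreg n)
  have hint : Integrable (fun x => f x ^ 2 / ‖a x‖) μ := by
    refine ⟨hm, ?_⟩
    rw [hasFiniteIntegral_iff_ofReal (by filter_upwards with x; (clear * -; positivity))]
    exact hmain.trans_lt ENNReal.ofReal_lt_top
  refine ⟨hint, ?_⟩
  rw [integral_eq_lintegral_of_nonneg_ae (by filter_upwards with x; (clear * -; positivity)) hm]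
  exact ENNReal.toReal_le_of_le_ofReal hC0 hmain

/-- Form boundedness with a small constant. -/
lemma hardy_small {a : X → R3} {e : Fin 3 → X} (ha : Continuous a)
    (hae : ∀ x k, ∀ t : ℝ, a (x + t • e k) = a x + t • (EuclideanSpace.single k (1:ℝ) : R3))
    {f : X → ℝ} {f' : Fin 3 → X → ℝ} (hf : MemLp f 2 μ) (hf' : ∀ k, MemLp (f' k) 2 μ)
    (hacl : ∀ k, ACL μ (e k) f (f' k)) {δ : ℝ} (hδ : 0 < δ) :
    ∫ x, f x ^ 2 / ‖a x‖ ∂μ ≤ δ * (∑ k, ∫ x, f' k x ^ 2 ∂μ) + (3 / δ) * ∫ x, f x ^ 2 ∂μ := by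
  have h1 := (hardy ha hae hf hf' hacl).2
  have h2 : ∀ k, ∫ x, |f x * f' k x| ∂μ ≤ δ * ∫ x, f' k x ^ 2 ∂μ + (1 / δ) * ∫ x, f x ^ 2 ∂μ := by
    intro k
    have i1 : Integrable (fun x => δ * f' k x ^ 2) μ := ((hf' k).integrable_sq).const_mul δ
    have i2 : Integrable (fun x => (1 / δ) * f x ^ 2) μ := (hf.integrable_sq).const_mul _
    rw [← integral_const_mul, ← integral_const_mul, ← integral_add i1 i2]
    apply integral_mono ((hf.integrable_mul (hf' k)).abs) (i1.add i2)
    intro x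
    simp only [Pi.add_apply, Pi.mul_apply]
    rw [abs_mul]
    have h3 : 0 ≤ (δ * |f' k x| - |f x|) ^ 2 + 2 * (δ * |f' k x|) * |f x| := by (clear * - hδ; positivity)
    have h4 : |f x| * |f' k x| * δ ≤ (δ * f' k x ^ 2 + 1 / δ * f x ^ 2) * δ := by
      have h5 : (δ * f' k x ^ 2 + 1 / δ * f x ^ 2) * δ = (δ * |f' k x|) ^ 2 + |f x| ^ 2 := by
        rw [mul_pow, sq_abs, sq_abs]; (clear * - hδ; field_simp)
      rw [h5]
      nlinarith only []
    exact le_of_mul_le_mul_right h4 hδ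
  calc _ ≤ _ := h1
    _ ≤ ∑ k : Fin 3, (δ * ∫ x, f' k x ^ 2 ∂μ + (1 / δ) * ∫ x, f x ^ 2 ∂μ) :=
      Finset.sum_le_sum (fun k _ => h2 k)
    _ = _ := by
      rw [Finset.sum_add_distrib, ← Finset.mul_sum]
      simp only [Finset.sum_const, Finset.card_univ, Fintype.card_fin, nsmul_eq_mul]
      push_cast
      ring

lemma hardy_mul {a : X → R3} {e : Fin 3 → X} (ha : Continuous a)
    (hae : ∀ x k, ∀ t : ℝ, a (x + t • e k) = a x + t • (EuclideanSpace.single k (1:ℝ) : R3))
    {f : X → ℝ} {f' : Fin 3 → X → ℝ} (hf : MemLp f 2 μ) (hf' : ∀ k, MemLp (f' k) 2 μ)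
    (hacl : ∀ k, ACL μ (e k) f (f' k))
    {h : X → ℝ} {h' : Fin 3 → X → ℝ} (hh : MemLp h 2 μ) (hh' : ∀ k, MemLp (h' k) 2 μ)
    (hacl2 : ∀ k, ACL μ (e k) h (h' k)) :
    Integrable (fun x => (1 / ‖a x‖) * (f x * h x)) μ := by
  have h1 := (hardy ha hae hf hf' hacl).1
  have h2 := (hardy ha hae hh hh' hacl2).1
  refine (h1.add h2).mono' ?_ ?_
  · apply AEStronglyMeasurable.mul
    · exact (aestronglyMeasurable_const (b := (1:ℝ))).div₀ ha.norm.aestronglyMeasurable
    · exact hf.1.mul hh.1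
  · filter_upwards with x
    simp only [Pi.add_apply]
    rw [Real.norm_eq_abs, abs_mul, abs_of_nonneg (show 0 ≤ 1 / ‖a x‖ by positivity), abs_mul]
    have h3 : |f x| * |h x| ≤ f x ^ 2 + h x ^ 2 := by
      nlinarith only [sq_abs (f x), sq_abs (h x)]
    calc 1 / ‖a x‖ * (|f x| * |h x|) ≤ 1 / ‖a x‖ * (f x ^ 2 + h x ^ 2) := by (clear * - h3; gcongr)
      _ = _ := by ring

end

end Vale.Agent.P363
end
end

section

section

namespace Vale.Agent.P363

open MeasureTheory Set Filter Topology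
open scoped ENNReal ContDiff

set_option linter.unusedSectionVars false

noncomputable section

/-- From pairs to configurations of two electrons. -/
def fromX (p : X6) : Fin 2 → R3 := ![p.1, p.2]

/-- From configurations of two electrons to pairs. -/
def toX (x : Fin 2 → R3) : X6 := (x 0, x 1)

lemma toX_fromX (p : X6) : toX (fromX p) = p := by
  simp [toX, fromX]

lemma fromX_toX (x : Fin 2 → R3) : fromX (toX x) = x := by
  funext i
  fin_cases i <;> simp [toX, fromX]

lemma mp_toX : MeasurePreserving toX (volume : Measure (Fin 2 → R3)) (volume : Measure X6) :=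
  MeasureTheory.volume_preserving_finTwoArrow R3

lemma mp_fromX : MeasurePreserving fromX (volume : Measure X6) (volume : Measure (Fin 2 → R3)) := by
  have h := (MeasureTheory.volume_preserving_finTwoArrow R3).symm
  have he : (MeasurableEquiv.finTwoArrow (α := R3)).symm = fromX := by
    funext p
    have : p = MeasurableEquiv.finTwoArrow (fromX p) := (toX_fromX p).symm
    conv_lhs => rw [this]
    exact MeasurableEquiv.symm_apply_apply _ _
  rw [← he]
  exact h

lemma me_fromX : MeasurableEmbedding fromX := by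
  have he : (MeasurableEquiv.finTwoArrow (α := R3)).symm = fromX := by
    funext p
    have : p = MeasurableEquiv.finTwoArrow (fromX p) := (toX_fromX p).symm
    conv_lhs => rw [this]
    exact MeasurableEquiv.symm_apply_apply _ _
  rw [← he]
  exact MeasurableEquiv.measurableEmbedding _

lemma integral_fromX {E : Type*} [NormedAddCommGroup E] [NormedSpace ℝ E]
    (F : (Fin 2 → R3) → E) : ∫ x, F x = ∫ p : X6, F (fromX p) :=
  (mp_fromX.integral_comp me_fromX F).symm

lemma axisDir_zero (k : Fin 3) : axisDir (N := 2) 0 k = fromX (dirX k) := by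
  funext i
  fin_cases i <;> simp [axisDir, fromX, dirX]

lemma axisDir_one (k : Fin 3) : axisDir (N := 2) 1 k = fromX (dirY k) := by
  funext i
  fin_cases i <;> simp [axisDir, fromX, dirY]

lemma fromX_add_smul (p e : X6) (t : ℝ) : fromX (p + t • e) = fromX p + t • fromX e := by
  funext i
  fin_cases i <;> simp [fromX]

lemma toX_add_smul (x e : Fin 2 → R3) (t : ℝ) : toX (x + t • e) = toX x + t • toX e := by
  simp [toX]

/-- Real and imaginary parts of weak derivatives. -/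
lemma IsWeakDeriv.re_acl {N : ℕ} {e : Fin N → R3} {f g : (Fin N → R3) → ℂ}
    (h : IsWeakDeriv e f g) (hf : MemLp f 2 volume) (hg : MemLp g 2 volume) :
    ACL volume e (fun x => (f x).re) (fun x => (g x).re) := by
  have hf' : LocallyIntegrable f volume := hf.locallyIntegrable (by norm_num)
  have hg' : LocallyIntegrable g volume := hg.locallyIntegrable (by norm_num)
  apply ACL.of_weak
  · exact (hf.re).locallyIntegrable (by norm_num)
  · exact (hg.re).locallyIntegrable (by norm_num)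
  · intro φ hφ hc
    have hφ1 : ContDiff ℝ 1 φ := hφ.of_le (by exact_mod_cast le_top)
    have hd : Continuous (fun x => fderiv ℝ φ x e) :=
      (hφ1.continuous_fderiv (by norm_num)).clm_apply continuous_const
    have hdc : HasCompactSupport (fun x => fderiv ℝ φ x e) := hc.fderiv_apply ℝ e
    have h1 : Integrable (fun x => ((fderiv ℝ φ x e : ℝ) : ℂ) * f x) := by
      have := hf'.integrable_smul_left_of_hasCompactSupport hd hdc
      simpa only [Complex.real_smul] using this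
    have h2 : Integrable (fun x => ((φ x : ℝ) : ℂ) * g x) := by
      have := hg'.integrable_smul_left_of_hasCompactSupport hφ.continuous hc
      simpa only [Complex.real_smul] using this
    have h3 := congrArg Complex.re (h φ hφ hc)
    rw [Complex.neg_re] at h3
    have h4 : ∀ F : (Fin N → R3) → ℂ, Integrable F → (∫ x, F x).re = ∫ x, (F x).re := by
      intro F hF
      exact (Complex.reCLM.integral_comp_comm hF).symm
    rw [h4 _ h1, h4 _ h2] at h3
    simpa only [Complex.mul_re, Complex.ofReal_re, Complex.ofReal_im, zero_mul, sub_zero] using h3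

lemma IsWeakDeriv.im_acl {N : ℕ} {e : Fin N → R3} {f g : (Fin N → R3) → ℂ}
    (h : IsWeakDeriv e f g) (hf : MemLp f 2 volume) (hg : MemLp g 2 volume) :
    ACL volume e (fun x => (f x).im) (fun x => (g x).im) := by
  have hf' : LocallyIntegrable f volume := hf.locallyIntegrable (by norm_num)
  have hg' : LocallyIntegrable g volume := hg.locallyIntegrable (by norm_num)
  apply ACL.of_weak
  · exact (hf.im).locallyIntegrable (by norm_num)
  · exact (hg.im).locallyIntegrable (by norm_num)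
  · intro φ hφ hc
    have hφ1 : ContDiff ℝ 1 φ := hφ.of_le (by exact_mod_cast le_top)
    have hd : Continuous (fun x => fderiv ℝ φ x e) :=
      (hφ1.continuous_fderiv (by norm_num)).clm_apply continuous_const
    have hdc : HasCompactSupport (fun x => fderiv ℝ φ x e) := hc.fderiv_apply ℝ e
    have h1 : Integrable (fun x => ((fderiv ℝ φ x e : ℝ) : ℂ) * f x) := by
      have := hf'.integrable_smul_left_of_hasCompactSupport hd hdc
      simpa only [Complex.real_smul] using this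
    have h2 : Integrable (fun x => ((φ x : ℝ) : ℂ) * g x) := by
      have := hg'.integrable_smul_left_of_hasCompactSupport hφ.continuous hc
      simpa only [Complex.real_smul] using this
    have h3 := congrArg Complex.im (h φ hφ hc)
    rw [Complex.neg_im] at h3
    have h4 : ∀ F : (Fin N → R3) → ℂ, Integrable F → (∫ x, F x).im = ∫ x, (F x).im := by
      intro F hF
      exact (Complex.imCLM.integral_comp_comm hF).symm
    rw [h4 _ h1, h4 _ h2] at h3
    simpa using h3

/-- Real `ACL` derivatives give weak derivatives. -/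
lemma IsWeakDeriv.of_acl {N : ℕ} {e : Fin N → R3} {f g : (Fin N → R3) → ℝ}
    (h : ACL volume e f g) (hf : MemLp f 2 volume) (hg : MemLp g 2 volume) :
    IsWeakDeriv e (fun x => (f x : ℂ)) (fun x => (g x : ℂ)) := by
  intro φ hφ hc
  have := h.to_weak (hf.locallyIntegrable (by norm_num)) (hg.locallyIntegrable (by norm_num)) hφ hc
  have h1 : ∀ a b : ℝ, (a : ℂ) * (b : ℂ) = ((a * b : ℝ) : ℂ) := fun a b => by push_cast; rfl
  simp only [h1]
  rw [integral_complex_ofReal, integral_complex_ofReal, this]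
  push_cast; rfl

/-- The real components of a two-electron state. -/
def comp (Ψ : ElectronState 2) (i : (Fin 2 → Fin 2) × Bool) (p : X6) : ℝ :=
  if i.2 then (Ψ.amp i.1 (fromX p)).re else (Ψ.amp i.1 (fromX p)).im

def compx (Ψ : ElectronState 2) (i : (Fin 2 → Fin 2) × Bool) (k : Fin 3) (p : X6) : ℝ :=
  if i.2 then (Ψ.grad i.1 0 k (fromX p)).re else (Ψ.grad i.1 0 k (fromX p)).im

def compy (Ψ : ElectronState 2) (i : (Fin 2 → Fin 2) × Bool) (k : Fin 3) (p : X6) : ℝ :=
  if i.2 then (Ψ.grad i.1 1 k (fromX p)).re else (Ψ.grad i.1 1 k (fromX p)).im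

lemma comp_H1 (Ψ : ElectronState 2) (i : (Fin 2 → Fin 2) × Bool) :
    H1 (comp Ψ i) (compx Ψ i) (compy Ψ i) := by
  obtain ⟨s, b⟩ := i
  have hA := (Ψ.amp_memLp s)
  have hq := mp_fromX.quasiMeasurePreserving
  cases b
  · refine ⟨?_, ?_, ?_, ?_, ?_⟩
    · exact (hA.im).comp_measurePreserving mp_fromX
    · intro k; exact ((Ψ.grad_memLp s 0 k).im).comp_measurePreserving mp_fromX
    · intro k; exact ((Ψ.grad_memLp s 1 k).im).comp_measurePreserving mp_fromX
    · intro k
      have := (Ψ.grad_weak s 0 k).im_acl hA (Ψ.grad_memLp s 0 k)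
      exact this.comp_qmp hq (fun p t => by rw [fromX_add_smul, axisDir_zero])
    · intro k
      have := (Ψ.grad_weak s 1 k).im_acl hA (Ψ.grad_memLp s 1 k)
      exact this.comp_qmp hq (fun p t => by rw [fromX_add_smul, axisDir_one])
  · refine ⟨?_, ?_, ?_, ?_, ?_⟩
    · exact (hA.re).comp_measurePreserving mp_fromX
    · intro k; exact ((Ψ.grad_memLp s 0 k).re).comp_measurePreserving mp_fromX
    · intro k; exact ((Ψ.grad_memLp s 1 k).re).comp_measurePreserving mp_fromX
    · intro k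
      have := (Ψ.grad_weak s 0 k).re_acl hA (Ψ.grad_memLp s 0 k)
      exact this.comp_qmp hq (fun p t => by rw [fromX_add_smul, axisDir_zero])
    · intro k
      have := (Ψ.grad_weak s 1 k).re_acl hA (Ψ.grad_memLp s 1 k)
      exact this.comp_qmp hq (fun p t => by rw [fromX_add_smul, axisDir_one])

/-- Quadratic form on real functions on `X6`. -/
def Q (w : X6 → ℝ) (f : X6 → ℝ) (fx fy : Fin 3 → X6 → ℝ) : ℝ :=
  (1 / 2) * (∑ k, ((∫ p, fx k p ^ 2) + (∫ p, fy k p ^ 2))) + ∫ p, w p * f p ^ 2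

end

end Vale.Agent.P363
end
end

section

section

namespace Vale.Agent.P363

open MeasureTheory Set Filter Topology
open scoped ENNReal ContDiff

set_option linter.unusedSectionVars false

noncomputable section

lemma sq_re_im (z : ℂ) : ‖z‖ ^ 2 = z.re ^ 2 + z.im ^ 2 := by
  rw [← Complex.normSq_eq_norm_sq, Complex.normSq_apply]; ring

lemma sum_comp_index {α : Type*} [AddCommMonoid α] (F : (Fin 2 → Fin 2) × Bool → α) :
    ∑ i, F i = ∑ s, (F (s, true) + F (s, false)) := by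
  rw [Fintype.sum_prod_type]
  apply Finset.sum_congr rfl
  intro s _
  simp

lemma normSq_eq_sum (Ψ : ElectronState 2) :
    normSq Ψ = ∑ i, ∫ p, comp Ψ i p ^ 2 := by
  rw [sum_comp_index]
  unfold normSq
  apply Finset.sum_congr rfl
  intro s _
  rw [integral_fromX, ← integral_add]
  · apply integral_congr_ae
    filter_upwards with p
    simp only [comp, if_true, Bool.false_eq_true, if_false]
    exact sq_re_im _
  · exact (comp_H1 Ψ (s, true)).memLp.integrable_sq
  · exact (comp_H1 Ψ (s, false)).memLp.integrable_sq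

lemma grad_eq_sum (Ψ : ElectronState 2) (s : Fin 2 → Fin 2) :
    ∑ i, ∑ k, ∫ x, ‖Ψ.grad s i k x‖ ^ 2 =
      (∑ k, ((∫ p, compx Ψ (s, true) k p ^ 2) + (∫ p, compy Ψ (s, true) k p ^ 2))) +
      ∑ k, ((∫ p, compx Ψ (s, false) k p ^ 2) + (∫ p, compy Ψ (s, false) k p ^ 2)) := by
  rw [Fin.sum_univ_two, ← Finset.sum_add_distrib, ← Finset.sum_add_distrib]
  apply Finset.sum_congr rfl
  intro k _
  have h1 : ∫ x, ‖Ψ.grad s 0 k x‖ ^ 2 = (∫ p, compx Ψ (s, true) k p ^ 2) +
      (∫ p, compx Ψ (s, false) k p ^ 2) := by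
    rw [integral_fromX, ← integral_add]
    · apply integral_congr_ae
      filter_upwards with p
      simp only [compx, if_true, Bool.false_eq_true, if_false]
      exact sq_re_im _
    · exact ((comp_H1 Ψ (s, true)).memLpx k).integrable_sq
    · exact ((comp_H1 Ψ (s, false)).memLpx k).integrable_sq
  have h2 : ∫ x, ‖Ψ.grad s 1 k x‖ ^ 2 = (∫ p, compy Ψ (s, true) k p ^ 2) +
      (∫ p, compy Ψ (s, false) k p ^ 2) := by
    rw [integral_fromX, ← integral_add]
    · apply integral_congr_ae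
      filter_upwards with p
      simp only [compy, if_true, Bool.false_eq_true, if_false]
      exact sq_re_im _
    · exact ((comp_H1 Ψ (s, true)).memLpy k).integrable_sq
    · exact ((comp_H1 Ψ (s, false)).memLpy k).integrable_sq
  rw [h1, h2]; ring

lemma energy_eq_sum (Ψ : ElectronState 2) (w : (Fin 2 → R3) → ℝ) (W : X6 → ℝ)
    (hW : ∀ p, w (fromX p) = W p)
    (hi : ∀ i, Integrable (fun p => W p * comp Ψ i p ^ 2)) :
    energy w Ψ = ∑ i, Q W (comp Ψ i) (compx Ψ i) (compy Ψ i) := by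
  rw [sum_comp_index]
  unfold energy Q
  rw [Finset.mul_sum, ← Finset.sum_add_distrib]
  apply Finset.sum_congr rfl
  intro s _
  rw [grad_eq_sum]
  have h1 : ∫ x, w x * ‖Ψ.amp s x‖ ^ 2 = (∫ p, W p * comp Ψ (s, true) p ^ 2) +
      (∫ p, W p * comp Ψ (s, false) p ^ 2) := by
    rw [integral_fromX, ← integral_add (hi _) (hi _)]
    apply integral_congr_ae
    filter_upwards with p
    simp only [comp, if_true, Bool.false_eq_true, if_false]
    rw [hW, sq_re_im]; ring
  rw [h1]; ring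

lemma toX_axis0 (k : Fin 3) : toX (axisDir (N := 2) 0 k) = dirX k := by
  rw [axisDir_zero, toX_fromX]

lemma toX_axis1 (k : Fin 3) : toX (axisDir (N := 2) 1 k) = dirY k := by
  rw [axisDir_one, toX_fromX]

lemma toX_swap (x : Fin 2 → R3) : toX (x ∘ (Equiv.swap (0 : Fin 2) 1)) = (toX x).swap := by
  simp [toX]

/-- A two-electron state with real amplitudes. -/
def realState (A : (Fin 2 → Fin 2) → X6 → ℝ) (Ax Ay : (Fin 2 → Fin 2) → Fin 3 → X6 → ℝ)
    (h : ∀ s, H1 (A s) (Ax s) (Ay s))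
    (hanti : ∀ s : Fin 2 → Fin 2, ∀ᵐ p : X6, A (s ∘ (Equiv.swap (0 : Fin 2) 1)) p.swap = - A s p) :
    ElectronState 2 where
  amp s x := ((A s (toX x) : ℝ) : ℂ)
  grad s i k x := ((if i = 0 then Ax s k (toX x) else Ay s k (toX x) : ℝ) : ℂ)
  amp_memLp s := ((h s).memLp.comp_measurePreserving mp_toX).ofReal
  grad_memLp s i k := by
    by_cases hi : i = 0
    · simp only [hi, if_true]
      exact (((h s).memLpx k).comp_measurePreserving mp_toX).ofReal
    · simp only [hi, if_false]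
      exact (((h s).memLpy k).comp_measurePreserving mp_toX).ofReal
  grad_weak s i k := by
    have hA := ((h s).memLp.comp_measurePreserving mp_toX)
    have hq := mp_toX.quasiMeasurePreserving
    by_cases hi : i = 0
    · subst hi
      simp only [if_true]
      have h1 := ((h s).aclx k).comp_qmp hq (e := axisDir 0 k)
        (fun x t => by rw [toX_add_smul, toX_axis0])
      exact IsWeakDeriv.of_acl h1 hA (((h s).memLpx k).comp_measurePreserving mp_toX)
    · have hi1 : i = 1 := by omega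
      subst hi1
      simp only [Fin.isValue, one_ne_zero, if_false]
      have h1 := ((h s).acly k).comp_qmp hq (e := axisDir 1 k)
        (fun x t => by rw [toX_add_smul, toX_axis1])
      exact IsWeakDeriv.of_acl h1 hA (((h s).memLpy k).comp_measurePreserving mp_toX)
  antisymm σ s := by
    have hσ : ∀ σ : Equiv.Perm (Fin 2), σ = 1 ∨ σ = Equiv.swap 0 1 := by decide
    rcases hσ σ with h1 | h1
    · subst h1
      filter_upwards with x
      simp
    · subst h1
      have := mp_toX.quasiMeasurePreserving.ae (hanti s)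
      filter_upwards [this] with x hx
      rw [toX_swap, hx]
      simp

lemma mp_swap : MeasurePreserving (Prod.swap : X6 → X6) (volume : Measure X6)
    (volume : Measure X6) :=
  Measure.measurePreserving_swap (μ := (volume : Measure R3)) (ν := (volume : Measure R3))

lemma me_swap : MeasurableEmbedding (Prod.swap : X6 → X6) :=
  MeasurableEquiv.prodComm.measurableEmbedding

lemma H1.zero : H1 (fun _ => (0:ℝ)) (fun _ _ => 0) (fun _ _ => 0) :=
  ⟨MemLp.zero, fun _ => MemLp.zero, fun _ => MemLp.zero, fun _ => ACL.zero, fun _ => ACL.zero⟩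

lemma H1.const_mul {f : X6 → ℝ} {fx fy : Fin 3 → X6 → ℝ} (h : H1 f fx fy) (c : ℝ) :
    H1 (fun p => c * f p) (fun k p => c * fx k p) (fun k p => c * fy k p) :=
  ⟨h.memLp.const_mul c, fun k => (h.memLpx k).const_mul c, fun k => (h.memLpy k).const_mul c,
    fun k => (h.aclx k).const_mul c, fun k => (h.acly k).const_mul c⟩

lemma H1.add {f g : X6 → ℝ} {fx fy gx gy : Fin 3 → X6 → ℝ} (h : H1 f fx fy) (h2 : H1 g gx gy) :
    H1 (fun p => f p + g p) (fun k p => fx k p + gx k p) (fun k p => fy k p + gy k p) :=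
  ⟨h.memLp.add h2.memLp, fun k => (h.memLpx k).add (h2.memLpx k),
    fun k => (h.memLpy k).add (h2.memLpy k),
    fun k => (h.aclx k).add (h2.aclx k), fun k => (h.acly k).add (h2.acly k)⟩

lemma H1.swap {f : X6 → ℝ} {fx fy : Fin 3 → X6 → ℝ} (h : H1 f fx fy) :
    H1 (fun p => f p.swap) (fun k p => fy k p.swap) (fun k p => fx k p.swap) := by
  have hq := mp_swap.quasiMeasurePreserving
  refine ⟨h.memLp.comp_measurePreserving mp_swap,
    fun k => (h.memLpy k).comp_measurePreserving mp_swap,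
    fun k => (h.memLpx k).comp_measurePreserving mp_swap, fun k => ?_, fun k => ?_⟩
  · exact (h.acly k).comp_qmp hq (fun p t => by ext <;> simp [dirX, dirY])
  · exact (h.aclx k).comp_qmp hq (fun p t => by ext <;> simp only [dirY, Prod.smul_mk, smul_zero, Prod.swap_add, Prod.swap_prod_mk, Prod.fst_add, Prod.fst_swap, PiLp.add_apply, PiLp.smul_apply, PiLp.single_apply, smul_eq_mul, mul_ite, mul_one, mul_zero, dirX])

/-- Amplitudes of the fermionic state built from an arbitrary real function. -/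
def mkA (f : X6 → ℝ) (s : Fin 2 → Fin 2) (p : X6) : ℝ :=
  if s = ![0, 1] then f p else if s = ![1, 0] then - f p.swap else 0

def mkAx (fx fy : Fin 3 → X6 → ℝ) (s : Fin 2 → Fin 2) (k : Fin 3) (p : X6) : ℝ :=
  if s = ![0, 1] then fx k p else if s = ![1, 0] then - fy k p.swap else 0

def mkAy (fx fy : Fin 3 → X6 → ℝ) (s : Fin 2 → Fin 2) (k : Fin 3) (p : X6) : ℝ :=
  if s = ![0, 1] then fy k p else if s = ![1, 0] then - fx k p.swap else 0

lemma H1.neg_swap {f : X6 → ℝ} {fx fy : Fin 3 → X6 → ℝ} (h : H1 f fx fy) :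
    H1 (fun p => - f p.swap) (fun k p => - fy k p.swap) (fun k p => - fx k p.swap) := by
  have := h.swap.const_mul (-1)
  simpa using this

lemma mk_H1 {f : X6 → ℝ} {fx fy : Fin 3 → X6 → ℝ} (h : H1 f fx fy) (s : Fin 2 → Fin 2) :
    H1 (mkA f s) (mkAx fx fy s) (mkAy fx fy s) := by
  by_cases h1 : s = ![0, 1]
  · have e1 : mkA f s = f := by funext p; simp [mkA, h1]
    have e2 : mkAx fx fy s = fx := by funext k p; simp [mkAx, h1]
    have e3 : mkAy fx fy s = fy := by funext k p; simp [mkAy, h1]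
    rw [e1, e2, e3]; exact h
  · by_cases h2 : s = ![1, 0]
    · have e1 : mkA f s = fun p => - f p.swap := by
        funext p; rw [mkA, if_neg h1, if_pos h2]
      have e2 : mkAx fx fy s = fun k p => - fy k p.swap := by
        funext k p; rw [mkAx, if_neg h1, if_pos h2]
      have e3 : mkAy fx fy s = fun k p => - fx k p.swap := by
        funext k p; rw [mkAy, if_neg h1, if_pos h2]
      rw [e1, e2, e3]; exact h.neg_swap
    · have e1 : mkA f s = fun p => 0 := by
        funext p; rw [mkA, if_neg h1, if_neg h2]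
      have e2 : mkAx fx fy s = fun k p => 0 := by
        funext k p; rw [mkAx, if_neg h1, if_neg h2]
      have e3 : mkAy fx fy s = fun k p => 0 := by
        funext k p; rw [mkAy, if_neg h1, if_neg h2]
      rw [e1, e2, e3]; exact H1.zero

lemma mkA_anti (f : X6 → ℝ) (s : Fin 2 → Fin 2) (p : X6) :
    mkA f (s ∘ (Equiv.swap (0 : Fin 2) 1)) p.swap = - mkA f s p := by
  have hs : ∀ s : Fin 2 → Fin 2, (s ∘ (Equiv.swap (0 : Fin 2) 1) = ![0, 1] ↔ s = ![1, 0]) ∧
      (s ∘ (Equiv.swap (0 : Fin 2) 1) = ![1, 0] ↔ s = ![0, 1]) := by decide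
  have h10 : ¬ (![1, 0] : Fin 2 → Fin 2) = ![0, 1] := by decide
  unfold mkA
  simp only [(hs s).1, (hs s).2]
  by_cases h1 : s = ![0, 1]
  · have h2 : ¬ s = ![1, 0] := by rw [h1]; exact fun h => h10 h.symm
    simp only [h1, if_true]
    rw [if_neg (fun h => h10 h.symm)]
    simp
  · by_cases h2 : s = ![1, 0]
    · simp only [h2, if_true]
      rw [if_neg h10]; simp
    · simp [h1, h2]

/-- Fermionic state with components `f(x,y)` and `-f(y,x)`. -/
def mkState (f : X6 → ℝ) (fx fy : Fin 3 → X6 → ℝ) (h : H1 f fx fy) : ElectronState 2 :=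
  realState (mkA f) (mkAx fx fy) (mkAy fx fy) (mk_H1 h)
    (fun s => by filter_upwards with p; exact mkA_anti f s p)

lemma sum_mk {α : Type*} [AddCommMonoid α] (F : (Fin 2 → Fin 2) → α)
    (h0 : ∀ s, s ≠ ![0, 1] → s ≠ ![1, 0] → F s = 0) : ∑ s, F s = F ![0, 1] + F ![1, 0] := by
  have h01 : (![0, 1] : Fin 2 → Fin 2) ≠ ![1, 0] := by decide
  exact Fintype.sum_eq_add _ _ h01 (fun s hs => h0 s hs.1 hs.2)

lemma normSq_mkState {f : X6 → ℝ} {fx fy : Fin 3 → X6 → ℝ} (h : H1 f fx fy) :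
    normSq (mkState f fx fy h) = 2 * ∫ p, f p ^ 2 := by
  unfold normSq
  have h10 : ¬ (![1, 0] : Fin 2 → Fin 2) = ![0, 1] := by decide
  rw [sum_mk]
  · rw [integral_fromX, integral_fromX]
    simp only [mkState, realState, toX_fromX, mkA, if_true, h10, if_false]
    have e1 : ∫ p : X6, ‖((f p : ℝ) : ℂ)‖ ^ 2 = ∫ p, f p ^ 2 := by
      congr 1; funext p
      simp
    have e2 : ∫ p : X6, ‖((- f p.swap : ℝ) : ℂ)‖ ^ 2 = ∫ p, f p ^ 2 := by
      rw [← mp_swap.integral_comp me_swap (fun p => f p ^ 2)]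
      congr 1; funext p
      simp
    rw [e1, e2]; ring
  · intro s h1 h2
    simp [mkState, realState, mkA, h1, h2]

lemma energy_mkState {f : X6 → ℝ} {fx fy : Fin 3 → X6 → ℝ} (h : H1 f fx fy)
    (w : (Fin 2 → R3) → ℝ) (W : X6 → ℝ) (hW : ∀ p, w (fromX p) = W p)
    (hsym : ∀ p, W p.swap = W p) :
    energy w (mkState f fx fy h) = 2 * Q W f fx fy := by
  unfold energy Q
  have h10 : ¬ (![1, 0] : Fin 2 → Fin 2) = ![0, 1] := by decide
  have key : ∀ F : X6 → ℝ, ∫ p : X6, ‖((- F p.swap : ℝ) : ℂ)‖ ^ 2 = ∫ p, F p ^ 2 := by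
    intro F
    rw [← mp_swap.integral_comp me_swap (fun p => F p ^ 2)]
    congr 1; funext p
    simp
  have key2 : ∀ F : X6 → ℝ, ∫ p : X6, ‖((F p : ℝ) : ℂ)‖ ^ 2 = ∫ p, F p ^ 2 := by
    intro F
    congr 1; funext p
    simp
  rw [sum_mk, sum_mk]
  · have e1 : ∑ i, ∑ k, ∫ x, ‖(mkState f fx fy h).grad ![0, 1] i k x‖ ^ 2 =
        ∑ k, ((∫ p, fx k p ^ 2) + (∫ p, fy k p ^ 2)) := by
      rw [Fin.sum_univ_two, ← Finset.sum_add_distrib]
      apply Finset.sum_congr rfl
      intro k _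
      rw [integral_fromX, integral_fromX]
      simp only [mkState, realState, toX_fromX, mkAx, mkAy, if_true]
      simp only [Fin.isValue, one_ne_zero, if_false]
      rw [key2, key2]
    have e2 : ∑ i, ∑ k, ∫ x, ‖(mkState f fx fy h).grad ![1, 0] i k x‖ ^ 2 =
        ∑ k, ((∫ p, fx k p ^ 2) + (∫ p, fy k p ^ 2)) := by
      rw [Fin.sum_univ_two, ← Finset.sum_add_distrib]
      apply Finset.sum_congr rfl
      intro k _
      rw [integral_fromX, integral_fromX]
      simp only [mkState, realState, toX_fromX, mkAx, mkAy, if_true, h10, if_false]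
      simp only [Fin.isValue, one_ne_zero, if_false]
      rw [key, key]; ring
    have e3 : ∫ x, w x * ‖(mkState f fx fy h).amp ![0, 1] x‖ ^ 2 = ∫ p, W p * f p ^ 2 := by
      rw [integral_fromX]
      simp only [mkState, realState, toX_fromX, mkA, if_true, hW]
      congr 1; funext p; simp
    have e4 : ∫ x, w x * ‖(mkState f fx fy h).amp ![1, 0] x‖ ^ 2 = ∫ p, W p * f p ^ 2 := by
      rw [integral_fromX]
      simp only [mkState, realState, toX_fromX, mkA, if_true, hW, h10, if_false]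
      rw [← mp_swap.integral_comp me_swap (fun p => W p * f p ^ 2)]
      congr 1; funext p
      rw [hsym]; simp
    rw [e1, e2, e3, e4]; ring
  · intro s h1 h2
    simp [mkState, realState, mkA, h1, h2]
  · intro s h1 h2
    have : ∀ i k x, (mkState f fx fy h).grad s i k x = 0 := by
      intro i k x
      simp [mkState, realState, mkAx, mkAy, h1, h2]
    simp [this]

/-- The Coulomb potential in pair form. -/
lemma coulomb_fromX {M : ℕ} (Z : Fin M → ℕ) (R : Fin M → R3) (p : X6) :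
    coulombPotential Z R (fromX p) = pot Z R p := by
  unfold coulombPotential pot
  have h0 : (Finset.Ioi (0 : Fin 2)) = {1} := by decide
  have h1 : (Finset.Ioi (1 : Fin 2)) = ∅ := by decide
  rw [Fin.sum_univ_two, Fin.sum_univ_two, h0, h1]
  simp only [fromX, Fin.isValue, Matrix.cons_val_zero, Finset.sum_neg_distrib, Matrix.cons_val_one, Matrix.cons_val_fin_one, one_div, Finset.sum_singleton, Finset.sum_empty, add_zero]

lemma pot_swap {M : ℕ} (Z : Fin M → ℕ) (R : Fin M → R3) (p : X6) :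
    pot Z R p.swap = pot Z R p := by
  unfold pot
  simp only [Prod.fst_swap, Prod.snd_swap]
  rw [norm_sub_rev p.2 p.1]
  ring

end

end Vale.Agent.P363
end
end

section

section

namespace Vale.Agent.P363

open MeasureTheory Set Filter Topology
open scoped ENNReal ContDiff

set_option linter.unusedSectionVars false

noncomputable section

lemma hardy_mul1 (R : R3) {f h : X6 → ℝ} {fx fy hx hy : Fin 3 → X6 → ℝ} (hf : H1 f fx fy)
    (hh : H1 h hx hy) : Integrable (fun p : X6 => (1 / ‖p.1 - R‖) * (f p * h p)) := by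
  apply hardy_mul (a := fun p : X6 => p.1 - R) (e := dirX) (by fun_prop) _ hf.memLp hf.memLpx
    hf.aclx hh.memLp hh.memLpx hh.aclx
  intro x k t
  simp only [dirX, Prod.fst_add, Prod.smul_fst]
  abel

lemma hardy_mul2 (R : R3) {f h : X6 → ℝ} {fx fy hx hy : Fin 3 → X6 → ℝ} (hf : H1 f fx fy)
    (hh : H1 h hx hy) : Integrable (fun p : X6 => (1 / ‖p.2 - R‖) * (f p * h p)) := by
  apply hardy_mul (a := fun p : X6 => p.2 - R) (e := dirY) (by fun_prop) _ hf.memLp hf.memLpy
    hf.acly hh.memLp hh.memLpy hh.acly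
  intro x k t
  simp only [dirY, Prod.snd_add, Prod.smul_snd]
  abel

lemma hardy_mul3 {f h : X6 → ℝ} {fx fy hx hy : Fin 3 → X6 → ℝ} (hf : H1 f fx fy)
    (hh : H1 h hx hy) : Integrable (fun p : X6 => (1 / ‖p.1 - p.2‖) * (f p * h p)) := by
  apply hardy_mul (a := fun p : X6 => p.1 - p.2) (e := dirX) (by fun_prop) _ hf.memLp hf.memLpx
    hf.aclx hh.memLp hh.memLpx hh.aclx
  intro x k t
  simp only [dirX, Prod.fst_add, Prod.smul_fst, Prod.snd_add, Prod.smul_snd, smul_zero, add_zero]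
  abel

lemma integrable_pot_mul {M : ℕ} (Z : Fin M → ℕ) (R : Fin M → R3) {f h : X6 → ℝ}
    {fx fy hx hy : Fin 3 → X6 → ℝ} (hf : H1 f fx fy) (hh : H1 h hx hy) :
    Integrable (fun p : X6 => pot Z R p * (f p * h p)) := by
  have h1 : Integrable (fun p : X6 => ∑ j, -(Z j : ℝ) * ((1 / ‖p.1 - R j‖) * (f p * h p))) :=
    integrable_finsetSum _ (fun j _ => (hardy_mul1 (R j) hf hh).const_mul _)
  have h2 : Integrable (fun p : X6 => ∑ j, -(Z j : ℝ) * ((1 / ‖p.2 - R j‖) * (f p * h p))) :=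
    integrable_finsetSum _ (fun j _ => (hardy_mul2 (R j) hf hh).const_mul _)
  refine ((h1.add h2).add (hardy_mul3 hf hh)).congr ?_
  filter_upwards with p
  simp only [Pi.add_apply, pot]
  rw [add_mul, add_mul, Finset.sum_mul, Finset.sum_mul]
  congr 2
  · apply Finset.sum_congr rfl
    intro j _
    ring
  · apply Finset.sum_congr rfl
    intro j _
    ring

lemma integrable_pot_sq {M : ℕ} (Z : Fin M → ℕ) (R : Fin M → R3) {f : X6 → ℝ}
    {fx fy : Fin 3 → X6 → ℝ} (hf : H1 f fx fy) :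
    Integrable (fun p : X6 => pot Z R p * f p ^ 2) := by
  have := integrable_pot_mul Z R hf hf
  simpa only [sq] using this

lemma Q_const_mul (w : X6 → ℝ) (f : X6 → ℝ) (fx fy : Fin 3 → X6 → ℝ) (c : ℝ) :
    Q w (fun p => c * f p) (fun k p => c * fx k p) (fun k p => c * fy k p) =
      c ^ 2 * Q w f fx fy := by
  unfold Q
  have e1 : ∀ F : X6 → ℝ, ∫ p, (c * F p) ^ 2 = c ^ 2 * ∫ p, F p ^ 2 := by
    intro F
    rw [← integral_const_mul]
    congr 1; funext p; ring
  have e2 : ∫ p, w p * (c * f p) ^ 2 = c ^ 2 * ∫ p, w p * f p ^ 2 := by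
    rw [← integral_const_mul]
    congr 1; funext p; ring
  simp only [e1, e2]
  simp only [Finset.sum_add_distrib, ← Finset.mul_sum]
  ring

/-- The ground state energy bounds the form from below on all real `H¹` functions. -/
lemma Q_lower {Ψ : ElectronState 2} {w : (Fin 2 → R3) → ℝ} {W : X6 → ℝ}
    (hW : ∀ p, w (fromX p) = W p) (hsym : ∀ p, W p.swap = W p) (hΨ : IsGroundState w Ψ)
    {f : X6 → ℝ} {fx fy : Fin 3 → X6 → ℝ} (hf : H1 f fx fy) :
    energy w Ψ * ∫ p, f p ^ 2 ≤ Q W f fx fy := by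
  set c := ∫ p, f p ^ 2 with hc
  have hc0 : 0 ≤ c := integral_nonneg (fun p => sq_nonneg _)
  rcases hc0.eq_or_lt with h0 | hpos
  · have hf0 : f =ᵐ[volume] 0 := by
      have h1 : (fun p => f p ^ 2) =ᵐ[volume] 0 :=
        (integral_eq_zero_iff_of_nonneg (fun p => sq_nonneg _) hf.memLp.integrable_sq).mp h0.symm
      filter_upwards [h1] with p hp
      simpa using hp
    have h2 : ∫ p, W p * f p ^ 2 = 0 := by
      have : (fun p => W p * f p ^ 2) =ᵐ[volume] 0 := by
        filter_upwards [hf0] with p hp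
        simp [hp]
      rw [integral_congr_ae this]; simp
    rw [← h0, mul_zero]
    unfold Q
    rw [h2, add_zero]
    apply mul_nonneg (by norm_num)
    apply Finset.sum_nonneg
    intro k _
    exact add_nonneg (integral_nonneg (fun p => sq_nonneg _))
      (integral_nonneg (fun p => sq_nonneg _))
  · set l : ℝ := (√(2 * c))⁻¹ with hl
    have hl2 : l ^ 2 = (2 * c)⁻¹ := by
      rw [hl, inv_pow, Real.sq_sqrt (by positivity)]
    have hf' := hf.const_mul l
    have hn : normSq (mkState _ _ _ hf') = 1 := by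
      rw [normSq_mkState]
      have : ∫ p, (l * f p) ^ 2 = l ^ 2 * c := by
        rw [hc, ← integral_const_mul]
        congr 1; funext p; ring
      rw [this, hl2]
      field_simp
    have h1 := hΨ.2 _ hn
    rw [energy_mkState hf' w W hW hsym, Q_const_mul, hl2] at h1
    have h2 : 2 * ((2 * c)⁻¹ * Q W f fx fy) = Q W f fx fy / c := by
      (clear * - hpos; field_simp)
    rw [h2, le_div_iff₀ hpos] at h1
    exact h1

/-- The associated bilinear form. -/
def B (w : X6 → ℝ) (f h : X6 → ℝ) (fx fy hx hy : Fin 3 → X6 → ℝ) : ℝ :=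
  (1 / 2) * (∑ k, ∫ p, (fx k p * hx k p + fy k p * hy k p)) + ∫ p, w p * (f p * h p)

lemma Q_add {w : X6 → ℝ} {f h : X6 → ℝ} {fx fy hx hy : Fin 3 → X6 → ℝ}
    (hf : H1 f fx fy) (hh : H1 h hx hy)
    (hi1 : Integrable (fun p => w p * (f p * f p))) (hi2 : Integrable (fun p => w p * (f p * h p)))
    (hi3 : Integrable (fun p => w p * (h p * h p))) (t : ℝ) :
    Q w (fun p => f p + t * h p) (fun k p => fx k p + t * hx k p)
      (fun k p => fy k p + t * hy k p) =
      Q w f fx fy + 2 * t * B w f h fx fy hx hy + t ^ 2 * Q w h hx hy := by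
  unfold Q B
  have e1 : ∀ {F G : X6 → ℝ}, MemLp F 2 (volume : Measure X6) → MemLp G 2 (volume : Measure X6) →
      ∫ p, (F p + t * G p) ^ 2 = (∫ p, F p ^ 2) + 2 * t * (∫ p, F p * G p) +
        t ^ 2 * ∫ p, G p ^ 2 := by
    intro F G hF hG
    have i1 := hF.integrable_sq
    have i2 : Integrable (fun p => F p * G p) := hF.integrable_mul hG
    have i3 := hG.integrable_sq
    have j12 : Integrable (fun p => F p ^ 2 + 2 * t * (F p * G p)) := i1.add (i2.const_mul _)
    rw [← integral_const_mul, ← integral_const_mul, ← integral_add i1 (i2.const_mul _),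
      ← integral_add j12 (i3.const_mul _)]
    congr 1; funext p; ring
  have e2 : ∫ p, w p * (f p + t * h p) ^ 2 = (∫ p, w p * f p ^ 2) +
      2 * t * (∫ p, w p * (f p * h p)) + t ^ 2 * ∫ p, w p * h p ^ 2 := by
    have i1 : Integrable (fun p => w p * f p ^ 2) := by simpa only [sq] using hi1
    have i3 : Integrable (fun p => w p * h p ^ 2) := by simpa [sq] using hi3
    have j12 : Integrable (fun p => w p * f p ^ 2 + 2 * t * (w p * (f p * h p))) :=
      i1.add (hi2.const_mul _)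
    rw [← integral_const_mul, ← integral_const_mul, ← integral_add i1 (hi2.const_mul _),
      ← integral_add j12 (i3.const_mul _)]
    congr 1; funext p; ring
  have e3 : ∀ k, ∫ p, (fx k p * hx k p + fy k p * hy k p) = (∫ p, fx k p * hx k p) +
      ∫ p, fy k p * hy k p := fun k =>
    integral_add ((hf.memLpx k).integrable_mul (hh.memLpx k))
      ((hf.memLpy k).integrable_mul (hh.memLpy k))
  rw [e2]
  simp only [e1 (hf.memLpx _) (hh.memLpx _), e1 (hf.memLpy _) (hh.memLpy _), e3]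
  simp only [Finset.sum_add_distrib, ← Finset.mul_sum]
  ring

/-- A minimizer satisfies the weak equation. -/
lemma B_eq_zero {w : X6 → ℝ} {f h : X6 → ℝ} {fx fy hx hy : Fin 3 → X6 → ℝ}
    (hf : H1 f fx fy) (hh : H1 h hx hy)
    (hi1 : Integrable (fun p => w p * (f p * f p))) (hi2 : Integrable (fun p => w p * (f p * h p)))
    (hi3 : Integrable (fun p => w p * (h p * h p)))
    (hmin : Q w f fx fy = 0)
    (hpos : ∀ t : ℝ, 0 ≤ Q w (fun p => f p + t * h p) (fun k p => fx k p + t * hx k p)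
      (fun k p => fy k p + t * hy k p)) : B w f h fx fy hx hy = 0 := by
  have h1 : ∀ t : ℝ, 0 ≤ 2 * t * B w f h fx fy hx hy + t ^ 2 * Q w h hx hy := by
    intro t
    have := hpos t
    rw [Q_add hf hh hi1 hi2 hi3 t, hmin] at this
    linarith
  set b := B w f h fx fy hx hy
  set A := Q w h hx hy
  by_contra hb
  -- choose a small step of the right sign
  have hA : 0 < |A| + 1 := by positivity
  have h2 := h1 (-b / (|A| + 1))
  have h3 : (-b / (|A| + 1)) ^ 2 * A ≤ (b ^ 2 / (|A| + 1) ^ 2) * |A| := by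
    rw [div_pow, neg_sq]
    apply mul_le_mul_of_nonneg_left (le_abs_self A) (by (clear * - hb; positivity))
  have h4 : (b ^ 2 / (|A| + 1) ^ 2) * |A| < b ^ 2 / (|A| + 1) := by
    have : 0 < b ^ 2 := by positivity
    rw [div_mul_eq_mul_div, div_lt_div_iff₀ (by positivity) (by (clear * -; positivity))]
    linarith only [mul_nonneg (le_of_lt (sub_pos.2 this)) (sub_nonneg.2 (abs_nonneg A)), this]
  have h5 : 2 * (-b / (|A| + 1)) * b = - 2 * (b ^ 2 / (|A| + 1)) := by ring
  have h6 : 0 < b ^ 2 / (|A| + 1) := by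
    have : 0 < b ^ 2 := by positivity
    (clear * - hb; positivity)
  rw [h5] at h2
  linarith only [h6, h4, h3, h2]

end

end Vale.Agent.P363
end
end

section

section

namespace Vale.Agent.P363

open MeasureTheory Set Filter Topology
open scoped ENNReal ContDiff

set_option linter.unusedSectionVars false

noncomputable section

lemma Q_shift {W : X6 → ℝ} (E : ℝ) {f : X6 → ℝ} {fx fy : Fin 3 → X6 → ℝ} (hf : H1 f fx fy)
    (hi : Integrable (fun p => W p * f p ^ 2)) :
    Q (fun p => W p - E) f fx fy = Q W f fx fy - E * ∫ p, f p ^ 2 := by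
  unfold Q
  have : ∫ p, (W p - E) * f p ^ 2 = (∫ p, W p * f p ^ 2) - E * ∫ p, f p ^ 2 := by
    rw [← integral_const_mul, ← integral_sub hi (hf.memLp.integrable_sq.const_mul E)]
    congr 1; funext p; ring
  rw [this]; ring

lemma Q_shift_pot {M : ℕ} (Z : Fin M → ℕ) (R : Fin M → R3) (E : ℝ) {f : X6 → ℝ}
    {fx fy : Fin 3 → X6 → ℝ} (hf : H1 f fx fy) :
    Q (fun p => pot Z R p - E) f fx fy = Q (pot Z R) f fx fy - E * ∫ p, f p ^ 2 :=
  Q_shift E hf (integrable_pot_sq Z R hf)

section ground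

variable {M : ℕ} {Z : Fin M → ℕ} {R : Fin M → R3} {Ψ : ElectronState 2}

lemma Q_nonneg (hΨ : IsGroundState (coulombPotential Z R) Ψ)
    {f : X6 → ℝ} {fx fy : Fin 3 → X6 → ℝ} (hf : H1 f fx fy) :
    0 ≤ Q (fun p => pot Z R p - energy (coulombPotential Z R) Ψ) f fx fy := by
  rw [Q_shift_pot Z R _ hf]
  have := Q_lower (coulomb_fromX Z R) (pot_swap Z R) hΨ hf
  linarith

lemma Q_comp_eq_zero (hΨ : IsGroundState (coulombPotential Z R) Ψ) (i) :
    Q (fun p => pot Z R p - energy (coulombPotential Z R) Ψ) (comp Ψ i) (compx Ψ i)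
      (compy Ψ i) = 0 := by
  have hsum : ∑ i, Q (fun p => pot Z R p - energy (coulombPotential Z R) Ψ) (comp Ψ i)
      (compx Ψ i) (compy Ψ i) = 0 := by
    have h1 := energy_eq_sum Ψ (coulombPotential Z R) (pot Z R) (coulomb_fromX Z R)
      (fun i => integrable_pot_sq Z R (comp_H1 Ψ i))
    have h2 := normSq_eq_sum Ψ
    rw [hΨ.1] at h2
    simp only [Q_shift_pot Z R _ (comp_H1 Ψ _)]
    rw [Finset.sum_sub_distrib, ← h1, ← Finset.mul_sum, ← h2]
    ring
  have h0 : ∀ i ∈ Finset.univ, 0 ≤ Q (fun p => pot Z R p - energy (coulombPotential Z R) Ψ)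
      (comp Ψ i) (compx Ψ i) (compy Ψ i) := fun i _ => Q_nonneg hΨ (comp_H1 Ψ i)
  exact (Finset.sum_eq_zero_iff_of_nonneg h0).mp hsum i (Finset.mem_univ i)

lemma weakSol_of_Q_zero (hΨ : IsGroundState (coulombPotential Z R) Ψ)
    {f : X6 → ℝ} {fx fy : Fin 3 → X6 → ℝ} (hf : H1 f fx fy)
    (h0 : Q (fun p => pot Z R p - energy (coulombPotential Z R) Ψ) f fx fy = 0) :
    WeakSol Z R (energy (coulombPotential Z R) Ψ) f fx fy := by
  intro h hx hy hh
  set E := energy (coulombPotential Z R) Ψ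
  have hint : ∀ {a b : X6 → ℝ} {ax ay bx by' : Fin 3 → X6 → ℝ}, H1 a ax ay → H1 b bx by' →
      Integrable (fun p => (pot Z R p - E) * (a p * b p)) := by
    intro a b ax ay bx by' ha hb
    have i1 := integrable_pot_mul Z R ha hb
    have i2 : Integrable (fun p => a p * b p) := ha.memLp.integrable_mul hb.memLp
    refine (i1.sub (i2.const_mul E)).congr ?_
    filter_upwards with p
    simp only [Pi.sub_apply]; ring
  have := B_eq_zero (w := fun p => pot Z R p - E) hf hh (hint hf hf) (hint hf hh) (hint hh hh) h0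
    (fun t => Q_nonneg hΨ (hf.add (hh.const_mul t)))
  unfold B at this
  rw [← this]
  congr 1
  congr 1
  funext p; ring

lemma comp_weakSol (hΨ : IsGroundState (coulombPotential Z R) Ψ) (i) :
    WeakSol Z R (energy (coulombPotential Z R) Ψ) (comp Ψ i) (compx Ψ i) (compy Ψ i) :=
  weakSol_of_Q_zero hΨ (comp_H1 Ψ i) (Q_comp_eq_zero hΨ i)

end ground

/-- Pointwise Euclidean norm of the state. -/
def amplitude (Ψ : ElectronState 2) (p : X6) : ℝ := √(∑ i, comp Ψ i p ^ 2)

def amplitudex (Ψ : ElectronState 2) (k : Fin 3) (p : X6) : ℝ :=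
  (∑ i, comp Ψ i p * compx Ψ i k p) / amplitude Ψ p

def amplitudey (Ψ : ElectronState 2) (k : Fin 3) (p : X6) : ℝ :=
  (∑ i, comp Ψ i p * compy Ψ i k p) / amplitude Ψ p

lemma cs_bound {ι : Type*} [Fintype ι] (a b : ι → ℝ) :
    |∑ i, a i * b i| ≤ √(∑ i, a i ^ 2) * √(∑ i, b i ^ 2) := by
  rw [← Real.sqrt_mul (Finset.sum_nonneg (fun i _ => sq_nonneg _))]
  apply Real.abs_le_sqrt
  exact Finset.sum_mul_sq_le_sq_mul_sq Finset.univ a b

lemma quot_sq_le {ι : Type*} [Fintype ι] (a b : ι → ℝ) :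
    ((∑ i, a i * b i) / √(∑ i, a i ^ 2)) ^ 2 ≤ ∑ i, b i ^ 2 := by
  have h1 := Finset.sum_mul_sq_le_sq_mul_sq Finset.univ a b
  have h2 : 0 ≤ ∑ i, a i ^ 2 := Finset.sum_nonneg (fun i _ => sq_nonneg _)
  have h3 : 0 ≤ ∑ i, b i ^ 2 := Finset.sum_nonneg (fun i _ => sq_nonneg _)
  rw [div_pow, Real.sq_sqrt h2]
  rcases h2.eq_or_lt with h | h
  · rw [← h]; simpa only [div_zero, ge_iff_le] using h3
  · rw [div_le_iff₀ h]; linarith

lemma sum_sq_le {ι : Type*} [Fintype ι] (a : ι → ℝ) : ∑ i, a i ^ 2 ≤ (∑ i, |a i|) ^ 2 := by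
  have h1 : ∀ i, a i ^ 2 ≤ |a i| * ∑ j, |a j| := by
    intro i
    rw [← sq_abs, sq]
    exact mul_le_mul_of_nonneg_left
      (Finset.single_le_sum (fun j _ => abs_nonneg (a j)) (Finset.mem_univ i)) (abs_nonneg _)
  calc ∑ i, a i ^ 2 ≤ ∑ i, |a i| * ∑ j, |a j| := Finset.sum_le_sum (fun i _ => h1 i)
    _ = (∑ i, |a i|) ^ 2 := by rw [← Finset.sum_mul]; ring

lemma sqrt_sum_sq_le {ι : Type*} [Fintype ι] (a : ι → ℝ) : √(∑ i, a i ^ 2) ≤ ∑ i, |a i| := by
  rw [Real.sqrt_le_left (Finset.sum_nonneg (fun i _ => abs_nonneg _))]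
  exact sum_sq_le a

lemma ACL.euclid {X : Type*} [NormedAddCommGroup X] [NormedSpace ℝ X] [FiniteDimensional ℝ X]
    [MeasurableSpace X] [BorelSpace X] {μ : Measure X} [μ.IsAddHaarMeasure]
    {ι : Type*} [Fintype ι] {e : X} {f f' : ι → X → ℝ}
    (hL : ∀ i, LocallyIntegrable (f' i) μ) (hd : ∀ i, ACL μ e (f i) (f' i)) :
    ACL μ e (fun p => √(∑ i, f i p ^ 2)) (fun p => (∑ i, f i p * f' i p) / √(∑ i, f i p ^ 2)) := by
  have h1 : ACL μ e (fun p => ∑ i, f i p * f i p)
      (fun p => ∑ i, (f' i p * f i p + f i p * f' i p)) :=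
    ACL.sum Finset.univ (fun i _ => (hd i).mul (hd i))
  have e1 : ∀ p, ∑ i, (f' i p * f i p + f i p * f' i p) = 2 * ∑ i, f i p * f' i p := by
    intro p
    rw [Finset.mul_sum]
    apply Finset.sum_congr rfl
    intro i _; ring
  have e4 : ∀ p, ∑ i, f i p * f i p = ∑ i, f i p ^ 2 := by
    intro p
    apply Finset.sum_congr rfl; intro i _; ring
  simp only [e1, e4] at h1
  have hκ : LocallyIntegrable (fun p => ∑ i, |f' i p|) μ := by
    apply locallyIntegrable_finsetSum
    intro i _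
    exact fun x => (hL i x).norm
  have hA : ∀ᵐ p ∂μ, 0 ≤ ∑ i, f i p ^ 2 := by
    filter_upwards with p; exact Finset.sum_nonneg (fun i _ => sq_nonneg _)
  have hB := locInt_line e hκ
  have hC : ∀ᵐ p ∂μ, |2 * ∑ i, f i p * f' i p| ≤ 2 * √(∑ i, f i p ^ 2) * ∑ i, |f' i p| := by
    filter_upwards with p
    rw [abs_mul, abs_two, mul_assoc]
    have e2 := cs_bound (fun i => f i p) (fun i => f' i p)
    have e3 := sqrt_sum_sq_le (fun i => f' i p)
    have e5 : 0 ≤ √(∑ i, f i p ^ 2) := Real.sqrt_nonneg _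
    have e6 := mul_le_mul_of_nonneg_left e3 e5
    have e7 := e2.trans e6
    linarith
  have h2 := ACL.sqrt (κ := fun p => ∑ i, |f' i p|) h1 hA hB hC
  refine ACL.congr h2 (ae_eq_refl _) ?_
  filter_upwards with p
  rw [mul_div_mul_left _ _ (by norm_num : (2:ℝ) ≠ 0)]

lemma acl_amplitude {e : X6} (Ψ : ElectronState 2)
    {d : (Fin 2 → Fin 2) × Bool → X6 → ℝ} (hL : ∀ i, MemLp (d i) 2 (volume : Measure X6))
    (hd : ∀ i, ACL volume e (comp Ψ i) (d i)) :
    ACL volume e (amplitude Ψ) (fun p => (∑ i, comp Ψ i p * d i p) / amplitude Ψ p) := by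
  exact ACL.euclid (fun i => (hL i).locallyIntegrable (by norm_num)) hd

lemma memLp_quot (Ψ : ElectronState 2) {d : (Fin 2 → Fin 2) × Bool → X6 → ℝ}
    (hL : ∀ i, MemLp (d i) 2 (volume : Measure X6)) :
    MemLp (fun p => (∑ i, comp Ψ i p * d i p) / amplitude Ψ p) 2 (volume : Measure X6) := by
  have hm : AEStronglyMeasurable (fun p => (∑ i, comp Ψ i p * d i p) / amplitude Ψ p)
      (volume : Measure X6) := by
    apply AEStronglyMeasurable.div₀
    · apply Finset.aestronglyMeasurable_fun_sum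
      intro i _
      exact (comp_H1 Ψ i).memLp.1.mul (hL i).1
    · apply Real.continuous_sqrt.comp_aestronglyMeasurable
      apply Finset.aestronglyMeasurable_fun_sum
      intro i _
      exact (comp_H1 Ψ i).memLp.1.pow 2
  have hS : MemLp (fun p => ∑ i, |d i p|) 2 (volume : Measure X6) :=
    memLp_finsetSum _ (fun i _ => (hL i).abs)
  refine hS.mono hm ?_
  filter_upwards with p
  have h1 := quot_sq_le (fun i => comp Ψ i p) (fun i => d i p)
  have h2 : ∑ i, d i p ^ 2 ≤ (∑ i, |d i p|) ^ 2 := sum_sq_le (fun i => d i p)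
  rw [Real.norm_eq_abs, Real.norm_eq_abs]
  exact sq_le_sq.mp (h1.trans h2)

lemma amplitude_H1 (Ψ : ElectronState 2) :
    H1 (amplitude Ψ) (amplitudex Ψ) (amplitudey Ψ) := by
  refine ⟨?_, ?_, ?_, ?_, ?_⟩
  · have hm : AEStronglyMeasurable (amplitude Ψ) (volume : Measure X6) := by
      apply Real.continuous_sqrt.comp_aestronglyMeasurable
      apply Finset.aestronglyMeasurable_fun_sum
      intro i _
      exact (comp_H1 Ψ i).memLp.1.pow 2
    have hS : MemLp (fun p => ∑ i, |comp Ψ i p|) 2 (volume : Measure X6) :=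
      memLp_finsetSum _ (fun i _ => (comp_H1 Ψ i).memLp.abs)
    refine hS.mono hm ?_
    filter_upwards with p
    unfold amplitude
    rw [Real.norm_eq_abs, Real.norm_eq_abs, abs_of_nonneg (Real.sqrt_nonneg _),
      abs_of_nonneg (Finset.sum_nonneg (fun i _ => abs_nonneg _))]
    exact sqrt_sum_sq_le (fun i => comp Ψ i p)
  · intro k; exact memLp_quot Ψ (fun i => (comp_H1 Ψ i).memLpx k)
  · intro k; exact memLp_quot Ψ (fun i => (comp_H1 Ψ i).memLpy k)
  · intro k
    exact acl_amplitude Ψ (fun i => (comp_H1 Ψ i).memLpx k) (fun i => (comp_H1 Ψ i).aclx k)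
  · intro k
    exact acl_amplitude Ψ (fun i => (comp_H1 Ψ i).memLpy k) (fun i => (comp_H1 Ψ i).acly k)

lemma amplitude_sq (Ψ : ElectronState 2) (p : X6) :
    amplitude Ψ p ^ 2 = ∑ i, comp Ψ i p ^ 2 :=
  Real.sq_sqrt (Finset.sum_nonneg (fun i _ => sq_nonneg _))

lemma integral_amplitude_sq (Ψ : ElectronState 2) :
    ∫ p, amplitude Ψ p ^ 2 = normSq Ψ := by
  rw [normSq_eq_sum, ← integral_finsetSum _ (fun i _ => (comp_H1 Ψ i).memLp.integrable_sq)]
  congr 1; funext p; exact amplitude_sq Ψ p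

lemma Q_amplitude_eq_zero {M : ℕ} {Z : Fin M → ℕ} {R : Fin M → R3} {Ψ : ElectronState 2}
    (hΨ : IsGroundState (coulombPotential Z R) Ψ) :
    Q (fun p => pot Z R p - energy (coulombPotential Z R) Ψ) (amplitude Ψ) (amplitudex Ψ)
      (amplitudey Ψ) = 0 := by
  apply le_antisymm _ (Q_nonneg hΨ (amplitude_H1 Ψ))
  have hsum : ∑ i, Q (fun p => pot Z R p - energy (coulombPotential Z R) Ψ) (comp Ψ i)
      (compx Ψ i) (compy Ψ i) = 0 := Finset.sum_eq_zero (fun i _ => Q_comp_eq_zero hΨ i)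
  rw [← hsum]
  unfold Q
  rw [Finset.sum_add_distrib]
  have hx : ∀ k, ∫ p, amplitudex Ψ k p ^ 2 ≤ ∑ i, ∫ p, compx Ψ i k p ^ 2 := by
    intro k
    rw [← integral_finsetSum _ (fun i _ => ((comp_H1 Ψ i).memLpx k).integrable_sq)]
    apply integral_mono (((amplitude_H1 Ψ).memLpx k).integrable_sq)
      (integrable_finsetSum _ (fun i _ => ((comp_H1 Ψ i).memLpx k).integrable_sq))
    intro p
    exact quot_sq_le (fun i => comp Ψ i p) (fun i => compx Ψ i k p)
  have hy : ∀ k, ∫ p, amplitudey Ψ k p ^ 2 ≤ ∑ i, ∫ p, compy Ψ i k p ^ 2 := by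
    intro k
    rw [← integral_finsetSum _ (fun i _ => ((comp_H1 Ψ i).memLpy k).integrable_sq)]
    apply integral_mono (((amplitude_H1 Ψ).memLpy k).integrable_sq)
      (integrable_finsetSum _ (fun i _ => ((comp_H1 Ψ i).memLpy k).integrable_sq))
    intro p
    exact quot_sq_le (fun i => comp Ψ i p) (fun i => compy Ψ i k p)
  have hw : ∫ p, (pot Z R p - energy (coulombPotential Z R) Ψ) * amplitude Ψ p ^ 2 =
      ∑ i, ∫ p, (pot Z R p - energy (coulombPotential Z R) Ψ) * comp Ψ i p ^ 2 := by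
    have hint : ∀ i, Integrable (fun p => (pot Z R p - energy (coulombPotential Z R) Ψ) *
        comp Ψ i p ^ 2) := by
      intro i
      have i1 := integrable_pot_sq Z R (comp_H1 Ψ i)
      have i2 := (comp_H1 Ψ i).memLp.integrable_sq
      refine (i1.sub (i2.const_mul (energy (coulombPotential Z R) Ψ))).congr ?_
      filter_upwards with p
      simp only [Pi.sub_apply]; ring
    rw [← integral_finsetSum _ (fun i _ => hint i)]
    congr 1; funext p
    rw [amplitude_sq, Finset.mul_sum]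
  rw [hw, Finset.sum_add_distrib, ← Finset.mul_sum, ← Finset.sum_add_distrib]
  apply add_le_add _ le_rfl
  apply mul_le_mul_of_nonneg_left _ (by norm_num)
  rw [Finset.sum_comm]
  apply Finset.sum_le_sum
  intro k _
  rw [Finset.sum_add_distrib]
  exact add_le_add (hx k) (hy k)

lemma amplitude_weakSol {M : ℕ} {Z : Fin M → ℕ} {R : Fin M → R3} {Ψ : ElectronState 2}
    (hΨ : IsGroundState (coulombPotential Z R) Ψ) :
    WeakSol Z R (energy (coulombPotential Z R) Ψ) (amplitude Ψ) (amplitudex Ψ)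
      (amplitudey Ψ) :=
  weakSol_of_Q_zero hΨ (amplitude_H1 Ψ) (Q_amplitude_eq_zero hΨ)

lemma amplitude_ne_zero {w : (Fin 2 → R3) → ℝ} {Ψ : ElectronState 2}
    (hΨ : IsGroundState w Ψ) : ¬ (amplitude Ψ =ᵐ[volume] 0) := by
  intro h
  have h1 := integral_amplitude_sq Ψ
  rw [hΨ.1] at h1
  have : (fun p => amplitude Ψ p ^ 2) =ᵐ[volume] 0 := by
    filter_upwards [h] with p hp
    simp [hp]
  rw [integral_congr_ae this] at h1
  simp at h1

end

end Vale.Agent.P363
end
end

section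

section

namespace Vale.Agent.P363

open MeasureTheory Set Filter Topology
open scoped ENNReal ContDiff

set_option linter.unusedSectionVars false

noncomputable section

lemma finrank_R3 : Module.finrank ℝ R3 = 3 := by simp

/-- `|x|^{-a}` is integrable on balls for `a < 3`. -/
lemma integrableOn_norm_rpow {a : ℝ} (ha : a < 3) (r : ℝ) :
    IntegrableOn (fun x : R3 => ‖x‖ ^ (-a)) (Metric.ball 0 r) volume := by
  rcases le_or_gt r 0 with hr | hr
  · rw [Metric.ball_eq_empty.mpr hr]; exact integrableOn_empty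
  rw [integrableOn_fun_norm_addHaar (volume : Measure R3) (f := fun y => y ^ (-a))]
  rw [finrank_R3]
  have h1 : IntegrableOn (fun y : ℝ => y ^ (2 - a)) (Ioo 0 r) := by
    have := (intervalIntegral.intervalIntegrable_rpow' (a := 0) (b := r) (r := 2 - a)
      (by linarith))
    rw [intervalIntegrable_iff_integrableOn_Ioo_of_le hr.le] at this
    exact this
  refine h1.congr_fun ?_ measurableSet_Ioo
  intro y hy
  simp only [smul_eq_mul]
  rw [sub_eq_add_neg, Real.rpow_add hy.1]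
  norm_num

/-- The singular part of `1/|x - z|` near `z`. -/
def sing (z : R3) (x : R3) : ℝ := (Metric.ball z 1).indicator (fun x => 1 / ‖x - z‖) x

lemma sing_nonneg (z x : R3) : 0 ≤ sing z x := by
  unfold sing
  apply indicator_nonneg
  intro x _
  positivity

lemma inv_le_one_add_sing (z x : R3) : 1 / ‖x - z‖ ≤ 1 + sing z x := by
  unfold sing
  by_cases h : x ∈ Metric.ball z 1
  · rw [indicator_of_mem h]; linarith
  · rw [indicator_of_notMem h, add_zero]
    rw [Metric.mem_ball, dist_eq_norm, not_lt] at h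
    rw [div_le_one (by linarith)]; exact h

lemma measurable_sing (z : R3) : Measurable (sing z) := by
  apply Measurable.indicator _ Metric.isOpen_ball.measurableSet
  fun_prop

lemma sing_shift (z x : R3) : sing z x = sing 0 (x - z) := by
  unfold sing
  by_cases h : x ∈ Metric.ball z 1
  · have h2 : x - z ∈ Metric.ball (0 : R3) 1 := by
      rw [mem_ball_zero_iff]; rwa [Metric.mem_ball, dist_eq_norm] at h
    rw [indicator_of_mem h, indicator_of_mem h2]; simp
  · have h2 : x - z ∉ Metric.ball (0 : R3) 1 := by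
      rw [mem_ball_zero_iff]; rwa [Metric.mem_ball, dist_eq_norm] at h
    rw [indicator_of_notMem h, indicator_of_notMem h2]

lemma integrable_sing (z : R3) : Integrable (sing z) := by
  have h0 : Integrable (sing 0) := by
    unfold sing
    rw [integrable_indicator_iff Metric.isOpen_ball.measurableSet]
    refine (integrableOn_norm_rpow (a := 1) (by norm_num) 1).congr_fun ?_
      Metric.isOpen_ball.measurableSet
    intro x _
    simp [Real.rpow_neg_one]
  have := h0.comp_sub_right z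
  refine this.congr ?_
  filter_upwards with x
  rw [sing_shift z x]

/-- The total mass of the singular part. -/
def singMass : ℝ := ∫ x, sing 0 x

lemma integral_sing (z : R3) : ∫ x, sing z x = singMass := by
  unfold singMass
  simp_rw [sing_shift z]
  exact integral_sub_right_eq_self (fun x => sing 0 x) z

lemma singMass_nonneg : 0 ≤ singMass := integral_nonneg (fun x => sing_nonneg 0 x)

lemma memLp_sing (z : R3) : MemLp (sing z) (3 / 2) volume := by
  have hm : AEStronglyMeasurable (sing z) volume := (measurable_sing z).aestronglyMeasurable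
  have h32 : (3 / 2 : ℝ≥0∞).toReal = 3 / 2 := by
    rw [ENNReal.toReal_div]; simp
  have hne : (3 / 2 : ℝ≥0∞) ≠ 0 := by
    simp
  have hnt : (3 / 2 : ℝ≥0∞) ≠ ⊤ := by
    apply ENNReal.div_ne_top <;> simp
  rw [← integrable_norm_rpow_iff hm hne hnt, h32]
  have h0 : Integrable (fun x => (Metric.ball (0:R3) 1).indicator
      (fun x : R3 => ‖x‖ ^ (-(3/2) : ℝ)) x) := by
    rw [integrable_indicator_iff Metric.isOpen_ball.measurableSet]
    exact integrableOn_norm_rpow (a := 3/2) (by norm_num) 1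
  have h1 := h0.comp_sub_right z
  refine h1.congr ?_
  filter_upwards with x
  rw [sing_shift z x]
  unfold sing
  by_cases h : x - z ∈ Metric.ball (0:R3) 1
  · rw [indicator_of_mem h, indicator_of_mem h]
    rw [sub_zero, Real.norm_of_nonneg (by positivity), one_div, Real.inv_rpow (norm_nonneg _),
      Real.rpow_neg (norm_nonneg _)]
  · rw [indicator_of_notMem h, indicator_of_notMem h]
    simp only [norm_zero]
    rw [Real.zero_rpow (by norm_num)]

/-- Coulomb weight. -/
def Kw {M : ℕ} (R : Fin M → R3) (x : R3) : ℝ := 1 + ∑ j, 1 / ‖x - R j‖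

lemma Kw_pos {M : ℕ} (R : Fin M → R3) (x : R3) : 1 ≤ Kw R x := by
  unfold Kw
  have : 0 ≤ ∑ j, 1 / ‖x - R j‖ := Finset.sum_nonneg (fun j _ => by positivity)
  linarith

lemma memLp_half (S : Set R3) (hS : MeasurableSet S) (hf : volume S < ⊤) (c : ℝ) :
    MemLp (S.indicator (fun _ => c)) (3 / 2) volume :=
  memLp_indicator_const _ hS c (Or.inr hf.ne)

/-- A measurable function bounded by the Coulomb weight is in `L^{3/2} + L^∞`. -/
lemma memV_of_bound {M : ℕ} (R : Fin M → R3) {v : R3 → ℝ} (hv : AEStronglyMeasurable v volume)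
    {C : ℝ} (hb : ∀ᵐ x, |v x| ≤ C * Kw R x) : MemV v := by
  have hC : 0 ≤ C := by
    obtain ⟨x, hx⟩ := hb.exists
    by_contra hneg
    have h1 := Kw_pos R x
    have h2 : C * Kw R x < 0 := by nlinarith
    linarith [abs_nonneg (v x)]
  set S : Set R3 := ⋃ j, Metric.ball (R j) 1 with hS
  have hSm : MeasurableSet S := MeasurableSet.iUnion (fun j => Metric.isOpen_ball.measurableSet)
  have hSf : volume S < ⊤ := by
    refine (measure_iUnion_le _).trans_lt ?_
    rw [tsum_fintype]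
    exact ENNReal.sum_lt_top.mpr (fun j _ => measure_ball_lt_top)
  refine ⟨S.indicator v, Sᶜ.indicator v, ?_, ?_, ?_⟩
  · have hdom : MemLp (fun x => S.indicator (fun _ => C * (1 + M)) x + ∑ j, C * sing (R j) x)
        (3 / 2) volume := by
      apply MemLp.add (memLp_half S hSm hSf _)
      exact memLp_finsetSum _ (fun j _ => (memLp_sing (R j)).const_mul C)
    refine hdom.mono (hv.indicator hSm) ?_
    filter_upwards [hb] with x hx
    have hnn : 0 ≤ S.indicator (fun _ => C * (1 + M)) x + ∑ j, C * sing (R j) x := by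
      apply add_nonneg
      · apply indicator_nonneg; intro _ _; positivity
      · exact Finset.sum_nonneg (fun j _ => mul_nonneg hC (sing_nonneg _ _))
    rw [Real.norm_of_nonneg hnn]
    by_cases hxS : x ∈ S
    · rw [indicator_of_mem hxS, indicator_of_mem hxS, Real.norm_eq_abs]
      refine hx.trans ?_
      unfold Kw
      have : ∑ j, 1 / ‖x - R j‖ ≤ ∑ j : Fin M, (1 + sing (R j) x) :=
        Finset.sum_le_sum (fun j _ => inv_le_one_add_sing _ _)
      rw [Finset.sum_add_distrib] at this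
      simp only [Finset.sum_const, Finset.card_univ, Fintype.card_fin, nsmul_eq_mul, mul_one] at this
      rw [← Finset.mul_sum]
      have h2 := mul_le_mul_of_nonneg_left this hC
      linarith
    · rw [indicator_of_notMem hxS]; simpa only [norm_zero, ge_iff_le] using hnn
  · have : MemLp (fun _ : R3 => C * (1 + M)) ⊤ volume := memLp_top_const _
    refine this.mono (hv.indicator hSm.compl) ?_
    filter_upwards [hb] with x hx
    have hnn : 0 ≤ C * (1 + (M:ℝ)) := by positivity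
    rw [Real.norm_of_nonneg hnn]
    by_cases hxS : x ∈ S
    · rw [indicator_of_notMem (by simpa using hxS)]; simpa only [norm_zero, ge_iff_le] using hnn
    · rw [indicator_of_mem (by simpa using hxS), Real.norm_eq_abs]
      refine hx.trans ?_
      apply mul_le_mul_of_nonneg_left _ hC
      unfold Kw
      have : ∑ j, 1 / ‖x - R j‖ ≤ ∑ j : Fin M, (1:ℝ) := by
        apply Finset.sum_le_sum
        intro j _
        have hj : x ∉ Metric.ball (R j) 1 := fun h => hxS (mem_iUnion.mpr ⟨j, h⟩)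
        rw [Metric.mem_ball, dist_eq_norm, not_lt] at hj
        rw [div_le_one (by linarith)]; exact hj
      simp only [Finset.sum_const, Finset.card_univ, Fintype.card_fin, nsmul_eq_mul, mul_one] at this
      linarith
  · funext x
    simp only [Pi.add_apply]
    by_cases hxS : x ∈ S
    · rw [indicator_of_mem hxS, indicator_of_notMem (by simpa using hxS), add_zero]
    · rw [indicator_of_notMem hxS, indicator_of_mem (by simpa using hxS), zero_add]

/-- Directions in `ℝ³`. -/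
def dir3 (k : Fin 3) : R3 := EuclideanSpace.single k (1:ℝ)

/-- One-body `H¹` functions. -/
structure H1o (f : R3 → ℝ) (f' : Fin 3 → R3 → ℝ) : Prop where
  memLp : MemLp f 2 volume
  memLp' : ∀ k, MemLp (f' k) 2 volume
  acl : ∀ k, ACL volume (dir3 k) f (f' k)

lemma H1o.integrable_Kw {M : ℕ} (R : Fin M → R3) {f : R3 → ℝ} {f' : Fin 3 → R3 → ℝ}
    (h : H1o f f') : Integrable (fun x => Kw R x * f x ^ 2) := by
  have h1 : ∀ j, Integrable (fun x => f x ^ 2 / ‖x - R j‖) := by
    intro j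
    apply (hardy (a := fun x : R3 => x - R j) (e := dir3) (by fun_prop) _ h.memLp h.memLp'
      h.acl).1
    intro x k t
    simp only [dir3]; abel
  have h2 : Integrable (fun x => f x ^ 2 + ∑ j, f x ^ 2 / ‖x - R j‖) :=
    h.memLp.integrable_sq.add (integrable_finsetSum _ (fun j _ => h1 j))
  refine h2.congr ?_
  filter_upwards with x
  unfold Kw
  rw [add_mul, one_mul, Finset.sum_mul]
  congr 1
  apply Finset.sum_congr rfl
  intro j _
  ring

end

end Vale.Agent.P363
end
end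

section

section

namespace Vale.Agent.P363

open MeasureTheory Set Filter Topology
open scoped ENNReal ContDiff

set_option linter.unusedSectionVars false

noncomputable section

/-- The data from which the effective potential is built. -/
structure KS (ι : Type) [Fintype ι] (M : ℕ) where
  Z : Fin M → ℕ
  R : Fin M → R3
  E : ℝ
  u : ι → X6 → ℝ
  ux : ι → Fin 3 → X6 → ℝ
  uy : ι → Fin 3 → X6 → ℝ
  hu : ∀ i, H1 (u i) (ux i) (uy i)
  g : X6 → ℝ
  hg : ∀ p, g p = √(∑ i, u i p ^ 2)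
  G : X6 → ℝ
  C : ℝ
  r : ℝ
  hr : 0 < r
  hC : 0 < C
  Gmeas : Measurable G
  Gpos : ∀ p, 0 < G p
  har : ∀ p q, dist p q ≤ r → G p ≤ C * G q
  Gg : ∀ᵐ p : X6, G p ≤ C * g p
  gG : ∀ᵐ p : X6, g p ≤ C * G p
  bx : ∀ i k, ∀ᵐ p : X6, |ux i k p| ≤ C * dsing R p * g p
  by' : ∀ i k, ∀ᵐ p : X6, |uy i k p| ≤ C * dsing R p * g p
  Qu : ∀ i, Q (fun p => pot Z R p - E) (u i) (ux i) (uy i) = 0
  Qpos : ∀ {f : X6 → ℝ} {fx fy : Fin 3 → X6 → ℝ}, H1 f fx fy →
    0 ≤ Q (fun p => pot Z R p - E) f fx fy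

namespace KS

variable {ι : Type} [Fintype ι] {M : ℕ} (D : KS ι M)

lemma g_nonneg (p : X6) : 0 ≤ D.g p := by rw [D.hg]; exact Real.sqrt_nonneg _

lemma g_sq (p : X6) : D.g p ^ 2 = ∑ i, D.u i p ^ 2 := by
  rw [D.hg]; exact Real.sq_sqrt (Finset.sum_nonneg (fun i _ => sq_nonneg _))

lemma integrable_u_sq (i : ι) : Integrable (fun p => D.u i p ^ 2) := (D.hu i).memLp.integrable_sq

lemma integrable_g_sq : Integrable (fun p => D.g p ^ 2) := by
  simp_rw [D.g_sq]
  exact integrable_finsetSum _ (fun i _ => D.integrable_u_sq i)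

/-- Half of the electron density. -/
def ρ (x : R3) : ℝ := ∫ y, D.g (x, y) ^ 2

def ρ' (k : Fin 3) (x : R3) : ℝ := ∫ y, ∑ i, 2 * (D.u i (x, y) * D.ux i k (x, y))

/-- Kinetic energy density. -/
def T (x : R3) : ℝ := ∫ y, ∑ k, ∑ i, (D.ux i k (x, y) ^ 2 + D.uy i k (x, y) ^ 2)

/-- Potential energy density. -/
def Vm (x : R3) : ℝ := ∫ y, (pot D.Z D.R (x, y) - D.E) * D.g (x, y) ^ 2

def φ (x : R3) : ℝ := √(D.ρ x)

def φ' (k : Fin 3) (x : R3) : ℝ := D.ρ' k x / (2 * D.φ x)

/-- The effective potential. -/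
def v (x : R3) : ℝ :=
  ((1 / 2) * D.T x + D.Vm x) / D.ρ x - (∑ k, D.φ' k x ^ 2) / (2 * D.ρ x)

lemma ρ_nonneg (x : R3) : 0 ≤ D.ρ x := integral_nonneg (fun y => sq_nonneg _)

lemma φ_sq (x : R3) : D.φ x ^ 2 = D.ρ x := Real.sq_sqrt (D.ρ_nonneg x)

/-! Slice facts. -/

lemma ae_slice {P : X6 → Prop} (h : ∀ᵐ p : X6, P p) : ∀ᵐ x : R3, ∀ᵐ y : R3, P (x, y) := by
  have hz := Measure.ae_ae_of_ae_prod h
  exact hz

lemma slice_int {F : X6 → ℝ} (h : Integrable F) : ∀ᵐ x : R3, Integrable (fun y => F (x, y)) :=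
  Integrable.prod_right_ae h

lemma integral_slice {F : X6 → ℝ} (h : Integrable F) : ∫ p, F p = ∫ x, ∫ y, F (x, y) :=
  integral_prod F h

lemma integrable_marg {F : X6 → ℝ} (h : Integrable F) : Integrable (fun x => ∫ y, F (x, y)) :=
  Integrable.integral_prod_left h

/-- Uniform bound of the amplitude on slices. -/
lemma G_sq_le : ∃ C1 : ℝ, 0 < C1 ∧ ∀ᵐ x : R3, ∀ y : R3, D.G (x, y) ^ 2 ≤ C1 * D.ρ x := by
  set V : ℝ := volume.real (Metric.closedBall (0 : R3) D.r) with hV
  have hVpos : 0 < V := by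
    rw [hV, measureReal_def, ENNReal.toReal_pos_iff]
    exact ⟨Metric.measure_closedBall_pos _ _ D.hr, measure_closedBall_lt_top⟩
  refine ⟨D.C ^ 4 / V, by have := D.hC; positivity, ?_⟩
  filter_upwards [ae_slice D.Gg, slice_int D.integrable_g_sq] with x h1 h2 y
  have hint : IntegrableOn (fun y' => D.C ^ 4 * D.g (x, y') ^ 2) (Metric.closedBall y D.r) :=
    (h2.const_mul _).integrableOn
  have hle : ∫ y' in Metric.closedBall y D.r, D.G (x, y) ^ 2 ≤
      ∫ y' in Metric.closedBall y D.r, D.C ^ 4 * D.g (x, y') ^ 2 := by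
    apply setIntegral_mono_on_ae _ hint measurableSet_closedBall
    · filter_upwards [h1] with y' hy' hmem
      have hd : dist (x, y) (x, y') ≤ D.r := by
        rw [Prod.dist_eq]; simp only [dist_self]
        rw [max_le_iff]
        refine ⟨D.hr.le, ?_⟩
        rw [dist_comm]; exact hmem
      have a1 := D.har (x, y) (x, y') hd
      have a2 : D.G (x, y) ≤ D.C ^ 2 * D.g (x, y') := by
        calc D.G (x, y) ≤ D.C * D.G (x, y') := a1
          _ ≤ D.C * (D.C * D.g (x, y')) := mul_le_mul_of_nonneg_left hy' D.hC.le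
          _ = _ := by ring
      have a3 := pow_le_pow_left₀ (D.Gpos _).le a2 2
      calc D.G (x, y) ^ 2 ≤ (D.C ^ 2 * D.g (x, y')) ^ 2 := a3
        _ = _ := by ring
    · exact integrableOn_const measure_closedBall_lt_top.ne (by simp)
  rw [setIntegral_const] at hle
  have hVy : volume.real (Metric.closedBall y D.r) = V := by
    rw [hV, measureReal_def, measureReal_def]
    congr 1
    rw [Measure.addHaar_closedBall_center]
  rw [hVy, smul_eq_mul] at hle
  have hle2 : ∫ y' in Metric.closedBall y D.r, D.C ^ 4 * D.g (x, y') ^ 2 ≤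
      D.C ^ 4 * D.ρ x := by
    unfold ρ
    rw [← integral_const_mul]
    apply setIntegral_le_integral (h2.const_mul _)
    filter_upwards with y'
    have := D.hC
    (clear * - this; positivity)
  rw [div_mul_eq_mul_div, le_div_iff₀ hVpos]
  linarith

lemma g_sq_le : ∃ C2 : ℝ, 0 < C2 ∧ ∀ᵐ x : R3, ∀ᵐ y : R3, D.g (x, y) ^ 2 ≤ C2 * D.ρ x := by
  obtain ⟨C1, hC1, h⟩ := D.G_sq_le
  refine ⟨D.C ^ 2 * C1, by have := D.hC; positivity, ?_⟩
  filter_upwards [h, ae_slice D.gG] with x h1 h2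
  filter_upwards [h2] with y hy
  calc D.g (x, y) ^ 2 ≤ (D.C * D.G (x, y)) ^ 2 := pow_le_pow_left₀ (D.g_nonneg _) hy 2
    _ = D.C ^ 2 * D.G (x, y) ^ 2 := by ring
    _ ≤ D.C ^ 2 * (C1 * D.ρ x) := mul_le_mul_of_nonneg_left (h1 y) (by have := D.hC; positivity)
    _ = _ := by ring

lemma one_le_C : 1 ≤ D.C := by
  have h := D.har 0 0 (by simp [D.hr.le])
  have := D.Gpos 0
  by_contra hlt
  push Not at hlt
  nlinarith

/-- Chain of Harnack inequalities. -/
lemma G_chain (n : ℕ) : ∀ x : R3, ‖x‖ ≤ n * D.r → D.G (0, 0) ≤ D.C ^ n * D.G (x, 0) := by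
  induction n with
  | zero =>
    intro x hx
    have : x = 0 := by simpa using hx
    subst this; simp
  | succ n ih =>
    intro x hx
    -- intermediate point
    set z : R3 := ((n : ℝ) / (n + 1)) • x with hz
    have hn : (0:ℝ) < n + 1 := by positivity
    have hz1 : ‖z‖ ≤ n * D.r := by
      rw [hz, norm_smul, Real.norm_of_nonneg (by positivity)]
      calc (n:ℝ) / (n + 1) * ‖x‖ ≤ (n:ℝ) / (n + 1) * ((n + 1) * D.r) := by
            apply mul_le_mul_of_nonneg_left _ (by positivity)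
            simpa only [Nat.cast_add, Nat.cast_one] using hx
        _ = n * D.r := by (clear * -; field_simp)
    have hz2 : dist z x ≤ D.r := by
      rw [dist_eq_norm]
      have e1 : z - x = (-(1 / ((n:ℝ) + 1))) • x := by
        rw [hz]
        have : x = (1:ℝ) • x := by simp
        conv_lhs => rw [this]
        rw [smul_smul, ← sub_smul]
        congr 1
        field_simp
        ring
      rw [e1, norm_smul, norm_neg, Real.norm_of_nonneg (by positivity)]
      calc 1 / ((n:ℝ) + 1) * ‖x‖ ≤ 1 / ((n:ℝ) + 1) * ((n + 1) * D.r) := by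
            apply mul_le_mul_of_nonneg_left _ (by positivity)
            simpa only [Nat.cast_add, Nat.cast_one] using hx
        _ = D.r := by (clear * -; field_simp)
    have a1 := ih z hz1
    have a2 := D.har (z, 0) (x, 0) (by
      rw [Prod.dist_eq]; simp only [dist_self]
      rw [max_le_iff]; exact ⟨hz2, D.hr.le⟩)
    calc D.G (0, 0) ≤ D.C ^ n * D.G (z, 0) := a1
      _ ≤ D.C ^ n * (D.C * D.G (x, 0)) :=
        mul_le_mul_of_nonneg_left a2 (by have := D.hC; positivity)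
      _ = _ := by ring

/-- A continuous positive lower bound. -/
lemma φ_lower : ∃ m : R3 → ℝ, Continuous m ∧ (∀ x, 0 < m x) ∧ ∀ᵐ x, m x ≤ D.φ x := by
  obtain ⟨C1, hC1, h⟩ := D.G_sq_le
  have hC := D.hC
  have h1C := D.one_le_C
  refine ⟨fun x => (√C1)⁻¹ * (D.C ^ (-(‖x‖ / D.r + 1) : ℝ) * D.G (0, 0)), ?_, ?_, ?_⟩
  · have : Continuous (fun x : R3 => D.C ^ (-(‖x‖ / D.r + 1) : ℝ)) := by
      apply Continuous.rpow continuous_const (by fun_prop)
      intro x; left; exact hC.ne'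
    (clear * - this; continuity)
  · intro x
    have := D.Gpos (0, 0)
    have := Real.sqrt_pos.mpr hC1
    positivity
  · filter_upwards [h] with x hx
    have hx0 := hx 0
    have hG : D.G (x, 0) ≤ √C1 * D.φ x := by
      have : D.G (x, 0) ≤ √(C1 * D.ρ x) := Real.le_sqrt_of_sq_le hx0
      rwa [Real.sqrt_mul hC1.le] at this
    set n := ⌈‖x‖ / D.r⌉₊ with hn
    have hn1 : ‖x‖ / D.r ≤ n := Nat.le_ceil _
    have hn2 : (n : ℝ) ≤ ‖x‖ / D.r + 1 := (Nat.ceil_lt_add_one (by have := D.hr; positivity)).le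
    have a1 := D.G_chain n x (by rw [div_le_iff₀ D.hr] at hn1; exact hn1)
    have a2 : D.C ^ (-(‖x‖ / D.r + 1) : ℝ) * D.G (0, 0) ≤ D.G (x, 0) := by
      have e1 : D.C ^ n ≤ D.C ^ (‖x‖ / D.r + 1) := by
        rw [← Real.rpow_natCast]
        exact Real.rpow_le_rpow_of_exponent_le h1C hn2
      have e2 : D.G (0, 0) ≤ D.C ^ (‖x‖ / D.r + 1) * D.G (x, 0) :=
        a1.trans (mul_le_mul_of_nonneg_right e1 (D.Gpos _).le)
      rw [Real.rpow_neg hC.le, inv_mul_le_iff₀ (by positivity)]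
      exact e2
    rw [inv_mul_le_iff₀ (Real.sqrt_pos.mpr hC1)]
    exact a2.trans hG

lemma φ_pos : ∀ᵐ x, 0 < D.φ x := by
  obtain ⟨m, _, hm2, hm3⟩ := D.φ_lower
  filter_upwards [hm3] with x hx
  exact (hm2 x).trans_le hx

end KS

end

end Vale.Agent.P363
end
end

section

section

namespace Vale.Agent.P363

open MeasureTheory Set Filter Topology
open scoped ENNReal ContDiff

set_option linter.unusedSectionVars false

noncomputable section

lemma integral_cs_sum {α : Type*} [MeasurableSpace α] {ν : Measure α} {ι : Type*} [Fintype ι]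
    {a b : ι → α → ℝ} (ha : ∀ i, Integrable (fun x => a i x ^ 2) ν)
    (hb : ∀ i, Integrable (fun x => b i x ^ 2) ν)
    (hab : ∀ i, Integrable (fun x => a i x * b i x) ν) :
    (∫ x, ∑ i, a i x * b i x ∂ν) ^ 2 ≤ (∫ x, ∑ i, a i x ^ 2 ∂ν) * (∫ x, ∑ i, b i x ^ 2 ∂ν) := by
  have key : ∀ t : ℝ, 0 ≤ (∫ x, ∑ i, b i x ^ 2 ∂ν) * (t * t) +
      (2 * ∫ x, ∑ i, a i x * b i x ∂ν) * t + ∫ x, ∑ i, a i x ^ 2 ∂ν := by
    intro t
    have hA : Integrable (fun x => ∑ i, a i x ^ 2) ν := integrable_finsetSum _ (fun i _ => ha i)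
    have hB : Integrable (fun x => ∑ i, b i x ^ 2) ν := integrable_finsetSum _ (fun i _ => hb i)
    have hAB : Integrable (fun x => ∑ i, a i x * b i x) ν :=
      integrable_finsetSum _ (fun i _ => hab i)
    have e : ∫ x, ∑ i, (a i x + t * b i x) ^ 2 ∂ν = (∫ x, ∑ i, b i x ^ 2 ∂ν) * (t * t) +
      (2 * ∫ x, ∑ i, a i x * b i x ∂ν) * t + ∫ x, ∑ i, a i x ^ 2 ∂ν := by
      have e1 : ∀ x, ∑ i, (a i x + t * b i x) ^ 2 = ((∑ i, b i x ^ 2) * (t * t) +
          (∑ i, a i x * b i x) * (2 * t)) + ∑ i, a i x ^ 2 := by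
        intro x
        rw [Finset.sum_mul, Finset.sum_mul, ← Finset.sum_add_distrib, ← Finset.sum_add_distrib]
        apply Finset.sum_congr rfl
        intro i _; ring
      simp_rw [e1]
      have j1 : Integrable (fun x => (∑ i, b i x ^ 2) * (t * t) +
          (∑ i, a i x * b i x) * (2 * t)) ν := (hB.mul_const _).add (hAB.mul_const _)
      rw [integral_add j1 hA, integral_add (hB.mul_const _) (hAB.mul_const _),
        integral_mul_const, integral_mul_const]
      ring
    rw [← e]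
    exact integral_nonneg (fun x => Finset.sum_nonneg (fun i _ => sq_nonneg _))
  have hd := discrim_le_zero key
  unfold discrim at hd
  linarith

/-- Sum of Coulomb weights. -/
def wsum {M : ℕ} (R : Fin M → R3) (p : X6) : ℝ :=
  1 + (∑ j, 1 / ‖p.1 - R j‖) + (∑ j, 1 / ‖p.2 - R j‖) + 1 / ‖p.1 - p.2‖

lemma rpow_half_sq (a : ℝ) (ha : 0 ≤ a) : (a ^ (-(1/2) : ℝ)) ^ 2 = 1 / a := by
  rw [← Real.rpow_natCast, ← Real.rpow_mul ha]
  norm_num
  exact Real.rpow_neg_one a

lemma dsing_sq_le {M : ℕ} (R : Fin M → R3) (p : X6) :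
    dsing R p ^ 2 ≤ 4 * (M + 1) * wsum R p := by
  unfold dsing wsum
  set A := ∑ j, ‖p.1 - R j‖ ^ (-(1/2) : ℝ) with hA
  set B := ∑ j, ‖p.2 - R j‖ ^ (-(1/2) : ℝ) with hB
  set c := ‖p.1 - p.2‖ ^ (-(1/2) : ℝ) with hc
  have h1 : A ^ 2 ≤ M * ∑ j, 1 / ‖p.1 - R j‖ := by
    have := sq_sum_le_card_mul_sum_sq (s := Finset.univ)
      (f := fun j => ‖p.1 - R j‖ ^ (-(1/2) : ℝ))
    simp only [Finset.card_univ, Fintype.card_fin, rpow_half_sq _ (norm_nonneg _)] at this
    exact this
  have h2 : B ^ 2 ≤ M * ∑ j, 1 / ‖p.2 - R j‖ := by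
    have := sq_sum_le_card_mul_sum_sq (s := Finset.univ)
      (f := fun j => ‖p.2 - R j‖ ^ (-(1/2) : ℝ))
    simp only [Finset.card_univ, Fintype.card_fin, rpow_half_sq _ (norm_nonneg _)] at this
    exact this
  have h3 : c ^ 2 = 1 / ‖p.1 - p.2‖ := rpow_half_sq _ (norm_nonneg _)
  have h4 : 0 ≤ ∑ j, 1 / ‖p.1 - R j‖ := Finset.sum_nonneg (fun j _ => by (clear * -; positivity))
  have h5 : 0 ≤ ∑ j, 1 / ‖p.2 - R j‖ := Finset.sum_nonneg (fun j _ => by (clear * -; positivity))
  have h6 : 0 ≤ 1 / ‖p.1 - p.2‖ := by positivity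
  have h7 : (1 + A + B + c) ^ 2 ≤ 4 * (1 + A ^ 2 + B ^ 2 + c ^ 2) := by
    (by_contra nlg; linarith only [nlg, mul_nonneg (sq_nonneg (B - c)) (sq_nonneg (B - c)), mul_nonneg (sq_nonneg (A - c)) (sq_nonneg (B - c)), mul_nonneg (sq_nonneg (A - c)) (sq_nonneg (A - c)), mul_nonneg (sq_nonneg (A - B)) (sq_nonneg (B - c)), mul_nonneg (sq_nonneg (A - B)) (sq_nonneg (A - c)), mul_nonneg (sq_nonneg (1 - c)) (sq_nonneg (B - c)), mul_nonneg (sq_nonneg (1 - c)) (sq_nonneg (A - c)), mul_nonneg (sq_nonneg (1 - c)) (sq_nonneg (A - B)), mul_nonneg (sq_nonneg (1 - c)) (sq_nonneg (1 - c)), mul_nonneg (le_of_lt (sub_pos.2 (not_le.1 nlg))) (sq_nonneg (B - c)), mul_nonneg (le_of_lt (sub_pos.2 (not_le.1 nlg))) (sq_nonneg (A - c)), mul_nonneg (le_of_lt (sub_pos.2 (not_le.1 nlg))) (sq_nonneg (A - B)), mul_nonneg (le_of_lt (sub_pos.2 (not_le.1 nlg))) (sq_nonneg (1 - c)), mul_pos (sub_pos.2 (not_le.1 nlg)) (sub_pos.2 (not_le.1 nlg))])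
  have hM : (0:ℝ) ≤ M := by positivity
  rw [h3] at h7
  nlinarith only [h1, h2, h4, h5, h7, h6]

lemma pot_abs_le {M : ℕ} (Z : Fin M → ℕ) (R : Fin M → R3) (E : ℝ) :
    ∃ c : ℝ, 0 < c ∧ ∀ p, |pot Z R p - E| ≤ c * wsum R p := by
  set z : ℝ := ∑ j, (Z j : ℝ) with hz
  have hz0 : 0 ≤ z := Finset.sum_nonneg (fun j _ => by positivity)
  have hzj : ∀ j, (Z j : ℝ) ≤ z := fun j =>
    Finset.single_le_sum (f := fun j => (Z j : ℝ)) (fun j _ => by positivity) (Finset.mem_univ j)
  refine ⟨z + 1 + |E|, by positivity, fun p => ?_⟩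
  unfold pot wsum
  have h4 : 0 ≤ ∑ j, 1 / ‖p.1 - R j‖ := Finset.sum_nonneg (fun j _ => by positivity)
  have h5 : 0 ≤ ∑ j, 1 / ‖p.2 - R j‖ := Finset.sum_nonneg (fun j _ => by positivity)
  have h6 : 0 ≤ 1 / ‖p.1 - p.2‖ := by positivity
  have h1 : |∑ j, -((Z j : ℝ) / ‖p.1 - R j‖)| ≤ z * ∑ j, 1 / ‖p.1 - R j‖ := by
    rw [Finset.mul_sum]
    refine (Finset.abs_sum_le_sum_abs _ _).trans (Finset.sum_le_sum (fun j _ => ?_))
    rw [abs_neg, abs_of_nonneg (by (clear * -; positivity)), div_eq_mul_one_div]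
    exact mul_le_mul_of_nonneg_right (hzj j) (by (clear * -; positivity))
  have h2 : |∑ j, -((Z j : ℝ) / ‖p.2 - R j‖)| ≤ z * ∑ j, 1 / ‖p.2 - R j‖ := by
    rw [Finset.mul_sum]
    refine (Finset.abs_sum_le_sum_abs _ _).trans (Finset.sum_le_sum (fun j _ => ?_))
    rw [abs_neg, abs_of_nonneg (by (clear * -; positivity)), div_eq_mul_one_div]
    exact mul_le_mul_of_nonneg_right (hzj j) (by (clear * -; positivity))
  have h3 : |(∑ j, -((Z j : ℝ) / ‖p.1 - R j‖)) + (∑ j, -((Z j : ℝ) / ‖p.2 - R j‖)) +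
      1 / ‖p.1 - p.2‖ - E| ≤ |∑ j, -((Z j : ℝ) / ‖p.1 - R j‖)| +
      |∑ j, -((Z j : ℝ) / ‖p.2 - R j‖)| + 1 / ‖p.1 - p.2‖ + |E| := by
    rw [abs_le]
    constructor
    · linarith only [h6, neg_abs_le (∑ j, -((Z j : ℝ) / ‖p.1 - R j‖)), neg_abs_le (∑ j, -((Z j : ℝ) / ‖p.2 - R j‖)), le_abs_self E]
    · linarith only [le_abs_self (∑ j, -((Z j : ℝ) / ‖p.1 - R j‖)), le_abs_self (∑ j, -((Z j : ℝ) / ‖p.2 - R j‖)), neg_abs_le E]
  have hE := abs_nonneg E
  nlinarith only [hz0, h4, h5, h1, h2, h3, h6, hE]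

namespace KS

variable {ι : Type} [Fintype ι] {M : ℕ} (D : KS ι M)

/-- Integral of the Coulomb weights against the density of a slice. -/
lemma slice_coulomb : ∃ C3 : ℝ, 0 < C3 ∧ ∀ᵐ x : R3, ∀ z : R3,
    Integrable (fun y => (1 / ‖y - z‖) * D.g (x, y) ^ 2) ∧
    ∫ y, (1 / ‖y - z‖) * D.g (x, y) ^ 2 ≤ C3 * D.ρ x := by
  obtain ⟨C2, hC2, h⟩ := D.g_sq_le
  refine ⟨1 + C2 * singMass, by have := singMass_nonneg; positivity, ?_⟩
  filter_upwards [h, slice_int D.integrable_g_sq] with x h1 h2 z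
  have hdom : Integrable (fun y => D.g (x, y) ^ 2 + sing z y * (C2 * D.ρ x)) :=
    h2.add ((integrable_sing z).mul_const _)
  have hle : ∀ᵐ y, (1 / ‖y - z‖) * D.g (x, y) ^ 2 ≤
      D.g (x, y) ^ 2 + sing z y * (C2 * D.ρ x) := by
    filter_upwards [h1] with y hy
    calc (1 / ‖y - z‖) * D.g (x, y) ^ 2 ≤ (1 + sing z y) * D.g (x, y) ^ 2 :=
          mul_le_mul_of_nonneg_right (inv_le_one_add_sing z y) (sq_nonneg _)
      _ = D.g (x, y) ^ 2 + sing z y * D.g (x, y) ^ 2 := by ring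
      _ ≤ _ := by
        have := mul_le_mul_of_nonneg_left hy (sing_nonneg z y)
        linarith
  have hint : Integrable (fun y => (1 / ‖y - z‖) * D.g (x, y) ^ 2) := by
    refine hdom.mono' ?_ ?_
    · apply AEStronglyMeasurable.mul _ h2.1
      apply Measurable.aestronglyMeasurable
      fun_prop
    · filter_upwards [hle] with y hy
      rw [Real.norm_of_nonneg (by (clear * -; positivity))]
      exact hy
  refine ⟨hint, ?_⟩
  calc ∫ y, (1 / ‖y - z‖) * D.g (x, y) ^ 2
      ≤ ∫ y, (D.g (x, y) ^ 2 + sing z y * (C2 * D.ρ x)) := integral_mono_ae hint hdom hle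
    _ = D.ρ x + singMass * (C2 * D.ρ x) := by
      rw [integral_add h2 ((integrable_sing z).mul_const _), integral_mul_const, integral_sing]
      rfl
    _ = _ := by ring

/-- Integral of all weights on slices. -/
lemma slice_wsum : ∃ C4 : ℝ, 0 < C4 ∧ ∀ᵐ x : R3,
    Integrable (fun y => wsum D.R (x, y) * D.g (x, y) ^ 2) ∧
    ∫ y, wsum D.R (x, y) * D.g (x, y) ^ 2 ≤ C4 * (Kw D.R x * D.ρ x) := by
  obtain ⟨C3, hC3, h⟩ := D.slice_coulomb
  refine ⟨1 + (M + 1) * C3, by positivity, ?_⟩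
  filter_upwards [h, slice_int D.integrable_g_sq] with x h1 h2
  have i1 : Integrable (fun y => Kw D.R x * D.g (x, y) ^ 2) := h2.const_mul _
  have i2 : Integrable (fun y => ∑ j, (1 / ‖y - D.R j‖) * D.g (x, y) ^ 2) :=
    integrable_finsetSum _ (fun j _ => (h1 (D.R j)).1)
  have i3 := (h1 x).1
  have i12 : Integrable (fun y => Kw D.R x * D.g (x, y) ^ 2 +
      ∑ j, (1 / ‖y - D.R j‖) * D.g (x, y) ^ 2) := i1.add i2
  have e : ∀ y, wsum D.R (x, y) * D.g (x, y) ^ 2 = (Kw D.R x * D.g (x, y) ^ 2 +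
      ∑ j, (1 / ‖y - D.R j‖) * D.g (x, y) ^ 2) + (1 / ‖y - x‖) * D.g (x, y) ^ 2 := by
    intro y
    unfold wsum Kw
    rw [← Finset.sum_mul]
    simp only
    rw [norm_sub_rev x y]
    ring
  simp_rw [e]
  refine ⟨i12.add i3, ?_⟩
  rw [integral_add i12 i3, integral_add i1 i2, integral_const_mul,
    integral_finsetSum _ (fun j _ => (h1 (D.R j)).1)]
  have s1 : ∑ j, ∫ y, (1 / ‖y - D.R j‖) * D.g (x, y) ^ 2 ≤ ∑ _j : Fin M, C3 * D.ρ x :=
    Finset.sum_le_sum (fun j _ => (h1 (D.R j)).2)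
  simp only [Finset.sum_const, Finset.card_univ, Fintype.card_fin, nsmul_eq_mul] at s1
  have s2 := (h1 x).2
  have hρ := D.ρ_nonneg x
  have hK := Kw_pos D.R x
  have hKρ : D.ρ x ≤ Kw D.R x * D.ρ x := by nlinarith only [hρ, hK]
  have hdef : ∫ y, D.g (x, y) ^ 2 = D.ρ x := rfl
  rw [hdef]
  have s3 : C3 * D.ρ x ≤ C3 * (Kw D.R x * D.ρ x) := mul_le_mul_of_nonneg_left hKρ hC3.le
  have hM : (0:ℝ) ≤ M := by positivity
  have s4 : (M:ℝ) * (C3 * D.ρ x) ≤ M * (C3 * (Kw D.R x * D.ρ x)) :=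
    mul_le_mul_of_nonneg_left s3 hM
  linarith only [s1, s2, s3, s4]

end KS

end

end Vale.Agent.P363
end
end

section

section

namespace Vale.Agent.P363

open MeasureTheory Filter Set
open scoped ContDiff Topology ENNReal

/-- Gaussian on `R3`, kernel of `exp(s Δ/2)`. -/
noncomputable def hk3 (s : ℝ) (w : R3) : ℝ :=
  (2 * Real.pi * s) ^ (-(3 / 2) : ℝ) * Real.exp (-(‖w‖ ^ 2 / (2 * s)))

lemma hk3_pos {s : ℝ} (hs : 0 < s) (w : R3) : 0 < hk3 s w := by
  unfold hk3; positivity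

lemma hk3_nonneg {s : ℝ} (hs : 0 < s) (w : R3) : 0 ≤ hk3 s w := (hk3_pos hs w).le

lemma continuous_hk3 (s : ℝ) : Continuous (hk3 s) := by
  unfold hk3; fun_prop

lemma integral_hk3 {s : ℝ} (hs : 0 < s) : ∫ w, hk3 s w = 1 := by
  unfold hk3
  rw [integral_const_mul]
  have h := GaussianFourier.integral_rexp_neg_mul_sq_norm (V := R3) (b := 1 / (2 * s)) (by positivity)
  have h2 : ∀ v : R3, Real.exp (-(1 / (2 * s)) * ‖v‖ ^ 2) = Real.exp (-(‖v‖ ^ 2 / (2 * s))) := by
    intro v; congr 1; field_simp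
  simp_rw [h2] at h
  rw [h]
  have h3 : Real.pi / (1 / (2 * s)) = 2 * Real.pi * s := by field_simp
  rw [h3]
  have : (Module.finrank ℝ R3 / 2 : ℝ) = 3 / 2 := by simp
  rw [this, ← Real.rpow_add (by positivity)]
  norm_num

lemma integrable_hk3 {s : ℝ} (hs : 0 < s) : Integrable (hk3 s) := by
  by_contra h
  have := integral_undef h
  rw [integral_hk3 hs] at this
  exact one_ne_zero this

lemma lintegral_hk3 {s : ℝ} (hs : 0 < s) : ∫⁻ w, ENNReal.ofReal (hk3 s w) = 1 := by
  rw [← ofReal_integral_eq_lintegral_ofReal (integrable_hk3 hs)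
    (Eventually.of_forall fun w => hk3_nonneg hs w), integral_hk3 hs]
  simp

lemma lintegral_hk3_sub {s : ℝ} (hs : 0 < s) (m : R3) :
    ∫⁻ w, ENNReal.ofReal (hk3 s (w - m)) = 1 := by
  rw [lintegral_sub_right_eq_self (fun w => ENNReal.ofReal (hk3 s w)) m, lintegral_hk3 hs]

/-- volume of the unit ball -/
noncomputable def beta3 : ℝ := (volume : Measure R3).real (Metric.ball 0 1)

lemma lintegral_ball_inv {ρ : ℝ} (hρ : 0 < ρ) (a : R3) :
    ∫⁻ w in Metric.ball a ρ, ENNReal.ofReal (‖w - a‖⁻¹) = ENNReal.ofReal (3 / 2 * beta3 * ρ ^ 2) := by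
  have h1 : ∫⁻ w in Metric.ball a ρ, ENNReal.ofReal (‖w - a‖⁻¹)
      = ∫⁻ w : R3, ENNReal.ofReal ((Iio ρ).indicator (fun y => y⁻¹) ‖w - a‖) := by
    rw [← lintegral_indicator measurableSet_ball]
    congr 1; ext w
    by_cases hw : ‖w - a‖ < ρ
    · simp [indicator, hw, dist_eq_norm]
    · simp [indicator, hw, dist_eq_norm]
  rw [h1, lintegral_sub_right_eq_self
    (fun w : R3 => ENNReal.ofReal ((Iio ρ).indicator (fun y => y⁻¹) ‖w‖)) a]
  have h2 : Integrable (fun w : R3 => (Iio ρ).indicator (fun y : ℝ => y⁻¹) ‖w‖) := by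
    rw [integrable_fun_norm_addHaar volume (f := (Iio ρ).indicator (fun y : ℝ => y⁻¹))]
    have : IntegrableOn (fun y : ℝ => (Iio ρ).indicator (fun y : ℝ => y) y) (Ioi 0) := by
      rw [IntegrableOn, integrable_indicator_iff measurableSet_Iio, IntegrableOn,
        Measure.restrict_restrict measurableSet_Iio]
      have : Iio ρ ∩ Ioi 0 ⊆ Icc (0:ℝ) ρ := by
        intro x hx; exact ⟨le_of_lt hx.2, le_of_lt hx.1⟩
      exact (continuous_id.integrableOn_Icc).mono_set this
    refine this.congr_fun ?_ measurableSet_Ioi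
    intro y hy
    have hy : 0 < y := hy
    by_cases hyr : y < ρ
    · simp only [indicator, mem_Iio, hyr, ↓reduceIte, finrank_euclideanSpace, Fintype.card_fin, Nat.add_one_sub_one, smul_eq_mul]; field_simp
    · simp [indicator, hyr]
  rw [← ofReal_integral_eq_lintegral_ofReal h2]
  · congr 1
    rw [integral_fun_norm_addHaar volume (fun y => (Iio ρ).indicator (fun y : ℝ => y⁻¹) y)]
    have : ∫ y in Ioi (0:ℝ), y ^ (Module.finrank ℝ R3 - 1) • (Iio ρ).indicator (fun y : ℝ => y⁻¹) y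
        = ρ ^ 2 / 2 := by
      have e1 : ∀ y ∈ Ioi (0:ℝ), y ^ (Module.finrank ℝ R3 - 1) • (Iio ρ).indicator (fun y : ℝ => y⁻¹) y
          = (Iio ρ).indicator (fun y => y) y := by
        intro y hy
        have hy : 0 < y := hy
        by_cases hyr : y < ρ
        · simp only [finrank_euclideanSpace, Fintype.card_fin, Nat.add_one_sub_one, indicator, mem_Iio, hyr, ↓reduceIte, smul_eq_mul]; field_simp
        · simp [indicator, hyr]
      rw [setIntegral_congr_fun measurableSet_Ioi e1, setIntegral_indicator measurableSet_Iio]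
      have : Ioi (0:ℝ) ∩ Iio ρ = Ioo 0 ρ := by ext; simp
      rw [this, ← integral_Ioc_eq_integral_Ioo, ← intervalIntegral.integral_of_le hρ.le]
      simp
    rw [this]
    simp only [finrank_euclideanSpace, Fintype.card_fin, smul_eq_mul, nsmul_eq_mul, Nat.cast_ofNat, beta3]
    ring
  · refine Eventually.of_forall fun w => ?_
    by_cases hw : ‖w‖ < ρ
    · simp [indicator, hw]
    · simp [indicator, hw]

lemma beta3_nonneg : 0 ≤ beta3 := measureReal_nonneg

lemma hk3_le {s : ℝ} (hs : 0 < s) (w : R3) : hk3 s w ≤ (2 * Real.pi * s) ^ (-(3 / 2) : ℝ) := by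
  unfold hk3
  apply mul_le_of_le_one_right (by positivity)
  rw [Real.exp_le_one_iff]
  have : 0 ≤ ‖w‖ ^ 2 / (2 * s) := by positivity
  linarith

/-- General near/far splitting bound. -/
lemma lintegral_hk3_inv_split {s ρ B : ℝ} (hs : 0 < s) (hρ : 0 < ρ) (hB : 0 ≤ B) (m a : R3)
    (h : ∀ w, ‖w - a‖ < ρ → hk3 s (w - m) ≤ B) :
    ∫⁻ w, ENNReal.ofReal (hk3 s (w - m)) * ENNReal.ofReal (‖w - a‖⁻¹)
      ≤ ENNReal.ofReal (ρ⁻¹ + B * (3 / 2 * beta3 * ρ ^ 2)) := by
  rw [← lintegral_add_compl _ (measurableSet_ball (x := a) (ε := ρ)), add_comm,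
    ENNReal.ofReal_add (by positivity) (by have := beta3_nonneg; positivity)]
  gcongr
  · calc ∫⁻ w in (Metric.ball a ρ)ᶜ, ENNReal.ofReal (hk3 s (w - m)) * ENNReal.ofReal (‖w - a‖⁻¹)
        ≤ ∫⁻ w in (Metric.ball a ρ)ᶜ, ENNReal.ofReal (hk3 s (w - m)) * ENNReal.ofReal (ρ⁻¹) := by
          apply setLIntegral_mono' measurableSet_ball.compl
          intro w hw
          gcongr
          simpa [dist_eq_norm] using hw
      _ ≤ ∫⁻ w, ENNReal.ofReal (hk3 s (w - m)) * ENNReal.ofReal (ρ⁻¹) := setLIntegral_le_lintegral _ _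
      _ = ENNReal.ofReal (ρ⁻¹) := by
          rw [lintegral_mul_const' _ _ (by simp), lintegral_hk3_sub hs, one_mul]
  · calc ∫⁻ w in (Metric.ball a ρ), ENNReal.ofReal (hk3 s (w - m)) * ENNReal.ofReal (‖w - a‖⁻¹)
        ≤ ∫⁻ w in (Metric.ball a ρ), ENNReal.ofReal B * ENNReal.ofReal (‖w - a‖⁻¹) := by
          apply setLIntegral_mono' measurableSet_ball
          intro w hw
          gcongr
          exact h w (by simpa [dist_eq_norm] using hw)
      _ = _ := by
          rw [lintegral_const_mul' _ _ (by simp), lintegral_ball_inv hρ a, ENNReal.ofReal_mul hB]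

/-- constant -/
noncomputable def cG : ℝ := 1 + (2 * Real.pi) ^ (-(3 / 2) : ℝ) * (3 / 2 * beta3)

lemma cG_pos : 0 < cG := by
  have := beta3_nonneg
  unfold cG; positivity

lemma lintegral_hk3_inv_le {s : ℝ} (hs : 0 < s) (m a : R3) :
    ∫⁻ w, ENNReal.ofReal (hk3 s (w - m)) * ENNReal.ofReal (‖w - a‖⁻¹)
      ≤ ENNReal.ofReal (cG * (√s)⁻¹) := by
  refine (lintegral_hk3_inv_split hs (Real.sqrt_pos.2 hs) (B := (2 * Real.pi * s) ^ (-(3 / 2) : ℝ))
    (by positivity) m a (fun w _ => hk3_le hs _)).trans (le_of_eq ?_)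
  congr 1
  rw [Real.mul_rpow (by positivity) hs.le, Real.sq_sqrt hs.le]
  have h1 : s ^ (-(3 / 2) : ℝ) * s = (√s)⁻¹ := by
    rw [Real.sqrt_eq_rpow, ← Real.rpow_neg hs.le]
    nth_rewrite 2 [← Real.rpow_one s]
    rw [← Real.rpow_add hs]
    norm_num
  unfold cG
  calc _ = (√s)⁻¹ + (2 * Real.pi) ^ (-(3 / 2) : ℝ) * (3 / 2 * beta3) * (s ^ (-(3 / 2) : ℝ) * s) := by ring
    _ = _ := by rw [h1]; ring

lemma aux_exp {y : ℝ} : y ^ 3 * Real.exp (-(y ^ 2 / 8)) ≤ 129 := by
  have h1 : y ^ 3 ≤ 1 + y ^ 4 := by nlinarith only [sq_nonneg (y^2-1)]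
  have h2 : (y ^ 2 / 8) ^ 2 / 2 ≤ Real.exp (y ^ 2 / 8) := by
    have := Real.pow_div_factorial_le_exp (y ^ 2 / 8) (by positivity) 2
    simpa only [ge_iff_le, Nat.factorial_two, Nat.cast_ofNat] using this
  have h3 : 1 ≤ Real.exp (y ^ 2 / 8) := Real.one_le_exp (by positivity)
  rw [Real.exp_neg, ← div_eq_mul_inv, div_le_iff₀ (Real.exp_pos _)]
  linarith

/-- constant -/
noncomputable def cG2 : ℝ := 2 + (2 * Real.pi) ^ (-(3 / 2) : ℝ) * (3 / 8 * beta3) * 129

lemma cG2_pos : 0 < cG2 := by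
  have := beta3_nonneg
  unfold cG2; positivity

lemma lintegral_hk3_inv_le' {s : ℝ} (hs : 0 < s) (m a : R3) (hma : m ≠ a) :
    ∫⁻ w, ENNReal.ofReal (hk3 s (w - m)) * ENNReal.ofReal (‖w - a‖⁻¹)
      ≤ ENNReal.ofReal (cG2 * ‖m - a‖⁻¹) := by
  set d := ‖m - a‖ with hd
  have hd0 : 0 < d := norm_pos_iff.2 (sub_ne_zero.2 hma)
  set B := (2 * Real.pi * s) ^ (-(3 / 2) : ℝ) * Real.exp (-(d ^ 2 / (8 * s))) with hB
  have hsplit := lintegral_hk3_inv_split hs (half_pos hd0) (B := B) (by positivity) m a (by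
    intro w hw
    have h1 : d / 2 ≤ ‖w - m‖ := by
      have : d ≤ ‖w - m‖ + ‖w - a‖ := by
        calc d = ‖-(w - m) + (w - a)‖ := by rw [hd]; congr 1; abel
          _ ≤ ‖-(w - m)‖ + ‖w - a‖ := norm_add_le _ _
          _ = _ := by rw [norm_neg]
      linarith only [hw, this]
    unfold hk3
    rw [hB]
    have : d ^ 2 / (8 * s) = (d / 2) ^ 2 / (2 * s) := by field_simp; norm_num
    rw [this]
    apply mul_le_mul_of_nonneg_left _ (by positivity)
    apply Real.exp_le_exp.2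
    apply neg_le_neg
    (clear * - hd0 h1 hs; gcongr))
  refine hsplit.trans ?_
  apply ENNReal.ofReal_le_ofReal
  have hsq : 0 < √s := Real.sqrt_pos.2 hs
  have h2 : B = (2 * Real.pi) ^ (-(3 / 2) : ℝ) * ((√s)⁻¹ ^ 3 * Real.exp (-(d ^ 2 / (8 * s)))) := by
    rw [hB, Real.mul_rpow (by positivity) hs.le]
    have : s ^ (-(3 / 2) : ℝ) = (√s)⁻¹ ^ 3 := by
      rw [Real.sqrt_eq_rpow, ← Real.rpow_neg hs.le, ← Real.rpow_natCast, ← Real.rpow_mul hs.le]
      norm_num
    rw [this]; ring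
  have h3 : (d / √s) ^ 3 * Real.exp (-((d / √s) ^ 2 / 8)) ≤ 129 := aux_exp
  have h4 : (d / √s) ^ 2 / 8 = d ^ 2 / (8 * s) := by
    rw [div_pow, Real.sq_sqrt hs.le]; field_simp
  rw [h4] at h3
  have hβ := beta3_nonneg
  have h5 : B * (3 / 2 * beta3 * (d / 2) ^ 2) * d
      = (2 * Real.pi) ^ (-(3 / 2) : ℝ) * (3 / 8 * beta3) * ((d / √s) ^ 3 * Real.exp (-(d ^ 2 / (8 * s)))) := by
    rw [h2, div_eq_mul_inv d (√s)]; ring
  have h6 : B * (3 / 2 * beta3 * (d / 2) ^ 2) * d ≤ (2 * Real.pi) ^ (-(3 / 2) : ℝ) * (3 / 8 * beta3) * 129 := by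
    rw [h5]; (clear * - h3 hβ; gcongr)
  rw [← div_eq_mul_inv, le_div_iff₀ hd0, cG2, add_mul]
  have : (d / 2)⁻¹ * d = 2 := by field_simp
  linarith only [h6, this]

end Vale.Agent.P363
end
end

section

section

namespace Vale.Agent.P363

open MeasureTheory Filter Set
open scoped ContDiff Topology ENNReal

/-- squared Euclidean norm on `X6` -/
noncomputable def nsq (z : X6) : ℝ := ‖z.1‖ ^ 2 + ‖z.2‖ ^ 2

lemma nsq_nonneg (z : X6) : 0 ≤ nsq z := by unfold nsq; positivity

/-- Heat kernel of `exp(s Δ/2)` on `X6`. -/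
noncomputable def hk (s : ℝ) (z : X6) : ℝ :=
  ((2 * Real.pi * s) ^ 3)⁻¹ * Real.exp (-(nsq z / (2 * s)))

lemma hk_eq {s : ℝ} (hs : 0 < s) (z : X6) : hk s z = hk3 s z.1 * hk3 s z.2 := by
  unfold hk hk3 nsq
  have h1 : ((2 * Real.pi * s) ^ 3)⁻¹ = (2 * Real.pi * s) ^ (-(3 / 2) : ℝ) * (2 * Real.pi * s) ^ (-(3 / 2) : ℝ) := by
    rw [← Real.rpow_add (by positivity), ← Real.rpow_natCast, ← Real.rpow_neg (by positivity)]
    norm_num
  rw [h1]
  have h2 : -((‖z.1‖ ^ 2 + ‖z.2‖ ^ 2) / (2 * s)) = -(‖z.1‖ ^ 2 / (2 * s)) + -(‖z.2‖ ^ 2 / (2 * s)) := by ring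
  rw [h2, Real.exp_add]; ring

lemma hk_pos {s : ℝ} (hs : 0 < s) (z : X6) : 0 < hk s z := by unfold hk; positivity

lemma hk_nonneg {s : ℝ} (hs : 0 < s) (z : X6) : 0 ≤ hk s z := (hk_pos hs z).le

lemma continuous_nsq : Continuous nsq := by unfold nsq; fun_prop

lemma continuous_hk (s : ℝ) : Continuous (hk s) := by
  unfold hk; have := continuous_nsq; fun_prop

lemma measurable_hk : Measurable (fun p : ℝ × X6 => hk p.1 p.2) := by
  unfold hk; have := continuous_nsq.measurable; fun_prop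

/-- ENNReal-valued heat kernel -/
noncomputable def hE (s : ℝ) (z : X6) : ℝ≥0∞ := ENNReal.ofReal (hk s z)

lemma measurable_hE : Measurable (fun p : ℝ × X6 => hE p.1 p.2) := measurable_hk.ennreal_ofReal

lemma measurable_hE' (s : ℝ) : Measurable (hE s) := (continuous_hk s).measurable.ennreal_ofReal

lemma hE_eq {s : ℝ} (hs : 0 < s) (z : X6) :
    hE s z = ENNReal.ofReal (hk3 s z.1) * ENNReal.ofReal (hk3 s z.2) := by
  unfold hE
  rw [hk_eq hs, ENNReal.ofReal_mul (hk3_nonneg hs _)]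

lemma nsq_neg (z : X6) : nsq (-z) = nsq z := by simp [nsq]

lemma nsq_sub_comm (x y : X6) : nsq (x - y) = nsq (y - x) := by
  rw [← nsq_neg, neg_sub]

lemma hk_sub_comm (s : ℝ) (x y : X6) : hk s (x - y) = hk s (y - x) := by
  unfold hk; rw [nsq_sub_comm]

lemma hE_sub_comm (s : ℝ) (x y : X6) : hE s (x - y) = hE s (y - x) := by
  unfold hE; rw [hk_sub_comm]

lemma measurable_hk3 (s : ℝ) : Measurable (hk3 s) := (continuous_hk3 s).measurable

lemma lintegral_hE_sub {s : ℝ} (hs : 0 < s) (m : X6) : ∫⁻ z, hE s (z - m) = 1 := by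
  simp_rw [hE_eq hs]
  rw [Measure.volume_eq_prod]
  have := lintegral_prod_mul (μ := (volume : Measure R3)) (ν := (volume : Measure R3))
    (f := fun w => ENNReal.ofReal (hk3 s (w - m.1))) (g := fun w => ENNReal.ofReal (hk3 s (w - m.2)))
    (by have := measurable_hk3 s; fun_prop) (by have := measurable_hk3 s; fun_prop)
  rw [lintegral_hk3_sub hs, lintegral_hk3_sub hs, one_mul] at this
  exact this

/-- Gaussian average of an inverse distance, three cases; first bound. -/
lemma lintegral_hE_inv1 {s : ℝ} (hs : 0 < s) (m : X6) (f : R3 → ℝ≥0∞) (hf : Measurable f) :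
    ∫⁻ z, hE s (z - m) * f z.1 = ∫⁻ w, ENNReal.ofReal (hk3 s (w - m.1)) * f w := by
  simp_rw [hE_eq hs]
  rw [Measure.volume_eq_prod]
  have := lintegral_prod_mul (μ := (volume : Measure R3)) (ν := (volume : Measure R3))
    (f := fun w => ENNReal.ofReal (hk3 s (w - m.1)) * f w) (g := fun w => ENNReal.ofReal (hk3 s (w - m.2)))
    (by have := measurable_hk3 s; (clear * - this hf; exact Measurable.aemeasurable (by fun_prop))) (by have := measurable_hk3 s; fun_prop)
  rw [lintegral_hk3_sub hs, mul_one] at this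
  rw [← this]
  congr 1; ext z
  simp only [Prod.fst_sub, Prod.snd_sub]; ring

lemma lintegral_hE_inv2 {s : ℝ} (hs : 0 < s) (m : X6) (f : R3 → ℝ≥0∞) (hf : Measurable f) :
    ∫⁻ z, hE s (z - m) * f z.2 = ∫⁻ w, ENNReal.ofReal (hk3 s (w - m.2)) * f w := by
  simp_rw [hE_eq hs]
  rw [Measure.volume_eq_prod]
  have := lintegral_prod_mul (μ := (volume : Measure R3)) (ν := (volume : Measure R3))
    (f := fun w => ENNReal.ofReal (hk3 s (w - m.1))) (g := fun w => ENNReal.ofReal (hk3 s (w - m.2)) * f w)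
    (by have := measurable_hk3 s; (clear * - this; fun_prop)) (by have := measurable_hk3 s; (clear * - this hf; exact Measurable.aemeasurable (by fun_prop)))
  rw [lintegral_hk3_sub hs, one_mul] at this
  rw [← this]
  congr 1; ext z
  simp only [Prod.fst_sub, Prod.snd_sub]; ring

lemma lintegral_hE_inv12 {s : ℝ} (hs : 0 < s) (m : X6) (K : R3 → ℝ≥0∞)
    (h : ∀ᵐ b : R3, ∫⁻ w, ENNReal.ofReal (hk3 s (w - m.1)) * ENNReal.ofReal (‖w - b‖⁻¹) ≤ K b) :
    ∫⁻ z : X6, hE s (z - m) * ENNReal.ofReal (‖z.1 - z.2‖⁻¹)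
      ≤ ∫⁻ b, ENNReal.ofReal (hk3 s (b - m.2)) * K b := by
  simp_rw [hE_eq hs]
  rw [Measure.volume_eq_prod, lintegral_prod_symm _ (by have := measurable_hk3 s; fun_prop)]
  apply lintegral_mono_ae
  filter_upwards [h] with b hb
  calc ∫⁻ x, ENNReal.ofReal (hk3 s ((x, b) - m).1) * ENNReal.ofReal (hk3 s ((x, b) - m).2) *
          ENNReal.ofReal (‖(x, b).1 - (x, b).2‖⁻¹)
      = ∫⁻ x, ENNReal.ofReal (hk3 s (b - m.2)) * (ENNReal.ofReal (hk3 s (x - m.1)) *
          ENNReal.ofReal (‖x - b‖⁻¹)) := by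
        congr 1; ext x; simp only [Prod.fst_sub, Prod.snd_sub]; ring
    _ = ENNReal.ofReal (hk3 s (b - m.2)) * ∫⁻ x, (ENNReal.ofReal (hk3 s (x - m.1)) *
          ENNReal.ofReal (‖x - b‖⁻¹)) := by
        rw [lintegral_const_mul' _ _ (by simp)]
    _ ≤ _ := by gcongr

variable {M : ℕ}

/-- Upper bound for the absolute value of the potential. -/
noncomputable def UE (C0 : ℝ) (R : Fin M → R3) (p : X6) : ℝ≥0∞ :=
  ENNReal.ofReal C0 * (1 + ∑ j, ENNReal.ofReal (‖p.1 - R j‖⁻¹) + ∑ j, ENNReal.ofReal (‖p.2 - R j‖⁻¹)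
    + ENNReal.ofReal (‖p.1 - p.2‖⁻¹))

lemma measurable_UE (C0 : ℝ) (R : Fin M → R3) : Measurable (UE C0 R) := by
  unfold UE; fun_prop

lemma lintegral_hE_UE_split {s : ℝ} (hs : 0 < s) (C0 : ℝ) (R : Fin M → R3) (m : X6) :
    ∫⁻ z, hE s (z - m) * UE C0 R z = ENNReal.ofReal C0 * (1
      + (∑ j, (∫⁻ z : X6, hE s (z - m) * ENNReal.ofReal (‖z.1 - R j‖⁻¹)))
      + (∑ j, (∫⁻ z : X6, hE s (z - m) * ENNReal.ofReal (‖z.2 - R j‖⁻¹)))
      + (∫⁻ z : X6, hE s (z - m) * ENNReal.ofReal (‖z.1 - z.2‖⁻¹))) := by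
  have hm : Measurable (fun z : X6 => hE s (z - m)) := by
    have := measurable_hE' s; fun_prop
  unfold UE
  nth_rewrite 2 [← lintegral_hE_sub hs m]
  rw [← lintegral_finsetSum _ (by intro j _; fun_prop), ← lintegral_finsetSum _ (by intro j _; fun_prop)]
  rw [← lintegral_add_left (by fun_prop), ← lintegral_add_left (by fun_prop),
    ← lintegral_add_left (by fun_prop), ← lintegral_const_mul _ (by fun_prop)]
  congr 1; ext z
  rw [← Finset.mul_sum, ← Finset.mul_sum]
  ring

lemma lintegral_hE_UE_le {s : ℝ} (hs : 0 < s) (C0 : ℝ) (R : Fin M → R3) (m : X6) :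
    ∫⁻ z, hE s (z - m) * UE C0 R z
      ≤ ENNReal.ofReal C0 * (1 + (2 * M + 1) * ENNReal.ofReal (cG * (√s)⁻¹)) := by
  rw [lintegral_hE_UE_split hs]
  have h1 : ∀ j, ∫⁻ z : X6, hE s (z - m) * ENNReal.ofReal (‖z.1 - R j‖⁻¹) ≤ ENNReal.ofReal (cG * (√s)⁻¹) := by
    intro j
    rw [lintegral_hE_inv1 hs m (fun w => ENNReal.ofReal (‖w - R j‖⁻¹)) (by fun_prop)]
    exact lintegral_hk3_inv_le hs _ _
  have h2 : ∀ j, ∫⁻ z : X6, hE s (z - m) * ENNReal.ofReal (‖z.2 - R j‖⁻¹) ≤ ENNReal.ofReal (cG * (√s)⁻¹) := by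
    intro j
    rw [lintegral_hE_inv2 hs m (fun w => ENNReal.ofReal (‖w - R j‖⁻¹)) (by fun_prop)]
    exact lintegral_hk3_inv_le hs _ _
  have h3 : ∫⁻ z : X6, hE s (z - m) * ENNReal.ofReal (‖z.1 - z.2‖⁻¹) ≤ ENNReal.ofReal (cG * (√s)⁻¹) := by
    refine (lintegral_hE_inv12 hs m (fun _ => ENNReal.ofReal (cG * (√s)⁻¹))
      (Eventually.of_forall fun b => lintegral_hk3_inv_le hs _ _)).trans ?_
    rw [lintegral_mul_const' _ _ (by simp), lintegral_hk3_sub hs, one_mul]
  apply mul_le_mul_right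
  refine (add_le_add (add_le_add (add_le_add le_rfl (Finset.sum_le_sum fun j _ => h1 j))
    (Finset.sum_le_sum fun j _ => h2 j)) h3).trans (le_of_eq ?_)
  simp only [Finset.sum_const, Finset.card_univ, Fintype.card_fin, nsmul_eq_mul]; ring

/-- constant -/
noncomputable def cH : ℝ := max cG (max cG2 (cG2 ^ 2))

lemma cH_pos : 0 < cH := lt_of_lt_of_le cG_pos (le_max_left _ _)

lemma comb_min {L : ℝ≥0∞} {c x y : ℝ} (hc : 0 ≤ c) (hx : 0 ≤ x) (hy : 0 ≤ y)
    (h1 : L ≤ ENNReal.ofReal (c * x)) (h2 : L ≤ ENNReal.ofReal (c * y)) :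
    L ≤ ENNReal.ofReal (c * (√x * √y)) := by
  rcases le_total x y with h | h
  · refine h1.trans (ENNReal.ofReal_le_ofReal ?_)
    gcongr
    calc x = √x * √x := (Real.mul_self_sqrt hx).symm
      _ ≤ _ := by gcongr
  · refine h2.trans (ENNReal.ofReal_le_ofReal ?_)
    gcongr
    calc y = √y * √y := (Real.mul_self_sqrt hy).symm
      _ ≤ _ := by gcongr

lemma hk3_inv_q {s : ℝ} (hs : 0 < s) (m a : R3) (hma : m ≠ a) :
    ∫⁻ w, ENNReal.ofReal (hk3 s (w - m)) * ENNReal.ofReal (‖w - a‖⁻¹)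
      ≤ ENNReal.ofReal (cH * (√((√s)⁻¹) * √(‖m - a‖⁻¹))) := by
  apply comb_min cH_pos.le (by positivity) (by positivity)
  · refine (lintegral_hk3_inv_le hs m a).trans (ENNReal.ofReal_le_ofReal ?_)
    gcongr
    exact le_max_left _ _
  · refine (lintegral_hk3_inv_le' hs m a hma).trans (ENNReal.ofReal_le_ofReal ?_)
    gcongr
    exact (le_max_left _ _).trans (le_max_right _ _)

lemma ae_ne_R3 (a : R3) : ∀ᵐ b : R3, a ≠ b := by
  have : (volume : Measure R3) {a} = 0 := by simp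
  rw [ae_iff]
  simpa using this

lemma hE_inv12_q {s : ℝ} (hs : 0 < s) (m : X6) (hm : m.1 ≠ m.2) :
    ∫⁻ z : X6, hE s (z - m) * ENNReal.ofReal (‖z.1 - z.2‖⁻¹)
      ≤ ENNReal.ofReal (cH * (√((√s)⁻¹) * √(‖m.1 - m.2‖⁻¹))) := by
  apply comb_min cH_pos.le (by positivity) (by positivity)
  · refine (lintegral_hE_inv12 hs m (fun _ => ENNReal.ofReal (cG * (√s)⁻¹))
      (Eventually.of_forall fun b => lintegral_hk3_inv_le hs _ _)).trans ?_
    rw [lintegral_mul_const' _ _ (by simp), lintegral_hk3_sub hs, one_mul]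
    apply ENNReal.ofReal_le_ofReal
    gcongr
    exact le_max_left _ _
  · refine (lintegral_hE_inv12 hs m (fun b => ENNReal.ofReal (cG2 * ‖m.1 - b‖⁻¹)) ?_).trans ?_
    · filter_upwards [ae_ne_R3 m.1] with b hb
      exact lintegral_hk3_inv_le' hs _ _ hb
    · have h1 : ∀ b, ENNReal.ofReal (hk3 s (b - m.2)) * ENNReal.ofReal (cG2 * ‖m.1 - b‖⁻¹)
          = ENNReal.ofReal cG2 * (ENNReal.ofReal (hk3 s (b - m.2)) * ENNReal.ofReal (‖b - m.1‖⁻¹)) := by
        intro b
        rw [ENNReal.ofReal_mul cG2_pos.le, norm_sub_rev]; ring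
      simp_rw [h1]
      rw [lintegral_const_mul' _ _ (by simp)]
      refine (mul_le_mul_right (lintegral_hk3_inv_le' hs _ _ hm.symm) _).trans ?_
      rw [← ENNReal.ofReal_mul cG2_pos.le]
      apply ENNReal.ofReal_le_ofReal
      rw [norm_sub_rev m.2 m.1, ← mul_assoc, ← pow_two]
      gcongr
      exact (le_max_right _ _).trans (le_max_right _ _)

/-- sum of inverse square roots of distances -/
noncomputable def dsum (R : Fin M → R3) (p : X6) : ℝ :=
  ∑ j, √(‖p.1 - R j‖⁻¹) + ∑ j, √(‖p.2 - R j‖⁻¹) + √(‖p.1 - p.2‖⁻¹)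

lemma dsum_nonneg (R : Fin M → R3) (p : X6) : 0 ≤ dsum R p := by unfold dsum; positivity

lemma sqrt_inv_eq_rpow {x : ℝ} (hx : 0 ≤ x) : √(x⁻¹) = x ^ (-(1 / 2) : ℝ) := by
  rw [Real.sqrt_eq_rpow, Real.inv_rpow hx, Real.rpow_neg hx]

lemma dsing_eq (R : Fin M → R3) (p : X6) : dsing R p = 1 + dsum R p := by
  unfold dsing dsum
  simp_rw [sqrt_inv_eq_rpow (norm_nonneg _)]
  ring

lemma lintegral_hE_UE_le' {s : ℝ} (hs : 0 < s) {C0 : ℝ} (hC0 : 0 ≤ C0) (R : Fin M → R3) (m : X6)
    (h1 : ∀ j, m.1 ≠ R j) (h2 : ∀ j, m.2 ≠ R j) (h3 : m.1 ≠ m.2) :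
    ∫⁻ z, hE s (z - m) * UE C0 R z
      ≤ ENNReal.ofReal (C0 * (1 + cH * √((√s)⁻¹) * dsum R m)) := by
  rw [lintegral_hE_UE_split hs]
  have hc := cH_pos
  have e1 : ∀ j, ∫⁻ z : X6, hE s (z - m) * ENNReal.ofReal (‖z.1 - R j‖⁻¹)
      ≤ ENNReal.ofReal (cH * (√((√s)⁻¹) * √(‖m.1 - R j‖⁻¹))) := by
    intro j
    rw [lintegral_hE_inv1 hs m (fun w => ENNReal.ofReal (‖w - R j‖⁻¹)) (by fun_prop)]
    exact hk3_inv_q hs _ _ (h1 j)
  have e2 : ∀ j, ∫⁻ z : X6, hE s (z - m) * ENNReal.ofReal (‖z.2 - R j‖⁻¹)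
      ≤ ENNReal.ofReal (cH * (√((√s)⁻¹) * √(‖m.2 - R j‖⁻¹))) := by
    intro j
    rw [lintegral_hE_inv2 hs m (fun w => ENNReal.ofReal (‖w - R j‖⁻¹)) (by fun_prop)]
    exact hk3_inv_q hs _ _ (h2 j)
  have e3 := hE_inv12_q hs m h3
  rw [ENNReal.ofReal_mul hC0]
  apply mul_le_mul_right
  refine (add_le_add (add_le_add (add_le_add le_rfl (Finset.sum_le_sum fun j _ => e1 j))
    (Finset.sum_le_sum fun j _ => e2 j)) e3).trans (le_of_eq ?_)
  have f1 : (1 : ℝ≥0∞) = ENNReal.ofReal 1 := by simp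
  rw [f1, ← ENNReal.ofReal_sum_of_nonneg (fun j _ => by (clear * - hc hs; positivity)),
    ← ENNReal.ofReal_sum_of_nonneg (fun j _ => by (clear * - hc hs; positivity)),
    ← ENNReal.ofReal_add (by positivity) (by (clear * - hc hs; positivity)),
    ← ENNReal.ofReal_add (by (clear * - hc hs; positivity)) (by (clear * - hc hs; positivity)),
    ← ENNReal.ofReal_add (by (clear * - hc hs; positivity)) (by positivity)]
  congr 1
  unfold dsum
  simp_rw [← Finset.mul_sum]
  ring

end Vale.Agent.P363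
end
end

section

section

namespace Vale.Agent.P363

open MeasureTheory Filter Set
open scoped ContDiff Topology ENNReal

lemma quad_id {s r : ℝ} (hs : 0 < s) (hr : 0 < r) (x z y : R3) :
    ‖x - z‖ ^ 2 / (2 * s) + ‖z - y‖ ^ 2 / (2 * r)
      = ‖x - y‖ ^ 2 / (2 * (s + r))
        + ‖z - ((r / (s + r)) • x + (s / (s + r)) • y)‖ ^ 2 / (2 * (s * r / (s + r))) := by
  set a := x - z with ha
  set b := z - y with hb
  have hab : x - y = a + b := by rw [ha, hb]; abel
  have hsr : s + r ≠ 0 := by positivity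
  have hm : z - ((r / (s + r)) • x + (s / (s + r)) • y) = (1 / (s + r)) • (s • b - r • a) := by
    have e1 : z = ((r / (s + r)) + (s / (s + r))) • z := by
      rw [← add_div, add_comm r s, div_self hsr, one_smul]
    have e2 : (1 / (s + r)) • (s • b - r • a) = (s / (s + r)) • b - (r / (s + r)) • a := by
      rw [smul_sub, smul_smul, smul_smul]; congr 2 <;> ring
    rw [e2, ha, hb]
    nth_rewrite 1 [e1]
    rw [add_smul, smul_sub, smul_sub]; abel
  rw [hab, hm]
  clear_value a b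
  rw [norm_smul, mul_pow, norm_add_sq_real, norm_sub_sq_real, norm_smul, norm_smul,
    inner_smul_left, inner_smul_right, real_inner_comm]
  simp only [Real.norm_eq_abs, mul_pow, sq_abs, conj_trivial]
  field_simp
  ring

lemma hk_bridge {s r : ℝ} (hs : 0 < s) (hr : 0 < r) (x z y : X6) :
    hk s (x - z) * hk r (z - y) = hk (s + r) (x - y) *
      hk (s * r / (s + r)) (z - ((r / (s + r)) • x + (s / (s + r)) • y)) := by
  unfold hk
  have e1 := quad_id hs hr x.1 z.1 y.1
  have e2 := quad_id hs hr x.2 z.2 y.2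
  have e3 : nsq (x - z) / (2 * s) + nsq (z - y) / (2 * r) = nsq (x - y) / (2 * (s + r)) +
      nsq (z - ((r / (s + r)) • x + (s / (s + r)) • y)) / (2 * (s * r / (s + r))) := by
    unfold nsq
    simp only [Prod.fst_sub, Prod.snd_sub, Prod.fst_add, Prod.snd_add, Prod.smul_fst, Prod.smul_snd]
    calc _ = (‖x.1 - z.1‖ ^ 2 / (2 * s) + ‖z.1 - y.1‖ ^ 2 / (2 * r))
        + (‖x.2 - z.2‖ ^ 2 / (2 * s) + ‖z.2 - y.2‖ ^ 2 / (2 * r)) := by ring
      _ = _ := by rw [e1, e2]; ring
  have e4 : ((2 * Real.pi * s) ^ 3)⁻¹ * ((2 * Real.pi * r) ^ 3)⁻¹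
      = ((2 * Real.pi * (s + r)) ^ 3)⁻¹ * ((2 * Real.pi * (s * r / (s + r))) ^ 3)⁻¹ := by
    rw [← mul_inv, ← mul_inv]
    congr 1
    have hsr : s + r ≠ 0 := by positivity
    field_simp
  calc _ = (((2 * Real.pi * s) ^ 3)⁻¹ * ((2 * Real.pi * r) ^ 3)⁻¹) *
        (Real.exp (-(nsq (x - z) / (2 * s))) * Real.exp (-(nsq (z - y) / (2 * r)))) := by ring
    _ = (((2 * Real.pi * s) ^ 3)⁻¹ * ((2 * Real.pi * r) ^ 3)⁻¹) *
        (Real.exp (-(nsq (x - y) / (2 * (s + r)))) *
          Real.exp (-(nsq (z - ((r / (s + r)) • x + (s / (s + r)) • y)) / (2 * (s * r / (s + r)))))) := by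
        rw [← Real.exp_add, ← Real.exp_add]
        congr 2
        linarith only [e3]
    _ = _ := by rw [e4]; ring

lemma hE_bridge {s r : ℝ} (hs : 0 < s) (hr : 0 < r) (x z y : X6) :
    hE s (x - z) * hE r (z - y) = hE (s + r) (x - y) *
      hE (s * r / (s + r)) (z - ((r / (s + r)) • x + (s / (s + r)) • y)) := by
  unfold hE
  rw [← ENNReal.ofReal_mul (hk_nonneg hs _), hk_bridge hs hr,
    ENNReal.ofReal_mul (hk_nonneg (by positivity) _)]

/-- Heat semigroup on nonnegative functions. -/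
noncomputable def PE (s : ℝ) (f : X6 → ℝ≥0∞) (x : X6) : ℝ≥0∞ := ∫⁻ y, hE s (x - y) * f y

lemma PE_mono {s : ℝ} {f g : X6 → ℝ≥0∞} (h : f ≤ᵐ[volume] g) (x : X6) : PE s f x ≤ PE s g x := by
  unfold PE
  apply lintegral_mono_ae
  filter_upwards [h] with y hy
  gcongr

lemma measurable_PE {f : X6 → ℝ≥0∞} (hf : AEMeasurable f) :
    Measurable (fun p : ℝ × X6 => PE p.1 f p.2) := by
  have h1 : ∀ p : ℝ × X6, PE p.1 f p.2 = ∫⁻ y, hE p.1 (p.2 - y) * hf.mk f y := by
    intro p
    unfold PE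
    apply lintegral_congr_ae
    filter_upwards [hf.ae_eq_mk] with y hy
    rw [hy]
  simp_rw [h1]
  apply Measurable.lintegral_prod_right'
    (f := fun q : (ℝ × X6) × X6 => hE q.1.1 (q.1.2 - q.2) * hf.mk f q.2)
  have h2 : Measurable (fun q : (ℝ × X6) × X6 => hE q.1.1 (q.1.2 - q.2)) :=
    measurable_hE.comp (f := fun q : (ℝ × X6) × X6 => (q.1.1, q.1.2 - q.2)) (by fun_prop)
  have h3 : Measurable (fun q : (ℝ × X6) × X6 => hf.mk f q.2) := hf.measurable_mk.comp measurable_snd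
  exact h2.mul h3

lemma measurable_PE' {f : X6 → ℝ≥0∞} (hf : AEMeasurable f) (s : ℝ) : Measurable (PE s f) :=
  (measurable_PE hf).comp (f := fun x => (s, x)) (by fun_prop)

variable {M : ℕ}

/-- kernel bound for one time slice -/
noncomputable def KE (M : ℕ) (C0 : ℝ) (s : ℝ) : ℝ≥0∞ :=
  ENNReal.ofReal C0 * (1 + (2 * M + 1) * ENNReal.ofReal (cG * (√s)⁻¹))

lemma bridge_bound {s r : ℝ} (hs : 0 < s) (hr : 0 < r) (C0 : ℝ) (R : Fin M → R3) (x y : X6) :
    ∫⁻ z, hE s (x - z) * UE C0 R z * hE r (z - y) ≤ KE M C0 (s * r / (s + r)) * hE (s + r) (x - y) := by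
  have h1 : ∀ z, hE s (x - z) * UE C0 R z * hE r (z - y)
      = hE (s + r) (x - y) *
        (hE (s * r / (s + r)) (z - ((r / (s + r)) • x + (s / (s + r)) • y)) * UE C0 R z) := by
    intro z
    rw [mul_right_comm, hE_bridge hs hr]; ring
  simp_rw [h1]
  rw [lintegral_const_mul' _ _ (by simp [hE]), mul_comm]
  gcongr
  exact lintegral_hE_UE_le (by positivity) _ _ _

/-- composition of two semigroup factors with the potential in between -/
lemma PE_UE_PE {s r : ℝ} (hs : 0 < s) (hr : 0 < r) (C0 : ℝ) (R : Fin M → R3)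
    {f : X6 → ℝ≥0∞} (hf : AEMeasurable f) (x : X6) :
    PE s (fun z => UE C0 R z * PE r f z) x ≤ KE M C0 (s * r / (s + r)) * PE (s + r) f x := by
  unfold PE
  have hm1 := measurable_hE' s
  have hm2 := measurable_hE' r
  have hm3 := measurable_UE C0 R
  calc ∫⁻ z, hE s (x - z) * (UE C0 R z * ∫⁻ y, hE r (z - y) * f y)
      = ∫⁻ z, ∫⁻ y, hE s (x - z) * UE C0 R z * hE r (z - y) * f y := by
        congr 1; ext z
        rw [← mul_assoc, ← lintegral_const_mul'' _ (by fun_prop)]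
        congr 1; ext y; ring
    _ = ∫⁻ y, ∫⁻ z, hE s (x - z) * UE C0 R z * hE r (z - y) * f y := by
        apply lintegral_lintegral_swap
        have : AEMeasurable (fun p : X6 × X6 => f p.2) (volume.prod volume) :=
          hf.comp_snd
        have h2 : Measurable (fun p : X6 × X6 => hE s (x - p.1) * UE C0 R p.1 * hE r (p.1 - p.2)) := by
          fun_prop
        exact h2.aemeasurable.mul this
    _ ≤ ∫⁻ y, KE M C0 (s * r / (s + r)) * (hE (s + r) (x - y) * f y) := by
        apply lintegral_mono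
        intro y
        simp only
        rw [lintegral_mul_const'' _ (by (clear * - hm1 hm3 hm2; exact Measurable.aemeasurable (by fun_prop))), ← mul_assoc]
        gcongr
        exact bridge_bound hs hr C0 R x y
    _ = _ := by
        rw [lintegral_const_mul'' _ (by have := measurable_hE' (s + r); fun_prop)]

lemma PE_PE {s r : ℝ} (hs : 0 < s) (hr : 0 < r) {f : X6 → ℝ≥0∞} (hf : AEMeasurable f) (x : X6) :
    PE s (PE r f) x = PE (s + r) f x := by
  unfold PE
  have hm1 := measurable_hE' s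
  have hm2 := measurable_hE' r
  calc ∫⁻ z, hE s (x - z) * (∫⁻ y, hE r (z - y) * f y)
      = ∫⁻ z, ∫⁻ y, hE s (x - z) * hE r (z - y) * f y := by
        congr 1; ext z
        rw [← lintegral_const_mul'' _ (by fun_prop)]
        congr 1; ext y; ring
    _ = ∫⁻ y, ∫⁻ z, hE s (x - z) * hE r (z - y) * f y := by
        apply lintegral_lintegral_swap
        have : AEMeasurable (fun p : X6 × X6 => f p.2) (volume.prod volume) :=
          hf.comp_snd
        have h2 : Measurable (fun p : X6 × X6 => hE s (x - p.1) * hE r (p.1 - p.2)) := by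
          fun_prop
        exact h2.aemeasurable.mul this
    _ = ∫⁻ y, (hE (s + r) (x - y) * f y) := by
        congr 1; ext y
        rw [lintegral_mul_const'' _ (by fun_prop)]
        congr 1
        have h1 : ∀ z, hE s (x - z) * hE r (z - y)
            = hE (s + r) (x - y) *
              (hE (s * r / (s + r)) (z - ((r / (s + r)) • x + (s / (s + r)) • y))) := by
          intro z
          rw [hE_bridge hs hr]
        simp_rw [h1]
        rw [lintegral_const_mul' _ _ (by simp [hE]), lintegral_hE_sub (by positivity), mul_one]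

end Vale.Agent.P363
end
end

section

section

namespace Vale.Agent.P363

open MeasureTheory Filter Set
open scoped ContDiff Topology ENNReal

lemma lintegral_inv_sqrt {t : ℝ} (ht : 0 < t) :
    ∫⁻ s in Ioo 0 t, ENNReal.ofReal ((√s)⁻¹) = ENNReal.ofReal (2 * √t) := by
  have h0 : ∀ s ∈ Ioo 0 t, ENNReal.ofReal ((√s)⁻¹) = ENNReal.ofReal (s ^ (-(1 / 2) : ℝ)) := by
    intro s hs
    rw [Real.sqrt_eq_rpow, ← Real.rpow_neg hs.1.le]
  rw [setLIntegral_congr_fun measurableSet_Ioo h0]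
  have h1 : IntegrableOn (fun s : ℝ => s ^ (-(1 / 2) : ℝ)) (Ioo 0 t) := by
    have := intervalIntegral.intervalIntegrable_rpow' (a := 0) (b := t) (r := (-(1 / 2) : ℝ)) (by norm_num)
    rw [intervalIntegrable_iff_integrableOn_Ioo_of_le ht.le] at this
    exact this
  rw [← ofReal_integral_eq_lintegral_ofReal h1]
  · congr 1
    rw [← integral_Ioc_eq_integral_Ioo, ← intervalIntegral.integral_of_le ht.le,
      integral_rpow (by left; norm_num), Real.sqrt_eq_rpow]
    norm_num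
    ring
  · rw [EventuallyLE, ae_restrict_iff' measurableSet_Ioo]
    refine Eventually.of_forall fun s hs => ?_
    have := hs.1
    simp only [Pi.zero_apply]
    positivity

lemma lintegral_reflect (t : ℝ) (g : ℝ → ℝ≥0∞) :
    ∫⁻ s in Ioo 0 t, g (t - s) = ∫⁻ s in Ioo 0 t, g s := by
  rw [← lintegral_indicator measurableSet_Ioo, ← lintegral_indicator measurableSet_Ioo,
    ← lintegral_sub_left_eq_self _ t]
  congr 1; ext s
  by_cases h : s ∈ Ioo 0 t
  · have h' : t - s ∈ Ioo 0 t := ⟨by linarith [h.2], by linarith [h.1]⟩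
    rw [indicator_of_mem h, indicator_of_mem h']
    congr 1; ring
  · have h' : t - s ∉ Ioo 0 t := by
      intro h2; exact h ⟨by linarith [h2.2], by linarith [h2.1]⟩
    rw [indicator_of_notMem h, indicator_of_notMem h']

lemma inv_sqrt_le {s r : ℝ} (hs : 0 < s) (hr : 0 < r) :
    (√(s * r / (s + r)))⁻¹ ≤ (√s)⁻¹ + (√r)⁻¹ := by
  rw [← Real.sqrt_inv, ← Real.sqrt_inv, ← Real.sqrt_inv]
  have : (s * r / (s + r))⁻¹ = s⁻¹ + r⁻¹ := by field_simp; ring
  rw [this]
  have ha : 0 ≤ s⁻¹ := by positivity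
  have hb : 0 ≤ r⁻¹ := by positivity
  rw [Real.sqrt_le_left (by positivity)]
  linarith only [Real.sq_sqrt ha, Real.sq_sqrt hb, mul_nonneg (Real.sqrt_nonneg s⁻¹) (Real.sqrt_nonneg r⁻¹)]

/-- the small constant -/
noncomputable def epsE (M : ℕ) (C0 : ℝ) (t : ℝ) : ℝ≥0∞ :=
  ENNReal.ofReal C0 * (ENNReal.ofReal t + (2 * M + 1) * ENNReal.ofReal (4 * cG * √t))

lemma epsE_mono (M : ℕ) (C0 : ℝ) {t t' : ℝ} (h : t ≤ t') : epsE M C0 t ≤ epsE M C0 t' := by
  unfold epsE
  have := cG_pos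
  gcongr

lemma measurable_KE (M : ℕ) (C0 : ℝ) : Measurable (KE M C0) := by
  unfold KE; (clear * -; fun_prop)

lemma int_KE (M : ℕ) (C0 : ℝ) {t : ℝ} (ht : 0 < t) :
    ∫⁻ s in Ioo 0 t, KE M C0 (s * (t - s) / t) ≤ epsE M C0 t := by
  unfold KE
  rw [lintegral_const_mul _ (by fun_prop), lintegral_add_left (by fun_prop)]
  unfold epsE
  have h1 : ∫⁻ s in Ioo 0 t, (1 : ℝ≥0∞) = ENNReal.ofReal t := by simp only [lintegral_const, MeasurableSet.univ, Measure.restrict_apply, univ_inter, Real.volume_Ioo, sub_zero, one_mul]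
  rw [h1, lintegral_const_mul _ (by fun_prop)]
  gcongr
  have hc := cG_pos
  calc ∫⁻ s in Ioo 0 t, ENNReal.ofReal (cG * (√(s * (t - s) / t))⁻¹)
      ≤ ∫⁻ s in Ioo 0 t, (ENNReal.ofReal cG * ENNReal.ofReal ((√s)⁻¹)
          + ENNReal.ofReal cG * ENNReal.ofReal ((√(t - s))⁻¹)) := by
        apply setLIntegral_mono' measurableSet_Ioo
        intro s hs
        rw [← ENNReal.ofReal_mul hc.le, ← ENNReal.ofReal_mul hc.le, ← ENNReal.ofReal_add (by positivity) (by positivity)]
        apply ENNReal.ofReal_le_ofReal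
        rw [← mul_add]
        gcongr
        have := inv_sqrt_le hs.1 (r := t - s) (by linarith [hs.2])
        have e : s + (t - s) = t := by ring
        rw [e] at this
        exact this
    _ = ENNReal.ofReal cG * ENNReal.ofReal (2 * √t) + ENNReal.ofReal cG * ENNReal.ofReal (2 * √t) := by
        rw [lintegral_add_left (by fun_prop), lintegral_const_mul _ (by fun_prop),
          lintegral_const_mul _ (by fun_prop), lintegral_reflect t (fun s => ENNReal.ofReal ((√s)⁻¹)),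
          lintegral_inv_sqrt ht]
    _ = _ := by
        rw [← ENNReal.ofReal_mul hc.le, ← ENNReal.ofReal_add (by positivity) (by positivity)]
        congr 1; ring

variable {M : ℕ}

/-- the Duhamel term -/
noncomputable def AE (C0 : ℝ) (R : Fin M → R3) (t : ℝ) (f : X6 → ℝ≥0∞) (x : X6) : ℝ≥0∞ :=
  ∫⁻ s in Ioo 0 t, PE s (fun z => UE C0 R z * f z) x

lemma swap_time (F : ℝ → ℝ → ℝ≥0∞) (hF : Measurable (Function.uncurry F)) (t : ℝ) :
    ∫⁻ s in Ioo 0 t, ∫⁻ τ in Ioo s t, F s τ = ∫⁻ τ in Ioo 0 t, ∫⁻ s in Ioo 0 τ, F s τ := by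
  have hset : MeasurableSet {p : ℝ × ℝ | 0 < p.1 ∧ p.1 < p.2 ∧ p.2 < t} := by
    apply MeasurableSet.inter
    · exact measurableSet_lt measurable_const measurable_fst
    · apply MeasurableSet.inter
      · exact measurableSet_lt measurable_fst measurable_snd
      · exact measurableSet_lt measurable_snd measurable_const
  have e1 : ∫⁻ s in Ioo 0 t, ∫⁻ τ in Ioo s t, F s τ
      = ∫⁻ s, ∫⁻ τ, {p : ℝ × ℝ | 0 < p.1 ∧ p.1 < p.2 ∧ p.2 < t}.indicator (Function.uncurry F) (s, τ) := by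
    rw [← lintegral_indicator measurableSet_Ioo]
    congr 1; ext s
    by_cases hs : s ∈ Ioo 0 t
    · rw [indicator_of_mem hs, ← lintegral_indicator measurableSet_Ioo]
      congr 1; ext τ
      by_cases hτ : τ ∈ Ioo s t
      · rw [indicator_of_mem hτ, indicator_of_mem]
        · rfl
        · exact ⟨hs.1, hτ.1, hτ.2⟩
      · rw [indicator_of_notMem hτ, indicator_of_notMem]
        rintro ⟨_, h2, h3⟩; exact hτ ⟨h2, h3⟩
    · rw [indicator_of_notMem hs]
      have : ∀ τ, {p : ℝ × ℝ | 0 < p.1 ∧ p.1 < p.2 ∧ p.2 < t}.indicator (Function.uncurry F) (s, τ) = 0 := by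
        intro τ
        rw [indicator_of_notMem]
        rintro ⟨h1, h2, h3⟩; exact hs ⟨h1, h2.trans h3⟩
      simp only [this, lintegral_const, measure_univ_of_isAddLeftInvariant, zero_mul]
  have e2 : ∫⁻ τ in Ioo 0 t, ∫⁻ s in Ioo 0 τ, F s τ
      = ∫⁻ τ, ∫⁻ s, {p : ℝ × ℝ | 0 < p.1 ∧ p.1 < p.2 ∧ p.2 < t}.indicator (Function.uncurry F) (s, τ) := by
    rw [← lintegral_indicator measurableSet_Ioo]
    congr 1; ext τ
    by_cases hτ : τ ∈ Ioo 0 t
    · rw [indicator_of_mem hτ, ← lintegral_indicator measurableSet_Ioo]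
      congr 1; ext s
      by_cases hs : s ∈ Ioo 0 τ
      · rw [indicator_of_mem hs, indicator_of_mem]
        · rfl
        · exact ⟨hs.1, hs.2, hτ.2⟩
      · rw [indicator_of_notMem hs, indicator_of_notMem]
        rintro ⟨h1, h2, _⟩; exact hs ⟨h1, h2⟩
    · rw [indicator_of_notMem hτ]
      have : ∀ s, {p : ℝ × ℝ | 0 < p.1 ∧ p.1 < p.2 ∧ p.2 < t}.indicator (Function.uncurry F) (s, τ) = 0 := by
        intro s
        rw [indicator_of_notMem]
        rintro ⟨h1, h2, h3⟩; exact hτ ⟨h1.trans h2, h3⟩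
      simp only [this, lintegral_const, measure_univ_of_isAddLeftInvariant, zero_mul]
  rw [e1, e2]
  apply lintegral_lintegral_swap
  exact (hF.indicator hset).aemeasurable

lemma measurable_AE {C0 : ℝ} {R : Fin M → R3} {f : X6 → ℝ≥0∞} (hf : AEMeasurable f) (r : ℝ) :
    Measurable (AE C0 R r f) := by
  have hUf : AEMeasurable (fun z => UE C0 R z * f z) := (measurable_UE C0 R).aemeasurable.mul hf
  unfold AE
  apply Measurable.lintegral_prod_left'
    (f := fun q : ℝ × X6 => PE q.1 (fun z => UE C0 R z * f z) q.2)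
  exact measurable_PE hUf

lemma PE_lintegral {s : ℝ} {S : Set ℝ} {U : X6 → ℝ≥0∞} (hU : Measurable U) {G : ℝ → X6 → ℝ≥0∞}
    (hG : Measurable (fun p : ℝ × X6 => G p.1 p.2)) (x : X6) :
    PE s (fun z => U z * ∫⁻ r in S, G r z) x = ∫⁻ r in S, PE s (fun z => U z * G r z) x := by
  have h1 := measurable_hE' s
  have h3 : ∀ y : X6, Measurable (fun r => G r y) := fun y =>
    hG.comp (by fun_prop : Measurable fun r : ℝ => (r, y))
  have h2 : Measurable (fun p : X6 × ℝ => G p.2 p.1) :=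
    hG.comp (by fun_prop : Measurable fun p : X6 × ℝ => (p.2, p.1))
  calc PE s (fun z => U z * ∫⁻ r in S, G r z) x
      = ∫⁻ y, ∫⁻ r in S, hE s (x - y) * (U y * G r y) := by
        unfold PE
        congr 1; ext y
        rw [lintegral_const_mul _ ((h3 y).const_mul _), lintegral_const_mul _ (h3 y)]
    _ = ∫⁻ r in S, ∫⁻ y, hE s (x - y) * (U y * G r y) := by
        apply lintegral_lintegral_swap
        apply Measurable.aemeasurable
        exact (h1.comp (by fun_prop : Measurable fun p : X6 × ℝ => x - p.1)).mul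
          ((hU.comp measurable_fst).mul h2)

lemma PE_add {s : ℝ} {f g : X6 → ℝ≥0∞} (hf : AEMeasurable f) (x : X6) :
    PE s (fun z => f z + g z) x = PE s f x + PE s g x := by
  have h1 := measurable_hE' s
  unfold PE
  rw [← lintegral_add_left']
  · congr 1; ext y; rw [mul_add]
  · exact (h1.comp (by fun_prop : Measurable fun y => x - y)).aemeasurable.mul hf

lemma AE_second {C0 : ℝ} {R : Fin M → R3} {t s : ℝ} (hs : s ∈ Ioo 0 t) {f : X6 → ℝ≥0∞}
    (hf : AEMeasurable f) (x : X6) :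
    PE s (fun z => UE C0 R z * AE C0 R (t - s) f z) x ≤
      ∫⁻ τ in Ioo s t, KE M C0 (s * (τ - s) / τ) * PE τ (fun z => UE C0 R z * f z) x := by
  have hU := measurable_UE C0 R
  have hUf : AEMeasurable (fun z => UE C0 R z * f z) := hU.aemeasurable.mul hf
  unfold AE
  rw [PE_lintegral hU (measurable_PE hUf)]
  calc ∫⁻ r in Ioo 0 (t - s), PE s (fun z => UE C0 R z * PE r (fun z => UE C0 R z * f z) z) x
      ≤ ∫⁻ r in Ioo 0 (t - s), KE M C0 (s * r / (s + r)) * PE (s + r) (fun z => UE C0 R z * f z) x := by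
        apply setLIntegral_mono' measurableSet_Ioo
        intro r hr'
        exact PE_UE_PE hs.1 hr'.1 C0 R hUf x
    _ = ∫⁻ τ in Ioo s t, KE M C0 (s * (τ - s) / τ) * PE τ (fun z => UE C0 R z * f z) x := by
        rw [← lintegral_indicator measurableSet_Ioo, ← lintegral_indicator measurableSet_Ioo,
          ← lintegral_sub_right_eq_self _ s]
        congr 1; ext τ
        by_cases h : τ ∈ Ioo s t
        · have h' : τ - s ∈ Ioo 0 (t - s) := ⟨by linarith [h.1], by linarith [h.2]⟩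
          rw [indicator_of_mem h, indicator_of_mem h']
          have : s + (τ - s) = τ := by ring
          rw [this]
        · have h' : τ - s ∉ Ioo 0 (t - s) := by
            intro h2; exact h ⟨by linarith [h2.1], by linarith [h2.2]⟩
          rw [indicator_of_notMem h, indicator_of_notMem h']

lemma AE_step1 {C0 : ℝ} {R : Fin M → R3} {t : ℝ} {f : X6 → ℝ≥0∞}
    (hf : AEMeasurable f)
    (hD : ∀ r ∈ Ioo 0 t, ∀ᵐ z, f z ≤ PE r f z + AE C0 R r f z) (x : X6) :
    ∀ s ∈ Ioo 0 t, PE s (fun z => UE C0 R z * f z) x ≤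
      KE M C0 (s * (t - s) / t) * PE t f x +
        ∫⁻ τ in Ioo s t, KE M C0 (s * (τ - s) / τ) * PE τ (fun z => UE C0 R z * f z) x := by
  intro s hs
  have hU := measurable_UE C0 R
  have hr : t - s ∈ Ioo 0 t := ⟨by linarith [hs.2], by linarith [hs.1]⟩
  calc PE s (fun z => UE C0 R z * f z) x
      ≤ PE s (fun z => UE C0 R z * PE (t - s) f z + UE C0 R z * AE C0 R (t - s) f z) x := by
        apply PE_mono
        filter_upwards [hD _ hr] with z hz
        rw [← mul_add]
        gcongr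
    _ = PE s (fun z => UE C0 R z * PE (t - s) f z) x
        + PE s (fun z => UE C0 R z * AE C0 R (t - s) f z) x :=
        PE_add (hU.mul (measurable_PE' hf (t - s))).aemeasurable x
    _ ≤ _ := by
        apply add_le_add
        · have := PE_UE_PE hs.1 hr.1 C0 R hf x
          have e : s + (t - s) = t := by ring
          rw [e] at this
          exact this
        · exact AE_second hs hf x

lemma measurable_PE_time {f : X6 → ℝ≥0∞} (hf : AEMeasurable f) (x : X6) :
    Measurable (fun s => PE s f x) := by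
  have h := measurable_PE hf
  have h2 : Measurable (fun r : ℝ => (r, x)) := by fun_prop
  have h3 : Measurable ((fun p : ℝ × X6 => PE p.1 f p.2) ∘ (fun r => (r, x))) := Measurable.comp h h2
  exact h3

lemma AE_absorb0 {t : ℝ} {C0 : ℝ} (ht : 0 < t) (g : ℝ → ℝ≥0∞) (hmP : Measurable g) (P : ℝ≥0∞)
    (step1 : ∀ s ∈ Ioo 0 t, g s ≤ KE M C0 (s * (t - s) / t) * P +
        ∫⁻ τ in Ioo s t, KE M C0 (s * (τ - s) / τ) * g τ) :
    ∫⁻ s in Ioo 0 t, g s ≤ epsE M C0 t * P + epsE M C0 t * ∫⁻ s in Ioo 0 t, g s := by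
  have hm1 : Measurable (fun s => KE M C0 (s * (t - s) / t)) :=
    (measurable_KE M C0).comp (by fun_prop)
  refine (setLIntegral_mono' measurableSet_Ioo step1).trans ?_
  rw [lintegral_add_left (hm1.mul_const _)]
  apply add_le_add
  · rw [lintegral_mul_const _ hm1]
    gcongr
    exact int_KE M C0 ht
  · rw [swap_time (fun s τ => KE M C0 (s * (τ - s) / τ) * g τ)]
    · calc ∫⁻ τ in Ioo 0 t, ∫⁻ s in Ioo 0 τ, KE M C0 (s * (τ - s) / τ) * g τ
          ≤ ∫⁻ τ in Ioo 0 t, epsE M C0 t * g τ := by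
            apply setLIntegral_mono' measurableSet_Ioo
            intro τ hτ
            have hm2 : Measurable (fun s => KE M C0 (s * (τ - s) / τ)) :=
              (measurable_KE M C0).comp (by fun_prop)
            rw [lintegral_mul_const _ hm2]
            gcongr
            exact (int_KE M C0 hτ.1).trans (epsE_mono M C0 hτ.2.le)
        _ = _ := by
            rw [lintegral_const_mul _ hmP]
    · have h1 : Measurable (fun p : ℝ × ℝ => KE M C0 (p.1 * (p.2 - p.1) / p.2)) :=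
        (measurable_KE M C0).comp (by fun_prop)
      exact h1.mul (hmP.comp measurable_snd)

lemma AE_absorb {C0 : ℝ} {R : Fin M → R3} {t : ℝ} (ht : 0 < t) {f : X6 → ℝ≥0∞}
    (hf : AEMeasurable f)
    (hD : ∀ r ∈ Ioo 0 t, ∀ᵐ z, f z ≤ PE r f z + AE C0 R r f z) (x : X6) :
    AE C0 R t f x ≤ epsE M C0 t * PE t f x + epsE M C0 t * AE C0 R t f x := by
  have hUf : AEMeasurable (fun z => UE C0 R z * f z) := (measurable_UE C0 R).aemeasurable.mul hf
  exact AE_absorb0 ht _ (measurable_PE_time hUf x) _ (AE_step1 hf hD x)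

end Vale.Agent.P363
end
end

section

section

/-!
Common definitions for the disproof with four electrons: real functions on configuration space,
the scaled Hamiltonian, sectors and reflections.
-/

namespace Vale.Agent.P363.D

open MeasureTheory
open scoped ENNReal ContDiff

noncomputable section

/-- `f` is a real `H¹` function on the configuration space of `N` electrons, with gradient
components `g i k` (`k`-th coordinate of the `i`-th electron). -/
structure HN {N : ℕ} (f : (Fin N → R3) → ℝ) (g : Fin N → Fin 3 → (Fin N → R3) → ℝ) : Prop where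
  memLp : MemLp f 2 volume
  memLp' : ∀ i k, MemLp (g i k) 2 volume
  acl : ∀ i k, ACL volume (axisDir i k) f (g i k)

/-- Quadratic form of `-(1/2) Δ + w`. -/
def qN {N : ℕ} (w : (Fin N → R3) → ℝ) (f : (Fin N → R3) → ℝ)
    (g : Fin N → Fin 3 → (Fin N → R3) → ℝ) : ℝ :=
  (1 / 2) * (∑ i, ∑ k, ∫ x, g i k x ^ 2) + ∫ x, w x * f x ^ 2

/-- The associated bilinear form. -/
def bN {N : ℕ} (w : (Fin N → R3) → ℝ) (f : (Fin N → R3) → ℝ)
    (g : Fin N → Fin 3 → (Fin N → R3) → ℝ) (f₂ : (Fin N → R3) → ℝ)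
    (g₂ : Fin N → Fin 3 → (Fin N → R3) → ℝ) : ℝ :=
  (1 / 2) * (∑ i, ∑ k, ∫ x, g i k x * g₂ i k x) + ∫ x, w x * (f x * f₂ x)

/-- The associated bilinear form. -/
def b1 (v : R3 → ℝ) (f : R3 → ℝ) (g : Fin 3 → R3 → ℝ) (f₂ : R3 → ℝ) (g₂ : Fin 3 → R3 → ℝ) : ℝ :=
  (1 / 2) * (∑ k, ∫ x, g k x * g₂ k x) + ∫ x, v x * (f x * f₂ x)

/-- The three coordinate axes are `x = 0`, `y = 1`, `z = 2`. -/
def ez : R3 := EuclideanSpace.single 2 (1 : ℝ)

/-- Reflection of the `k`-th coordinate. -/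
def refl (k : Fin 3) (x : R3) : R3 := x - (2 * x k) • EuclideanSpace.single k (1 : ℝ)

/-- Reflection of the `k`-th coordinate of all electrons. -/
def reflN {N : ℕ} (k : Fin 3) (x : Fin N → R3) : Fin N → R3 := fun i => refl k (x i)

/-- Scaled one-body potential of the heavy nucleus and of the two light nuclei (charge `A`,
scaled distance `L`), `ε = 1 / Z`. -/
def v1 (ε A L : ℝ) (x : R3) : ℝ :=
  -(1 / ‖x‖) - ε * A * (1 / ‖x - L • ez‖ + 1 / ‖x + L • ez‖)

/-- The scaled potential of `N` electrons. -/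
def vN {N : ℕ} (ε A L : ℝ) (x : Fin N → R3) : ℝ :=
  (∑ i, v1 ε A L (x i)) + ε * ∑ i, ∑ j ∈ Finset.Ioi i, 1 / ‖x i - x j‖

/-- Antisymmetry under the exchange of the electrons `i`, `j`. -/
def AntiSw {N : ℕ} (i j : Fin N) (f : (Fin N → R3) → ℝ) : Prop :=
  ∀ᵐ x, f (x ∘ Equiv.swap i j) = - f x

/-- The four-electron sector (up, up; down, down). -/
def Sec4 (f : (Fin 4 → R3) → ℝ) : Prop := AntiSw 0 1 f ∧ AntiSw 2 3 f

/-- The ion sector: (up; down, down). -/
def Sec3 (f : (Fin 3 → R3) → ℝ) : Prop := AntiSw 1 2 f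

end

end Vale.Agent.P363.D
end
end

section

section

/-!
P363 disproof, block KD (Kohn-Sham side): one-body density matrices as countable families.
-/

namespace Vale.Agent.P363.KD

open MeasureTheory Set Filter Topology
open scoped ENNReal ContDiff

noncomputable section

/-- Quadratic form of `-(1/2)Δ + v` at a real function `f` with weak gradient `f'`. -/
def hform (v : R3 → ℝ) (f : R3 → ℝ) (f' : Fin 3 → R3 → ℝ) : ℝ :=
  (1 / 2) * ∑ k, (∫ x, f' k x ^ 2) + ∫ x, v x * f x ^ 2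

/-- A real spin-summed one-body density matrix `∑ᵢ |fᵢ⟩⟨fᵢ|` (`0 ≤ γ ≤ 2`, finite kinetic
energy), `f' i` being the weak gradient of `f i`. -/
structure IsFam {ι : Type} (f : ι → R3 → ℝ) (f' : ι → Fin 3 → R3 → ℝ) : Prop where
  h1 : ∀ i, H1o (f i) (f' i)
  sum0 : Summable (fun i => ∫ x, f i x ^ 2)
  sum1 : ∀ k, Summable (fun i => ∫ x, f' i k x ^ 2)
  pauli : ∀ u : R3 → ℝ, MemLp u 2 volume → ∑' i, (∫ x, f i x * u x) ^ 2 ≤ 2 * ∫ x, u x ^ 2

/-- Trace. -/
def tr {ι : Type} (f : ι → R3 → ℝ) : ℝ := ∑' i, ∫ x, f i x ^ 2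

/-- Density. -/
def rho {ι : Type} (f : ι → R3 → ℝ) (x : R3) : ℝ := ∑' i, f i x ^ 2

/-- Kinetic energy. -/
def kin {ι : Type} (f' : ι → Fin 3 → R3 → ℝ) : ℝ := ∑' i, (1 / 2) * ∑ k, ∫ x, f' i k x ^ 2

/-- Energy in the potential `v`. -/
def hE {ι : Type} (v : R3 → ℝ) (f : ι → R3 → ℝ) (f' : ι → Fin 3 → R3 → ℝ) : ℝ :=
  ∑' i, hform v (f i) (f' i)

/-- `f` is a minimizing density matrix of four electrons in the potential `v`, with density `n`. -/
structure IsMin {ι : Type} (v : R3 → ℝ) (f : ι → R3 → ℝ) (f' : ι → Fin 3 → R3 → ℝ)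
    (n : R3 → ℝ) : Prop where
  memV : MemV v
  fam : IsFam f f'
  tr : tr f = 4
  rho : ∀ᵐ x, rho f x = n x
  min : ∀ (κ : Type) [Countable κ] (g : κ → R3 → ℝ) (g' : κ → Fin 3 → R3 → ℝ),
    IsFam g g' → KD.tr g = 4 → hE v f f' ≤ hE v g g'

/-- Reflection of the `k`-th coordinate. -/
abbrev refl (k : Fin 3) (x : R3) : R3 := D.refl k x

end

end Vale.Agent.P363.KD
end
end

section

section

/-! KD3: Slater amplitudes. -/

namespace Vale.Agent.P363.KD

open MeasureTheory Set Filter Topology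
open scoped ENNReal ContDiff

noncomputable section

/-- Slater determinant of real spin orbitals. -/
def slaterAmp {N : ℕ} (χ : Fin N → Fin 2 → R3 → ℝ) (s : Fin N → Fin 2) (x : Fin N → R3) : ℝ :=
  (√(N.factorial : ℝ))⁻¹ *
    ∑ σ : Equiv.Perm (Fin N), ((Equiv.Perm.sign σ : ℤ) : ℝ) * ∏ i, χ (σ i) (s i) (x i)

/-- Its partial derivative with respect to the `k`-th coordinate of electron `i`. -/
def slaterGrad {N : ℕ} (χ : Fin N → Fin 2 → R3 → ℝ) (χ' : Fin N → Fin 2 → Fin 3 → R3 → ℝ)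
    (s : Fin N → Fin 2) (i : Fin N) (k : Fin 3) (x : Fin N → R3) : ℝ :=
  (√(N.factorial : ℝ))⁻¹ *
    ∑ σ : Equiv.Perm (Fin N), ((Equiv.Perm.sign σ : ℤ) : ℝ) *
      (χ' (σ i) (s i) k (x i) * ∏ j ∈ Finset.univ.erase i, χ (σ j) (s j) (x j))


end

end Vale.Agent.P363.KD
end
end

section

section

/-! KD1: Sobolev inequality for one-body functions. -/

namespace Vale.Agent.P363.KD

open MeasureTheory Set Filter Topology
open scoped ENNReal NNReal ContDiff Convolution

noncomputable section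

namespace K1

/-- A sequence of bump functions shrinking to the origin. -/
def bump (n : ℕ) : ContDiffBump (0 : R3) where
  rIn := 1 / (2 * ((n : ℝ) + 1))
  rOut := 1 / ((n : ℝ) + 1)
  rIn_pos := by positivity
  rIn_lt_rOut := by
    have : (0 : ℝ) < (n : ℝ) + 1 := by positivity
    rw [div_lt_div_iff₀ (by positivity) this]
    linarith

/-- The normalized kernel. -/
def ker (n : ℕ) : R3 → ℝ := (bump n).normed volume

/-- Mollification. -/
def moll (n : ℕ) (f : R3 → ℝ) (x : R3) : ℝ := ∫ y, ker n (x - y) * f y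

lemma ker_contDiff (n : ℕ) : ContDiff ℝ ∞ (ker n) := (bump n).contDiff_normed

lemma ker_cs (n : ℕ) : HasCompactSupport (ker n) := (bump n).hasCompactSupport_normed

lemma ker_nonneg (n : ℕ) (x : R3) : 0 ≤ ker n x := (bump n).nonneg_normed x

lemma ker_int (n : ℕ) : ∫ x : R3, ker n x = 1 := (bump n).integral_normed

lemma ker_zero {n : ℕ} {x : R3} (hx : 1 / ((n : ℝ) + 1) < ‖x‖) : ker n x = 0 := by
  have h := (bump n).tsupport_normed_eq (μ := (volume : Measure R3))
  by_contra hne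
  have h2 : x ∈ tsupport ((bump n).normed volume) := subset_tsupport _ hne
  rw [h, Metric.mem_closedBall, dist_zero_right] at h2
  have : (bump n).rOut = 1 / ((n : ℝ) + 1) := rfl
  linarith only [hx, h2, this]

lemma moll_eq_conv (n : ℕ) (f : R3 → ℝ) :
    moll n f = (ker n) ⋆[ContinuousLinearMap.lsmul ℝ ℝ, volume] f := by
  funext x
  rw [convolution_eq_swap]
  simp only [moll, ContinuousLinearMap.lsmul_apply, smul_eq_mul]

lemma moll_contDiff (n : ℕ) {f : R3 → ℝ} (hf : LocallyIntegrable f) :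
    ContDiff ℝ ∞ (moll n f) := by
  rw [moll_eq_conv]
  exact (ker_cs n).contDiff_convolution_left _ (ker_contDiff n) hf

lemma ker_sub_contDiff (n : ℕ) (x : R3) : ContDiff ℝ ∞ (fun y => ker n (x - y)) :=
  (ker_contDiff n).comp (contDiff_const.sub contDiff_id)

lemma ker_sub_cs (n : ℕ) (x : R3) : HasCompactSupport (fun y => ker n (x - y)) := by
  apply HasCompactSupport.intro (isCompact_closedBall x (1 / ((n : ℝ) + 1)))
  intro y hy
  rw [Metric.mem_closedBall, dist_eq_norm, not_le, norm_sub_rev] at hy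
  exact ker_zero hy

lemma moll_eq_conv' (n : ℕ) (f : R3 → ℝ) :
    moll n f = f ⋆[ContinuousLinearMap.mul ℝ ℝ, volume] (ker n) := by
  funext x
  rw [convolution_def]
  simp only [moll, ContinuousLinearMap.mul_apply']
  congr 1
  funext t
  ring

lemma moll_deriv (n : ℕ) {e : R3} {f g : R3 → ℝ} (hf : LocallyIntegrable f)
    (hg : LocallyIntegrable g) (h : ACL volume e f g) (x : R3) :
    fderiv ℝ (moll n f) x e = moll n g x := by
  have h1 := (ker_cs n).hasFDerivAt_convolution_right (ContinuousLinearMap.mul ℝ ℝ) hf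
    ((ker_contDiff n).of_le (by norm_cast)) x (μ := volume)
  rw [← moll_eq_conv'] at h1
  rw [h1.fderiv, convolution_precompR_apply _ hf ((ker_cs n).fderiv ℝ)
    (((ker_contDiff n).of_le (by norm_cast) : ContDiff ℝ 1 (ker n)).continuous_fderiv (by norm_num)),
    convolution_def]
  have h2 := h.to_weak hf hg (ker_sub_contDiff n x) (ker_sub_cs n x)
  have h3 : ∀ y, fderiv ℝ (fun y => ker n (x - y)) y e = - fderiv ℝ (ker n) (x - y) e := by
    intro y
    have hd : HasFDerivAt (ker n) (fderiv ℝ (ker n) (x - y)) (x - y) :=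
      (((ker_contDiff n).differentiable (by simp)) (x - y)).hasFDerivAt
    have hs : HasFDerivAt (fun y : R3 => x - y) (-ContinuousLinearMap.id ℝ R3) y :=
      (hasFDerivAt_id y).const_sub x
    have := hd.comp y hs
    have e : (fun y => ker n (x - y)) = ker n ∘ (fun y => x - y) := rfl
    rw [e, this.fderiv]
    simp
  simp_rw [h3] at h2
  simp only [neg_mul, integral_neg, neg_inj] at h2
  simp only [ContinuousLinearMap.mul_apply']
  unfold moll
  rw [← h2]
  congr 1
  funext y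
  ring

lemma cs_lintegral {a b : R3 → ℝ≥0∞} (ha : AEMeasurable a) (hb : AEMeasurable b) :
    (∫⁻ y, a y * b y) ^ 2 ≤ (∫⁻ y, a y) * (∫⁻ y, a y * (b y) ^ 2) := by
  have h := ENNReal.lintegral_mul_le_Lp_mul_Lq (volume : Measure R3)
    (Real.HolderConjugate.two_two) (f := fun y => (a y) ^ (1/2 : ℝ))
    (g := fun y => (a y) ^ (1/2 : ℝ) * b y) (ha.pow_const _) ((ha.pow_const _).mul hb)
  have e1 : ∀ y, (a y) ^ (1/2 : ℝ) * ((a y) ^ (1/2 : ℝ) * b y) = a y * b y := by
    intro y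
    rw [← mul_assoc, ← ENNReal.rpow_add_of_nonneg _ _ (by norm_num) (by norm_num)]
    norm_num
  have e2 : ∀ y, ((a y) ^ (1/2 : ℝ)) ^ (2 : ℝ) = a y := by
    intro y
    rw [← ENNReal.rpow_mul]
    norm_num
  have e3 : ∀ y, ((a y) ^ (1/2 : ℝ) * b y) ^ (2 : ℝ) = a y * (b y) ^ 2 := by
    intro y
    rw [ENNReal.mul_rpow_of_nonneg _ _ (by norm_num), e2]
    norm_num
  simp only [Pi.mul_apply, e1, e2, e3] at h
  calc (∫⁻ y, a y * b y) ^ 2
      ≤ ((∫⁻ y, a y) ^ (1 / 2 : ℝ) * (∫⁻ y, a y * (b y) ^ 2) ^ (1 / 2 : ℝ)) ^ 2 := by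
        gcongr
    _ = (∫⁻ y, a y) * (∫⁻ y, a y * (b y) ^ 2) := by
        rw [mul_pow, ← ENNReal.rpow_natCast, ← ENNReal.rpow_natCast, ← ENNReal.rpow_mul,
          ← ENNReal.rpow_mul]
        norm_num

lemma ker_lint (n : ℕ) : ∫⁻ x : R3, ‖ker n x‖ₑ = 1 := by
  have h1 : Integrable (ker n) := (ker_contDiff n).continuous.integrable_of_hasCompactSupport
    (ker_cs n)
  have h2 := ofReal_integral_norm_eq_lintegral_enorm h1
  rw [← h2]
  simp_rw [Real.norm_of_nonneg (ker_nonneg n _)]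
  rw [ker_int]
  simp

lemma ker_enorm_meas (n : ℕ) : Measurable (fun p : R3 × R3 => ‖ker n (p.1 - p.2)‖ₑ) :=
  (((ker_contDiff n).continuous.comp (continuous_fst.sub continuous_snd)).enorm).measurable

lemma moll_lint_le (n : ℕ) {f : R3 → ℝ} (hf : AEStronglyMeasurable f volume) :
    ∫⁻ x, ‖moll n f x‖ₑ ^ 2 ≤ ∫⁻ x, ‖f x‖ₑ ^ 2 := by
  have h1 : ∀ x, ‖moll n f x‖ₑ ^ 2 ≤ ∫⁻ y, ‖ker n (x - y)‖ₑ * ‖f y‖ₑ ^ 2 := by
    intro x
    have hm : Measurable (fun y => ‖ker n (x - y)‖ₑ) :=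
      (((ker_contDiff n).continuous.comp (continuous_const.sub continuous_id)).enorm).measurable
    calc ‖moll n f x‖ₑ ^ 2 ≤ (∫⁻ y, ‖ker n (x - y)‖ₑ * ‖f y‖ₑ) ^ 2 := by
          gcongr
          refine (enorm_integral_le_lintegral_enorm _).trans ?_
          simp only [enorm_mul, le_refl]
      _ ≤ (∫⁻ y, ‖ker n (x - y)‖ₑ) * (∫⁻ y, ‖ker n (x - y)‖ₑ * ‖f y‖ₑ ^ 2) :=
          cs_lintegral hm.aemeasurable hf.enorm
      _ = ∫⁻ y, ‖ker n (x - y)‖ₑ * ‖f y‖ₑ ^ 2 := by
          have : ∫⁻ y, ‖ker n (x - y)‖ₑ = 1 := by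
            rw [lintegral_sub_left_eq_self (fun y => ‖ker n y‖ₑ) x]
            exact ker_lint n
          rw [this, one_mul]
  calc ∫⁻ x, ‖moll n f x‖ₑ ^ 2 ≤ ∫⁻ x, ∫⁻ y, ‖ker n (x - y)‖ₑ * ‖f y‖ₑ ^ 2 :=
        lintegral_mono h1
    _ = ∫⁻ y, ∫⁻ x, ‖ker n (x - y)‖ₑ * ‖f y‖ₑ ^ 2 := by
        apply lintegral_lintegral_swap
        apply AEMeasurable.mul (ker_enorm_meas n).aemeasurable
        exact (hf.enorm.pow_const 2).comp_snd
    _ = ∫⁻ y, ‖f y‖ₑ ^ 2 := by
        congr 1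
        funext y
        have hm : Measurable (fun x => ‖ker n (x - y)‖ₑ) :=
          (((ker_contDiff n).continuous.comp (continuous_id.sub continuous_const)).enorm).measurable
        rw [lintegral_mul_const _ hm,
          lintegral_sub_right_eq_self (fun x => ‖ker n x‖ₑ) y, ker_lint, one_mul]

lemma moll_eLpNorm_le (n : ℕ) {f : R3 → ℝ} (hf : AEStronglyMeasurable f volume) :
    eLpNorm (moll n f) 2 volume ≤ eLpNorm f 2 volume := by
  rw [eLpNorm_eq_lintegral_rpow_enorm_toReal (by norm_num) (by norm_num),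
    eLpNorm_eq_lintegral_rpow_enorm_toReal (by norm_num) (by norm_num)]
  have h := moll_lint_le n hf
  apply ENNReal.rpow_le_rpow _ (by norm_num)
  simpa using h

lemma moll_ae_tendsto {f : R3 → ℝ} (hf : LocallyIntegrable f) :
    ∀ᵐ x, Tendsto (fun n => moll n f x) atTop (𝓝 (f x)) := by
  have h := ContDiffBump.ae_convolution_tendsto_right_of_locallyIntegrable (μ := (volume : Measure R3))
    (φ := bump) (l := atTop) (K := 2) (g := f) tendsto_one_div_add_atTop_nhds_zero_nat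
    (Eventually.of_forall fun n => by
      show (1 / ((n : ℝ) + 1)) ≤ 2 * (1 / (2 * ((n : ℝ) + 1)))
      have : (0 : ℝ) < (n : ℝ) + 1 := by positivity
      field_simp
      exact le_rfl) hf
  filter_upwards [h] with x hx
  simp_rw [moll_eq_conv]
  exact hx

/-- The fixed cut-off. -/
def cut : ContDiffBump (0 : R3) := ⟨1, 2, one_pos, one_lt_two⟩

/-- cut-off mollification -/
def vn (f : R3 → ℝ) (n : ℕ) (x : R3) : ℝ := cut ((((n : ℝ) + 1)⁻¹) • x) * moll n f x

lemma cut_bound : ∃ M : ℝ, 0 ≤ M ∧ ∀ x, ‖fderiv ℝ (cut : R3 → ℝ) x‖ ≤ M := by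
  have hc : ContDiff ℝ 1 (cut : R3 → ℝ) := cut.contDiff
  have h1 : Continuous (fun x => fderiv ℝ (cut : R3 → ℝ) x) := hc.continuous_fderiv (by norm_num)
  have h2 : HasCompactSupport (fun x => fderiv ℝ (cut : R3 → ℝ) x) :=
    cut.hasCompactSupport.fderiv ℝ
  obtain ⟨M, hM⟩ := h2.exists_bound_of_continuous h1
  exact ⟨M, (norm_nonneg _).trans (hM 0), hM⟩

lemma vn_contDiff {f : R3 → ℝ} (hf : LocallyIntegrable f) (n : ℕ) : ContDiff ℝ 1 (vn f n) := by
  have h1 : ContDiff ℝ 1 (moll n f) := (moll_contDiff n hf).of_le (by norm_cast)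
  have h2 : ContDiff ℝ 1 (cut : R3 → ℝ) := cut.contDiff
  have h3 : ContDiff ℝ 1 (fun x : R3 => ((((n : ℝ) + 1)⁻¹) • x)) := by fun_prop
  exact (h2.comp h3).mul h1

lemma vn_cs (f : R3 → ℝ) (n : ℕ) : HasCompactSupport (vn f n) := by
  apply HasCompactSupport.intro (isCompact_closedBall (0 : R3) (2 * ((n : ℝ) + 1)))
  intro x hx
  rw [Metric.mem_closedBall, dist_zero_right, not_le] at hx
  have hn : (0 : ℝ) < (n : ℝ) + 1 := by positivity
  have h1 : (cut : R3 → ℝ) ((((n : ℝ) + 1)⁻¹) • x) = 0 := by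
    apply cut.zero_of_le_dist
    rw [dist_zero_right, norm_smul, Real.norm_of_nonneg (by positivity)]
    show (2 : ℝ) ≤ _
    rw [inv_mul_eq_div, le_div_iff₀ hn]
    exact hx.le
  unfold vn
  rw [h1, zero_mul]

lemma vn_fderiv_le {f : R3 → ℝ} (hf : LocallyIntegrable f) (n : ℕ) {M : ℝ}
    (hM : ∀ x, ‖fderiv ℝ (cut : R3 → ℝ) x‖ ≤ M) (x : R3) :
    ‖fderiv ℝ (vn f n) x‖ ≤ ‖fderiv ℝ (moll n f) x‖ + M * ((n : ℝ) + 1)⁻¹ * ‖moll n f x‖ := by
  have hn : (0 : ℝ) < (n : ℝ) + 1 := by positivity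
  have h1 : HasFDerivAt (moll n f) (fderiv ℝ (moll n f) x) x :=
    (((moll_contDiff n hf).differentiable (by simp)) x).hasFDerivAt
  have h2 : HasFDerivAt (fun x : R3 => ((((n : ℝ) + 1)⁻¹) • x))
      ((((n : ℝ) + 1)⁻¹) • ContinuousLinearMap.id ℝ R3) x :=
    ((((n : ℝ) + 1)⁻¹) • ContinuousLinearMap.id ℝ R3).hasFDerivAt
  have hc : ContDiff ℝ 1 (cut : R3 → ℝ) := cut.contDiff
  have h3 : HasFDerivAt (cut : R3 → ℝ) (fderiv ℝ (cut : R3 → ℝ) ((((n : ℝ) + 1)⁻¹) • x))
      ((((n : ℝ) + 1)⁻¹) • x) := (hc.differentiable (by norm_num) _).hasFDerivAt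
  have h4 := (h3.comp x h2).mul h1
  have h5 : fderiv ℝ (vn f n) x = _ := h4.fderiv
  rw [h5]
  refine (norm_add_le _ _).trans ?_
  rw [norm_smul, norm_smul]
  have h6 : ‖(cut : R3 → ℝ) ((((n : ℝ) + 1)⁻¹) • x)‖ ≤ 1 := by
    rw [Real.norm_of_nonneg cut.nonneg]
    exact cut.le_one
  have h7 : ‖(fderiv ℝ (cut : R3 → ℝ) ((((n : ℝ) + 1)⁻¹) • x)).comp
      ((((n : ℝ) + 1)⁻¹) • ContinuousLinearMap.id ℝ R3)‖ ≤ M * ((n : ℝ) + 1)⁻¹ := by
    refine (ContinuousLinearMap.opNorm_comp_le _ _).trans ?_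
    rw [norm_smul, Real.norm_of_nonneg (by positivity)]
    refine mul_le_mul (hM _) ?_ (by (clear * -; positivity)) ((norm_nonneg _).trans (hM 0))
    refine (mul_le_mul_of_nonneg_left ContinuousLinearMap.norm_id_le (by positivity)).trans ?_
    rw [mul_one]
  have h8 := mul_le_mul_of_nonneg_right h6 (norm_nonneg (fderiv ℝ (moll n f) x))
  have h9 := mul_le_mul_of_nonneg_left h7 (norm_nonneg (moll n f x))
  simp only [Function.comp_apply] at *
  linarith only [h8, h9]

lemma clm_norm_le (L : R3 →L[ℝ] ℝ) : ‖L‖ ≤ ∑ k, ‖L (dir3 k)‖ := by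
  refine ContinuousLinearMap.opNorm_le_bound _ (Finset.sum_nonneg fun _ _ => norm_nonneg _) ?_
  intro v
  have h4 : v = ∑ k, v k • dir3 k := by
    have h5 := (EuclideanSpace.basisFun (Fin 3) ℝ).sum_repr v
    simpa only [dir3, EuclideanSpace.basisFun_repr, EuclideanSpace.basisFun_apply] using h5.symm
  conv_lhs => rw [h4]
  rw [map_sum, Finset.sum_mul]
  refine (norm_sum_le _ _).trans (Finset.sum_le_sum fun k _ => ?_)
  rw [map_smul, norm_smul, mul_comm]
  exact mul_le_mul_of_nonneg_left (PiLp.norm_apply_le v k) (norm_nonneg _)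

end K1

open K1 in
/-- KD1. Sobolev inequality. -/
theorem sobolev : ∃ C : ℝ, 0 ≤ C ∧ ∀ (f : R3 → ℝ) (f' : Fin 3 → R3 → ℝ), H1o f f' →
    MemLp f 6 volume ∧
      (eLpNorm f 6 volume).toReal ≤ C * ∑ k, (eLpNorm (f' k) 2 volume).toReal := by
  obtain ⟨M, hM0, hM⟩ := cut_bound
  set C0 : ℝ≥0 := SNormLESNormFDerivOfEqConst ℝ (volume : Measure R3) (2 : ℝ≥0) with hC0
  refine ⟨C0, C0.2, fun f f' h => ?_⟩
  have hfl : LocallyIntegrable f := h.memLp.locallyIntegrable (by norm_num)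
  have hfl' : ∀ k, LocallyIntegrable (f' k) := fun k => (h.memLp' k).locallyIntegrable (by norm_num)
  set S : ℝ≥0∞ := ∑ k, eLpNorm (f' k) 2 volume with hS
  set F2 : ℝ≥0∞ := eLpNorm f 2 volume with hF2
  have hF2t : F2 ≠ ⊤ := h.memLp.2.ne
  have hSt : S ≠ ⊤ := by
    rw [hS]
    exact (ENNReal.sum_lt_top.2 fun k _ => (h.memLp' k).2).ne
  have hgrad : ∀ n, eLpNorm (fderiv ℝ (moll n f)) 2 volume ≤ S := by
    intro n
    have h1 : eLpNorm (fderiv ℝ (moll n f)) 2 volume ≤
        eLpNorm (fun x => ∑ k, ‖moll n (f' k) x‖) 2 volume := by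
      refine eLpNorm_mono_real fun x => ?_
      refine (clm_norm_le _).trans (le_of_eq ?_)
      refine Finset.sum_congr rfl fun k _ => ?_
      rw [moll_deriv n hfl (hfl' k) (h.acl k) x]
    refine h1.trans ?_
    have h2 : (fun x => ∑ k, ‖moll n (f' k) x‖) = ∑ k, fun x => ‖moll n (f' k) x‖ := by
      funext x; simp
    rw [h2]
    refine (eLpNorm_sum_le (fun k _ =>
      ((moll_contDiff n (hfl' k)).continuous.norm).aestronglyMeasurable) (by norm_num)).trans ?_
    refine Finset.sum_le_sum fun k _ => ?_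
    rw [eLpNorm_norm]
    exact moll_eLpNorm_le n (h.memLp' k).1
  have hgradv : ∀ n, eLpNorm (fderiv ℝ (vn f n)) 2 volume ≤
      S + ENNReal.ofReal (M * ((n : ℝ) + 1)⁻¹) * F2 := by
    intro n
    have h1 : eLpNorm (fderiv ℝ (vn f n)) 2 volume ≤
        eLpNorm ((fun x => ‖fderiv ℝ (moll n f) x‖) +
          ((M * ((n : ℝ) + 1)⁻¹) • fun x => ‖moll n f x‖)) 2 volume := by
      refine eLpNorm_mono_real fun x => ?_
      exact vn_fderiv_le hfl n hM x
    have hc1 : ContDiff ℝ 1 (moll n f) := (moll_contDiff n hfl).of_le (by norm_cast)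
    have m1 : AEStronglyMeasurable (fun x => ‖fderiv ℝ (moll n f) x‖) volume :=
      ((hc1.continuous_fderiv (by norm_num)).norm).aestronglyMeasurable
    have m2 : AEStronglyMeasurable ((M * ((n : ℝ) + 1)⁻¹) • fun x => ‖moll n f x‖) volume :=
      ((moll_contDiff n hfl).continuous.norm.aestronglyMeasurable).const_smul _
    refine h1.trans ((eLpNorm_add_le m1 m2 (by norm_num)).trans ?_)
    rw [eLpNorm_norm, eLpNorm_const_smul, eLpNorm_norm]
    refine add_le_add (hgrad n) ?_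
    rw [Real.enorm_eq_ofReal (by (clear * - hM0; positivity))]
    exact mul_le_mul_right (moll_eLpNorm_le n h.memLp.1) _
  have hgns : ∀ n, eLpNorm (vn f n) 6 volume ≤
      C0 * (S + ENNReal.ofReal (M * ((n : ℝ) + 1)⁻¹) * F2) := by
    intro n
    have h1 := eLpNorm_le_eLpNorm_fderiv_of_eq (volume : Measure R3) (vn_contDiff hfl n) (vn_cs f n)
      (p := 2) (p' := 6) (by norm_num) (by rw [finrank_R3]; norm_num) (by
        rw [finrank_R3]; norm_num)
    refine h1.trans ?_
    exact mul_le_mul_right (hgradv n) _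
  have hlim : ∀ᵐ x, Tendsto (fun n => vn f n x) atTop (𝓝 (f x)) := by
    filter_upwards [moll_ae_tendsto hfl] with x hx
    have h1 : Tendsto (fun n : ℕ => (cut : R3 → ℝ) ((((n : ℝ) + 1)⁻¹) • x)) atTop (𝓝 1) := by
      have h2 : Tendsto (fun n : ℕ => (((n : ℝ) + 1)⁻¹) • x) atTop (𝓝 ((0 : ℝ) • x)) := by
        have h3 : Tendsto (fun n : ℕ => ((n : ℝ) + 1)⁻¹) atTop (𝓝 0) := by
          simpa only [one_div] using tendsto_one_div_add_atTop_nhds_zero_nat (𝕜 := ℝ)
        exact h3.smul_const x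
      have h4 := (cut.continuous.tendsto ((0 : ℝ) • x)).comp h2
      have h5 : (cut : R3 → ℝ) ((0 : ℝ) • x) = 1 := by
        rw [zero_smul]
        exact cut.one_of_mem_closedBall (by simp only [cut, Metric.mem_closedBall, dist_self, zero_le_one])
      rw [h5] at h4
      exact h4
    have h6 := h1.mul hx
    rw [one_mul] at h6
    exact h6
  have hliminf : eLpNorm f 6 volume ≤ C0 * S := by
    refine (Lp.eLpNorm_lim_le_liminf_eLpNorm
      (fun n => (vn_contDiff hfl n).continuous.aestronglyMeasurable) f hlim).trans ?_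
    have h1 : Tendsto (fun n : ℕ => C0 * (S + ENNReal.ofReal (M * ((n : ℝ) + 1)⁻¹) * F2)) atTop
        (𝓝 (C0 * (S + ENNReal.ofReal (M * 0) * F2))) := by
      have h3 : Tendsto (fun n : ℕ => ((n : ℝ) + 1)⁻¹) atTop (𝓝 0) := by
        simpa only [one_div] using tendsto_one_div_add_atTop_nhds_zero_nat (𝕜 := ℝ)
      refine ENNReal.Tendsto.const_mul ?_ (Or.inr ENNReal.coe_ne_top)
      refine tendsto_const_nhds.add ?_
      refine ENNReal.Tendsto.mul_const ?_ (Or.inr hF2t)
      exact (ENNReal.continuous_ofReal.tendsto _).comp (h3.const_mul M)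
    have h2 : C0 * (S + ENNReal.ofReal (M * 0) * F2) = C0 * S := by simp
    rw [h2] at h1
    rw [← h1.liminf_eq]
    exact liminf_le_liminf (Eventually.of_forall hgns)
  have hfin : eLpNorm f 6 volume ≠ ⊤ :=
    (hliminf.trans_lt (ENNReal.mul_lt_top ENNReal.coe_lt_top hSt.lt_top)).ne
  refine ⟨⟨h.memLp.1, hfin.lt_top⟩, ?_⟩
  have h10 := ENNReal.toReal_mono (ENNReal.mul_ne_top ENNReal.coe_ne_top hSt) hliminf
  rw [ENNReal.toReal_mul, ENNReal.coe_toReal, hS,
    ENNReal.toReal_sum (fun k _ => (h.memLp' k).2.ne)] at h10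
  exact h10

end

end Vale.Agent.P363.KD
end
end

section

section

/-! KD4: Pauli principle. -/

namespace Vale.Agent.P363.KD

open MeasureTheory Set Filter Topology
open scoped ENNReal ContDiff ComplexConjugate

noncomputable section

section core

/-- `L²` pairing as an inner product. -/
lemma k4_inner_toLp {X : Type*} [MeasurableSpace X] {μ : Measure X} {f g : X → ℂ}
    (hf : MemLp f 2 μ) (hg : MemLp g 2 μ) :
    inner ℂ (hf.toLp f) (hg.toLp g) = ∫ x, conj (f x) * g x ∂μ := by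
  rw [L2.inner_def]
  refine integral_congr_ae ?_
  filter_upwards [hf.coeFn_toLp, hg.coeFn_toLp] with x h1 h2
  rw [h1, h2, RCLike.inner_apply, mul_comm]

lemma k4_norm_toLp {X : Type*} [MeasurableSpace X] {μ : Measure X} {f : X → ℂ}
    (hf : MemLp f 2 μ) : ‖hf.toLp f‖ ^ 2 = ∫ x, ‖f x‖ ^ 2 ∂μ := by
  have h := k4_inner_toLp hf hf
  rw [inner_self_eq_norm_sq_to_K] at h
  have h2 : ∫ x, conj (f x) * f x ∂μ = ((∫ x, ‖f x‖ ^ 2 ∂μ : ℝ) : ℂ) := by
    rw [← integral_complex_ofReal]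
    refine integral_congr_ae (Eventually.of_forall fun x => ?_)
    simp only []
    rw [← Complex.normSq_eq_conj_mul_self, Complex.normSq_eq_norm_sq]
  rw [h2] at h
  apply Complex.ofReal_injective
  rw [← h, Complex.ofReal_pow]
  rfl

/-- Cauchy-Schwarz. -/
lemma k4_cs {X : Type*} [MeasurableSpace X] {μ : Measure X} {f g : X → ℂ}
    (hf : MemLp f 2 μ) (hg : MemLp g 2 μ) :
    ‖∫ x, conj (f x) * g x ∂μ‖ ^ 2 ≤ (∫ x, ‖f x‖ ^ 2 ∂μ) * ∫ x, ‖g x‖ ^ 2 ∂μ := by
  rw [← k4_inner_toLp hf hg, ← k4_norm_toLp hf, ← k4_norm_toLp hg, ← mul_pow]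
  exact pow_le_pow_left₀ (norm_nonneg _) (norm_inner_le_norm _ _) 2

variable {E : Type*} [MeasurableSpace E] (m : Measure E) [SigmaFinite m]

/-- Product measure. -/
abbrev pm (k : ℕ) : Measure (Fin k → E) := Measure.pi (fun _ : Fin k => m)

lemma k4_perm_eq {k : ℕ} (π : Equiv.Perm (Fin k)) :
    (fun x : Fin k → E => x ∘ π) = MeasurableEquiv.piCongrLeft (fun _ => E) π.symm := by
  funext x i
  have h := MeasurableEquiv.piCongrLeft_apply_apply (β := fun _ : Fin k => E) π.symm x (π i)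
  rw [Equiv.symm_apply_apply] at h
  exact h.symm

lemma k4_mp_perm {k : ℕ} (π : Equiv.Perm (Fin k)) :
    MeasurePreserving (fun x : Fin k → E => x ∘ π) (pm m k) (pm m k) := by
  rw [k4_perm_eq]
  exact measurePreserving_piCongrLeft (fun _ : Fin k => m) π.symm

lemma k4_int_perm {k : ℕ} (π : Equiv.Perm (Fin k)) (g : (Fin k → E) → ℂ) :
    ∫ x, g (x ∘ π) ∂(pm m k) = ∫ x, g x ∂(pm m k) := by
  have h := k4_mp_perm m π
  have h2 : MeasurableEmbedding (fun x : Fin k → E => x ∘ π) := by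
    rw [k4_perm_eq]; exact MeasurableEquiv.measurableEmbedding _
  exact h.integral_comp h2 g

/-- Splitting off the first coordinate. -/
def ce (k : ℕ) : ((Fin k → E) × E) ≃ᵐ (Fin (k + 1) → E) :=
  MeasurableEquiv.prodComm.trans (MeasurableEquiv.piFinSuccAbove (fun _ : Fin (k + 1) => E) 0).symm

lemma ce_apply (k : ℕ) (p : (Fin k → E) × E) : ce k p = Fin.cons p.2 p.1 := by
  show (Fin.insertNth (α := fun _ => E) 0 p.2 p.1 : Fin (k + 1) → E) = _
  rw [Fin.insertNth_zero']

lemma k4_mp_ce (k : ℕ) : MeasurePreserving (ce k : ((Fin k → E) × E) → _)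
    ((pm m k).prod m) (pm m (k + 1)) := by
  have h1 := (measurePreserving_piFinSuccAbove (fun _ : Fin (k + 1) => m) 0).symm
  have h2 : MeasurePreserving (Prod.swap : (Fin k → E) × E → _) ((pm m k).prod m)
      (m.prod (pm m k)) := ⟨measurable_swap, Measure.prod_swap⟩
  exact h1.comp h2

/-- Tensor product with the one-particle function `v`. -/
def tens {k : ℕ} (v : E → ℝ) (w : (Fin k → E) → ℂ) (x : Fin (k + 1) → E) : ℂ :=
  (v (x 0) : ℂ) * w (Fin.tail x)

/-- Annihilation. -/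
def ann {k : ℕ} (v : E → ℝ) (Φ : (Fin (k + 1) → E) → ℂ) (y : Fin k → E) : ℂ :=
  ∫ e, (v e : ℂ) * Φ (Fin.cons e y) ∂m

variable {m}

lemma tens_ce {k : ℕ} (v : E → ℝ) (w : (Fin k → E) → ℂ) (p : (Fin k → E) × E) :
    tens v w (ce k p) = w p.1 * (v p.2 : ℂ) := by
  rw [ce_apply, tens, Fin.cons_zero, Fin.tail_cons, mul_comm]

lemma tens_memLp {k : ℕ} {v : E → ℝ} (hv : MemLp v 2 m) {w : (Fin k → E) → ℂ}
    (hw : MemLp w 2 (pm m k)) : MemLp (tens v w) 2 (pm m (k + 1)) := by
  have hv' : MemLp (fun e => (v e : ℂ)) 2 m := hv.ofReal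
  rw [← (k4_mp_ce m k).map_eq, (ce k).measurableEmbedding.memLp_map_measure_iff]
  have h : (tens v w ∘ ce k) = fun p : (Fin k → E) × E => w p.1 * (v p.2 : ℂ) := by
    funext p; exact tens_ce v w p
  rw [h]
  have hm : AEStronglyMeasurable (fun p : (Fin k → E) × E => w p.1 * (v p.2 : ℂ))
      ((pm m k).prod m) := hw.1.comp_fst.mul hv'.1.comp_snd
  rw [memLp_two_iff_integrable_sq_norm hm]
  have h1 := (memLp_two_iff_integrable_sq_norm hw.1).1 hw
  have h2 := (memLp_two_iff_integrable_sq_norm hv'.1).1 hv'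
  refine (h1.mul_prod h2).congr (Eventually.of_forall fun p => ?_)
  simp only [norm_mul, mul_pow]

lemma slice_memLp {k : ℕ} {Φ : (Fin (k + 1) → E) → ℂ} (hΦ : MemLp Φ 2 (pm m (k + 1))) :
    ∀ᵐ y ∂(pm m k), MemLp (fun e => Φ (Fin.cons e y)) 2 m := by
  have h1 : MemLp (fun p => Φ (ce k p)) 2 ((pm m k).prod m) :=
    hΦ.comp_measurePreserving (k4_mp_ce m k)
  have h2 := (memLp_two_iff_integrable_sq_norm h1.1).1 h1
  filter_upwards [h1.1.prodMk_left, h2.prod_right_ae] with y h3 h4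
  simp only [ce_apply] at h3 h4
  exact (memLp_two_iff_integrable_sq_norm h3).2 h4

lemma ann_memLp {k : ℕ} {v : E → ℝ} (hv : MemLp v 2 m) {Φ : (Fin (k + 1) → E) → ℂ}
    (hΦ : MemLp Φ 2 (pm m (k + 1))) : MemLp (ann m v Φ) 2 (pm m k) := by
  have hv' : MemLp (fun e => (v e : ℂ)) 2 m := hv.ofReal
  have h1 : MemLp (fun p => Φ (ce k p)) 2 ((pm m k).prod m) :=
    hΦ.comp_measurePreserving (k4_mp_ce m k)
  have h2 := (memLp_two_iff_integrable_sq_norm h1.1).1 h1
  have hm : AEStronglyMeasurable (ann m v Φ) (pm m k) := by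
    have h3 : AEStronglyMeasurable (fun p : (Fin k → E) × E => (v p.2 : ℂ) * Φ (ce k p))
        ((pm m k).prod m) := hv'.1.comp_snd.mul h1.1
    have h4 := h3.integral_prod_right'
    simp only [ce_apply] at h4
    exact h4
  rw [memLp_two_iff_integrable_sq_norm hm]
  have h5 := h2.integral_prod_left.const_mul (∫ e, ‖(v e : ℂ)‖ ^ 2 ∂m)
  refine h5.mono' (hm.norm.pow 2) ?_
  filter_upwards [slice_memLp hΦ] with y hy
  have h6 := k4_cs hv' hy
  simp only [Complex.conj_ofReal] at h6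
  rw [Real.norm_of_nonneg (by positivity)]
  simp only [ce_apply]
  exact h6

/-- Adjointness of `tens` and `ann`. -/
lemma tens_ann {k : ℕ} {v : E → ℝ} (hv : MemLp v 2 m) {w : (Fin k → E) → ℂ}
    (hw : MemLp w 2 (pm m k)) {Φ : (Fin (k + 1) → E) → ℂ} (hΦ : MemLp Φ 2 (pm m (k + 1))) :
    ∫ x, conj (tens v w x) * Φ x ∂(pm m (k + 1)) = ∫ y, conj (w y) * ann m v Φ y ∂(pm m k) := by
  have hint : Integrable (fun x => conj (tens v w x) * Φ x) (pm m (k + 1)) := by
    have := (tens_memLp hv hw).star.integrable_mul hΦ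
    exact this
  rw [← (k4_mp_ce m k).integral_comp (ce k).measurableEmbedding, integral_prod]
  · refine integral_congr_ae (Eventually.of_forall fun y => ?_)
    simp only [tens_ce, map_mul, Complex.conj_ofReal]
    simp only [ce_apply, ann]
    rw [← integral_const_mul]
    refine integral_congr_ae (Eventually.of_forall fun e => ?_)
    simp only []
    ring
  · exact ((k4_mp_ce m k).integrable_comp_emb (ce k).measurableEmbedding).2 hint

lemma tens_tens {k : ℕ} (v : E → ℝ) (w w' : (Fin k → E) → ℂ) :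
    ∫ x, conj (tens v w x) * tens v w' x ∂(pm m (k + 1)) =
      (∫ e, (v e : ℝ) ^ 2 ∂m : ℝ) * ∫ y, conj (w y) * w' y ∂(pm m k) := by
  rw [← (k4_mp_ce m k).integral_comp (ce k).measurableEmbedding]
  simp only [tens_ce, map_mul, Complex.conj_ofReal]
  have h : ∀ p : (Fin k → E) × E, conj (w p.1) * (v p.2 : ℂ) * (w' p.1 * (v p.2 : ℂ)) =
      (conj (w p.1) * w' p.1) * ((v p.2 ^ 2 : ℝ) : ℂ) := by
    intro p; push_cast; ring
  simp only [h]
  rw [integral_prod_mul (fun y => conj (w y) * w' y) (fun e => ((v e ^ 2 : ℝ) : ℂ)),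
    integral_complex_ofReal, mul_comm]

/-- Antisymmetry almost everywhere. -/
def Anti (m : Measure E) {k : ℕ} (Φ : (Fin k → E) → ℂ) : Prop :=
  ∀ π : Equiv.Perm (Fin k), ∀ᵐ x ∂(pm m k), Φ (x ∘ π) = ((Equiv.Perm.sign π : ℤ) : ℂ) * Φ x

omit [MeasurableSpace E] in
lemma cons_comp_dec {k : ℕ} (e : E) (y : Fin k → E) (τ : Equiv.Perm (Fin k)) :
    (Fin.cons e y : Fin (k + 1) → E) ∘ (Equiv.Perm.decomposeFin.symm (0, τ)) =
      Fin.cons e (y ∘ τ) := by
  funext i
  refine Fin.cases ?_ (fun j => ?_) i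
  · simp
  · simp

lemma sign_dec {k : ℕ} (τ : Equiv.Perm (Fin k)) :
    Equiv.Perm.sign (Equiv.Perm.decomposeFin.symm ((0 : Fin (k + 1)), τ)) =
      Equiv.Perm.sign τ := by
  rw [Equiv.Perm.decomposeFin.symm_sign, if_pos rfl, one_mul]

lemma exists_dec {k : ℕ} (τ : Equiv.Perm (Fin (k + 1))) (h : τ 0 = 0) :
    ∃ τ0 : Equiv.Perm (Fin k), τ = Equiv.Perm.decomposeFin.symm (0, τ0) := by
  refine ⟨(Equiv.Perm.decomposeFin τ).2, ?_⟩
  have h1 : (Equiv.Perm.decomposeFin τ).1 = 0 := by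
    have h2 := Equiv.Perm.decomposeFin_symm_apply_zero (Equiv.Perm.decomposeFin τ).1
      (Equiv.Perm.decomposeFin τ).2
    rw [Prod.mk.eta, Equiv.symm_apply_apply] at h2
    rw [← h2, h]
  apply Equiv.Perm.decomposeFin.injective
  rw [Equiv.apply_symm_apply, ← h1]

lemma ann_anti {k : ℕ} (v : E → ℝ) {Φ : (Fin (k + 1) → E) → ℂ} (ha : Anti m Φ) :
    Anti m (ann m v Φ) := by
  intro τ
  have h1 := ha (Equiv.Perm.decomposeFin.symm (0, τ))
  have h2 := (k4_mp_ce m k).quasiMeasurePreserving.ae h1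
  filter_upwards [Measure.ae_ae_of_ae_prod h2] with y hy
  unfold ann
  rw [← integral_const_mul]
  refine integral_congr_ae ?_
  filter_upwards [hy] with e he
  rw [ce_apply, cons_comp_dec, sign_dec] at he
  simp only [] at he ⊢
  rw [he]
  ring

lemma tens_anti {k : ℕ} (v : E → ℝ) {A : (Fin k → E) → ℂ} (hA : Anti m A)
    (τ : Equiv.Perm (Fin (k + 1))) (hτ : τ 0 = 0) :
    ∀ᵐ x ∂(pm m (k + 1)), tens v A (x ∘ τ) = ((Equiv.Perm.sign τ : ℤ) : ℂ) * tens v A x := by
  obtain ⟨τ0, rfl⟩ := exists_dec τ hτ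
  have h1 : ∀ᵐ p ∂((pm m k).prod m), tens v A (ce k p ∘ (Equiv.Perm.decomposeFin.symm (0, τ0))) =
      ((Equiv.Perm.sign τ0 : ℤ) : ℂ) * tens v A (ce k p) := by
    have h2 := Measure.quasiMeasurePreserving_fst (μ := pm m k) (ν := m) |>.ae (hA τ0)
    filter_upwards [h2] with p hp
    have h3 : ce k p ∘ (Equiv.Perm.decomposeFin.symm (0, τ0)) = ce k (p.1 ∘ τ0, p.2) := by
      rw [ce_apply, ce_apply, cons_comp_dec]
    rw [h3, tens_ce, tens_ce, hp]
    ring
  have h4 := (MeasurePreserving.symm (ce k) (k4_mp_ce m k)).quasiMeasurePreserving.ae h1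
  filter_upwards [h4] with x hx
  rw [MeasurableEquiv.apply_symm_apply] at hx
  rw [hx, sign_dec]

/-- Overlap of permuted copies. -/
def Kf (m : Measure E) {k : ℕ} (F : (Fin k → E) → ℂ) (π : Equiv.Perm (Fin k)) : ℂ :=
  ∫ x, conj (F x) * F (x ∘ π) ∂(pm m k)

omit [MeasurableSpace E] in
lemma comp_mul {k : ℕ} (x : Fin k → E) (π τ : Equiv.Perm (Fin k)) :
    x ∘ (π * τ : Equiv.Perm (Fin k)) = (x ∘ π) ∘ τ := rfl

lemma Kf_mul_right {k : ℕ} {F : (Fin k → E) → ℂ} {τ : Equiv.Perm (Fin k)} {ε : ℂ}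
    (h : ∀ᵐ x ∂(pm m k), F (x ∘ τ) = ε * F x) (π : Equiv.Perm (Fin k)) :
    Kf m F (π * τ) = ε * Kf m F π := by
  unfold Kf
  rw [← integral_const_mul]
  refine integral_congr_ae ?_
  filter_upwards [(k4_mp_perm m π).quasiMeasurePreserving.ae h] with x hx
  rw [comp_mul, hx]
  ring

lemma Kf_mul_left {k : ℕ} {F : (Fin k → E) → ℂ} {τ : Equiv.Perm (Fin k)} {ε : ℂ}
    (h : ∀ᵐ x ∂(pm m k), F (x ∘ τ) = ε * F x) (hε : ε ≠ 0) (π : Equiv.Perm (Fin k)) :
    Kf m F (τ * π) = conj ε⁻¹ * Kf m F π := by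
  unfold Kf
  rw [← k4_int_perm m τ (fun x => conj (F x) * F (x ∘ π)), ← integral_const_mul]
  refine integral_congr_ae ?_
  filter_upwards [h] with x hx
  rw [comp_mul, hx, map_mul, ← mul_assoc, ← mul_assoc, ← map_mul, inv_mul_cancel₀ hε, map_one,
    one_mul]

lemma sign_ne {k : ℕ} (π : Equiv.Perm (Fin k)) : ((Equiv.Perm.sign π : ℤ) : ℂ) ≠ 0 := by
  rcases Int.units_eq_one_or (Equiv.Perm.sign π) with h | h <;> rw [h] <;> simp

lemma sign_sq {k : ℕ} (π : Equiv.Perm (Fin k)) :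
    ((Equiv.Perm.sign π : ℤ) : ℂ) * ((Equiv.Perm.sign π : ℤ) : ℂ) = 1 := by
  rcases Int.units_eq_one_or (Equiv.Perm.sign π) with h | h <;> rw [h] <;> simp

lemma sign_conj {k : ℕ} (π : Equiv.Perm (Fin k)) :
    conj ((Equiv.Perm.sign π : ℤ) : ℂ) = ((Equiv.Perm.sign π : ℤ) : ℂ) := by
  rw [← Complex.ofReal_intCast, Complex.conj_ofReal]

lemma ann_ann_zero {k : ℕ} {v : E → ℝ} (hv : MemLp v 2 m) {Φ : (Fin (k + 2) → E) → ℂ}
    (hΦ : MemLp Φ 2 (pm m (k + 2))) (ha : Anti m Φ) :
    ∫ z, conj (ann m v (ann m v Φ) z) * ann m v (ann m v Φ) z ∂(pm m k) = 0 := by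
  have hA := ann_memLp hv hΦ
  have hB := ann_memLp hv hA
  rw [← tens_ann hv hB hA, ← tens_ann hv (tens_memLp hv hB) hΦ]
  set B := ann m v (ann m v Φ) with hBd
  have hsw : ∀ x : Fin (k + 2) → E, tens v (tens v B) (x ∘ (Equiv.swap 0 1 : Equiv.Perm _)) =
      tens v (tens v B) x := by
    intro x
    have h1 : Fin.tail (Fin.tail (x ∘ (Equiv.swap 0 1 : Equiv.Perm (Fin (k + 2))))) =
        Fin.tail (Fin.tail x) := by
      funext i
      show x (Equiv.swap 0 1 i.succ.succ) = x i.succ.succ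
      rw [Equiv.swap_apply_of_ne_of_ne (Fin.succ_ne_zero _)]
      intro h
      have := congrArg Fin.val h
      simp at this
    have h2 : (Fin.tail (x ∘ (Equiv.swap 0 1 : Equiv.Perm (Fin (k + 2))))) 0 = x 0 := by
      show x (Equiv.swap 0 1 (Fin.succ 0)) = x 0
      rw [Fin.succ_zero_eq_one, Equiv.swap_apply_right]
    have h3 : (x ∘ (Equiv.swap 0 1 : Equiv.Perm (Fin (k + 2)))) 0 = x 1 := by
      show x (Equiv.swap 0 1 0) = x 1
      rw [Equiv.swap_apply_left]
    have h4 : (Fin.tail x) 0 = x 1 := rfl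
    simp only [tens]
    rw [h1, h2, h3, h4]
    ring
  have h5 : ∫ x, conj (tens v (tens v B) x) * Φ x ∂(pm m (k + 2)) =
      - ∫ x, conj (tens v (tens v B) x) * Φ x ∂(pm m (k + 2)) := by
    conv_lhs => rw [← k4_int_perm m (Equiv.swap 0 1)]
    rw [← integral_neg]
    refine integral_congr_ae ?_
    filter_upwards [ha (Equiv.swap 0 1)] with x hx
    rw [hsw, hx, Equiv.Perm.sign_swap zero_ne_one]
    simp
  exact self_eq_neg.1 h5

lemma Kf_swap {k : ℕ} {v : E → ℝ} (hv : MemLp v 2 m) {Φ : (Fin (k + 2) → E) → ℂ}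
    (hΦ : MemLp Φ 2 (pm m (k + 2))) (ha : Anti m Φ) :
    Kf m (tens v (ann m v Φ)) (Equiv.swap 0 1) = 0 := by
  have hA := ann_memLp hv hΦ
  have hB := ann_memLp hv hA
  unfold Kf
  rw [tens_ann hv hA (Φ := fun x => tens v (ann m v Φ) (x ∘ (Equiv.swap 0 1 : Equiv.Perm _)))
    ((tens_memLp hv hA).comp_measurePreserving (k4_mp_perm m (Equiv.swap 0 1)))]
  have h1 : ∀ y : Fin (k + 1) → E,
      ann m v (fun x => tens v (ann m v Φ) (x ∘ (Equiv.swap 0 1 : Equiv.Perm _))) y =
        tens v (ann m v (ann m v Φ)) y := by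
    intro y
    have h2 : ∀ e : E, (v e : ℂ) * tens v (ann m v Φ)
        ((Fin.cons e y : Fin (k + 2) → E) ∘ (Equiv.swap 0 1 : Equiv.Perm _)) =
          (v (y 0) : ℂ) * ((v e : ℂ) * ann m v Φ (Fin.cons e (Fin.tail y))) := by
      intro e
      have h3 : ((Fin.cons e y : Fin (k + 2) → E) ∘ (Equiv.swap 0 1 : Equiv.Perm _)) 0 = y 0 := by
        show (Fin.cons e y : Fin (k + 2) → E) (Equiv.swap 0 1 0) = y 0
        rw [Equiv.swap_apply_left]
        rfl
      have h4 : Fin.tail ((Fin.cons e y : Fin (k + 2) → E) ∘ (Equiv.swap 0 1 : Equiv.Perm _)) =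
          Fin.cons e (Fin.tail y) := by
        funext i
        refine Fin.cases ?_ (fun j => ?_) i
        · show (Fin.cons e y : Fin (k + 2) → E) (Equiv.swap 0 1 (Fin.succ 0)) = e
          rw [Fin.succ_zero_eq_one, Equiv.swap_apply_right, Fin.cons_zero]
        · show (Fin.cons e y : Fin (k + 2) → E) (Equiv.swap 0 1 j.succ.succ) = y j.succ
          rw [Equiv.swap_apply_of_ne_of_ne (Fin.succ_ne_zero _), Fin.cons_succ]
          intro h
          have := congrArg Fin.val h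
          simp at this
      rw [tens, h3, h4]
      ring
    show ∫ e, (v e : ℂ) * tens v (ann m v Φ)
        ((Fin.cons e y : Fin (k + 2) → E) ∘ (Equiv.swap 0 1 : Equiv.Perm _)) ∂m = _
    simp only [h2]
    rw [integral_const_mul]
    rfl
  simp only [h1]
  have h5 : ∫ y, conj (ann m v Φ y) * tens v (ann m v (ann m v Φ)) y ∂(pm m (k + 1)) =
      conj (∫ y, conj (tens v (ann m v (ann m v Φ)) y) * ann m v Φ y ∂(pm m (k + 1))) := by
    rw [← integral_conj]
    refine integral_congr_ae (Eventually.of_forall fun y => ?_)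
    simp only [map_mul, Complex.conj_conj]
    ring
  rw [h5, tens_ann hv hB hA, ann_ann_zero hv hΦ ha, map_zero]

lemma Kf_zero {n : ℕ} {v : E → ℝ} (hv : MemLp v 2 m) {Φ : (Fin (n + 1) → E) → ℂ}
    (hΦ : MemLp Φ 2 (pm m (n + 1))) (ha : Anti m Φ) (π : Equiv.Perm (Fin (n + 1)))
    (hπ : π 0 ≠ 0) : Kf m (tens v (ann m v Φ)) π = 0 := by
  rcases n with _ | k
  · exact absurd (Fin.ext (by have := (π 0).isLt; simp only [Fin.val_zero]; omega)) hπ
  · have hA := ann_anti v ha
    set τ1 : Equiv.Perm (Fin (k + 2)) := Equiv.swap 1 (π 0) with hτ1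
    set s : Equiv.Perm (Fin (k + 2)) := Equiv.swap 0 1 with hs
    have h1 : τ1 0 = 0 := by
      rw [hτ1, Equiv.swap_apply_of_ne_of_ne zero_ne_one (Ne.symm hπ)]
    have h2 : (s * (τ1⁻¹ * π)) 0 = 0 := by
      rw [Equiv.Perm.mul_apply, Equiv.Perm.mul_apply, hτ1, Equiv.swap_inv,
        Equiv.swap_apply_right, hs, Equiv.swap_apply_right]
    have h3 : π = τ1 * (s * (s * (τ1⁻¹ * π))) := by
      have hss : s * s = 1 := Equiv.swap_mul_self 0 1
      rw [← mul_assoc s s, hss, one_mul, ← mul_assoc, mul_inv_cancel, one_mul]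
    rw [h3, Kf_mul_left (tens_anti v hA τ1 h1) (sign_ne _),
      Kf_mul_right (tens_anti v hA _ h2), hs, Kf_swap hv hΦ ha, mul_zero, mul_zero]

/-- Pauli principle on a general one-particle space. -/
theorem pauli_core {n : ℕ} {v : E → ℝ} (hv : MemLp v 2 m) {Φ : (Fin (n + 1) → E) → ℂ}
    (hΦ : MemLp Φ 2 (pm m (n + 1))) (ha : Anti m Φ) :
    (n + 1 : ℝ) * ∫ y, ‖ann m v Φ y‖ ^ 2 ∂(pm m n) ≤
      (∫ x, ‖Φ x‖ ^ 2 ∂(pm m (n + 1))) * ∫ e, v e ^ 2 ∂m := by
  have hA := ann_memLp hv hΦ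
  have hF := tens_memLp hv hA
  set q : ℝ := ∫ y, ‖ann m v Φ y‖ ^ 2 ∂(pm m n) with hq
  set c : ℝ := ∫ e, v e ^ 2 ∂m with hc
  set F := tens v (ann m v Φ) with hFd
  have hq0 : 0 ≤ q := integral_nonneg fun y => by positivity
  have hc0 : 0 ≤ c := integral_nonneg fun y => by positivity
  have hAA : ∫ y, conj (ann m v Φ y) * ann m v Φ y ∂(pm m n) = (q : ℂ) := by
    rw [hq, ← integral_complex_ofReal]
    refine integral_congr_ae (Eventually.of_forall fun y => ?_)
    simp only []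
    rw [← Complex.normSq_eq_conj_mul_self, Complex.normSq_eq_norm_sq]
  have hFΦ : ∫ x, conj (F x) * Φ x ∂(pm m (n + 1)) = (q : ℂ) := by
    rw [hFd, tens_ann hv hA hΦ, hAA]
  have hFF : Kf m F 1 = (c * q : ℂ) := by
    show ∫ x, conj (F x) * F x ∂(pm m (n + 1)) = _
    rw [hFd, tens_tens, hAA]
  have hψ : ∀ i : Fin (n + 1), MemLp (fun x : Fin (n + 1) → E =>
      ((Equiv.Perm.sign (Equiv.swap 0 i) : ℤ) : ℂ) * F (x ∘ (Equiv.swap 0 i : Equiv.Perm _))) 2
      (pm m (n + 1)) := fun i =>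
    (hF.comp_measurePreserving (k4_mp_perm m (Equiv.swap 0 i))).const_mul _
  set φ := hΦ.toLp Φ with hφ
  set ψ : Fin (n + 1) → Lp ℂ 2 (pm m (n + 1)) := fun i => (hψ i).toLp _ with hψd
  have h1 : ∀ i, inner ℂ (ψ i) φ = (q : ℂ) := by
    intro i
    rw [hψd, hφ]
    simp only []
    rw [k4_inner_toLp, ← hFΦ, ← k4_int_perm m (Equiv.swap 0 i) (fun x => conj (F x) * Φ x)]
    refine integral_congr_ae ?_
    filter_upwards [ha (Equiv.swap 0 i)] with x hx
    rw [hx, map_mul, sign_conj]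
    ring
  have h2 : ∀ i j, inner ℂ (ψ i) (ψ j) = if i = j then (c * q : ℂ) else 0 := by
    intro i j
    rw [hψd]
    simp only []
    rw [k4_inner_toLp]
    have h3 : ∫ x, conj (((Equiv.Perm.sign (Equiv.swap 0 i) : ℤ) : ℂ) *
        F (x ∘ (Equiv.swap 0 i : Equiv.Perm _))) * (((Equiv.Perm.sign (Equiv.swap 0 j) : ℤ) : ℂ) *
        F (x ∘ (Equiv.swap 0 j : Equiv.Perm _))) ∂(pm m (n + 1)) =
        ((Equiv.Perm.sign (Equiv.swap 0 i) : ℤ) : ℂ) * ((Equiv.Perm.sign (Equiv.swap 0 j) : ℤ) : ℂ) *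
          Kf m F (Equiv.swap 0 i * Equiv.swap 0 j) := by
      unfold Kf
      rw [← k4_int_perm m (Equiv.swap 0 i)
        (fun x => conj (F x) * F (x ∘ (Equiv.swap 0 i * Equiv.swap 0 j : Equiv.Perm _))),
        ← integral_const_mul]
      refine integral_congr_ae (Eventually.of_forall fun x => ?_)
      simp only []
      rw [← comp_mul, ← mul_assoc (Equiv.swap 0 i), Equiv.swap_mul_self, one_mul, map_mul, sign_conj]
      ring
    rw [h3]
    split_ifs with hij
    · subst hij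
      rw [Equiv.swap_mul_self, hFF, sign_sq, one_mul]
    · have h4 : (Equiv.swap 0 i * Equiv.swap 0 j : Equiv.Perm (Fin (n + 1))) 0 ≠ 0 := by
        rw [Equiv.Perm.mul_apply, Equiv.swap_apply_left]
        intro h5
        rw [Equiv.swap_apply_eq_iff, Equiv.swap_apply_left] at h5
        exact hij h5.symm
      rw [hFd, Kf_zero hv hΦ ha _ h4, mul_zero]
  have h6 : inner ℂ (∑ i, ψ i) φ = ((n + 1 : ℝ) * q : ℂ) := by
    rw [sum_inner]
    simp [h1]
  have h7 : ‖∑ i, ψ i‖ ^ 2 = (n + 1 : ℝ) * (c * q) := by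
    have h8 : inner ℂ (∑ i, ψ i) (∑ i, ψ i) = (((n + 1 : ℝ) * (c * q) : ℝ) : ℂ) := by
      rw [sum_inner]
      simp only [inner_sum, h2, Finset.sum_ite_eq, Finset.mem_univ, if_true, Finset.sum_const,
        Finset.card_univ, Fintype.card_fin]
      simp
    rw [inner_self_eq_norm_sq_to_K] at h8
    apply Complex.ofReal_injective
    rw [← h8, Complex.ofReal_pow]
    rfl
  have h9 := norm_inner_le_norm (𝕜 := ℂ) (∑ i, ψ i) φ
  rw [h6] at h9
  have h10 : ‖((n + 1 : ℝ) * q : ℂ)‖ = (n + 1 : ℝ) * q := by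
    rw [← Complex.ofReal_mul, Complex.norm_real, Real.norm_of_nonneg (by (clear * -; positivity))]
  rw [h10] at h9
  have h11 := pow_le_pow_left₀ (by (clear * -; positivity)) h9 2
  rw [mul_pow ‖_‖, h7, hφ, k4_norm_toLp hΦ] at h11
  rcases hq0.eq_or_lt with h12 | h12
  · rw [← h12, mul_zero]
    exact mul_nonneg (integral_nonneg fun y => by (clear * -; positivity)) hc0
  · have h13 : 0 < (n + 1 : ℝ) * q := by (clear * - h12; positivity)
    refine le_of_mul_le_mul_left ?_ h13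
    calc (n + 1 : ℝ) * q * ((n + 1 : ℝ) * q) = ((n + 1 : ℝ) * q) ^ 2 := by ring
      _ ≤ (n + 1 : ℝ) * (c * q) * ∫ x, ‖Φ x‖ ^ 2 ∂(pm m (n + 1)) := h11
      _ = (n + 1 : ℝ) * q * ((∫ x, ‖Φ x‖ ^ 2 ∂(pm m (n + 1))) * c) := by ring

end core

/-! ### Spin and position -/

/-- One-particle space with spin. -/
abbrev R3s : Type := Fin 2 × R3

/-- Its measure. -/
abbrev ms : Measure R3s := (Measure.count : Measure (Fin 2)).prod volume

/-- Positions with given spins. -/
def emb {N : ℕ} (s : Fin N → Fin 2) (x : Fin N → R3) : Fin N → R3s := fun i => (s i, x i)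

lemma emb_me {N : ℕ} (s : Fin N → Fin 2) : MeasurableEmbedding (emb s) :=
  (MeasurableEquiv.arrowProdEquivProdArrow (Fin 2) R3 (Fin N)).symm.measurableEmbedding.comp
    (MeasurableEmbedding.prodMk_left s MeasurableEmbedding.id)

lemma ms_apply (S : Set R3s) (hS : MeasurableSet S) :
    ms S = ∑ τ : Fin 2, volume (Prod.mk τ ⁻¹' S) := by
  rw [Measure.prod_apply hS, lintegral_count, tsum_fintype]

lemma pm_eq_sum (N : ℕ) : pm ms N = ∑ s : Fin N → Fin 2, Measure.map (emb s) volume := by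
  refine Measure.pi_eq fun S hS => ?_
  rw [Measure.finsetSum_apply]
  simp only [ms_apply _ (hS _)]
  rw [Finset.prod_univ_sum, Fintype.piFinset_univ]
  refine Finset.sum_congr rfl fun s _ => ?_
  rw [(emb_me s).map_apply, volume_pi, ← Measure.pi_pi]
  congr 1

/-- The state as a function on the one-particle spaces. -/
def full {N : ℕ} (Φ : ElectronState N) (z : Fin N → R3s) : ℂ :=
  Φ.amp (fun i => (z i).1) (fun i => (z i).2)

lemma full_emb {N : ℕ} (Φ : ElectronState N) (s : Fin N → Fin 2) (x : Fin N → R3) :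
    full Φ (emb s x) = Φ.amp s x := rfl

lemma full_memLp {N : ℕ} (Φ : ElectronState N) : MemLp (full Φ) 2 (pm ms N) := by
  have h1 : AEStronglyMeasurable (full Φ) (pm ms N) := by
    rw [pm_eq_sum, ← Measure.sum_fintype, aestronglyMeasurable_sum_measure_iff]
    intro s
    rw [(emb_me s).aestronglyMeasurable_map_iff]
    exact (Φ.amp_memLp s).1
  rw [memLp_two_iff_integrable_sq_norm h1, pm_eq_sum, integrable_finsetSum_measure]
  intro s _
  rw [(emb_me s).integrable_map_iff]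
  exact (memLp_two_iff_integrable_sq_norm (Φ.amp_memLp s).1).1 (Φ.amp_memLp s)

lemma full_anti {N : ℕ} (Φ : ElectronState N) : Anti ms (full Φ) := by
  intro π
  rw [pm_eq_sum, ae_finsetSum_measure_iff]
  intro s _
  rw [(emb_me s).ae_map_iff]
  filter_upwards [Φ.antisymm π s] with x hx
  exact hx

lemma integral_pm {N : ℕ} {G : (Fin N → R3s) → ℝ} (hG : Integrable G (pm ms N)) :
    ∫ z, G z ∂(pm ms N) = ∑ s : Fin N → Fin 2, ∫ x, G (emb s x) := by
  rw [pm_eq_sum, integrable_finsetSum_measure] at hG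
  rw [pm_eq_sum, integral_finsetSum_measure hG]
  refine Finset.sum_congr rfl fun s _ => ?_
  rw [(emb_me s).integral_map]

/-- One-particle function with spin `σ`. -/
def sp (σ : Fin 2) (u : R3 → ℝ) (e : R3s) : ℝ := if e.1 = σ then u e.2 else 0

lemma ms_eq_sum : ms = ∑ τ : Fin 2, Measure.map (Prod.mk τ) (volume : Measure R3) := by
  ext S hS
  rw [ms_apply S hS, Measure.finsetSum_apply]
  refine Finset.sum_congr rfl fun τ _ => ?_
  rw [Measure.map_apply measurable_prodMk_left hS]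

lemma mk_me (τ : Fin 2) : MeasurableEmbedding (Prod.mk τ : R3 → R3s) :=
  MeasurableEmbedding.prodMk_left τ MeasurableEmbedding.id

lemma sp_memLp (σ : Fin 2) {u : R3 → ℝ} (hu : MemLp u 2 volume) : MemLp (sp σ u) 2 ms := by
  have h0 : ∀ τ : Fin 2, (fun x : R3 => sp σ u (τ, x)) = if τ = σ then u else 0 := by
    intro τ
    funext x
    simp only [sp]
    split_ifs <;> rfl
  have h2 : ∀ τ : Fin 2, MemLp (fun x : R3 => sp σ u (τ, x)) 2 volume := by
    intro τ
    rw [h0]
    split_ifs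
    · exact hu
    · exact MemLp.zero
  have h1 : AEStronglyMeasurable (sp σ u) ms := by
    rw [ms_eq_sum, ← Measure.sum_fintype, aestronglyMeasurable_sum_measure_iff]
    intro τ
    rw [(mk_me τ).aestronglyMeasurable_map_iff]
    exact (h2 τ).1
  rw [memLp_two_iff_integrable_sq_norm h1, ms_eq_sum, integrable_finsetSum_measure]
  intro τ _
  rw [(mk_me τ).integrable_map_iff]
  exact (memLp_two_iff_integrable_sq_norm (h2 τ).1).1 (h2 τ)

lemma integral_sp {X : Type*} [NormedAddCommGroup X] [NormedSpace ℝ X] (σ : Fin 2) (G : R3s → X)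
    (hG : ∀ e : R3s, e.1 ≠ σ → G e = 0) : ∫ e, G e ∂ms = ∫ x, G (σ, x) := by
  have hS : MeasurableSet (({σ} : Set (Fin 2)) ×ˢ (univ : Set R3)) :=
    (measurableSet_singleton σ).prod MeasurableSet.univ
  have h1 : ∫ e, G e ∂ms = ∫ e in ({σ} : Set (Fin 2)) ×ˢ (univ : Set R3), G e ∂ms := by
    refine (setIntegral_eq_integral_of_forall_compl_eq_zero fun e he => ?_).symm
    refine hG e fun h => he ?_
    simp [h]
  have h2 : ms.restrict (({σ} : Set (Fin 2)) ×ˢ (univ : Set R3)) =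
      Measure.map (Prod.mk σ) (volume : Measure R3) := by
    rw [← Measure.prod_restrict, Measure.restrict_univ, ← Measure.dirac_prod]
    congr 1
    ext T hT
    rw [Measure.restrict_apply hT]
    by_cases h : σ ∈ T
    · rw [Set.inter_eq_self_of_subset_right (Set.singleton_subset_iff.2 h),
        Measure.count_singleton, Measure.dirac_apply_of_mem h]
    · rw [Set.inter_singleton_eq_empty.2 h, measure_empty, Measure.dirac_apply' _ hT]
      simp [h]
  rw [h1, h2, (mk_me σ).integral_map]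

lemma ann_full {n : ℕ} (Φ : ElectronState (n + 1)) (σ : Fin 2) (u : R3 → ℝ)
    (s : Fin n → Fin 2) (y : Fin n → R3) :
    ann ms (sp σ u) (full Φ) (emb s y) =
      ∫ x : R3, (u x : ℂ) * Φ.amp (Fin.cons σ s) (Fin.cons x y) := by
  unfold ann
  rw [integral_sp σ]
  · refine integral_congr_ae (Eventually.of_forall fun x => ?_)
    have h1 : (Fin.cons (σ, x) (emb s y) : Fin (n + 1) → R3s) =
        emb (Fin.cons σ s) (Fin.cons x y) := by
      funext i
      refine Fin.cases ?_ (fun j => ?_) i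
      · rfl
      · rfl
    simp only []
    rw [h1, full_emb]
    simp [sp]
  · intro e he
    simp [sp, he]

/-- KD4. Pauli principle, spin component `σ`. -/
theorem pauli_state {n : ℕ} (Φ : ElectronState (n + 1)) (σ : Fin 2) (u : R3 → ℝ)
    (hu : MemLp u 2 volume) :
    (n + 1 : ℝ) * ∑ s : Fin n → Fin 2, ∫ y : Fin n → R3,
      ‖∫ x : R3, (u x : ℂ) * Φ.amp (Fin.cons σ s) (Fin.cons x y)‖ ^ 2 ≤
      normSq Φ * ∫ x, u x ^ 2 := by
  have hv := sp_memLp σ hu
  have hΦ := full_memLp Φ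
  have h := pauli_core hv hΦ (full_anti Φ)
  have hA := ann_memLp hv hΦ
  rw [integral_pm ((memLp_two_iff_integrable_sq_norm hA.1).1 hA),
    integral_pm ((memLp_two_iff_integrable_sq_norm hΦ.1).1 hΦ), integral_sp σ] at h
  · simp only [ann_full, full_emb] at h
    have h1 : ∫ x, sp σ u (σ, x) ^ 2 = ∫ x, u x ^ 2 := by simp [sp]
    rw [h1] at h
    exact h
  · intro e he
    simp [sp, he]

end

end Vale.Agent.P363.KD
end
end

section

section

/-! P363 disproof, block KD: parity under the reflection of coordinate 0. -/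

namespace Vale.Agent.P363.KD

open MeasureTheory Set Filter Topology
open scoped ENNReal ContDiff

noncomputable section

/-- Parity data: `c i = true` means that `f i` is odd under the reflection of coordinate `0`,
`c i = false` that it is even. -/
def Adapted {ι : Type} (c : ι → Bool) (f : ι → R3 → ℝ) : Prop :=
  ∀ i, ∀ᵐ x, f i (refl 0 x) = if c i then - f i x else f i x

/-- Functions odd in coordinate `0`. -/
def ClsX (u : R3 → ℝ) : Prop := ∀ᵐ x, u (refl 0 x) = - u x

/-- Occupation of the odd class. -/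
def occX {ι : Type} (c : ι → Bool) (f : ι → R3 → ℝ) : ℝ :=
  ∑' i, if c i then ∫ x, f i x ^ 2 else 0

/-- Output of the Kohn-Sham side. -/
structure KSOut (n v : R3 → ℝ) (e : ℝ) (φ : R3 → ℝ) (φ' : Fin 3 → R3 → ℝ) : Prop where
  memV : MemV v
  h1 : H1o φ φ'
  cls : ∀ᵐ x, φ (refl 0 x) = - φ x
  nonneg : ∀ᵐ x : R3, 0 < x 0 → 0 ≤ φ x
  ne : ¬ (∀ᵐ x : R3, 0 < x 0 → φ x = 0)
  le : ∀ᵐ x, φ x ^ 2 ≤ n x
  weak : ∀ (ζ : R3 → ℝ) (ζ' : Fin 3 → R3 → ℝ), H1o ζ ζ' →
    (1 / 2) * ∑ k, (∫ x, φ' k x * ζ' k x) + ∫ x, (v x - e) * (φ x * ζ x) = 0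
  ineq : ∀ D : Fin 3 → R3 → ℝ, (∀ k, ACL volume (dir3 k) n (fun x => 2 * D k x)) →
    ∀ δ : ℝ, 0 < δ → ∀ θ : R3 → ℝ, ContDiff ℝ 1 θ → HasCompactSupport θ → (∀ x, 0 ≤ θ x) →
      ∫ x, (v x - e) * (θ x * (n x / (n x + δ))) ≤
        - (1 / 2) * ∑ k, (∫ x, D k x / (n x + δ) * fderiv ℝ θ x (dir3 k)) +
          (1 / 2) * ∑ k, ∫ x, θ x * (D k x / (n x + δ)) ^ 2

/-- Hydrogenic `n = 1, 2` shell: `χ 0 = 1s`, `χ 1 = 2s`, `χ 2, χ 3, χ 4 = 2p_x, 2p_y, 2p_z`,
normalized. -/
def chi : Fin 5 → R3 → ℝ := ![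
  fun x => Real.exp (-‖x‖) / √Real.pi,
  fun x => (2 - ‖x‖) * Real.exp (-‖x‖ / 2) / √(32 * Real.pi),
  fun x => x 0 * Real.exp (-‖x‖ / 2) / √(32 * Real.pi),
  fun x => x 1 * Real.exp (-‖x‖ / 2) / √(32 * Real.pi),
  fun x => x 2 * Real.exp (-‖x‖ / 2) / √(32 * Real.pi)]

/-- The Coulomb potential of the unit nucleus. -/
def v0 (x : R3) : ℝ := - (1 / ‖x‖)

/-- One-body hydrogenic inequality (supplied by block B1-B3). -/
def HydIneq : Prop := ∀ (u : R3 → ℝ) (u' : Fin 3 → R3 → ℝ), H1o u u' →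
  - (1 / 2) * (∫ x, chi 0 x * u x) ^ 2 - (1 / 8) * ∑ a : Fin 4, (∫ x, chi a.succ x * u x) ^ 2
    - (1 / 18) * ((∫ x, u x ^ 2) - (∫ x, chi 0 x * u x) ^ 2 - ∑ a : Fin 4, (∫ x, chi a.succ x * u x) ^ 2)
      ≤ hform v0 u u'

/-- Leading density. -/
def n0 (q : Fin 4 → ℝ) (x : R3) : ℝ := 2 * chi 0 x ^ 2 + ∑ a : Fin 4, q a * chi a.succ x ^ 2

end

end Vale.Agent.P363.KD
end
end

section

section

/-!
P363 disproof, block KX (final contradiction): definitions.
Block theorem: `final_contradiction` (see `D/Main.lean`).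
-/

namespace Vale.Agent.P363.KX

open MeasureTheory Set Filter Topology
open scoped ENNReal ContDiff

noncomputable section

/-- Partial derivative in direction `k`. -/
def pd (k : Fin 3) (f : R3 → ℝ) (x : R3) : ℝ := fderiv ℝ f x (dir3 k)

/-- The half space `c < x 0`. -/
def Om (c : ℝ) : Set R3 := {x | c < x 0}

/-- Local hypotheses on the potential, level and the positive orbital (consequences of the output
of the Kohn-Sham side). -/
structure Orb (v : R3 → ℝ) (e : ℝ) (φ : R3 → ℝ) (φ' : Fin 3 → R3 → ℝ) : Prop where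
  meas : AEStronglyMeasurable v volume
  vloc : ∀ r : ℝ, ∃ C : ℝ, ∀ x : R3,
    IntegrableOn v (Metric.ball x r) volume ∧ ∫ y in Metric.ball x r, |v y| ≤ C
  h1 : H1o φ φ'
  nonneg : ∀ᵐ x : R3, 0 < x 0 → 0 ≤ φ x
  ne : ¬ (∀ᵐ x : R3, 0 < x 0 → φ x = 0)
  weak : ∀ (ζ : R3 → ℝ) (ζ' : Fin 3 → R3 → ℝ), H1o ζ ζ' → (∀ᵐ x : R3, x 0 ≤ 0 → ζ x = 0) →
    (1 / 2) * (∑ k, ∫ x, φ' k x * ζ' k x) + ∫ x, (v x - e) * φ x * ζ x = 0

/-- The inequality `v - e ≤ Δ√n / (2√n)` in weak form (output of the Kohn-Sham side). -/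
def VIneq (n v : R3 → ℝ) (e : ℝ) : Prop :=
  ∀ D : Fin 3 → R3 → ℝ, (∀ k, ACL volume (dir3 k) n (fun x => 2 * D k x)) →
    ∀ δ : ℝ, 0 < δ → ∀ θ : R3 → ℝ, ContDiff ℝ 1 θ → HasCompactSupport θ → (∀ x, 0 ≤ θ x) →
      ∫ x, (v x - e) * (θ x * (n x / (n x + δ))) ≤
        - (1 / 2) * (∑ k, ∫ x, D k x / (n x + δ) * fderiv ℝ θ x (dir3 k)) +
          (1 / 2) * (∑ k, ∫ x, θ x * (D k x / (n x + δ)) ^ 2)

/-- Cut-off version of the orbital: nonnegative everywhere and equal to `φ` on `Om c`. -/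
structure Cut (c : ℝ) (v : R3 → ℝ) (e : ℝ) (ψ : R3 → ℝ) (ψ' : Fin 3 → R3 → ℝ) : Prop where
  vloc : LocallyIntegrable v volume
  h1 : H1o ψ ψ'
  nonneg : ∀ᵐ x, 0 ≤ ψ x
  weak : ∀ (ζ : R3 → ℝ) (ζ' : Fin 3 → R3 → ℝ), H1o ζ ζ' → (∀ x, x ∉ Om c → ζ x = 0) →
    (∀ k x, x ∉ Om c → ζ' k x = 0) →
    (1 / 2) * (∑ k, ∫ x, ψ' k x * ζ' k x) + ∫ x, (v x - e) * ψ x * ζ x = 0

/-- Logarithm of the orbital on the half space `Om c`. -/
structure LogOut (c : ℝ) (v : R3 → ℝ) (e : ℝ) (φ H : R3 → ℝ) (g : Fin 3 → R3 → ℝ) : Prop where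
  pos : ∀ᵐ x, x ∈ Om c → 0 < φ x ∧ H x = Real.log (φ x)
  locH : LocallyIntegrable H volume
  meas : ∀ k, AEStronglyMeasurable (g k) volume
  locg : ∀ k, LocallyIntegrable (fun x => g k x ^ 2) volume
  deriv : ∀ χ : R3 → ℝ, ContDiff ℝ ∞ χ → HasCompactSupport χ → tsupport χ ⊆ Om c →
    ∀ k, ∫ x, pd k χ x * H x = - ∫ x, χ x * g k x
  eqn : ∀ χ : R3 → ℝ, ContDiff ℝ ∞ χ → HasCompactSupport χ → tsupport χ ⊆ Om c →
    (1 / 2) * (∑ k, ∫ x, pd k χ x * g k x) - (1 / 2) * (∑ k, ∫ x, χ x * g k x ^ 2) +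
      ∫ x, (v x - e) * χ x = 0

/-- One-dimensional bump function of integral one supported in `[-1/4, 1/4]`. -/
def beta : ℝ → ℝ :=
  (⟨1 / 8, 1 / 4, by norm_num, by norm_num⟩ : ContDiffBump (0 : ℝ)).normed volume

/-- The bump at scale `ε`. -/
def bsc (ε t : ℝ) : ℝ := ε⁻¹ * beta (ε⁻¹ * t)

/-- Product mollifier. -/
def rho (y : R3) : ℝ := beta (y 0) * beta (y 1) * beta (y 2)

/-- The mollifier at `x`. -/
def th (x y : R3) : ℝ := rho (x - y)

/-- Mollification. -/
def moll (H : R3 → ℝ) (x : R3) : ℝ := ∫ y, rho (x - y) * H y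

/-- The point `(r, 0, z)`. -/
def pt (r z : ℝ) : R3 := WithLp.toLp 2 ![r, 0, z]

/-- Kernel of the thin slab average near the first coordinate axis. -/
def ker (r ε : ℝ) (y : R3) : ℝ := beta (r - y 0) * beta (0 - y 1) * bsc ε (y 2)

/-- Laplacian. -/
def lap (f : R3 → ℝ) (x : R3) : ℝ := ∑ k, pd k (pd k f) x

/-- Corner point of the barrier. -/
def cor (T : ℝ) : R3 := pt 1 T

/-- Radial profile of the barrier. -/
def prof (κ γ : ℝ) (r : ℝ) : ℝ := r ^ γ * Real.exp (-κ * r)

/-- The barrier. -/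
def bar (κ γ T : ℝ) (x : R3) : ℝ := (x 0 - 1) * (x 2 - T) * prof κ γ ‖x - cor T‖

end

end Vale.Agent.P363.KX
end
end

section

section

namespace Vale.Agent.P363.KX

open MeasureTheory Set Filter Topology
open scoped ENNReal ContDiff

noncomputable section

/-! Local consequences of the output of the Kohn-Sham side. -/

/-- Uniform local integrability of the potential. -/
lemma memV_local {v : R3 → ℝ} (hv : MemV v) (r : ℝ) : ∃ C : ℝ, ∀ x : R3,
    IntegrableOn v (Metric.ball x r) volume ∧ ∫ y in Metric.ball x r, |v y| ≤ C := by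
  obtain ⟨a, b, ha, hb, rfl⟩ := hv
  obtain ⟨B, hB0, hB⟩ : ∃ B : ℝ, 0 ≤ B ∧ ∀ᵐ x, |b x| ≤ B := by
    refine ⟨(eLpNorm b ⊤ volume).toReal, ENNReal.toReal_nonneg, ?_⟩
    rw [eLpNorm_exponent_top]
    have h1 : eLpNormEssSup b volume ≠ ⊤ := by
      have := hb.2.ne
      rwa [eLpNorm_exponent_top] at this
    filter_upwards [ae_le_eLpNormEssSup (f := b) (μ := (volume : Measure R3))] with x hx
    have h2 := ENNReal.toReal_mono h1 hx
    simpa using h2
  have h32 : (3 / 2 : ℝ≥0∞).toReal = 3 / 2 := by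
    rw [ENNReal.toReal_div]; simp
  have hp : Integrable (fun x => |a x| ^ (3 / 2 : ℝ)) := by
    have := ha.integrable_norm_rpow (by simp) (ENNReal.div_ne_top (by simp) (by simp))
    rw [h32] at this
    simpa only [Real.norm_eq_abs] using this
  have hle : ∀ t : ℝ, 0 ≤ t → t ≤ 1 + t ^ (3 / 2 : ℝ) := fun t ht => by
    rcases le_total t 1 with h | h
    · have := Real.rpow_nonneg ht (3 / 2)
      linarith only [h, this]
    · have := Real.self_le_rpow_of_one_le h (by norm_num : (1 : ℝ) ≤ 3 / 2)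
      linarith only [this]
  refine ⟨(volume (Metric.ball (0 : R3) r)).toReal * (1 + B) + ∫ x, |a x| ^ (3 / 2 : ℝ),
    fun x => ?_⟩
  have hfin : volume (Metric.ball x r) ≠ ⊤ := measure_ball_lt_top.ne
  have hdom : IntegrableOn (fun y => (1 + B) + |a y| ^ (3 / 2 : ℝ)) (Metric.ball x r) volume :=
    (integrableOn_const hfin).add hp.integrableOn
  have hbd : ∀ᵐ y, |(a + b) y| ≤ (1 + B) + |a y| ^ (3 / 2 : ℝ) := by
    filter_upwards [hB] with y hy
    have := hle |a y| (abs_nonneg _)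
    have h2 := abs_add_le (a y) (b y)
    rw [Pi.add_apply]
    linarith only [hy, this, h2]
  have hvm : AEStronglyMeasurable (a + b) volume := ha.1.add hb.1
  have hint : IntegrableOn (a + b) (Metric.ball x r) volume := by
    refine Integrable.mono' hdom hvm.restrict ?_
    filter_upwards [ae_restrict_of_ae hbd] with y hy
    rwa [Real.norm_eq_abs]
  refine ⟨hint, ?_⟩
  calc ∫ y in Metric.ball x r, |(a + b) y|
      ≤ ∫ y in Metric.ball x r, ((1 + B) + |a y| ^ (3 / 2 : ℝ)) :=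
        integral_mono_ae hint.abs hdom (ae_restrict_of_ae hbd)
    _ = (volume (Metric.ball x r)).toReal * (1 + B) +
        ∫ y in Metric.ball x r, |a y| ^ (3 / 2 : ℝ) := by
        have e1 : Integrable (fun _ : R3 => (1 + B : ℝ)) (volume.restrict (Metric.ball x r)) :=
          integrableOn_const hfin
        rw [integral_add e1 hp.integrableOn, setIntegral_const, Measure.real, smul_eq_mul]
    _ ≤ _ := by
        rw [Measure.addHaar_ball_center]
        refine add_le_add_right (setIntegral_le_integral hp ?_) _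
        exact Eventually.of_forall fun y => Real.rpow_nonneg (abs_nonneg _) _

lemma memV_meas {v : R3 → ℝ} (hv : MemV v) : AEStronglyMeasurable v volume := by
  obtain ⟨a, b, ha, hb, rfl⟩ := hv
  exact ha.1.add hb.1

theorem orb_of {v : R3 → ℝ} {e : ℝ} {φ : R3 → ℝ} {φ' : Fin 3 → R3 → ℝ} (hV : MemV v)
    (h1 : H1o φ φ') (nonneg : ∀ᵐ x : R3, 0 < x 0 → 0 ≤ φ x)
    (ne : ¬ (∀ᵐ x : R3, 0 < x 0 → φ x = 0))
    (weak : ∀ (ζ : R3 → ℝ) (ζ' : Fin 3 → R3 → ℝ), H1o ζ ζ' → (∀ᵐ x : R3, x 0 ≤ 0 → ζ x = 0) →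
      (1 / 2) * (∑ k, ∫ x, φ' k x * ζ' k x) + ∫ x, (v x - e) * φ x * ζ x = 0) :
    Orb v e φ φ' :=
  ⟨memV_meas hV, memV_local hV, h1, nonneg, ne, weak⟩

end

end Vale.Agent.P363.KX
end
end

section

section

namespace Vale.Agent.P363.KX

open MeasureTheory Set Filter Topology
open scoped ENNReal ContDiff

noncomputable section

/-! One step in a coordinate direction. -/

/-- The fundamental theorem of calculus holds for every step. -/
theorem ftc_all {h g : R3 → ℝ} {k : Fin 3} (hG : ACL volume (dir3 k) h g) (t : ℝ) :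
    ∀ᵐ x : R3, h (x + t • dir3 k) = h x + ∫ s in (0 : ℝ)..t, g (x + s • dir3 k) := by
  have hsw := hG.ftc_swap
  have hsw2 := (Measure.measurePreserving_sub_left (volume : Measure ℝ) t).quasiMeasurePreserving.ae hsw
  obtain ⟨t₁, h1, h2⟩ := (hsw.and hsw2).exists
  filter_upwards [h1, shift_ae (dir3 k) h2 t₁, hG.locInt] with x e1 e2 e3
  have e4 : x + t₁ • dir3 k + (t - t₁) • dir3 k = x + t • dir3 k := by
    rw [add_assoc, ← add_smul]
    congr 2
    ring
  rw [e4, e1] at e2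
  rw [e2]
  unfold prim
  have e5 : ∀ s : ℝ, x + t₁ • dir3 k + s • dir3 k = x + (s + t₁) • dir3 k := fun s => by
    rw [add_assoc, ← add_smul, add_comm s t₁]
  simp only [e5]
  rw [intervalIntegral.integral_comp_add_right (fun s => g (x + s • dir3 k)), zero_add,
    sub_add_cancel, add_assoc, intervalIntegral.integral_add_adjacent_intervals (LocInt.ii e3 _ _)
      (LocInt.ii e3 _ _)]

theorem step_integral {h g : R3 → ℝ} {k : Fin 3} (hG : ACL volume (dir3 k) h g) {S U : Set R3}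
    (hS : MeasurableSet S) (hU : MeasurableSet U) (t : ℝ)
    (hSU : ∀ x ∈ S, ∀ s ∈ Set.uIcc 0 t, x + s • dir3 k ∈ U) :
    ∫⁻ x in S, ‖h (x + t • dir3 k) - h x‖ₑ ≤ ENNReal.ofReal |t| * ∫⁻ x in U, ‖g x‖ₑ := by
  have h1 : ∫⁻ x in S, ‖h (x + t • dir3 k) - h x‖ₑ ≤
      ∫⁻ x in S, ∫⁻ s in Set.uIoc 0 t, ‖g (x + s • dir3 k)‖ₑ := by
    refine lintegral_mono_ae ?_
    refine ae_restrict_of_ae ?_
    filter_upwards [ftc_all hG t] with x hx
    rw [hx, add_sub_cancel_left]
    have e1 : ‖∫ s in (0 : ℝ)..t, g (x + s • dir3 k)‖ₑ =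
        ‖∫ s in Set.uIoc 0 t, g (x + s • dir3 k)‖ₑ := by
      rw [← ofReal_norm, ← ofReal_norm, intervalIntegral.norm_intervalIntegral_eq]
    rw [e1]
    exact enorm_integral_le_lintegral_enorm _
  have hm : AEMeasurable (Function.uncurry fun (x : R3) (s : ℝ) => ‖g (x + s • dir3 k)‖ₑ)
      ((volume.restrict S).prod (volume.restrict (Set.uIoc 0 t))) := by
    rw [Measure.prod_restrict]
    exact (hG.meas'.comp_quasiMeasurePreserving (qmp_line (dir3 k))).enorm.restrict
  have h2 : ∀ s ∈ Set.uIoc 0 t, ∫⁻ x in S, ‖g (x + s • dir3 k)‖ₑ ≤ ∫⁻ x in U, ‖g x‖ₑ := by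
    intro s hs
    rw [← lintegral_indicator hS, ← lintegral_indicator hU,
      ← lintegral_add_right_eq_self (U.indicator fun x => ‖g x‖ₑ) (s • dir3 k)]
    refine lintegral_mono fun x => ?_
    by_cases hx : x ∈ S
    · rw [Set.indicator_of_mem hx,
        Set.indicator_of_mem (hSU x hx s (Set.uIoc_subset_uIcc hs))]
    · rw [Set.indicator_of_notMem hx]
      exact zero_le
  calc ∫⁻ x in S, ‖h (x + t • dir3 k) - h x‖ₑ
      ≤ ∫⁻ x in S, ∫⁻ s in Set.uIoc 0 t, ‖g (x + s • dir3 k)‖ₑ := h1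
    _ = ∫⁻ s in Set.uIoc 0 t, ∫⁻ x in S, ‖g (x + s • dir3 k)‖ₑ := lintegral_lintegral_swap hm
    _ ≤ ∫⁻ _s in Set.uIoc 0 t, ∫⁻ x in U, ‖g x‖ₑ :=
        setLIntegral_mono' measurableSet_uIoc h2
    _ = ENNReal.ofReal |t| * ∫⁻ x in U, ‖g x‖ₑ := by
        rw [lintegral_const, Measure.restrict_apply_univ, Real.volume_uIoc, sub_zero, mul_comm]

end

end Vale.Agent.P363.KX
end
end

section

section

namespace Vale.Agent.P363.KX

open MeasureTheory Set Filter Topology
open scoped ENNReal ContDiff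

noncomputable section

/-! Oscillation inequality on a half ball. -/

private theorem measSet_Om (c : ℝ) : MeasurableSet (Om c) := by
  have h : Continuous (fun x : R3 => x 0) := by fun_prop
  exact (isOpen_lt continuous_const h).measurableSet

private theorem aemeas_diff {h : R3 → ℝ} (hh : AEStronglyMeasurable h volume) (a b : R3) :
    AEMeasurable (fun x : R3 => ‖h (x + a) - h (x + b)‖ₑ) volume := by
  have h1 : ∀ a : R3, AEStronglyMeasurable (fun x : R3 => h (x + a)) volume := fun a =>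
    hh.comp_measurePreserving (measurePreserving_add_right volume a)
  exact ((h1 a).sub (h1 b)).enorm

/-- One leg of the path, starting at `x + b`. -/
private theorem leg {h g : R3 → ℝ} {k : Fin 3} (hG : ACL volume (dir3 k) h g) {S U : Set R3}
    (hS : MeasurableSet S) (hU : MeasurableSet U) (b : R3) (t : ℝ)
    (hSU : ∀ x ∈ S, ∀ s ∈ Set.uIcc 0 t, x + b + s • dir3 k ∈ U) :
    ∫⁻ x in S, ‖h (x + (b + t • dir3 k)) - h (x + b)‖ₑ
      ≤ ENNReal.ofReal |t| * ∫⁻ x in U, ‖g x‖ₑ := by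
  set S' : Set R3 := {x | x - b ∈ S} with hS'
  have hS'm : MeasurableSet S' := by
    have : Measurable (fun x : R3 => x - b) := by fun_prop
    exact this hS
  have key := step_integral hG hS'm hU t (by
    intro x hx s hs
    have := hSU (x - b) hx s hs
    simpa using this)
  refine le_trans (le_of_eq ?_) key
  rw [← lintegral_indicator hS, ← lintegral_indicator hS'm]
  rw [← lintegral_add_right_eq_self (μ := (volume : Measure R3))
    (S'.indicator (fun x => ‖h (x + t • dir3 k) - h x‖ₑ)) b]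
  refine lintegral_congr fun x => ?_
  by_cases hx : x ∈ S
  · have hx' : x + b ∈ S' := by simpa [hS'] using hx
    rw [indicator_of_mem hx, indicator_of_mem hx', add_assoc]
  · have hx' : x + b ∉ S' := by simpa [hS'] using hx
    rw [indicator_of_notMem hx, indicator_of_notMem hx']

private theorem norm_dir3 (k : Fin 3) : ‖dir3 k‖ = 1 := by
  simp [dir3]

private theorem decomp (a : R3) :
    a = (a 0 • dir3 0 + a 1 • dir3 1) + a 2 • dir3 2 := by
  ext k
  fin_cases k <;> simp [dir3]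

private theorem coord_le (a : R3) (k : Fin 3) : |a k| ≤ ‖a‖ := by
  have := EuclideanSpace.norm_eq a
  have h2 := PiLp.norm_apply_le a k
  simpa using h2

/-- The set of starting points for the displacement `a`. -/
private def Sa (c R : ℝ) (a : R3) : Set R3 :=
  {x | x ∈ Om c ∩ Metric.ball (0 : R3) R ∧ x + a ∈ Om c ∩ Metric.ball (0 : R3) R}

private theorem measSet_Sa (c R : ℝ) (a : R3) : MeasurableSet (Sa c R a) := by
  have hU : MeasurableSet (Om c ∩ Metric.ball (0 : R3) R) :=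
    (measSet_Om c).inter measurableSet_ball
  have : Measurable (fun x : R3 => x + a) := by fun_prop
  exact hU.inter (this hU)

private theorem inner_bound {h : R3 → ℝ} {G : Fin 3 → R3 → ℝ}
    (hG : ∀ k, ACL volume (dir3 k) h (G k)) (c : ℝ) {R : ℝ} (hR : 0 < R) (a : R3)
    (ha : ‖a‖ < 2 * R) :
    ∫⁻ x in Sa c R a, ‖h (x + a) - h x‖ₑ ≤ ENNReal.ofReal (2 * R) *
        ∑ k, ∫⁻ x in Om c ∩ Metric.ball (0 : R3) (9 * R), ‖G k x‖ₑ := by
  have hh := (hG 0).meas
  set b1 : R3 := a 0 • dir3 0 with hb1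
  set b2 : R3 := b1 + a 1 • dir3 1 with hb2
  have hdec : a = b2 + a 2 • dir3 2 := by
    rw [hb2, hb1]; exact decomp a
  have hU : MeasurableSet (Om c ∩ Metric.ball (0 : R3) (9 * R)) :=
    (measSet_Om c).inter measurableSet_ball
  have hS := measSet_Sa c R a
  have hc : ∀ k, |a k| < 2 * R := fun k => (coord_le a k).trans_lt ha
  have hnb1 : ‖b1‖ ≤ |a 0| := by
    rw [hb1, norm_smul, norm_dir3, mul_one, Real.norm_eq_abs]
  have hnb2 : ‖b2‖ ≤ |a 0| + |a 1| := by
    have e : ‖a 1 • dir3 1‖ = |a 1| := by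
      rw [norm_smul, norm_dir3, mul_one, Real.norm_eq_abs]
    rw [hb2]
    refine (norm_add_le _ _).trans ?_
    rw [e]
    linarith
  have habs : ∀ {s t : ℝ}, s ∈ Set.uIcc 0 t → |s| ≤ |t| := by
    intro s t hs
    have := Set.abs_sub_left_of_mem_uIcc hs
    simpa using this
  -- the three legs
  have l1 : ∫⁻ x in Sa c R a, ‖h (x + b1) - h x‖ₑ ≤ ENNReal.ofReal |a 0| *
      ∫⁻ x in Om c ∩ Metric.ball (0 : R3) (9 * R), ‖G 0 x‖ₑ := by
    have := leg (hG 0) hS hU 0 (a 0) (by
      intro x hx s hs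
      obtain ⟨⟨hx1, hx2⟩, hx3, hx4⟩ := hx
      refine ⟨?_, ?_⟩
      · have e : (x + 0 + s • dir3 0) 0 = x 0 + s := by simp [dir3]
        have e3 : (x + a) 0 = x 0 + a 0 := by simp
        have h3 : c < x 0 + a 0 := by
          have : c < (x + a) 0 := hx3
          rwa [e3] at this
        have h1 : c < x 0 := hx1
        show c < (x + 0 + s • dir3 0) 0
        rw [e]
        rcases Set.mem_uIcc.1 hs with h | h
        · linarith [h.1]
        · linarith [h.1]
      · rw [mem_ball_zero_iff] at hx2 ⊢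
        have h5 : ‖x + 0 + s • dir3 0‖ ≤ ‖x‖ + |s| := by
          rw [add_zero]
          refine (norm_add_le _ _).trans ?_
          rw [norm_smul, norm_dir3, mul_one, Real.norm_eq_abs]
        have := habs hs
        have := hc 0
        linarith)
    simpa only [hb1, Fin.isValue, ge_iff_le, zero_add, add_zero] using this
  have l2 : ∫⁻ x in Sa c R a, ‖h (x + b2) - h (x + b1)‖ₑ ≤ ENNReal.ofReal |a 1| *
      ∫⁻ x in Om c ∩ Metric.ball (0 : R3) (9 * R), ‖G 1 x‖ₑ := by
    exact leg (hG 1) hS hU b1 (a 1) (by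
      intro x hx s hs
      obtain ⟨⟨hx1, hx2⟩, hx3, hx4⟩ := hx
      refine ⟨?_, ?_⟩
      · have e : (x + b1 + s • dir3 1) 0 = x 0 + a 0 := by simp [dir3, hb1]
        have e3 : (x + a) 0 = x 0 + a 0 := by simp
        show c < (x + b1 + s • dir3 1) 0
        rw [e, ← e3]
        exact hx3
      · rw [mem_ball_zero_iff] at hx2 ⊢
        have h5 : ‖x + b1 + s • dir3 1‖ ≤ ‖x‖ + ‖b1‖ + |s| := by
          refine (norm_add_le _ _).trans ?_
          rw [norm_smul, norm_dir3, mul_one, Real.norm_eq_abs]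
          have := norm_add_le x b1
          linarith
        have := habs hs
        have := hc 0
        have := hc 1
        linarith)
  have l3 : ∫⁻ x in Sa c R a, ‖h (x + a) - h (x + b2)‖ₑ ≤ ENNReal.ofReal |a 2| *
      ∫⁻ x in Om c ∩ Metric.ball (0 : R3) (9 * R), ‖G 2 x‖ₑ := by
    have := leg (hG 2) hS hU b2 (a 2) (by
      intro x hx s hs
      obtain ⟨⟨hx1, hx2⟩, hx3, hx4⟩ := hx
      refine ⟨?_, ?_⟩
      · have e : (x + b2 + s • dir3 2) 0 = x 0 + a 0 := by simp [dir3, hb2, hb1]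
        have e3 : (x + a) 0 = x 0 + a 0 := by simp
        show c < (x + b2 + s • dir3 2) 0
        rw [e, ← e3]
        exact hx3
      · rw [mem_ball_zero_iff] at hx2 ⊢
        have h5 : ‖x + b2 + s • dir3 2‖ ≤ ‖x‖ + ‖b2‖ + |s| := by
          refine (norm_add_le _ _).trans ?_
          rw [norm_smul, norm_dir3, mul_one, Real.norm_eq_abs]
          have := norm_add_le x b2
          linarith only [this]
        have := habs hs
        have := hc 0
        have := hc 1
        have := hc 2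
        linarith)
    rwa [← hdec] at this
  -- assembly
  have m1 : AEMeasurable (fun x : R3 => ‖h (x + b1) - h x‖ₑ) (volume.restrict (Sa c R a)) := by
    have := aemeas_diff hh b1 0
    simp only [add_zero] at this
    exact this.restrict
  have m2 : AEMeasurable (fun x : R3 => ‖h (x + b2) - h (x + b1)‖ₑ)
      (volume.restrict (Sa c R a)) := (aemeas_diff hh b2 b1).restrict
  have tri : ∀ x : R3, ‖h (x + a) - h x‖ₑ ≤ ‖h (x + b1) - h x‖ₑ +
      (‖h (x + b2) - h (x + b1)‖ₑ + ‖h (x + a) - h (x + b2)‖ₑ) := by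
    intro x
    have e : h (x + a) - h x = (h (x + b1) - h x) +
        ((h (x + b2) - h (x + b1)) + (h (x + a) - h (x + b2))) := by ring
    calc ‖h (x + a) - h x‖ₑ = ‖(h (x + b1) - h x) +
        ((h (x + b2) - h (x + b1)) + (h (x + a) - h (x + b2)))‖ₑ := by rw [← e]
      _ ≤ _ := (enorm_add_le _ _).trans (add_le_add le_rfl (enorm_add_le _ _))
  have h2R : ∀ k, ENNReal.ofReal |a k| ≤ ENNReal.ofReal (2 * R) := fun k =>
    ENNReal.ofReal_le_ofReal (hc k).le
  calc ∫⁻ x in Sa c R a, ‖h (x + a) - h x‖ₑ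
      ≤ ∫⁻ x in Sa c R a, (‖h (x + b1) - h x‖ₑ +
          (‖h (x + b2) - h (x + b1)‖ₑ + ‖h (x + a) - h (x + b2)‖ₑ)) :=
        lintegral_mono tri
    _ = (∫⁻ x in Sa c R a, ‖h (x + b1) - h x‖ₑ) +
          ((∫⁻ x in Sa c R a, ‖h (x + b2) - h (x + b1)‖ₑ) +
            (∫⁻ x in Sa c R a, ‖h (x + a) - h (x + b2)‖ₑ)) := by
        rw [lintegral_add_left' m1, lintegral_add_left' m2]
    _ ≤ ENNReal.ofReal (2 * R) * (∫⁻ x in Om c ∩ Metric.ball (0 : R3) (9 * R), ‖G 0 x‖ₑ) +
          (ENNReal.ofReal (2 * R) * (∫⁻ x in Om c ∩ Metric.ball (0 : R3) (9 * R), ‖G 1 x‖ₑ) +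
            ENNReal.ofReal (2 * R) *
              (∫⁻ x in Om c ∩ Metric.ball (0 : R3) (9 * R), ‖G 2 x‖ₑ)) := by
        refine add_le_add (l1.trans ?_) (add_le_add (l2.trans ?_) (l3.trans ?_))
        · gcongr; exact (hc 0).le
        · gcongr; exact (hc 1).le
        · gcongr; exact (hc 2).le
    _ = _ := by
        rw [Fin.sum_univ_three]
        ring

theorem osc_integral {h : R3 → ℝ} {G : Fin 3 → R3 → ℝ} (hG : ∀ k, ACL volume (dir3 k) h (G k))
    (c : ℝ) {R : ℝ} (hR : 0 < R) :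
    ∫⁻ x in Om c ∩ Metric.ball (0 : R3) R, ∫⁻ y in Om c ∩ Metric.ball (0 : R3) R, ‖h y - h x‖ₑ ≤
      volume (Metric.ball (0 : R3) (2 * R)) * (ENNReal.ofReal (2 * R) *
        ∑ k, ∫⁻ x in Om c ∩ Metric.ball (0 : R3) (9 * R), ‖G k x‖ₑ) := by
  have hh := (hG 0).meas
  set U : Set R3 := Om c ∩ Metric.ball (0 : R3) R with hUdef
  have hU : MeasurableSet U := (measSet_Om c).inter measurableSet_ball
  set C : ℝ≥0∞ := ENNReal.ofReal (2 * R) *
        ∑ k, ∫⁻ x in Om c ∩ Metric.ball (0 : R3) (9 * R), ‖G k x‖ₑ with hC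
  -- substitution `y = x + a`
  have step1 : ∀ x : R3, ∫⁻ y in U, ‖h y - h x‖ₑ
      = ∫⁻ a : R3, U.indicator (fun y => ‖h y - h x‖ₑ) (x + a) := by
    intro x
    rw [← lintegral_indicator hU]
    exact (lintegral_add_left_eq_self (μ := (volume : Measure R3))
      (U.indicator (fun y => ‖h y - h x‖ₑ)) x).symm
  simp_rw [step1]
  -- swap
  have hmeas : AEMeasurable (Function.uncurry
      (fun (x : R3) (a : R3) => U.indicator (fun y => ‖h y - h x‖ₑ) (x + a)))
      ((volume.restrict U).prod volume) := by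
    have h0 : AEMeasurable (fun p : R3 × R3 => ‖h (p.1 + p.2) - h p.1‖ₑ)
        ((volume : Measure R3).prod (volume : Measure R3)) := by
      have q1 : Measure.QuasiMeasurePreserving (fun p : R3 × R3 => p.1 + p.2)
          ((volume : Measure R3).prod (volume : Measure R3)) volume :=
        quasiMeasurePreserving_add _ _
      have a1 : AEStronglyMeasurable (fun p : R3 × R3 => h (p.1 + p.2))
          ((volume : Measure R3).prod (volume : Measure R3)) :=
        hh.comp_quasiMeasurePreserving q1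
      have a2 : AEStronglyMeasurable (fun p : R3 × R3 => h p.1)
          ((volume : Measure R3).prod (volume : Measure R3)) :=
        hh.comp_quasiMeasurePreserving Measure.quasiMeasurePreserving_fst
      exact (a1.sub a2).enorm
    have hset : MeasurableSet {p : R3 × R3 | p.1 + p.2 ∈ U} := by
      have : Measurable (fun p : R3 × R3 => p.1 + p.2) := by fun_prop
      exact this hU
    have h1 := h0.indicator hset
    have h2 : AEMeasurable ({p : R3 × R3 | p.1 + p.2 ∈ U}.indicator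
        (fun p : R3 × R3 => ‖h (p.1 + p.2) - h p.1‖ₑ)) ((volume.restrict U).prod volume) := by
      have hac : (volume.restrict U).prod (volume : Measure R3)
          ≪ ((volume : Measure R3).prod (volume : Measure R3)) :=
        Measure.AbsolutelyContinuous.prod Measure.restrict_le_self.absolutelyContinuous
          (Measure.AbsolutelyContinuous.refl _)
      exact h1.mono_ac hac
    refine h2.congr (Eventually.of_forall fun p => ?_)
    by_cases hp : p.1 + p.2 ∈ U
    · have hp' : p ∈ {p : R3 × R3 | p.1 + p.2 ∈ U} := hp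
      simp only [Function.uncurry]
      rw [indicator_of_mem hp', indicator_of_mem hp]
    · have hp' : p ∉ {p : R3 × R3 | p.1 + p.2 ∈ U} := hp
      simp only [Function.uncurry]
      rw [indicator_of_notMem hp', indicator_of_notMem hp]
  rw [lintegral_lintegral_swap hmeas]
  -- the inner integral
  have step2 : ∀ a : R3, ∫⁻ x in U, U.indicator (fun y => ‖h y - h x‖ₑ) (x + a)
      ≤ (Metric.ball (0 : R3) (2 * R)).indicator (fun _ => C) a := by
    intro a
    by_cases ha : ‖a‖ < 2 * R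
    · rw [indicator_of_mem (by simpa using ha)]
      refine le_trans (le_of_eq ?_) (inner_bound hG c hR a ha)
      rw [← lintegral_indicator hU, ← lintegral_indicator (measSet_Sa c R a)]
      refine lintegral_congr fun x => ?_
      by_cases h1 : x ∈ U
      · rw [indicator_of_mem h1]
        by_cases h2 : x + a ∈ U
        · rw [indicator_of_mem h2, indicator_of_mem (show x ∈ Sa c R a from ⟨h1, h2⟩)]
        · rw [indicator_of_notMem h2, indicator_of_notMem (fun hx => h2 hx.2)]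
      · rw [indicator_of_notMem h1, indicator_of_notMem (fun hx => h1 hx.1)]
    · rw [indicator_of_notMem (by simpa only [Metric.mem_ball, dist_zero_right, not_lt] using ha)]
      refine le_of_eq ?_
      rw [lintegral_eq_zero_iff' ?_]
      · filter_upwards [ae_restrict_mem hU] with x hx
        have hx' : x + a ∉ U := by
          intro hxa
          apply ha
          have h1 : ‖x‖ < R := by simpa using hx.2
          have h2 : ‖x + a‖ < R := by simpa using hxa.2
          have h3 : ‖a‖ ≤ ‖x + a‖ + ‖x‖ := by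
            have : a = (x + a) - x := by abel
            calc ‖a‖ = ‖(x + a) - x‖ := by rw [← this]
              _ ≤ _ := norm_sub_le _ _
          linarith
        rw [indicator_of_notMem hx']
        rfl
      · have hm : Measurable (fun x : R3 => x + a) := by fun_prop
        have h1 : AEMeasurable (fun x : R3 => ‖h (x + a) - h x‖ₑ) (volume : Measure R3) := by
          have := aemeas_diff hh a 0
          simpa only [add_zero] using this
        have h2 := (h1.indicator (hm hU)).restrict (s := U)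
        refine h2.congr (Eventually.of_forall fun x => ?_)
        by_cases hp : x + a ∈ U
        · have hp' : x ∈ (fun x : R3 => x + a) ⁻¹' U := hp
          rw [indicator_of_mem hp']
          exact (indicator_of_mem hp (fun y => ‖h y - h x‖ₑ)).symm
        · have hp' : x ∉ (fun x : R3 => x + a) ⁻¹' U := hp
          rw [indicator_of_notMem hp']
          exact (indicator_of_notMem hp (fun y => ‖h y - h x‖ₑ)).symm
  calc ∫⁻ a : R3, ∫⁻ x in U, U.indicator (fun y => ‖h y - h x‖ₑ) (x + a)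
      ≤ ∫⁻ a : R3, (Metric.ball (0 : R3) (2 * R)).indicator (fun _ => C) a :=
        lintegral_mono step2
    _ = volume (Metric.ball (0 : R3) (2 * R)) * C := by
        rw [lintegral_indicator measurableSet_ball, setLIntegral_const, mul_comm]

end

end Vale.Agent.P363.KX
end
end

section

section

namespace Vale.Agent.P363.KX

open MeasureTheory Set Filter Topology
open scoped ENNReal ContDiff

noncomputable section

/-! Cutting off the orbital near the plane `x 0 = 0`. -/

/-- The one-dimensional cut-off. -/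
def cutf (c s : ℝ) : ℝ := Real.smoothTransition ((2 * s - c) / c)

lemma cutf_contDiff (c : ℝ) : ContDiff ℝ ∞ (cutf c) := by
  unfold cutf
  exact Real.smoothTransition.contDiff.comp
    (((contDiff_const.mul contDiff_id).sub contDiff_const).div_const _)

lemma cutf_zero {c s : ℝ} (hc : 0 < c) (hs : s ≤ c / 2) : cutf c s = 0 := by
  apply Real.smoothTransition.zero_of_nonpos
  apply div_nonpos_of_nonpos_of_nonneg _ hc.le
  linarith only [hs]

lemma cutf_one {c s : ℝ} (hc : 0 < c) (hs : c ≤ s) : cutf c s = 1 := by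
  apply Real.smoothTransition.one_of_one_le
  rw [le_div_iff₀ hc]
  linarith

lemma deriv_cutf_left {c s : ℝ} (hc : 0 < c) (hs : s < c / 2) : deriv (cutf c) s = 0 := by
  have h : cutf c =ᶠ[𝓝 s] fun _ => (0:ℝ) := by
    filter_upwards [gt_mem_nhds hs] with y hy using cutf_zero hc hy.le
  rw [h.deriv_eq]; simp

lemma deriv_cutf_right {c s : ℝ} (hc : 0 < c) (hs : c < s) : deriv (cutf c) s = 0 := by
  have h : cutf c =ᶠ[𝓝 s] fun _ => (1:ℝ) := by
    filter_upwards [lt_mem_nhds hs] with y hy using cutf_one hc hy.le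
  rw [h.deriv_eq]; simp

lemma deriv_cutf_bound {c : ℝ} (hc : 0 < c) : ∃ K : ℝ, 0 ≤ K ∧ ∀ s, |deriv (cutf c) s| ≤ K := by
  have hcont : Continuous (deriv (cutf c)) :=
    ((contDiff_infty_iff_deriv (𝕜 := ℝ) (f := cutf c)).1 (cutf_contDiff c)).2.continuous
  obtain ⟨K, hK⟩ := (isCompact_Icc (a := c / 2) (b := c)).exists_bound_of_continuousOn
    hcont.continuousOn
  refine ⟨|K|, abs_nonneg _, fun s => ?_⟩
  by_cases h1 : s < c / 2
  · rw [deriv_cutf_left hc h1, abs_zero]; exact abs_nonneg _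
  by_cases h2 : c < s
  · rw [deriv_cutf_right hc h2, abs_zero]; exact abs_nonneg _
  exact (hK s ⟨not_lt.1 h1, not_lt.1 h2⟩).trans (le_abs_self K)

/-- The cut-off function. -/
def eta (c : ℝ) (x : R3) : ℝ := cutf c (x 0)

lemma eta_contDiff (c : ℝ) : ContDiff ℝ ∞ (eta c) := by
  have h : ContDiff ℝ ∞ (fun x : R3 => x 0) := by fun_prop
  exact (cutf_contDiff c).comp h

lemma pd_eta (c : ℝ) (k : Fin 3) (x : R3) : pd k (eta c) x = deriv (cutf c) (x 0) * dir3 k 0 := by
  have h1 : HasFDerivAt (fun x : R3 => x 0) (EuclideanSpace.proj (𝕜 := ℝ) (0 : Fin 3)) x :=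
    (EuclideanSpace.proj (𝕜 := ℝ) (0 : Fin 3) : R3 →L[ℝ] ℝ).hasFDerivAt
  have h2 : HasDerivAt (cutf c) (deriv (cutf c) (x 0)) (x 0) :=
    ((cutf_contDiff c).differentiable (by simp)).differentiableAt.hasDerivAt
  have h3 : HasFDerivAt (eta c)
      ((deriv (cutf c) (x 0)) • (EuclideanSpace.proj (𝕜 := ℝ) (0 : Fin 3) : R3 →L[ℝ] ℝ)) x :=
    h2.comp_hasFDerivAt x h1
  unfold pd
  rw [h3.fderiv]
  simp

theorem exists_cut {v : R3 → ℝ} {e : ℝ} {φ : R3 → ℝ} {φ' : Fin 3 → R3 → ℝ} (h : Orb v e φ φ')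
    {c : ℝ} (hc : 0 < c) :
    ∃ (ψ : R3 → ℝ) (ψ' : Fin 3 → R3 → ℝ), Cut c v e ψ ψ' ∧ ∀ x ∈ Om c, ψ x = φ x := by
  have hη1 : ContDiff ℝ 1 (eta c) := (eta_contDiff c).of_le (by exact_mod_cast le_top)
  have hone : ∀ x ∈ Om c, eta c x = 1 := fun x hx => cutf_one hc (le_of_lt hx)
  have hpd0 : ∀ k, ∀ x ∈ Om c, pd k (eta c) x = 0 := fun k x hx => by
    rw [pd_eta, deriv_cutf_right hc hx, zero_mul]
  have hη0 : ∀ x, 0 ≤ eta c x := fun x => Real.smoothTransition.nonneg _
  have hη01 : ∀ x, eta c x ≤ 1 := fun x => Real.smoothTransition.le_one _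
  obtain ⟨K, hK0, hK⟩ := deriv_cutf_bound hc
  have hpdb : ∀ k x, |pd k (eta c) x| ≤ K * |dir3 k 0| := fun k x => by
    rw [pd_eta, abs_mul]
    exact mul_le_mul_of_nonneg_right (hK _) (abs_nonneg _)
  have hpdc : ∀ k, Continuous (fun x => pd k (eta c) x) := fun k =>
    (hη1.continuous_fderiv (by norm_num)).clm_apply continuous_const
  refine ⟨fun x => eta c x * φ x, fun k x => pd k (eta c) x * φ x + eta c x * φ' k x,
    ⟨?_, ⟨?_, fun k => ?_, fun k => ?_⟩, ?_, ?_⟩, fun x hx => ?_⟩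
  · -- local integrability
    intro x
    obtain ⟨C, hC⟩ := h.vloc 1
    exact ⟨Metric.ball x 1, Metric.ball_mem_nhds x one_pos, (hC x).1⟩
  · refine MemLp.of_le h.h1.memLp
      (hη1.continuous.aestronglyMeasurable.mul h.h1.memLp.aestronglyMeasurable)
      (Eventually.of_forall fun x => ?_)
    rw [norm_mul, Real.norm_eq_abs (eta c x), abs_of_nonneg (hη0 x)]
    exact mul_le_of_le_one_left (norm_nonneg _) (hη01 x)
  · refine MemLp.add ?_ ?_
    · refine MemLp.of_le_mul (c := K * |dir3 k 0|) h.h1.memLp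
        ((hpdc k).aestronglyMeasurable.mul h.h1.memLp.aestronglyMeasurable)
        (Eventually.of_forall fun x => ?_)
      rw [norm_mul]
      exact mul_le_mul_of_nonneg_right (hpdb k x) (norm_nonneg _)
    · refine MemLp.of_le (h.h1.memLp' k)
        (hη1.continuous.aestronglyMeasurable.mul (h.h1.memLp' k).aestronglyMeasurable)
        (Eventually.of_forall fun x => ?_)
      rw [norm_mul, Real.norm_eq_abs (eta c x), abs_of_nonneg (hη0 x)]
      exact mul_le_of_le_one_left (norm_nonneg _) (hη01 x)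
  · exact (ACL.of_contDiff hη1).mul (h.h1.acl k)
  · filter_upwards [h.nonneg] with x hx
    by_cases hx0 : 0 < x 0
    · exact mul_nonneg (hη0 x) (hx hx0)
    · have : eta c x = 0 := cutf_zero hc (by push Not at hx0; linarith only [hc, hx0])
      simp [this]
  · intro ζ ζ' hζ hz hz'
    have h1 := h.weak ζ ζ' hζ (Eventually.of_forall fun x hx => hz x (by
      intro hx2
      have : c < x 0 := hx2
      linarith))
    have e1 : ∀ k, (∫ x, (pd k (eta c) x * φ x + eta c x * φ' k x) * ζ' k x)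
        = ∫ x, φ' k x * ζ' k x := fun k => by
      congr 1
      funext x
      by_cases hx : x ∈ Om c
      · rw [hone x hx, hpd0 k x hx]; ring
      · rw [hz' k x hx]; ring
    have e2 : (∫ x, (v x - e) * (eta c x * φ x) * ζ x) = ∫ x, (v x - e) * φ x * ζ x := by
      congr 1
      funext x
      by_cases hx : x ∈ Om c
      · rw [hone x hx]; ring
      · rw [hz x hx]; ring
    simp only [e1, e2]
    exact h1
  · simp only [hone x hx, one_mul]

end

end Vale.Agent.P363.KX
end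
end

section

section

namespace Vale.Agent.P363.KX

open MeasureTheory Set Filter Topology
open scoped ENNReal ContDiff

noncomputable section

/-! Mollifier: the one-dimensional bump. -/

lemma beta_contDiff : ContDiff ℝ ∞ beta :=
  ContDiffBump.contDiff_normed _

lemma beta_nonneg (t : ℝ) : 0 ≤ beta t :=
  ContDiffBump.nonneg_normed _ t

lemma beta_eq_zero {t : ℝ} (ht : 1 / 4 ≤ |t|) : beta t = 0 := by
  have h : t ∉ Function.support beta := by
    unfold beta
    rw [ContDiffBump.support_normed_eq, Metric.mem_ball, dist_zero_right, Real.norm_eq_abs]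
    exact not_lt.mpr ht
  exact Function.notMem_support.mp h

lemma beta_integral : ∫ t, beta t = 1 :=
  ContDiffBump.integral_normed _

lemma x1a_compact : HasCompactSupport beta :=
  ContDiffBump.hasCompactSupport_normed _

lemma beta_bound : ∃ K : ℝ, 0 < K ∧ (∀ t, beta t ≤ K) ∧ ∀ t, |deriv beta t| ≤ K := by
  obtain ⟨K1, h1⟩ := x1a_compact.exists_bound_of_continuous beta_contDiff.continuous
  have h2 : Continuous (deriv beta) := beta_contDiff.continuous_deriv (by simp)
  obtain ⟨K2, h3⟩ := x1a_compact.deriv.exists_bound_of_continuous h2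
  refine ⟨max (max K1 K2) 1, lt_of_lt_of_le one_pos (le_max_right _ _), fun t => ?_, fun t => ?_⟩
  · exact ((le_abs_self _).trans (h1 t)).trans ((le_max_left _ _).trans (le_max_left _ _))
  · exact (h3 t).trans ((le_max_right _ _).trans (le_max_left _ _))

lemma bsc_contDiff (ε : ℝ) : ContDiff ℝ ∞ (bsc ε) := by
  unfold bsc
  exact contDiff_const.mul (beta_contDiff.comp (contDiff_const.mul contDiff_id))

lemma bsc_nonneg {ε : ℝ} (hε : 0 < ε) (t : ℝ) : 0 ≤ bsc ε t :=
  mul_nonneg (inv_nonneg.mpr hε.le) (beta_nonneg _)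

lemma bsc_eq_zero {ε : ℝ} (hε : 0 < ε) {t : ℝ} (ht : ε / 4 ≤ |t|) : bsc ε t = 0 := by
  unfold bsc
  rw [beta_eq_zero, mul_zero]
  rw [abs_mul, abs_of_pos (inv_pos.mpr hε), inv_mul_eq_div, le_div_iff₀ hε]
  linarith only [ht]

lemma bsc_integral {ε : ℝ} (hε : 0 < ε) : ∫ t, bsc ε t = 1 := by
  unfold bsc
  rw [integral_const_mul, Measure.integral_comp_mul_left, beta_integral, inv_inv,
    abs_of_pos hε, smul_eq_mul, mul_one, inv_mul_cancel₀ hε.ne']

end

end Vale.Agent.P363.KX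
end
end

section

section

namespace Vale.Agent.P363.KX

open MeasureTheory Set Filter Topology
open scoped ENNReal ContDiff

noncomputable section

/-! Mollifier in three dimensions. -/

/-- Integral of a product function. -/
lemma integral_prod3 (f g h : ℝ → ℝ) : ∫ y : R3, f (y 0) * g (y 1) * h (y 2) =
    (∫ t, f t) * (∫ t, g t) * ∫ t, h t := by
  have e := EuclideanSpace.volume_preserving_symm_measurableEquiv_toLp (Fin 3)
  have h1 := e.integral_comp' (g := fun z : Fin 3 → ℝ => f (z 0) * g (z 1) * h (z 2))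
  have h2 : ∫ y : R3, f (y 0) * g (y 1) * h (y 2) =
      ∫ z : Fin 3 → ℝ, f (z 0) * g (z 1) * h (z 2) := h1
  rw [h2]
  have h3 := MeasureTheory.integral_fintype_prod_volume_eq_prod (𝕜 := ℝ) (ι := Fin 3)
    (E := fun _ => ℝ) (![f, g, h] : Fin 3 → ℝ → ℝ)
  simpa [Fin.prod_univ_three] using h3

lemma rho_contDiff : ContDiff ℝ ∞ rho := by
  have h : ∀ i : Fin 3, ContDiff ℝ ∞ (fun y : R3 => beta (y i)) := fun i =>
    beta_contDiff.comp (contDiff_piLp_apply 2)
  exact ((h 0).mul (h 1)).mul (h 2)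

lemma rho_nonneg (y : R3) : 0 ≤ rho y :=
  mul_nonneg (mul_nonneg (beta_nonneg _) (beta_nonneg _)) (beta_nonneg _)

lemma rho_ne_zero {y : R3} (h : rho y ≠ 0) (k : Fin 3) : |y k| < 1 / 4 := by
  by_contra hk
  push Not at hk
  apply h
  unfold rho
  fin_cases k
  · rw [beta_eq_zero (t := y 0) hk]; simp
  · rw [beta_eq_zero (t := y 1) hk]; simp
  · rw [beta_eq_zero (t := y 2) hk]; simp

lemma norm_le_of_rho_ne_zero {y : R3} (h : rho y ≠ 0) : ‖y‖ ≤ 1 / 2 := by
  have hk := fun k => (abs_lt.1 (rho_ne_zero h k))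
  rw [EuclideanSpace.norm_eq, Real.sqrt_le_left (by norm_num), Fin.sum_univ_three]
  simp only [Real.norm_eq_abs, sq_abs]
  have h0 := hk 0; have h1 := hk 1; have h2 := hk 2
  nlinarith only [h0, h1, h2]

lemma rho_eq_zero_of_norm {y : R3} (h : 1 / 2 < ‖y‖) : rho y = 0 := by
  by_contra h0
  exact absurd (norm_le_of_rho_ne_zero h0) (not_le.2 h)

lemma rho_hasCompactSupport : HasCompactSupport rho :=
  HasCompactSupport.intro (isCompact_closedBall (0 : R3) (1 / 2)) fun y hy =>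
    rho_eq_zero_of_norm (by rwa [mem_closedBall_zero_iff, not_le] at hy)

lemma rho_integral : ∫ y, rho y = 1 := by
  have h : ∫ y : R3, beta (y 0) * beta (y 1) * beta (y 2) = 1 := by
    rw [integral_prod3, beta_integral]; norm_num
  exact h

lemma th_contDiff (x : R3) : ContDiff ℝ ∞ (th x) :=
  rho_contDiff.comp (contDiff_const.sub contDiff_id)

lemma th_hasCompactSupport (x : R3) : HasCompactSupport (th x) :=
  HasCompactSupport.intro (isCompact_closedBall x (1 / 2)) fun y hy => by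
    refine rho_eq_zero_of_norm ?_
    rw [Metric.mem_closedBall, not_le, dist_comm, dist_eq_norm] at hy
    exact hy

lemma th_nonneg (x y : R3) : 0 ≤ th x y := rho_nonneg _

lemma th_integral (x : R3) : ∫ y, th x y = 1 := by
  have h := integral_sub_left_eq_self (fun y : R3 => rho y) volume x
  rw [rho_integral] at h
  exact h

lemma tsupport_th (x : R3) : tsupport (th x) ⊆ {y | x 0 - 1 / 4 ≤ y 0} ∩ Metric.ball x 1 := by
  have h1 : tsupport (th x) ⊆ {y : R3 | x 0 - 1 / 4 ≤ y 0} := by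
    refine closure_minimal (fun y hy => ?_)
      (isClosed_le continuous_const (by fun_prop))
    have h2 := (abs_lt.1 (rho_ne_zero (y := x - y) hy 0)).2
    simp only [PiLp.sub_apply] at h2
    change x 0 - 1 / 4 ≤ y 0
    linarith only [h2]
  have h3 : tsupport (th x) ⊆ Metric.closedBall x (1 / 2) := by
    refine closure_minimal (fun y hy => ?_) Metric.isClosed_closedBall
    rw [Metric.mem_closedBall, dist_comm, dist_eq_norm]
    exact norm_le_of_rho_ne_zero (y := x - y) hy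
  exact subset_inter h1 (h3.trans (Metric.closedBall_subset_ball (by norm_num)))

lemma th_bound : ∃ K : ℝ, 0 < K ∧ ∀ x y, th x y ≤ K := by
  obtain ⟨K, hK, hb, -⟩ := beta_bound
  refine ⟨K * K * K, by positivity, fun x y => ?_⟩
  unfold th rho
  have h := beta_nonneg
  exact mul_le_mul (mul_le_mul (hb _) (hb _) (h _) hK.le) (hb _) (h _) (by positivity)

lemma pd_th (k : Fin 3) (x y : R3) : pd k (th x) y = - pd k rho (x - y) := by
  have h1 : HasFDerivAt rho (fderiv ℝ rho (x - y)) (x - y) :=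
    (rho_contDiff.differentiable (by simp) _).hasFDerivAt
  have h2 : HasFDerivAt (fun y : R3 => x - y) (-(ContinuousLinearMap.id ℝ R3)) y :=
    (hasFDerivAt_id y).const_sub x
  have h3 : HasFDerivAt (th x) ((fderiv ℝ rho (x - y)).comp (-(ContinuousLinearMap.id ℝ R3))) y :=
    h1.comp y h2
  rw [pd, h3.fderiv, pd]
  simp

end

end Vale.Agent.P363.KX
end
end

section

section

/-!
# P363, four electrons: common definitions of the disproof

Scaled units: the big nucleus of charge `1/ε` sits at the origin (charge `1` after scaling), two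
nuclei of charge `A` (`ε A` after scaling) at `± R e₃`; the repulsion is `ε / |x - y|`.
-/

namespace Vale.Agent.P363.D

open MeasureTheory Set Filter Topology
open scoped ENNReal ContDiff

noncomputable section

/-- Positions of `N` electrons. -/
abbrev Conf (N : ℕ) : Type := Fin N → R3

/-- Configuration space of one distinguished electron and three others. -/
abbrev X4 : Type := R3 × Conf 3

instance instAddHaarX4 : (volume : Measure (R3 × Conf 3)).IsAddHaarMeasure :=
  Measure.prod.instIsAddHaarMeasure volume volume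

/-- `u` is an `H¹` function on `ℝ³ × (ℝ³)³` with gradient components `gx`, `gy`. -/
structure HX (u : X4 → ℝ) (gx : Fin 3 → X4 → ℝ) (gy : Fin 3 → Fin 3 → X4 → ℝ) : Prop where
  memLp : MemLp u 2 volume
  memLpx : ∀ k, MemLp (gx k) 2 volume
  memLpy : ∀ i k, MemLp (gy i k) 2 volume
  aclx : ∀ k, ACL volume ((dir3 k, 0) : X4) u (gx k)
  acly : ∀ i k, ACL volume ((0, axisDir i k) : X4) u (gy i k)

/-- Repulsion of the distinguished electron with the other ones. -/
def rep {N : ℕ} (x : R3) (y : Conf N) : ℝ := ∑ i, 1 / ‖x - y i‖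

/-- Potential of the four electrons, the first one distinguished. -/
def vX (ε A R : ℝ) (p : X4) : ℝ := v1 ε A R p.1 + vN ε A R p.2 + ε * rep p.1 p.2

/-! ### the exact system -/

/-- The pair (four-electron ground state, three-electron ground state) of the scaled system, in
the real spin sectors `(↑ ↑ ; ↓ ↓)` and `(↑ ; ↓ ↓)`.  Electrons: the distinguished one `x` and
`y 0` are up, `y 1`, `y 2` are down. -/
structure Sys (A R ε δ M E4 E3 : ℝ)
    (F : X4 → ℝ) (Fx : Fin 3 → X4 → ℝ) (Fy : Fin 3 → Fin 3 → X4 → ℝ)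
    (Φ : Conf 3 → ℝ) (Φy : Fin 3 → Fin 3 → Conf 3 → ℝ) : Prop where
  F_H1 : HX F Fx Fy
  F_eq : ∀ h hx hy, HX h hx hy →
    (1 / 2) * ((∑ k, ∫ p, Fx k p * hx k p) + ∑ i, ∑ k, ∫ p, Fy i k p * hy i k p) +
      ∫ p, (vX ε A R p - E4) * F p * h p = 0
  F_norm : ∫ p, F p ^ 2 = 1
  F_anti : ∀ᵐ p : X4, F (p.1, p.2 ∘ Equiv.swap 1 2) = - F p
  F_even2 : ∀ᵐ p : X4, F (refl 2 p.1, reflN 2 p.2) = F p
  F_even0 : ∀ᵐ p : X4, F (refl 0 p.1, reflN 0 p.2) = F p
  Φ_H1 : HN Φ Φy
  Φ_eq : ∀ u g, HN u g → bN (fun y => vN ε A R y - E3) Φ Φy u g = 0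
  Φ_norm : ∫ y, Φ y ^ 2 = 1
  Φ_anti : Sec3 Φ
  Φ_odd2 : ∀ᵐ y : Conf 3, Φ (reflN 2 y) = - Φ y
  gap : ∀ u g, HN u g → Sec3 u →
    E3 * (∫ y, u y ^ 2) + ε * δ * ((∫ y, u y ^ 2) - (∫ y, Φ y * u y) ^ 2) ≤
      qN (vN ε A R) u g
  moment_int : Integrable (fun y : Conf 3 =>
    (1 + ∑ i, ‖y i‖) ^ 4 * (Φ y ^ 2 + ∑ i, ∑ k, Φy i k y ^ 2)) volume
  moment : ∫ y, (1 + ∑ i, ‖y i‖) ^ 4 * (Φ y ^ 2 + ∑ i, ∑ k, Φy i k y ^ 2) ≤ M

/-- Dyson orbital. -/
def dys (F : X4 → ℝ) (Φ : Conf 3 → ℝ) (x : R3) : ℝ := ∫ y, Φ y * F (x, y)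

/-- Density. -/
def dens (F : X4 → ℝ) (x : R3) : ℝ := 4 * ∫ y, F (x, y) ^ 2

/-- Half of the gradient of the density, `D = m ∇ m` with `m = √n`. -/
def densD (F : X4 → ℝ) (Fx : Fin 3 → X4 → ℝ) (k : Fin 3) (x : R3) : ℝ :=
  4 * ∫ y, F (x, y) * Fx k (x, y)

/-- Output of the exact side: bounds for the exact density `n`, with `D = ∇ n / 2`; decay rate
`κ`, (reduced) Coulomb tail `q`, slab exponent `p`. -/
structure ExOut (n : R3 → ℝ) (D : Fin 3 → R3 → ℝ) (κ q p : ℝ) : Prop where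
  κ_pos : 0 < κ
  q_pos : 0 < q
  p_lt : p < q / κ - 2
  nonneg : ∀ x, 0 ≤ n x
  int : Integrable n volume
  acl : ∀ k, ACL volume (dir3 k) n (fun x => 2 * D k x)
  intD : ∀ k, Integrable (D k) volume
  /-- `|∇ √n|² ∈ L¹` -/
  intD2 : ∀ k, Integrable (fun x => D k x ^ 2 / n x) volume
  /-- local positivity off the plane `x₂ = 0` -/
  pos : ∃ R0 T : ℝ, ∀ x : R3, R0 ≤ ‖x‖ → T ≤ x 2 →
    ∃ c : ℝ, 0 < c ∧ ∀ᵐ y : R3, y ∈ Metric.ball x 1 → c ≤ n y
  /-- the effective potential `Δ√n / (2√n)`, averaged, is at most `κ²/2 - q/|x|` -/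
  up : ∃ T : ℝ, ∀ K : ℝ, ∃ R1 : ℝ, ∀ x : R3, R1 ≤ ‖x‖ → T ≤ x 2 →
    ∀ θ : R3 → ℝ, ContDiff ℝ ∞ θ → Function.support θ ⊆ Metric.ball x 1 → (∀ y, 0 ≤ θ y) →
      (∀ y, θ y ≤ K) → (∀ y, ‖fderiv ℝ θ y‖ ≤ K) → ∫ y, θ y = 1 →
      - (1 / 2) * (∑ k, ∫ y, D k y / n y * fderiv ℝ θ y (dir3 k)) +
        (1 / 2) * (∑ k, ∫ y, θ y * (D k y / n y) ^ 2) ≤ κ ^ 2 / 2 - q / ‖x‖
  /-- smallness on a thin slab around the plane, near the first coordinate axis -/
  slab : ∃ R1 C : ℝ, ∀ r : ℝ, R1 < r →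
    ∫ x in {x : R3 | |x 0 - r| < 1 ∧ |x 1| < 1 ∧ |x 2| < r ^ (-4 : ℝ)}, n x ≤
      C * r ^ (-4 : ℝ) * (r ^ p * Real.exp (-(κ * r))) ^ 2

end

end Vale.Agent.P363.D
end
end

section

section

namespace Vale.Agent.P363.KX

open MeasureTheory Set Filter Topology
open scoped ENNReal ContDiff

noncomputable section

/-! Upper bound of the averages of the potential (final interface). -/

theorem x14_memV_loc {v : R3 → ℝ} (hv : MemV v) : LocallyIntegrable v volume := by
  obtain ⟨a, b, ha, hb, rfl⟩ := hv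
  have h1 : (1 : ℝ≥0∞) ≤ 3 / 2 := by
    rw [ENNReal.le_div_iff_mul_le (Or.inl (by norm_num)) (Or.inl (by norm_num))]
    norm_num
  exact (ha.locallyIntegrable h1).add (hb.locallyIntegrable (by norm_num))

theorem x14_fderiv_zero {θ : R3 → ℝ} (h0 : ∀ y, 0 ≤ θ y) {y : R3} (hy : θ y = 0) :
    fderiv ℝ θ y = 0 := by
  apply IsLocalMin.fderiv_eq_zero
  apply Filter.Eventually.of_forall
  intro z
  rw [hy]
  exact h0 z

theorem x14_compact {θ : R3 → ℝ} {x : R3} (h : Function.support θ ⊆ Metric.ball x 1) :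
    HasCompactSupport θ :=
  HasCompactSupport.of_support_subset_isCompact (isCompact_closedBall x 1)
    (h.trans Metric.ball_subset_closedBall)

/-- Averages of the Kohn-Sham potential off the plane. -/
theorem v_avg {n : R3 → ℝ} {Dn : Fin 3 → R3 → ℝ} {v : R3 → ℝ} {e : ℝ} {κ q p : ℝ}
    (hX : D.ExOut n Dn κ q p) (hV : MemV v) (hI : VIneq n v e) :
    ∃ T : ℝ, ∀ K : ℝ, ∃ R1 : ℝ, ∀ x : R3, R1 ≤ ‖x‖ → T ≤ x 2 →
    ∀ θ : R3 → ℝ, ContDiff ℝ ∞ θ → Function.support θ ⊆ Metric.ball x 1 → (∀ y, 0 ≤ θ y) →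
      (∀ y, θ y ≤ K) → (∀ y, ‖fderiv ℝ θ y‖ ≤ K) → ∫ y, θ y = 1 →
      ∫ y, (v y - e) * θ y ≤ κ ^ 2 / 2 - q / ‖x‖ := by
  obtain ⟨R0, T0, hpos⟩ := hX.pos
  obtain ⟨T1, hup⟩ := hX.up
  refine ⟨max T0 T1, fun K => ?_⟩
  obtain ⟨R1, hR1⟩ := hup K
  refine ⟨max R1 R0, fun x hxR hxT θ hθ hsupp h0 hK1 hK2 hint => ?_⟩
  obtain ⟨c, hc, hcn⟩ := hpos x ((le_max_right _ _).trans hxR) ((le_max_left _ _).trans hxT)
  refine le_trans ?_ (hR1 x ((le_max_left _ _).trans hxR) ((le_max_right _ _).trans hxT) θ hθ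
    hsupp h0 hK1 hK2 hint)
  have hcs := x14_compact hsupp
  have hθc : Continuous θ := hθ.continuous
  have hz : ∀ y, y ∉ Metric.ball x 1 → θ y = 0 := by
    intro y hy
    by_contra h
    exact hy (hsupp h)
  have hz' : ∀ y, y ∉ Metric.ball x 1 → fderiv ℝ θ y = 0 := fun y hy =>
    x14_fderiv_zero h0 (hz y hy)
  have hθd : Continuous (fderiv ℝ θ) := hθ.continuous_fderiv (by simp)
  have hK0 : 0 ≤ K := (h0 x).trans (hK1 x)
  have hdir : ∀ k : Fin 3, ‖dir3 k‖ = 1 := by
    intro k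
    unfold dir3
    simp
  have hacl : ∀ k, ACL volume (dir3 k) n (fun x => 2 * Dn k x) := hX.acl
  have hnm : AEStronglyMeasurable n volume := hX.int.aestronglyMeasurable
  have hDm : ∀ k, AEStronglyMeasurable (Dn k) volume := fun k => (hX.intD k).aestronglyMeasurable
  have hvl : LocallyIntegrable (fun y => v y - e) volume :=
    (x14_memV_loc hV).sub (locallyIntegrable_const e)
  have hvθ : Integrable (fun y => (v y - e) * θ y) volume := by
    have h1 := hvl.integrable_smul_left_of_hasCompactSupport hθc hcs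
    refine h1.congr (Eventually.of_forall fun y => ?_)
    simp [mul_comm]
  -- the sequence of regularisations
  let δ : ℕ → ℝ := fun m => 1 / ((m : ℝ) + 1)
  have hδ : ∀ m, 0 < δ m := fun m => by (clear * -; positivity)
  have hδt : Tendsto δ atTop (𝓝 0) := tendsto_one_div_add_atTop_nhds_zero_nat
  have hineq := fun m => hI Dn hacl (δ m) (hδ m) θ (hθ.of_le (by simp)) hcs h0
  -- left side
  have hL : Tendsto (fun m => ∫ y, (v y - e) * (θ y * (n y / (n y + δ m)))) atTop
      (𝓝 (∫ y, (v y - e) * θ y)) := by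
    apply tendsto_integral_of_dominated_convergence (fun y => ‖(v y - e) * θ y‖)
    · intro m
      have h1 : AEStronglyMeasurable (fun y => n y / (n y + δ m)) volume :=
        (hnm.aemeasurable.div (hnm.aemeasurable.add_const _)).aestronglyMeasurable
      have h2 := hvθ.aestronglyMeasurable.mul h1
      refine h2.congr (Eventually.of_forall fun y => ?_)
      simp only [Pi.mul_apply]
      ring
    · exact hvθ.norm
    · intro m
      filter_upwards [hcn] with y hy2
      by_cases hy : y ∈ Metric.ball x 1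
      · have h3 : 0 < n y := hc.trans_le (hy2 hy)
        have h4 : 0 ≤ n y / (n y + δ m) := by have := hδ m; (clear * - h3; positivity)
        have h5 : n y / (n y + δ m) ≤ 1 := by
          rw [div_le_one (by have := hδ m; (clear * - h3; positivity))]
          linarith only [hδ m]
        rw [← mul_assoc, norm_mul _ (n y / (n y + δ m)), Real.norm_of_nonneg h4]
        exact mul_le_of_le_one_right (norm_nonneg _) h5
      · rw [hz y hy]
        simp
    · filter_upwards [hcn] with y hy2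
      by_cases hy : y ∈ Metric.ball x 1
      · have h3 : 0 < n y := hc.trans_le (hy2 hy)
        have h4 : Tendsto (fun m => (v y - e) * (θ y * (n y / (n y + δ m)))) atTop
            (𝓝 ((v y - e) * (θ y * (n y / (n y + 0))))) := by
          apply Tendsto.const_mul
          apply Tendsto.const_mul
          apply Tendsto.div tendsto_const_nhds (hδt.const_add _)
          rw [add_zero]
          exact h3.ne'
        rw [add_zero, div_self h3.ne', mul_one] at h4
        exact h4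
      · rw [hz y hy]
        simp
  have hR1t : ∀ k : Fin 3, Tendsto (fun m => ∫ y, Dn k y / (n y + δ m) *
      fderiv ℝ θ y (dir3 k)) atTop (𝓝 (∫ y, Dn k y / n y * fderiv ℝ θ y (dir3 k))) := by
    intro k
    have hfm : AEStronglyMeasurable (fun y => fderiv ℝ θ y (dir3 k)) volume :=
      (hθd.clm_apply continuous_const).aestronglyMeasurable
    apply tendsto_integral_of_dominated_convergence (fun y => (K / c) * ‖Dn k y‖)
    · intro m
      exact ((hDm k).aemeasurable.div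
        (hnm.aemeasurable.add_const _)).aestronglyMeasurable.mul hfm
    · exact (hX.intD k).norm.const_mul _
    · intro m
      filter_upwards [hcn] with y hy2
      by_cases hy : y ∈ Metric.ball x 1
      · have h3 : c ≤ n y := hy2 hy
        have h4 : c ≤ n y + δ m := by linarith [hδ m]
        have h5 : ‖fderiv ℝ θ y (dir3 k)‖ ≤ K := by
          refine ((fderiv ℝ θ y).le_opNorm _).trans ?_
          rw [hdir, mul_one]
          exact hK2 y
        rw [norm_mul, norm_div, Real.norm_of_nonneg (hc.le.trans h4)]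
        calc ‖Dn k y‖ / (n y + δ m) * ‖fderiv ℝ θ y (dir3 k)‖
            ≤ ‖Dn k y‖ / c * K := by (clear * - hc h4 h5; gcongr)
          _ = K / c * ‖Dn k y‖ := by ring
      · rw [hz' y hy]
        rw [show (0 : R3 →L[ℝ] ℝ) (dir3 k) = 0 from rfl, mul_zero, norm_zero]
        (clear * - hK0 hc; positivity)
    · filter_upwards [hcn] with y hy2
      by_cases hy : y ∈ Metric.ball x 1
      · have h3 : 0 < n y := hc.trans_le (hy2 hy)
        have h4 : Tendsto (fun m => Dn k y / (n y + δ m) * fderiv ℝ θ y (dir3 k)) atTop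
            (𝓝 (Dn k y / (n y + 0) * fderiv ℝ θ y (dir3 k))) := by
          apply Tendsto.mul_const
          apply Tendsto.div tendsto_const_nhds (hδt.const_add _)
          rw [add_zero]
          exact h3.ne'
        rw [add_zero] at h4
        exact h4
      · rw [hz' y hy]
        simp
  have hR2t : ∀ k : Fin 3, Tendsto (fun m => ∫ y, θ y * (Dn k y / (n y + δ m)) ^ 2) atTop
      (𝓝 (∫ y, θ y * (Dn k y / n y) ^ 2)) := by
    intro k
    apply tendsto_integral_of_dominated_convergence (fun y => (K / c) * ‖Dn k y ^ 2 / n y‖)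
    · intro m
      exact hθc.aestronglyMeasurable.mul (((hDm k).aemeasurable.div
        (hnm.aemeasurable.add_const _)).aestronglyMeasurable.pow 2)
    · exact (hX.intD2 k).norm.const_mul _
    · intro m
      filter_upwards [hcn] with y hy2
      by_cases hy : y ∈ Metric.ball x 1
      · have h3 : c ≤ n y := hy2 hy
        have h3' : 0 < n y := hc.trans_le h3
        have h4 : n y ≤ n y + δ m := by linarith [hδ m]
        have h5 : 0 < n y + δ m := h3'.trans_le h4
        rw [Real.norm_of_nonneg (mul_nonneg (h0 y) (sq_nonneg _)),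
          Real.norm_of_nonneg (by (clear * - h3'; positivity))]
        calc θ y * (Dn k y / (n y + δ m)) ^ 2
            ≤ K * (Dn k y / (n y + δ m)) ^ 2 := by
              apply mul_le_mul_of_nonneg_right (hK1 y) (sq_nonneg _)
          _ = K * (Dn k y ^ 2 / (n y + δ m) ^ 2) := by rw [div_pow]
          _ ≤ K * (Dn k y ^ 2 / (c * n y)) := by
              apply mul_le_mul_of_nonneg_left _ hK0
              apply div_le_div_of_nonneg_left (sq_nonneg _) (by (clear * - hc h3'; positivity))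
              nlinarith only [hc, h3, h4]
          _ = K / c * (Dn k y ^ 2 / n y) := by
              (clear * - h3' hc; field_simp)
      · rw [hz y hy, zero_mul, norm_zero]
        (clear * - hK0 hc; positivity)
    · filter_upwards [hcn] with y hy2
      by_cases hy : y ∈ Metric.ball x 1
      · have h3 : 0 < n y := hc.trans_le (hy2 hy)
        have h4 : Tendsto (fun m => θ y * (Dn k y / (n y + δ m)) ^ 2) atTop
            (𝓝 (θ y * (Dn k y / (n y + 0)) ^ 2)) := by
          apply Tendsto.const_mul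
          apply Tendsto.pow
          apply Tendsto.div tendsto_const_nhds (hδt.const_add _)
          rw [add_zero]
          exact h3.ne'
        rw [add_zero] at h4
        exact h4
      · rw [hz y hy]
        simp
  refine le_of_tendsto_of_tendsto' hL (?_ : Tendsto (fun m =>
    - (1 / 2) * (∑ k, ∫ x, Dn k x / (n x + δ m) * fderiv ℝ θ x (dir3 k)) +
          (1 / 2) * (∑ k, ∫ x, θ x * (Dn k x / (n x + δ m)) ^ 2)) atTop _) hineq
  apply Tendsto.add
  · apply Tendsto.const_mul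
    exact tendsto_finsetSum _ fun k _ => hR1t k
  · apply Tendsto.const_mul
    exact tendsto_finsetSum _ fun k _ => hR2t k

end

end Vale.Agent.P363.KX
end
end

section

section

namespace Vale.Agent.P363.KX

open MeasureTheory Set Filter Topology
open scoped ENNReal ContDiff

noncomputable section

/-! Upper bound of the potential, averaged. -/

theorem x14_fderiv_th (x y : R3) : fderiv ℝ (th x) y = - fderiv ℝ rho (x - y) := by
  have h1 : HasFDerivAt rho (fderiv ℝ rho (x - y)) (x - y) :=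
    (rho_contDiff.differentiable (by simp) _).hasFDerivAt
  have h2 : HasFDerivAt (fun y : R3 => x - y) (-(ContinuousLinearMap.id ℝ R3)) y :=
    (hasFDerivAt_id y).const_sub x
  have h3 : HasFDerivAt (th x) ((fderiv ℝ rho (x - y)).comp (-(ContinuousLinearMap.id ℝ R3))) y :=
    h1.comp y h2
  rw [h3.fderiv]
  ext z
  simp only [ContinuousLinearMap.comp_neg, ContinuousLinearMap.comp_id, neg_apply]

theorem x14_fderiv_bound : ∃ K : ℝ, ∀ x y, ‖fderiv ℝ (th x) y‖ ≤ K := by
  have hc : Continuous (fderiv ℝ rho) := rho_contDiff.continuous_fderiv (by simp)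
  obtain ⟨K, hK⟩ := (rho_hasCompactSupport.fderiv (𝕜 := ℝ)).exists_bound_of_continuous hc
  refine ⟨K, fun x y => ?_⟩
  rw [x14_fderiv_th, norm_neg]
  exact hK _

theorem v_up {n : R3 → ℝ} {G : Fin 3 → R3 → ℝ} {v : R3 → ℝ} {e : ℝ} {κ q p : ℝ}
    (hX : D.ExOut n G κ q p) (hV : MemV v) (hI : VIneq n v e) :
    ∃ T R : ℝ, 0 < T ∧ ∀ x : R3, T ≤ x 2 → R ≤ ‖x‖ →
      ∫ y, (v y - e) * th x y ≤ κ ^ 2 / 2 - q / ‖x‖ := by
  obtain ⟨T, hT⟩ := v_avg hX hV hI
  obtain ⟨K1, -, hK1⟩ := th_bound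
  obtain ⟨K2, hK2⟩ := x14_fderiv_bound
  obtain ⟨R, hR⟩ := hT (max K1 K2)
  refine ⟨max T 1, R, by positivity, fun x hx1 hx2 => ?_⟩
  exact hR x hx2 ((le_max_left _ _).trans hx1) (th x) (th_contDiff x)
    ((subset_tsupport _).trans ((tsupport_th x).trans inter_subset_right)) (th_nonneg x)
    (fun y => (hK1 x y).trans (le_max_left _ _)) (fun y => (hK2 x y).trans (le_max_right _ _))
    (th_integral x)

end

end Vale.Agent.P363.KX
end
end

section

section

namespace Vale.Agent.P363.KX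

open MeasureTheory Set Filter Topology
open scoped ENNReal ContDiff

noncomputable section

/-! The barrier: Laplacian. -/

/-- Derivative of the distance to a point. -/
lemma X15a_nrm {p x : R3} (hx : x ≠ p) :
    HasFDerivAt (fun z : R3 => ‖z - p‖) (‖x - p‖⁻¹ • innerSL ℝ (x - p)) x := by
  have hr : 0 < ‖x - p‖ := norm_pos_iff.2 (sub_ne_zero.2 hx)
  have h1 : HasFDerivAt (fun z : R3 => ‖z - p‖ ^ 2)
      (2 • (innerSL ℝ (x - p)).comp (ContinuousLinearMap.id ℝ R3)) x :=
    ((hasFDerivAt_id x).sub_const p).norm_sq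
  have h2 := h1.sqrt (pow_ne_zero 2 hr.ne')
  have e : (fun z : R3 => ‖z - p‖) = fun z : R3 => √(‖z - p‖ ^ 2) := by
    funext z
    rw [Real.sqrt_sq (norm_nonneg _)]
  rw [e]
  refine h2.congr_fderiv ?_
  rw [Real.sqrt_sq hr.le, ContinuousLinearMap.comp_id]
  ext v
  simp only [_root_.smul_apply, innerSL_apply_apply, smul_eq_mul, nsmul_eq_mul]
  field_simp
  norm_num

lemma X15a_inner (y : R3) (k : Fin 3) : innerSL ℝ y (dir3 k) = y k := by
  rw [innerSL_apply_apply, dir3, EuclideanSpace.inner_single_right]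
  simp

lemma X15a_proj (k : Fin 3) (y : R3) :
    (EuclideanSpace.proj (𝕜 := ℝ) k : R3 →L[ℝ] ℝ) y = y k := rfl

lemma X15a_pd {f : R3 → ℝ} {f' : R3 →L[ℝ] ℝ} {x : R3} (h : HasFDerivAt f f' x) (k : Fin 3) :
    pd k f x = f' (dir3 k) := by
  rw [pd, h.fderiv]

/-- Derivative of a radial function times a function. -/
lemma X15a_hasF {p x : R3} (hx : x ≠ p) {g : ℝ → ℝ} {g' : ℝ} (hg : HasDerivAt g g' ‖x - p‖)
    {A : R3 → ℝ} {A' : R3 →L[ℝ] ℝ} (hA : HasFDerivAt A A' x) :
    HasFDerivAt (fun z => A z * g ‖z - p‖)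
      (A x • (g' • (‖x - p‖⁻¹ • innerSL ℝ (x - p))) + g ‖x - p‖ • A') x :=
  hA.mul (hg.comp_hasFDerivAt x (X15a_nrm hx))

/-- Derivative of the quadratic factor. -/
lemma X15a_Q (T : ℝ) (x : R3) : HasFDerivAt (fun z : R3 => (z 0 - 1) * (z 2 - T))
    ((x 0 - 1) • (EuclideanSpace.proj (𝕜 := ℝ) (2 : Fin 3) : R3 →L[ℝ] ℝ) +
      (x 2 - T) • (EuclideanSpace.proj (𝕜 := ℝ) (0 : Fin 3) : R3 →L[ℝ] ℝ)) x := by
  have h0 : HasFDerivAt (fun z : R3 => z 0 - 1)
      (EuclideanSpace.proj (𝕜 := ℝ) (0 : Fin 3) : R3 →L[ℝ] ℝ) x :=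
    (EuclideanSpace.proj (𝕜 := ℝ) (0 : Fin 3) : R3 →L[ℝ] ℝ).hasFDerivAt.sub_const 1
  have h2 : HasFDerivAt (fun z : R3 => z 2 - T)
      (EuclideanSpace.proj (𝕜 := ℝ) (2 : Fin 3) : R3 →L[ℝ] ℝ) x :=
    (EuclideanSpace.proj (𝕜 := ℝ) (2 : Fin 3) : R3 →L[ℝ] ℝ).hasFDerivAt.sub_const T
  exact h0.mul h2

lemma X15a_prof {κ γ r : ℝ} (hr : 0 < r) :
    HasDerivAt (prof κ γ) ((γ / r - κ) * prof κ γ r) r := by
  have h1 : HasDerivAt (fun r : ℝ => r ^ γ) (γ * r ^ (γ - 1)) r :=
    Real.hasDerivAt_rpow_const (Or.inl hr.ne')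
  have h2 : HasDerivAt (fun r : ℝ => Real.exp (-κ * r)) (Real.exp (-κ * r) * (-κ)) r := by
    have := ((hasDerivAt_id r).const_mul (-κ)).exp
    simpa using this
  refine (h1.mul h2).congr_deriv ?_
  rw [Real.rpow_sub_one hr.ne', prof]
  field_simp
  ring

/-- Second radial profile `h = f'/r`. -/
lemma X15a_prof2 {κ γ r : ℝ} (hr : 0 < r) :
    HasDerivAt (fun r : ℝ => (γ / r ^ 2 - κ / r) * prof κ γ r)
      (((-2 * γ / r ^ 3 + κ / r ^ 2) + (γ / r ^ 2 - κ / r) * (γ / r - κ)) * prof κ γ r) r := by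
  have h1 : HasDerivAt (fun r : ℝ => γ / r ^ 2 - κ / r) (-2 * γ / r ^ 3 + κ / r ^ 2) r := by
    have a1 : HasDerivAt (fun r : ℝ => γ / r ^ 2) (-2 * γ / r ^ 3) r := by
      refine ((hasDerivAt_const r γ).div (hasDerivAt_pow 2 r) (by positivity)).congr_deriv ?_
      field_simp
      ring
    have a2 : HasDerivAt (fun r : ℝ => κ / r) (-κ / r ^ 2) r := by
      refine ((hasDerivAt_const r κ).div (hasDerivAt_id r) hr.ne').congr_deriv ?_
      simp
    refine (a1.sub a2).congr_deriv ?_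
    ring
  refine (h1.mul (X15a_prof (κ := κ) (γ := γ) hr)).congr_deriv ?_
  ring

/-- First derivatives of the barrier. -/
lemma X15a_first {κ γ T : ℝ} {x : R3} (hx : x ≠ cor T) (k : Fin 3) :
    pd k (bar κ γ T) x = ((x 0 - 1) * dir3 k 2 + (x 2 - T) * dir3 k 0) * prof κ γ ‖x - cor T‖ +
      ((x 0 - 1) * (x 2 - T) * (x k - cor T k)) *
        ((γ / ‖x - cor T‖ ^ 2 - κ / ‖x - cor T‖) * prof κ γ ‖x - cor T‖) := by
  have hr : 0 < ‖x - cor T‖ := norm_pos_iff.2 (sub_ne_zero.2 hx)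
  have h := X15a_hasF hx (X15a_prof (κ := κ) (γ := γ) hr) (X15a_Q T x)
  have e : bar κ γ T = fun z : R3 => (z 0 - 1) * (z 2 - T) * prof κ γ ‖z - cor T‖ := rfl
  rw [e, X15a_pd h k]
  simp only [_root_.add_apply, _root_.smul_apply, X15a_inner, smul_eq_mul,
    X15a_proj, PiLp.sub_apply]
  field_simp
  ring

/-- Second derivatives of the barrier. -/
lemma X15a_second {κ γ T : ℝ} {x : R3} (hx : x ≠ cor T) (k : Fin 3) :
    pd k (pd k (bar κ γ T)) x = 2 * (dir3 k 0 * dir3 k 2) * prof κ γ ‖x - cor T‖ +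
      2 * ((x 0 - 1) * dir3 k 2 + (x 2 - T) * dir3 k 0) * (x k - cor T k) *
        ((γ / ‖x - cor T‖ ^ 2 - κ / ‖x - cor T‖) * prof κ γ ‖x - cor T‖) +
      (x 0 - 1) * (x 2 - T) * dir3 k k *
        ((γ / ‖x - cor T‖ ^ 2 - κ / ‖x - cor T‖) * prof κ γ ‖x - cor T‖) +
      (x 0 - 1) * (x 2 - T) * (x k - cor T k) ^ 2 / ‖x - cor T‖ *
        (((-2 * γ / ‖x - cor T‖ ^ 3 + κ / ‖x - cor T‖ ^ 2) +
          (γ / ‖x - cor T‖ ^ 2 - κ / ‖x - cor T‖) * (γ / ‖x - cor T‖ - κ)) *
            prof κ γ ‖x - cor T‖) := by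
  have hr : 0 < ‖x - cor T‖ := norm_pos_iff.2 (sub_ne_zero.2 hx)
  have hev : pd k (bar κ γ T) =ᶠ[𝓝 x] fun z : R3 =>
      ((z 0 - 1) * dir3 k 2 + (z 2 - T) * dir3 k 0) * prof κ γ ‖z - cor T‖ +
      ((z 0 - 1) * (z 2 - T) * (z k - cor T k)) *
        ((γ / ‖z - cor T‖ ^ 2 - κ / ‖z - cor T‖) * prof κ γ ‖z - cor T‖) := by
    filter_upwards [isOpen_ne.mem_nhds hx] with z hz
    exact X15a_first hz k
  have hA : HasFDerivAt (fun z : R3 => (z 0 - 1) * dir3 k 2 + (z 2 - T) * dir3 k 0)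
      (dir3 k 2 • (EuclideanSpace.proj (𝕜 := ℝ) (0 : Fin 3) : R3 →L[ℝ] ℝ) +
        dir3 k 0 • (EuclideanSpace.proj (𝕜 := ℝ) (2 : Fin 3) : R3 →L[ℝ] ℝ)) x := by
    have h0 : HasFDerivAt (fun z : R3 => z 0 - 1)
        (EuclideanSpace.proj (𝕜 := ℝ) (0 : Fin 3) : R3 →L[ℝ] ℝ) x :=
      (EuclideanSpace.proj (𝕜 := ℝ) (0 : Fin 3) : R3 →L[ℝ] ℝ).hasFDerivAt.sub_const 1
    have h2 : HasFDerivAt (fun z : R3 => z 2 - T)
        (EuclideanSpace.proj (𝕜 := ℝ) (2 : Fin 3) : R3 →L[ℝ] ℝ) x :=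
      (EuclideanSpace.proj (𝕜 := ℝ) (2 : Fin 3) : R3 →L[ℝ] ℝ).hasFDerivAt.sub_const T
    exact (h0.mul_const _).add (h2.mul_const _)
  have hB := (X15a_Q T x).mul (((EuclideanSpace.proj (𝕜 := ℝ) k : R3 →L[ℝ] ℝ).hasFDerivAt
    (x := x)).sub_const (cor T k))
  have h := (X15a_hasF hx (X15a_prof (κ := κ) (γ := γ) hr) hA).add
    (X15a_hasF hx (X15a_prof2 (κ := κ) (γ := γ) hr) hB)
  have e1 : pd k (pd k (bar κ γ T)) x = pd k (fun z : R3 =>
      ((z 0 - 1) * dir3 k 2 + (z 2 - T) * dir3 k 0) * prof κ γ ‖z - cor T‖ +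
      ((z 0 - 1) * (z 2 - T) * (z k - cor T k)) *
        ((γ / ‖z - cor T‖ ^ 2 - κ / ‖z - cor T‖) * prof κ γ ‖z - cor T‖)) x := by
    rw [pd, hev.fderiv_eq]
    rfl
  rw [e1]
  refine (X15a_pd h k).trans ?_
  simp only [_root_.add_apply, _root_.smul_apply, X15a_inner, smul_eq_mul,
    X15a_proj, PiLp.sub_apply, Pi.mul_apply]
  field_simp
  ring

theorem bar_lap {κ γ T : ℝ} {x : R3} (hx : x ≠ cor T) :
    lap (bar κ γ T) x = (κ ^ 2 - 2 * κ * (γ + 3) / ‖x - cor T‖ +
      γ * (γ + 5) / ‖x - cor T‖ ^ 2) * bar κ γ T x := by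
  have hr : 0 < ‖x - cor T‖ := norm_pos_iff.2 (sub_ne_zero.2 hx)
  have hn : (x 0 - 1) ^ 2 + x 1 ^ 2 + (x 2 - T) ^ 2 = ‖x - cor T‖ ^ 2 := by
    rw [EuclideanSpace.real_norm_sq_eq, Fin.sum_univ_three]
    simp [cor, pt]
  rw [lap, Fin.sum_univ_three, X15a_second hx, X15a_second hx, X15a_second hx]
  have c0 : cor T 0 = 1 := by simp [cor, pt]
  have c1 : cor T 1 = 0 := by simp [cor, pt]
  have c2 : cor T 2 = T := by simp [cor, pt]
  have d00 : dir3 0 0 = 1 := by simp [dir3]
  have d02 : dir3 0 2 = 0 := by simp [dir3]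
  have d10 : dir3 1 0 = 0 := by simp [dir3]
  have d11 : dir3 1 1 = 1 := by simp [dir3]
  have d12 : dir3 1 2 = 0 := by simp [dir3]
  have d20 : dir3 2 0 = 0 := by simp [dir3]
  have d22 : dir3 2 2 = 1 := by simp [dir3]
  rw [c0, c1, c2, d00, d02, d10, d11, d12, d20, d22, bar]
  generalize ‖x - cor T‖ = r at *
  generalize prof κ γ r = f at *
  have h1 : x 1 ^ 2 = r ^ 2 - (x 0 - 1) ^ 2 - (x 2 - T) ^ 2 := by linarith only [hn]
  rw [sub_zero, h1]
  generalize x 0 = a at *
  generalize x 2 = b at *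
  field_simp
  ring

end

end Vale.Agent.P363.KX
end
end

section

section

namespace Vale.Agent.P363.KX

open MeasureTheory Set Filter Topology
open scoped ENNReal ContDiff

noncomputable section

/-! The barrier is a subsolution far out. -/

theorem bar_sub {κ γ q T : ℝ} (hκ : 0 < κ) (hq : κ * (γ + 3) < q) :
    ∃ R : ℝ, 0 < R ∧ ∀ x : R3, R ≤ ‖x - cor T‖ → 0 ≤ bar κ γ T x →
      (κ ^ 2 - 2 * q / ‖x‖) * bar κ γ T x ≤ lap (bar κ γ T) x := by
  set P : ℝ := ‖cor T‖ with hP
  have hP0 : 0 ≤ P := norm_nonneg _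
  set δ : ℝ := q - κ * (γ + 3) with hδ
  have hδ0 : 0 < δ := by rw [hδ]; linarith
  set Q : ℝ := (4 * |q| * P + |γ * (γ + 5)|) / (2 * δ) with hQ
  have hQ0 : 0 ≤ Q := by (clear * - hq; positivity)
  refine ⟨1 + 2 * P + Q, by (clear * - hq; positivity), fun x hx hb => ?_⟩
  set r : ℝ := ‖x - cor T‖ with hr
  have hr0 : 0 < r := by linarith only [hP0, hQ0, hx]
  have hne : x ≠ cor T := by
    intro h
    rw [hr, h, sub_self, norm_zero] at hr0
    exact lt_irrefl _ hr0
  rw [bar_lap hne]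
  refine mul_le_mul_of_nonneg_right ?_ hb
  have h1 : |‖x‖ - r| ≤ P := by
    have h2 : ‖x‖ ≤ r + P := by
      have h3 : x = (x - cor T) + cor T := by abel
      calc ‖x‖ = ‖(x - cor T) + cor T‖ := by rw [← h3]
        _ ≤ r + P := norm_add_le _ _
    have h4 : r ≤ ‖x‖ + P := norm_sub_le _ _
    rw [abs_le]
    constructor <;> linarith
  have h2 := abs_le.mp h1
  have hxr : r / 2 ≤ ‖x‖ := by linarith only [hQ0, hx, h2]
  have hx0 : 0 < ‖x‖ := by linarith only [hQ0, hx, h2]
  have hQr : 4 * |q| * P + |γ * (γ + 5)| ≤ 2 * δ * r := by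
    have h3 : Q ≤ r := by linarith only [hP0, hx]
    rw [hQ, div_le_iff₀ (by positivity)] at h3
    linarith only [h3]
  have h3 : -(4 * |q| * P / r ^ 2) ≤ 2 * q / ‖x‖ - 2 * q / r := by
    have h4 : 2 * q / ‖x‖ - 2 * q / r = 2 * q * (r - ‖x‖) / (‖x‖ * r) := by
      (clear * - hr0 hx0; field_simp)
    rw [h4, ← neg_div, div_le_div_iff₀ (by (clear * - hr0; positivity)) (by (clear * - hx0 hr0; positivity))]
    have h5 : -(|q| * P) ≤ q * (r - ‖x‖) := by
      have h6 : |q * (r - ‖x‖)| ≤ |q| * P := by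
        rw [abs_mul]
        refine mul_le_mul_of_nonneg_left ?_ (abs_nonneg _)
        rw [abs_sub_comm]
        exact h1
      exact (abs_le.mp h6).1
    have h7 : 0 ≤ |q| * P := by (clear * -; positivity)
    have h8 : r * r ≤ 2 * (‖x‖ * r) := by nlinarith only [hQ0, hx, h2]
    linarith only [mul_nonneg (sub_nonneg.2 h7) (sub_nonneg.2 h8), mul_nonneg (sq_nonneg (r : ℝ)) (sub_nonneg.2 h5)]
  have h4 : 2 * q / r - 2 * κ * (γ + 3) / r = 2 * δ / r := by
    rw [hδ]
    ring
  have h5 : 4 * |q| * P / r ^ 2 + |γ * (γ + 5)| / r ^ 2 ≤ 2 * δ / r := by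
    rw [← add_div, div_le_div_iff₀ (by (clear * - hr0; positivity)) hr0]
    (by_contra nlg; linarith only [nlg, mul_pos (sub_pos.2 (not_le.1 nlg)) (sub_pos.2 hr0), mul_nonneg (sq_nonneg (r : ℝ)) (sub_nonneg.2 hQr)])
  have h6 : -(|γ * (γ + 5)| / r ^ 2) ≤ γ * (γ + 5) / r ^ 2 := by
    rw [← neg_div]
    exact div_le_div_of_nonneg_right (neg_abs_le _) (by (clear * - hr0; positivity))
  linarith only [h6, h5, h4, h3]

end

end Vale.Agent.P363.KX
end
end

section

section

namespace Vale.Agent.P363.KX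

open MeasureTheory Set Filter Topology
open scoped ENNReal ContDiff

noncomputable section

/-! Size of the barrier. -/

/-- The barrier tends to zero at infinity. -/
theorem bar_small {κ γ T : ℝ} (hκ : 0 < κ) {τ : ℝ} (hτ : 0 < τ) :
    ∃ R : ℝ, ∀ x : R3, R ≤ ‖x - cor T‖ → bar κ γ T x < τ := by
  have h1 := tendsto_rpow_mul_exp_neg_mul_atTop_nhds_zero (γ + 2) κ hκ
  obtain ⟨R, hR⟩ := Filter.eventually_atTop.1 (h1.eventually (gt_mem_nhds hτ))
  refine ⟨max R 1, fun x hx => ?_⟩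
  have hx1 : 1 ≤ ‖x - cor T‖ := le_trans (le_max_right _ _) hx
  have hx0 : 0 < ‖x - cor T‖ := by linarith
  have h2 := hR ‖x - cor T‖ (le_trans (le_max_left _ _) hx)
  refine lt_of_le_of_lt ?_ h2
  have c0 : |x 0 - 1| ≤ ‖x - cor T‖ := by
    have h3 := PiLp.norm_apply_le (x - cor T) (0 : Fin 3)
    have h4 : (x - cor T) 0 = x 0 - 1 := by simp [cor, pt]
    rw [h4, Real.norm_eq_abs] at h3
    exact h3
  have c2 : |x 2 - T| ≤ ‖x - cor T‖ := by
    have h3 := PiLp.norm_apply_le (x - cor T) (2 : Fin 3)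
    have h4 : (x - cor T) 2 = x 2 - T := by simp [cor, pt]
    rw [h4, Real.norm_eq_abs] at h3
    exact h3
  unfold bar prof
  have h5 : (x 0 - 1) * (x 2 - T) ≤ ‖x - cor T‖ ^ 2 := by
    refine (le_abs_self _).trans ?_
    rw [abs_mul, sq]
    exact mul_le_mul c0 c2 (abs_nonneg _) hx0.le
  have h6 : ‖x - cor T‖ ^ (γ + 2) = ‖x - cor T‖ ^ 2 * ‖x - cor T‖ ^ γ := by
    rw [add_comm, Real.rpow_add hx0]
    congr 1
    exact_mod_cast Real.rpow_natCast ‖x - cor T‖ 2
  rw [h6]
  have h7 : 0 ≤ ‖x - cor T‖ ^ γ * Real.exp (-κ * ‖x - cor T‖) := by positivity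
  calc (x 0 - 1) * (x 2 - T) * (‖x - cor T‖ ^ γ * Real.exp (-κ * ‖x - cor T‖))
      ≤ ‖x - cor T‖ ^ 2 * (‖x - cor T‖ ^ γ * Real.exp (-κ * ‖x - cor T‖)) :=
        mul_le_mul_of_nonneg_right h5 h7
    _ = _ := by ring

/-- Lower bound of the barrier along the first axis. -/
theorem bar_lower {κ γ T : ℝ} (hκ : 0 < κ) :
    ∃ c : ℝ, 0 < c ∧ ∀ r : ℝ, 2 ≤ r →
      c * r ^ (γ + 1) * Real.exp (-κ * r) ≤ bar κ γ T (pt r (T + 1)) := by
  refine ⟨1 / 2 * min 1 ((1 / 2 : ℝ) ^ γ), by positivity, fun r hr => ?_⟩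
  have hr0 : 0 < r := by linarith
  set s := ‖pt r (T + 1) - cor T‖ with hs
  have hs2 : s ^ 2 = (r - 1) ^ 2 + 1 := by
    rw [hs, EuclideanSpace.norm_sq_eq, Fin.sum_univ_three]
    simp [cor, pt]
  have hs0 : 0 ≤ s := norm_nonneg _
  have hs1 : s ≤ r := by
    apply le_of_sq_le_sq _ hr0.le
    rw [hs2]
    linarith
  have hs3 : r - 1 ≤ s := by
    apply le_of_sq_le_sq _ hs0
    rw [hs2]
    linarith
  have hs4 : r / 2 ≤ s := by linarith
  have hspos : 0 < s := by linarith
  have h1 : min 1 ((1 / 2 : ℝ) ^ γ) * r ^ γ ≤ s ^ γ := by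
    rcases le_total 0 γ with hγ | hγ
    · calc min 1 ((1 / 2 : ℝ) ^ γ) * r ^ γ ≤ (1 / 2 : ℝ) ^ γ * r ^ γ :=
            mul_le_mul_of_nonneg_right (min_le_right _ _) (by positivity)
        _ = (1 / 2 * r) ^ γ := (Real.mul_rpow (by norm_num) hr0.le).symm
        _ ≤ s ^ γ := Real.rpow_le_rpow (by positivity) (by linarith only [hr, hs3]) hγ
    · calc min 1 ((1 / 2 : ℝ) ^ γ) * r ^ γ ≤ 1 * r ^ γ :=
            mul_le_mul_of_nonneg_right (min_le_left _ _) (by positivity)
        _ = r ^ γ := one_mul _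
        _ ≤ s ^ γ := Real.rpow_le_rpow_of_nonpos hspos hs1 hγ
  have h2 : Real.exp (-κ * r) ≤ Real.exp (-κ * s) := by
    apply Real.exp_le_exp.2
    linarith only [mul_nonneg (le_of_lt (sub_pos.2 hκ)) (sub_nonneg.2 hs1)]
  have h3 : bar κ γ T (pt r (T + 1)) = (r - 1) * (s ^ γ * Real.exp (-κ * s)) := by
    unfold bar prof
    rw [← hs]
    have e0 : (pt r (T + 1)) 0 = r := by simp [pt]
    have e2 : (pt r (T + 1)) 2 = T + 1 := by simp [pt]
    rw [e0, e2]
    ring
  rw [h3]
  have h4 : r ^ (γ + 1) = r ^ γ * r := by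
    rw [Real.rpow_add hr0, Real.rpow_one]
  rw [h4]
  calc 1 / 2 * min 1 ((1 / 2 : ℝ) ^ γ) * (r ^ γ * r) * Real.exp (-κ * r)
      = (r / 2) * ((min 1 ((1 / 2 : ℝ) ^ γ) * r ^ γ) * Real.exp (-κ * r)) := by ring
    _ ≤ (r - 1) * (s ^ γ * Real.exp (-κ * s)) := by
        refine mul_le_mul (by linarith only [hr]) ?_ (by positivity) (by linarith)
        exact mul_le_mul h1 h2 (Real.exp_pos _).le (by positivity)

end

end Vale.Agent.P363.KX
end
end

section

section

namespace Vale.Agent.P363.KX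

open MeasureTheory Set Filter Topology
open scoped ENNReal ContDiff

noncomputable section

/-! Second derivative test. -/

theorem x16a_dir {f : R3 → ℝ} {x : R3} (hf : ContDiffAt ℝ 2 f x) (hm : IsLocalMax f x)
    (k : Fin 3) : pd k (pd k f) x ≤ 0 := by
  by_contra hneg
  push Not at hneg
  set e : R3 := dir3 k with he
  set φ : ℝ → ℝ := fun t => f (x + t • e) with hφ
  have hx0 : x + (0 : ℝ) • e = x := by simp
  have hline : ∀ t : ℝ, HasDerivAt (fun t : ℝ => x + t • e) e t := fun t => by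
    simpa using ((hasDerivAt_id t).smul_const e).const_add x
  have hcl : ContinuousAt (fun t : ℝ => x + t • e) 0 := (hline 0).continuousAt
  have htend : Tendsto (fun t : ℝ => x + t • e) (𝓝 0) (𝓝 x) := by
    have := hcl.tendsto
    simpa only [hx0] using this
  -- first derivative near `0`
  have hd1 : ∀ᶠ y in 𝓝 x, DifferentiableAt ℝ f y := by
    have h := hf.eventually (by simp)
    filter_upwards [h] with y hy
    exact hy.differentiableAt (by norm_num)
  have hder : deriv φ =ᶠ[𝓝 0] fun t => pd k f (x + t • e) := by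
    filter_upwards [htend.eventually hd1] with t ht
    have h1 : HasDerivAt φ (fderiv ℝ f (x + t • e) e) t :=
      HasFDerivAt.comp_hasDerivAt t ht.hasFDerivAt (hline t)
    exact h1.deriv
  -- second derivative
  have hpd : DifferentiableAt ℝ (pd k f) x := by
    have h1 : ContDiffAt ℝ 1 (fderiv ℝ f) x := hf.fderiv_right (by norm_num)
    have h2 : DifferentiableAt ℝ (fderiv ℝ f) x := h1.differentiableAt (by norm_num)
    exact h2.clm_apply (differentiableAt_const _)
  have hder2 : deriv (deriv φ) 0 = pd k (pd k f) x := by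
    rw [hder.deriv_eq]
    have h1 : HasFDerivAt (pd k f) (fderiv ℝ (pd k f) x) (x + (0 : ℝ) • e) := by
      rw [hx0]
      exact hpd.hasFDerivAt
    have h2 : HasDerivAt (fun t : ℝ => pd k f (x + t • e)) (fderiv ℝ (pd k f) x e) 0 :=
      HasFDerivAt.comp_hasDerivAt (f := fun t : ℝ => x + t • e) (0 : ℝ) h1 (hline 0)
    exact h2.deriv
  have hmax : IsLocalMax φ 0 := by
    have h : ∀ᶠ y in 𝓝 x, f y ≤ f x := hm
    have h' : ∀ᶠ t in 𝓝 (0 : ℝ), φ t ≤ φ 0 := by
      filter_upwards [htend.eventually h] with t ht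
      show f (x + t • e) ≤ f (x + (0 : ℝ) • e)
      rw [hx0]
      exact ht
    exact h'
  have hd0 : deriv φ 0 = 0 := hmax.deriv_eq_zero
  have hφc : ContinuousAt φ 0 := by
    have hfc : ContinuousAt f (x + (0 : ℝ) • e) := by
      rw [hx0]
      exact hf.continuousAt
    exact ContinuousAt.comp (f := fun t : ℝ => x + t • e) hfc hcl
  have hpos : 0 < deriv (deriv φ) 0 := by rw [hder2]; exact hneg
  have hmin : IsLocalMin φ 0 := isLocalMin_of_deriv_deriv_pos hpos hd0 hφc
  have hconst : φ =ᶠ[𝓝 0] fun _ => φ 0 := by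
    have h1 : ∀ᶠ t in 𝓝 (0 : ℝ), φ t ≤ φ 0 := hmax
    have h2 : ∀ᶠ t in 𝓝 (0 : ℝ), φ 0 ≤ φ t := hmin
    filter_upwards [h1, h2] with t a b
    exact le_antisymm a b
  have h3 : deriv φ =ᶠ[𝓝 0] deriv (fun _ : ℝ => φ 0) := hconst.deriv
  have h4 : deriv (deriv φ) 0 = 0 := by
    rw [h3.deriv_eq]
    simp
  rw [h4] at hpos
  exact lt_irrefl _ hpos

theorem lap_nonpos {f : R3 → ℝ} {x : R3} (hf : ContDiffAt ℝ 2 f x) (hm : IsLocalMax f x) :
    lap f x ≤ 0 :=
  Finset.sum_nonpos fun k _ => x16a_dir hf hm k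

end

end Vale.Agent.P363.KX
end
end

section

section

namespace Vale.Agent.P363.KX

open MeasureTheory Set Filter Topology
open scoped ENNReal ContDiff

noncomputable section

/-! The one-dimensional primitive of the difference of two bumps. -/

def Sfun (z ε t : ℝ) : ℝ := ∫ u in (-1 : ℝ)..t, (beta (z - u) - bsc ε u)

lemma X18a_cont (z ε : ℝ) : Continuous fun u => beta (z - u) - bsc ε u := by
  have h1 := beta_contDiff.continuous
  have h2 := (bsc_contDiff ε).continuous
  exact (h1.comp (continuous_const.sub continuous_id)).sub h2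

lemma Sfun_deriv (z ε t : ℝ) : HasDerivAt (Sfun z ε) (beta (z - t) - bsc ε t) t :=
  ((X18a_cont z ε).integral_hasStrictDerivAt (-1) t).hasDerivAt

lemma Sfun_contDiff (z ε : ℝ) : ContDiff ℝ ∞ (Sfun z ε) := by
  rw [contDiff_infty_iff_deriv]
  refine ⟨fun t => (Sfun_deriv z ε t).differentiableAt, ?_⟩
  have e : deriv (Sfun z ε) = fun t => beta (z - t) - bsc ε t := by
    funext t
    exact (Sfun_deriv z ε t).deriv
  rw [e]
  exact (beta_contDiff.comp (contDiff_const.sub contDiff_id)).sub (bsc_contDiff ε)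

lemma X18a_integrable_beta : Integrable beta := by
  by_contra h
  have h1 := beta_integral
  rw [integral_undef h] at h1
  exact zero_ne_one h1

lemma X18a_integrable_bsc {ε : ℝ} (hε : 0 < ε) : Integrable (bsc ε) := by
  by_contra h
  have h1 := bsc_integral hε
  rw [integral_undef h] at h1
  exact zero_ne_one h1

lemma X18a_integrable_beta_sub (z : ℝ) : Integrable fun u => beta (z - u) :=
  X18a_integrable_beta.comp_sub_left z

lemma X18a_integral_beta_sub (z : ℝ) : ∫ u, beta (z - u) = 1 := by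
  rw [integral_sub_left_eq_self beta volume z, beta_integral]

lemma Sfun_eq_zero {z ε : ℝ} (hz : 0 < z) (hε : 0 < ε) (hε1 : ε ≤ 1) {t : ℝ}
    (ht : t ≤ -1 ∨ z + 1 ≤ t) : Sfun z ε t = 0 := by
  unfold Sfun
  rcases ht with ht | ht
  · have e : ∀ u ∈ uIcc (-1 : ℝ) t, beta (z - u) - bsc ε u = 0 := by
      intro u hu
      rw [uIcc_of_ge ht] at hu
      have hu1 : u ≤ -1 := hu.2
      rw [beta_eq_zero (by rw [le_abs]; left; linarith only [hz, hu1]),
        bsc_eq_zero hε (by rw [le_abs]; right; linarith), sub_zero]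
    rw [intervalIntegral.integral_congr (g := fun _ => (0 : ℝ)) fun u hu => e u hu]
    simp
  · have hle : (-1 : ℝ) ≤ t := by linarith
    have e : ∀ u, u ∉ Ioc (-1 : ℝ) t → beta (z - u) - bsc ε u = 0 := by
      intro u hu
      rw [mem_Ioc, not_and_or, not_lt, not_le] at hu
      rcases hu with hu | hu
      · rw [beta_eq_zero (by rw [le_abs]; left; linarith),
          bsc_eq_zero hε (by rw [le_abs]; right; linarith), sub_zero]
      · rw [beta_eq_zero (by rw [le_abs]; right; linarith),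
          bsc_eq_zero hε (by rw [le_abs]; left; linarith), sub_zero]
    rw [intervalIntegral.integral_of_le hle, setIntegral_eq_integral_of_forall_compl_eq_zero e,
      integral_sub (X18a_integrable_beta_sub z) (X18a_integrable_bsc hε),
      X18a_integral_beta_sub, bsc_integral hε, sub_self]

lemma Sfun_bound {z ε : ℝ} (hε : 0 < ε) (t : ℝ) : |Sfun z ε t| ≤ 2 := by
  have h1 := X18a_integrable_beta_sub z
  have h2 := X18a_integrable_bsc hε
  have h3 : |Sfun z ε t| ≤ ∫ u in uIoc (-1 : ℝ) t, ‖beta (z - u) - bsc ε u‖ := by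
    rw [← Real.norm_eq_abs]
    exact intervalIntegral.norm_integral_le_integral_norm_uIoc
  have h4 : ∫ u in uIoc (-1 : ℝ) t, ‖beta (z - u) - bsc ε u‖ ≤
      ∫ u, ‖beta (z - u) - bsc ε u‖ :=
    setIntegral_le_integral (h1.sub h2).norm (Eventually.of_forall fun u => norm_nonneg _)
  have h5 : ∫ u, ‖beta (z - u) - bsc ε u‖ ≤ ∫ u, (beta (z - u) + bsc ε u) := by
    refine integral_mono (h1.sub h2).norm (h1.add h2) fun u => ?_
    have h6 := beta_nonneg (z - u)
    have h7 := bsc_nonneg hε u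
    simp only [Real.norm_eq_abs]
    rw [abs_le]
    constructor <;> linarith
  have h6 : ∫ u, (beta (z - u) + bsc ε u) = 2 := by
    rw [integral_add h1 h2, X18a_integral_beta_sub, bsc_integral hε]
    norm_num
  linarith

end

end Vale.Agent.P363.KX
end
end

section

section

namespace Vale.Agent.P363.KX

open MeasureTheory Set Filter Topology
open scoped ENNReal ContDiff

noncomputable section

/-! The thin slab kernel. -/

lemma ker_nonneg {r ε : ℝ} (hε : 0 < ε) (y : R3) : 0 ≤ ker r ε y :=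
  mul_nonneg (mul_nonneg (beta_nonneg _) (beta_nonneg _)) (bsc_nonneg hε _)

lemma ker_integral {r ε : ℝ} (hε : 0 < ε) : ∫ y, ker r ε y = 1 := by
  have h := integral_prod3 (fun t => beta (r - t)) (fun t => beta (0 - t)) (bsc ε)
  have h1 : ∀ a : ℝ, ∫ t, beta (a - t) = 1 := fun a => by
    rw [integral_sub_left_eq_self beta volume a, beta_integral]
  rw [h1, h1, bsc_integral hε, one_mul, one_mul] at h
  exact h

lemma ker_ne_zero {r ε : ℝ} (hε : 0 < ε) {y : R3} (h : ker r ε y ≠ 0) :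
    |y 0 - r| < 1 / 4 ∧ |y 1| < 1 / 4 ∧ |y 2| < ε := by
  unfold ker at h
  have h2 : bsc ε (y 2) ≠ 0 := right_ne_zero_of_mul h
  have h3 := left_ne_zero_of_mul h
  have h0 : beta (r - y 0) ≠ 0 := left_ne_zero_of_mul h3
  have h1 : beta (0 - y 1) ≠ 0 := right_ne_zero_of_mul h3
  refine ⟨?_, ?_, ?_⟩
  · by_contra hcon
    push Not at hcon
    rw [abs_sub_comm] at hcon
    exact h0 (beta_eq_zero hcon)
  · by_contra hcon
    push Not at hcon
    refine h1 (beta_eq_zero ?_)
    rw [zero_sub, abs_neg]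
    exact hcon
  · by_contra hcon
    push Not at hcon
    exact h2 (bsc_eq_zero hε (by linarith only [hε, hcon]))

lemma ker_contDiff (r ε : ℝ) : ContDiff ℝ ∞ (ker r ε) := by
  unfold ker
  have h0 : ContDiff ℝ ∞ (fun y : R3 => r - y 0) := by fun_prop
  have h1 : ContDiff ℝ ∞ (fun y : R3 => 0 - y 1) := by fun_prop
  have h2 : ContDiff ℝ ∞ (fun y : R3 => y 2) := by fun_prop
  exact ((beta_contDiff.comp h0).mul (beta_contDiff.comp h1)).mul ((bsc_contDiff ε).comp h2)

lemma ker_norm_le (y : R3) : ‖y‖ ≤ |y 0| + |y 1| + |y 2| := by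
  rw [EuclideanSpace.norm_eq, Fin.sum_univ_three]
  refine Real.sqrt_le_iff.mpr ⟨by positivity, ?_⟩
  simp only [Real.norm_eq_abs]
  have h0 := abs_nonneg (y 0)
  have h1 := abs_nonneg (y 1)
  have h2 := abs_nonneg (y 2)
  have h3 := mul_nonneg h0 h1
  have h4 := mul_nonneg h0 h2
  have h5 := mul_nonneg h1 h2
  have h6 : (|y 0| + |y 1| + |y 2|) ^ 2 = |y 0| ^ 2 + |y 1| ^ 2 + |y 2| ^ 2 +
      2 * (|y 0| * |y 1|) + 2 * (|y 0| * |y 2|) + 2 * (|y 1| * |y 2|) := by ring
  linarith only [h3, h4, h5]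

lemma ker_hasCompactSupport {r ε : ℝ} (hε : 0 < ε) : HasCompactSupport (ker r ε) := by
  refine HasCompactSupport.intro (isCompact_closedBall (0 : R3) (|r| + 1 + ε)) fun y hy => ?_
  by_contra hcon
  obtain ⟨h0, h1, h2⟩ := ker_ne_zero hε hcon
  refine hy ?_
  rw [mem_closedBall_zero_iff]
  have h3 := ker_norm_le y
  have h4 : |y 0| ≤ |y 0 - r| + |r| := by
    have := abs_add_le (y 0 - r) r
    rwa [sub_add_cancel] at this
  linarith only [h4, h3, h2, h1, h0]

lemma ker_bound : ∃ K : ℝ, 0 < K ∧ ∀ r ε : ℝ, 0 < ε → ∀ y, ker r ε y ≤ K / ε := by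
  obtain ⟨K, hK, hb, -⟩ := beta_bound
  refine ⟨K * K * K, by positivity, fun r ε hε y => ?_⟩
  unfold ker bsc
  have h1 : beta (r - y 0) * beta (0 - y 1) ≤ K * K :=
    mul_le_mul (hb _) (hb _) (beta_nonneg _) hK.le
  have h2 : ε⁻¹ * beta (ε⁻¹ * y 2) ≤ ε⁻¹ * K :=
    mul_le_mul_of_nonneg_left (hb _) (by positivity)
  have h3 := mul_le_mul h1 h2 (mul_nonneg (by positivity) (beta_nonneg _)) (by positivity)
  refine h3.trans (le_of_eq ?_)
  rw [div_eq_mul_inv]
  ring

end

end Vale.Agent.P363.KX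
end
end

section

section

/-! KD21: scaling. -/

namespace Vale.Agent.P363.KD

open MeasureTheory Set Filter Topology
open scoped ENNReal ContDiff

noncomputable section

section general

variable {E : Type*} [NormedAddCommGroup E] [NormedSpace ℝ E] [MeasurableSpace E] [BorelSpace E]
  [FiniteDimensional ℝ E] {μ : Measure E} [μ.IsAddHaarMeasure] {F : Type*}
  [NormedAddCommGroup F]

theorem k21_memLp {f : E → F} {p : ℝ≥0∞} (hf : MemLp f p μ) {l : ℝ} (hl : l ≠ 0) :
    MemLp (fun x => f (l • x)) p μ := by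
  have hm := Measure.map_addHaar_smul μ hl
  have h1 : MemLp f p (Measure.map (fun x => l • x) μ) := by
    rw [hm]
    exact hf.smul_measure ENNReal.ofReal_ne_top
  exact h1.comp_of_map (measurable_const_smul l).aemeasurable

theorem k21_ae {P : E → Prop} (h : ∀ᵐ x ∂μ, P x) {l : ℝ} (hl : l ≠ 0) :
    ∀ᵐ x ∂μ, P (l • x) := by
  have hm := Measure.map_addHaar_smul μ hl
  have h1 : ∀ᵐ x ∂(Measure.map (fun x => l • x) μ), P x := by
    rw [hm]
    exact Measure.ae_smul_measure h _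
  exact ae_of_ae_map (measurable_const_smul l).aemeasurable h1

end general

theorem k21_finrank (N : ℕ) : Module.finrank ℝ (Fin N → R3) = 3 * N := by
  rw [Module.finrank_pi_fintype]
  simp only [finrank_euclideanSpace, Fintype.card_fin, Finset.sum_const, Finset.card_univ, smul_eq_mul, mul_comm]

/-- Change of variables. -/
theorem k21_integral {N : ℕ} {G : Type*} [NormedAddCommGroup G] [NormedSpace ℝ G] {l : ℝ}
    (hl : 0 < l) (f : (Fin N → R3) → G) :
    ∫ x, f (l • x) = (l ^ (3 * N))⁻¹ • ∫ x, f x := by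
  have h := Measure.integral_comp_smul (volume : Measure (Fin N → R3)) f l
  rw [h, k21_finrank, abs_of_pos (by positivity)]

theorem k21_const_sq {l : ℝ} (hl : 0 < l) (N : ℕ) :
    (l ^ (3 * N / 2 : ℝ)) ^ 2 = l ^ (3 * N) := by
  rw [← Real.rpow_natCast (l ^ (3 * N / 2 : ℝ)) 2, ← Real.rpow_mul hl.le,
    ← Real.rpow_natCast l (3 * N)]
  congr 1
  push_cast
  ring

theorem k21_norm {l : ℝ} (hl : 0 < l) (N : ℕ) (z : ℂ) :
    ‖((l ^ (3 * N / 2 : ℝ) : ℝ) : ℂ) * z‖ ^ 2 = l ^ (3 * N) * ‖z‖ ^ 2 := by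
  rw [norm_mul, mul_pow, Complex.norm_real, Real.norm_eq_abs, sq_abs, k21_const_sq hl]

theorem k21_weak {N : ℕ} {e : Fin N → R3} {f g : (Fin N → R3) → ℂ} (h : IsWeakDeriv e f g)
    {l : ℝ} (hl : 0 < l) (c : ℂ) :
    IsWeakDeriv e (fun x => c * f (l • x)) (fun x => c * ((l : ℂ) * g (l • x))) := by
  intro φ hφ hcs
  set ψ : (Fin N → R3) → ℝ := fun y => φ (l⁻¹ • y) with hψ
  have hψd : ContDiff ℝ ∞ ψ := hφ.comp (contDiff_const_smul _)
  have hψc : HasCompactSupport ψ := by
    have := hcs.comp_homeomorph (Homeomorph.smulOfNeZero l⁻¹ (inv_ne_zero hl.ne'))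
    exact this
  have hfd : ∀ x, fderiv ℝ φ x e = l * fderiv ℝ ψ (l • x) e := by
    intro x
    have h1 : HasFDerivAt ψ ((fderiv ℝ φ (l⁻¹ • (l • x))).comp
        (l⁻¹ • ContinuousLinearMap.id ℝ (Fin N → R3))) (l • x) := by
      apply HasFDerivAt.comp
      · exact (hφ.differentiable (by simp) _).hasFDerivAt
      · exact (hasFDerivAt_id (l • x)).const_smul l⁻¹
    rw [h1.fderiv, inv_smul_smul₀ hl.ne']
    simp only [ContinuousLinearMap.comp_apply, _root_.smul_apply,
      ContinuousLinearMap.id_apply, map_smul, smul_eq_mul]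
    field_simp
  have h1 := h ψ hψd hψc
  have e1 : ∫ x, ((fderiv ℝ φ x e : ℝ) : ℂ) * (c * f (l • x)) =
      c * (l : ℂ) * ∫ x, (fun y => ((fderiv ℝ ψ y e : ℝ) : ℂ) * f y) (l • x) := by
    rw [← integral_const_mul]
    apply integral_congr_ae
    apply Eventually.of_forall
    intro x
    simp only
    rw [hfd x]
    push_cast
    ring
  have e2 : ∫ x, ((φ x : ℝ) : ℂ) * (c * ((l : ℂ) * g (l • x))) =
      c * (l : ℂ) * ∫ x, (fun y => ((ψ y : ℝ) : ℂ) * g y) (l • x) := by
    rw [← integral_const_mul]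
    apply integral_congr_ae
    apply Eventually.of_forall
    intro x
    simp only [hψ]
    rw [inv_smul_smul₀ hl.ne']
    ring
  have i1 := k21_integral hl (fun y => ((fderiv ℝ ψ y e : ℝ) : ℂ) * f y)
  have i2 := k21_integral hl (fun y => ((ψ y : ℝ) : ℂ) * g y)
  rw [e1, e2, i1, i2, h1]
  simp only [smul_neg, mul_neg]

/-- The scaled state. -/
def k21_state {N : ℕ} (Φ : ElectronState N) {l : ℝ} (hl : 0 < l) : ElectronState N where
  amp s x := ((l ^ (3 * N / 2 : ℝ) : ℝ) : ℂ) * Φ.amp s (l • x)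
  grad s i k x := ((l ^ (3 * N / 2 : ℝ) : ℝ) : ℂ) * ((l : ℂ) * Φ.grad s i k (l • x))
  amp_memLp s := (k21_memLp (Φ.amp_memLp s) hl.ne').const_mul _
  grad_memLp s i k := ((k21_memLp (Φ.grad_memLp s i k) hl.ne').const_mul _).const_mul _
  grad_weak s i k := k21_weak (Φ.grad_weak s i k) hl _
  antisymm σ s := by
    filter_upwards [k21_ae (Φ.antisymm σ s) hl.ne'] with x hx
    have h1 : l • (x ∘ σ) = (l • x) ∘ σ := rfl
    rw [h1, hx]
    ring

theorem k21_energy {N : ℕ} (Φ : ElectronState N) {l : ℝ} (hl : 0 < l)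
    (w : (Fin N → R3) → ℝ) :
    energy (fun x => l ^ 2 * w (l • x)) (k21_state Φ hl) = l ^ 2 * energy w Φ := by
  have hp : (l ^ (3 * N) : ℝ) ≠ 0 := by positivity
  have e1 : ∀ s i k, ∫ x, ‖(k21_state Φ hl).grad s i k x‖ ^ 2 =
      l ^ 2 * ∫ x, ‖Φ.grad s i k x‖ ^ 2 := by
    intro s i k
    have h1 : ∀ x, ‖(k21_state Φ hl).grad s i k x‖ ^ 2 =
        (fun y => l ^ (3 * N) * (l ^ 2 * ‖Φ.grad s i k y‖ ^ 2)) (l • x) := by
      intro x
      simp only [k21_state]
      rw [k21_norm hl, norm_mul, mul_pow, Complex.norm_real, Real.norm_eq_abs, sq_abs]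
    have h2 := k21_integral hl (fun y => l ^ (3 * N) * (l ^ 2 * ‖Φ.grad s i k y‖ ^ 2))
    rw [integral_congr_ae (Eventually.of_forall h1), h2, integral_const_mul,
      integral_const_mul, smul_eq_mul, inv_mul_cancel_left₀ hp]
  have e2 : ∀ s, ∫ x, (l ^ 2 * w (l • x)) * ‖(k21_state Φ hl).amp s x‖ ^ 2 =
      l ^ 2 * ∫ x, w x * ‖Φ.amp s x‖ ^ 2 := by
    intro s
    have h1 : ∀ x, (l ^ 2 * w (l • x)) * ‖(k21_state Φ hl).amp s x‖ ^ 2 =
        (fun y => l ^ (3 * N) * (l ^ 2 * (w y * ‖Φ.amp s y‖ ^ 2))) (l • x) := by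
      intro x
      simp only [k21_state]
      rw [k21_norm hl]
      ring
    have h2 := k21_integral hl (fun y => l ^ (3 * N) * (l ^ 2 * (w y * ‖Φ.amp s y‖ ^ 2)))
    rw [integral_congr_ae (Eventually.of_forall h1), h2, integral_const_mul,
      integral_const_mul, smul_eq_mul, inv_mul_cancel_left₀ hp]
  unfold energy
  simp only [e1, e2]
  simp only [← Finset.mul_sum]
  ring

theorem k21_normSq {N : ℕ} (Φ : ElectronState N) {l : ℝ} (hl : 0 < l) :
    normSq (k21_state Φ hl) = normSq Φ := by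
  have hp : (l ^ (3 * N) : ℝ) ≠ 0 := by positivity
  unfold normSq
  apply Finset.sum_congr rfl
  intro s _
  have h1 : ∀ x, ‖(k21_state Φ hl).amp s x‖ ^ 2 =
      (fun y => l ^ (3 * N) * ‖Φ.amp s y‖ ^ 2) (l • x) := by
    intro x
    simp only [k21_state]
    rw [k21_norm hl]
  have h2 := k21_integral hl (fun y => l ^ (3 * N) * ‖Φ.amp s y‖ ^ 2)
  rw [integral_congr_ae (Eventually.of_forall h1), h2, integral_const_mul,
    smul_eq_mul, inv_mul_cancel_left₀ hp]

/-- KD21a. Scaling of electron states: `Φ_l(x) = l^{3N/2} Φ(l x)`. -/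
theorem exists_scaled {N : ℕ} (Φ : ElectronState N) {l : ℝ} (hl : 0 < l) :
    ∃ Ψ : ElectronState N, normSq Ψ = normSq Φ ∧
      (∀ s x, Ψ.amp s x = ((l ^ (3 * N / 2 : ℝ) : ℝ) : ℂ) * Φ.amp s (fun i => l • x i)) ∧
      ∀ w : (Fin N → R3) → ℝ, energy (fun x => l ^ 2 * w (fun i => l • x i)) Ψ =
        l ^ 2 * energy w Φ :=
  ⟨k21_state Φ hl, k21_normSq Φ hl, fun _ _ => rfl, fun w => k21_energy Φ hl w⟩

theorem k21_grad_unique {N : ℕ} {Φ Ψ : ElectronState N} (h : ∀ s x, Ψ.amp s x = Φ.amp s x)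
    (s : Fin N → Fin 2) (i : Fin N) (k : Fin 3) :
    ∀ᵐ x, Ψ.grad s i k x = Φ.grad s i k x := by
  have hl1 : LocallyIntegrable (Ψ.grad s i k) volume :=
    (Ψ.grad_memLp s i k).locallyIntegrable (by norm_num)
  have hl2 : LocallyIntegrable (Φ.grad s i k) volume :=
    (Φ.grad_memLp s i k).locallyIntegrable (by norm_num)
  have h0 := ae_eq_zero_of_integral_contDiff_smul_eq_zero (hl1.sub hl2) (fun g hg hgc => by
    have h1 := Ψ.grad_weak s i k g hg hgc
    have h2 := Φ.grad_weak s i k g hg hgc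
    have h3 : Ψ.amp s = Φ.amp s := funext (h s)
    rw [h3, h2] at h1
    have h4 : ∫ x, ((g x : ℝ) : ℂ) * Φ.grad s i k x = ∫ x, ((g x : ℝ) : ℂ) * Ψ.grad s i k x :=
      neg_injective h1
    have i1 : Integrable (fun x => g x • Ψ.grad s i k x) volume :=
      hl1.integrable_smul_left_of_hasCompactSupport hg.continuous hgc
    have i2 : Integrable (fun x => g x • Φ.grad s i k x) volume :=
      hl2.integrable_smul_left_of_hasCompactSupport hg.continuous hgc
    have h5 : ∀ x, g x • (Ψ.grad s i k - Φ.grad s i k) x =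
        g x • Ψ.grad s i k x - g x • Φ.grad s i k x := by
      intro x
      rw [Pi.sub_apply, smul_sub]
    rw [integral_congr_ae (Eventually.of_forall h5), integral_sub i1 i2, sub_eq_zero]
    simp only [Complex.real_smul]
    exact h4.symm)
  filter_upwards [h0] with x hx
  exact sub_eq_zero.mp hx

theorem k21_energy_congr {N : ℕ} {Φ Ψ : ElectronState N} (h : ∀ s x, Ψ.amp s x = Φ.amp s x)
    (w : (Fin N → R3) → ℝ) : energy w Ψ = energy w Φ := by
  unfold energy
  congr 1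
  · congr 1
    apply Finset.sum_congr rfl
    intro s _
    apply Finset.sum_congr rfl
    intro i _
    apply Finset.sum_congr rfl
    intro k _
    apply integral_congr_ae
    filter_upwards [k21_grad_unique h s i k] with x hx
    rw [hx]
  · apply Finset.sum_congr rfl
    intro s _
    apply integral_congr_ae
    apply Eventually.of_forall
    intro x
    simp only [h]

/-- KD21b. Scaling of ground states. -/
theorem ground_scaled {N : ℕ} {Φ Ψ : ElectronState N} {l : ℝ} (hl : 0 < l)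
    (h : ∀ s x, Ψ.amp s x = ((l ^ (3 * N / 2 : ℝ) : ℝ) : ℂ) * Φ.amp s (fun i => l • x i))
    {w : (Fin N → R3) → ℝ} (hΦ : IsGroundState w Φ) :
    IsGroundState (fun x => l ^ 2 * w (fun i => l • x i)) Ψ := by
  have h' : ∀ s x, Ψ.amp s x = (k21_state Φ hl).amp s x := h
  have hn : normSq Ψ = normSq (k21_state Φ hl) := by
    unfold normSq
    simp only [h']
  refine ⟨by rw [hn, k21_normSq, hΦ.1], ?_⟩
  intro Θ hΘ
  rw [k21_energy_congr h']
  have h1 := k21_energy Φ hl w
  have hli : 0 < l⁻¹ := inv_pos.mpr hl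
  have h2 := k21_energy Θ hli (fun x => l ^ 2 * w (l • x))
  have h3 : (fun x : Fin N → R3 => l⁻¹ ^ 2 * (fun x => l ^ 2 * w (l • x)) (l⁻¹ • x)) = w := by
    funext x
    simp only
    rw [smul_inv_smul₀ hl.ne', ← mul_assoc, ← mul_pow, inv_mul_cancel₀ hl.ne', one_pow,
      one_mul]
  rw [h3] at h2
  have h4 := hΦ.2 (k21_state Θ hli) (by rw [k21_normSq, hΘ])
  rw [h2] at h4
  have h5 : energy (fun x => l ^ 2 * w (fun i => l • x i)) (k21_state Φ hl) =
      l ^ 2 * energy w Φ := h1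
  rw [h5]
  have h6 := mul_le_mul_of_nonneg_left h4 (sq_nonneg l)
  rw [← mul_assoc, ← mul_pow, mul_inv_cancel₀ hl.ne', one_pow, one_mul] at h6
  exact h6

theorem k21_density {n : ℕ} (Φ : ElectronState (n + 1)) {l : ℝ} (hl : 0 < l) (r : R3) :
    density (k21_state Φ hl) r = l ^ 3 * density Φ (l • r) := by
  have hp : (l ^ (3 * n) : ℝ) ≠ 0 := by positivity
  unfold density
  have e1 : ∀ s, ∫ y : Fin n → R3, ‖(k21_state Φ hl).amp s (Fin.cons r y)‖ ^ 2 =
      l ^ 3 * ∫ y : Fin n → R3, ‖Φ.amp s (Fin.cons (l • r) y)‖ ^ 2 := by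
    intro s
    have h1 : ∀ y : Fin n → R3, ‖(k21_state Φ hl).amp s (Fin.cons r y)‖ ^ 2 =
        (fun z : Fin n → R3 => l ^ (3 * n) * (l ^ 3 * ‖Φ.amp s (Fin.cons (l • r) z)‖ ^ 2))
          (l • y) := by
      intro y
      have h2 : l • (Fin.cons r y : Fin (n + 1) → R3) = Fin.cons (l • r) (l • y) := by
        funext i
        refine Fin.cases ?_ (fun j => ?_) i
        · rfl
        · rfl
      simp only [k21_state]
      rw [k21_norm hl, h2]
      ring
    have h3 := k21_integral hl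
      (fun z : Fin n → R3 => l ^ (3 * n) * (l ^ 3 * ‖Φ.amp s (Fin.cons (l • r) z)‖ ^ 2))
    rw [integral_congr_ae (Eventually.of_forall h1), h3, integral_const_mul,
      integral_const_mul, smul_eq_mul, inv_mul_cancel_left₀ hp]
  simp only [e1]
  rw [← Finset.mul_sum]
  ring

/-- KD21c. Scaling of representability. -/
theorem repr_scaled {n : ℕ} {ρ : R3 → ℝ} {l : ℝ} (hl : 0 < l)
    (h : NonintEnsembleRepresentable n ρ) :
    NonintEnsembleRepresentable n (fun x => l ^ 3 * ρ (l • x)) := by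
  obtain ⟨v, ⟨a, b, ha, hb, hab⟩, p, Φ, hp0, hp1, hg, hρ⟩ := h
  refine ⟨fun x => l ^ 2 * v (l • x), ⟨fun x => l ^ 2 * a (l • x), fun x => l ^ 2 * b (l • x),
    (k21_memLp ha hl.ne').const_mul _, (k21_memLp hb hl.ne').const_mul _, ?_⟩, p,
    fun k => k21_state (Φ k) hl, hp0, hp1, ?_, ?_⟩
  · funext x
    rw [hab]
    simp only [Pi.add_apply]
    ring
  · intro k
    have h1 := ground_scaled hl (Ψ := k21_state (Φ k) hl) (fun _ _ => rfl) (hg k)
    convert h1 using 1
    funext x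
    unfold sumPotential
    rw [Finset.mul_sum]
  · filter_upwards [k21_ae hρ hl.ne'] with r hr
    have h1 := hr.mul_left (l ^ 3)
    have h2 : (fun k => p k * density (k21_state (Φ k) hl) r) =
        fun k => l ^ 3 * (p k * density (Φ k) (l • r)) := by
      funext k
      rw [k21_density]
      ring
    rw [h2]
    exact h1

end

end Vale.Agent.P363.KD
end
end

section

section

/-! # Abstract lemmas on quadratic forms: existence of minimizers, degenerate perturbation -/

noncomputable section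

open Filter Topology

namespace Vale.Agent.P363.D

variable {Q : Type*} [NormedAddCommGroup Q] [InnerProductSpace ℝ Q]

/-- bounded bilinear forms -/
abbrev BF (Q : Type*) [NormedAddCommGroup Q] [InnerProductSpace ℝ Q] : Type _ := Q →L[ℝ] Q →L[ℝ] ℝ

/-- symmetric forms -/
def SymF (b : BF Q) : Prop := ∀ u v, b u v = b v u

/-- nonnegative forms -/
def NonnegF (b : BF Q) : Prop := ∀ u, 0 ≤ b u u

theorem bf_add (b : BF Q) (hs : SymF b) (u v : Q) :
    b (u + v) (u + v) = b u u + 2 * b u v + b v v := by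
  simp only [map_add, add_apply]
  rw [hs v u]; ring

theorem bf_sub (b : BF Q) (hs : SymF b) (u v : Q) :
    b (u - v) (u - v) = b u u - 2 * b u v + b v v := by
  simp only [map_sub, sub_apply]
  rw [hs v u]; ring

theorem bf_smul (b : BF Q) (c : ℝ) (u : Q) : b (c • u) (c • u) = c ^ 2 * b u u := by
  simp only [map_smul, smul_apply, smul_eq_mul]
  ring

/-- Cauchy-Schwarz inequality for nonnegative symmetric forms -/
theorem bf_cs {b : BF Q} (hs : SymF b) (hb : NonnegF b) (u v : Q) :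
    (b u v) ^ 2 ≤ b u u * b v v := by
  have h : ∀ t : ℝ, 0 ≤ b u u + 2 * (t * b u v) + t ^ 2 * b v v := fun t => by
    have h1 := hb (u + t • v)
    rw [bf_add b hs, bf_smul] at h1
    have h2 : b u (t • v) = t * b u v := by rw [map_smul, smul_eq_mul]
    rw [h2] at h1
    linarith
  rcases (hb v).eq_or_lt with h0 | h0
  · rw [← h0, mul_zero]
    by_contra hne
    push Not at hne
    have hne' : b u v ≠ 0 := by
      intro h1; rw [h1] at hne; norm_num at hne
    have h1 := h (-(b u u + 1) / (2 * b u v))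
    rw [← h0] at h1
    have h2 : 2 * (-(b u u + 1) / (2 * b u v) * b u v) = -(b u u + 1) := by
      field_simp
    rw [h2] at h1
    linarith only [h1]
  · have h1 := h (-(b u v) / b v v)
    have h2 : b u u + 2 * (-(b u v) / b v v * b u v) + (-(b u v) / b v v) ^ 2 * b v v
        = b u u - (b u v) ^ 2 / b v v := by
      field_simp
      ring
    rw [h2] at h1
    have h3 : (b u v) ^ 2 / b v v ≤ b u u := by linarith only [h1]
    rwa [div_le_iff₀ h0] at h3

theorem bf_sub_le {b : BF Q} (hs : SymF b) (hb : NonnegF b) (u v : Q) :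
    b (u - v) (u - v) ≤ 2 * b u u + 2 * b v v := by
  have h1 := hb (u + v)
  rw [bf_add b hs] at h1
  rw [bf_sub b hs]
  linarith

theorem bf_le_norm (b : BF Q) (u v : Q) : |b u v| ≤ ‖b‖ * ‖u‖ * ‖v‖ := by
  rw [← Real.norm_eq_abs]
  exact b.le_opNorm₂ u v

/-- finite orthonormal families for a form -/
structure OrthoF {ι : Type*} [DecidableEq ι] (ip : BF Q) (φ : ι → Q) : Prop where
  ortho : ∀ i j, ip (φ i) (φ j) = if i = j then 1 else 0

section proj

variable {ι : Type*} [Fintype ι] [DecidableEq ι]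

/-- projection on the span of an orthonormal family -/
def prj (ip : BF Q) (φ : ι → Q) (u : Q) : Q := ∑ i, ip (φ i) u • φ i

variable {ip : BF Q} {φ : ι → Q}

theorem ip_prj (hφ : OrthoF ip φ) (i : ι) (u : Q) : ip (φ i) (prj ip φ u) = ip (φ i) u := by
  unfold prj
  rw [map_sum]
  simp only [map_smul, smul_eq_mul, hφ.ortho]
  simp only [mul_ite, mul_one, mul_zero, Finset.sum_ite_eq, Finset.mem_univ, ↓reduceIte]

theorem ip_rest (hφ : OrthoF ip φ) (i : ι) (u : Q) : ip (φ i) (u - prj ip φ u) = 0 := by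
  rw [map_sub, ip_prj hφ, sub_self]

omit [DecidableEq ι] in
theorem ip_prj_left (u v : Q) : ip (prj ip φ u) v = ∑ i, ip (φ i) u * ip (φ i) v := by
  unfold prj
  rw [map_sum, FunLike.coe_sum, Finset.sum_apply]
  simp only [map_smul, smul_apply, smul_eq_mul]

theorem ip_prj_rest (hφ : OrthoF ip φ) (u v : Q) :
    ip (prj ip φ u) (v - prj ip φ v) = 0 := by
  rw [ip_prj_left]
  refine Finset.sum_eq_zero fun i _ => ?_
  rw [ip_rest hφ, mul_zero]

theorem ip_prj_prj (hφ : OrthoF ip φ) (u : Q) :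
    ip (prj ip φ u) (prj ip φ u) = ∑ i, (ip (φ i) u) ^ 2 := by
  rw [ip_prj_left]
  refine Finset.sum_congr rfl fun i _ => ?_
  rw [ip_prj hφ]; ring

theorem ip_decomp (hs : SymF ip) (hφ : OrthoF ip φ) (u : Q) :
    ip u u = ip (prj ip φ u) (prj ip φ u) + ip (u - prj ip φ u) (u - prj ip φ u) := by
  have h : u = prj ip φ u + (u - prj ip φ u) := by abel
  conv_lhs => rw [h]
  rw [bf_add ip hs, ip_prj_rest hφ]
  ring

end proj

/-- Existence of minimizers: the form is strictly above the infimum off a finite dimensional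
space. -/
theorem exists_minimizer [CompleteSpace Q] {ι : Type*} [Fintype ι] [DecidableEq ι]
    {ip q : BF Q} {φ : ι → Q} (hs : SymF ip) (hp : NonnegF ip) (hq : SymF q)
    (hφ : OrthoF ip φ) {c C : ℝ} (hc : 0 < c) (hG : ∀ u, c * ‖u‖ ^ 2 ≤ q u u + C * ip u u)
    {E g : ℝ} (hg : 0 < g) (hE : ∃ u, ip u u = 1 ∧ q u u ≤ E)
    (hgap : ∀ u, (∀ i, ip (φ i) u = 0) → (E + g) * ip u u ≤ q u u) :
    ∃ u, ip u u = 1 ∧ ∀ v, q u u * ip v v ≤ q v v := by
  obtain ⟨u0, hu0, hu0E⟩ := hE
  set S : Set ℝ := {e | ∃ u, ip u u = 1 ∧ q u u = e} with hS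
  have hSne : S.Nonempty := ⟨_, u0, hu0, rfl⟩
  have hSb : BddBelow S := by
    refine ⟨-C, ?_⟩
    rintro _ ⟨u, hu, rfl⟩
    have := hG u
    rw [hu, mul_one] at this
    have h2 : 0 ≤ c * ‖u‖ ^ 2 := by (clear * - hc; positivity)
    linarith
  set m : ℝ := sInf S with hm
  have hmE : m ≤ E := (csInf_le hSb ⟨u0, hu0, rfl⟩).trans hu0E
  have hlow : ∀ u, m * ip u u ≤ q u u := by
    intro u
    rcases (hp u).eq_or_lt with h0 | h0
    · rw [← h0, mul_zero]
      have := hG u
      rw [← h0, mul_zero, add_zero] at this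
      exact (by (clear * - hc; positivity) : (0:ℝ) ≤ c * ‖u‖ ^ 2).trans this
    · set t : ℝ := (Real.sqrt (ip u u))⁻¹ with ht
      have ht2 : t ^ 2 = (ip u u)⁻¹ := by
        rw [ht, inv_pow, Real.sq_sqrt h0.le]
      have h1 : ip (t • u) (t • u) = 1 := by
        rw [bf_smul, ht2, inv_mul_cancel₀ h0.ne']
      have h2 : m ≤ q (t • u) (t • u) := csInf_le hSb ⟨_, h1, rfl⟩
      rw [bf_smul, ht2, ← div_eq_inv_mul, le_div_iff₀ h0] at h2
      exact h2
  -- the form q - m ip
  set b : BF Q := q - m • ip with hb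
  have hbe : ∀ u v, b u v = q u v - m * ip u v := fun u v => by
    simp [hb]
  have hbs : SymF b := fun u v => by rw [hbe, hbe, hq u v, hs u v]
  have hbn : NonnegF b := fun u => by
    rw [hbe]; linarith only [hlow u]
  -- minimizing sequence
  have hseq : ∀ n : ℕ, ∃ u, ip u u = 1 ∧ b u u < 1 / ((n : ℝ) + 1) := by
    intro n
    have hpos : (0 : ℝ) < 1 / ((n : ℝ) + 1) := by (clear * -; positivity)
    obtain ⟨_, ⟨u, h1, rfl⟩, h3⟩ := exists_lt_of_csInf_lt hSne
      (show sInf S < m + 1 / ((n : ℝ) + 1) by rw [← hm]; linarith only [hpos])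
    refine ⟨u, h1, ?_⟩
    rw [hbe, h1]; linarith only [h3]
  choose u hu1 hu2 using hseq
  -- coefficients
  set a : ℕ → (ι → ℝ) := fun n i => ip (φ i) (u n) with ha
  have hab : ∀ n, a n ∈ Set.Icc (fun _ : ι => (-1 : ℝ)) (fun _ => 1) := by
    intro n
    have h1 : ∀ i, |a n i| ≤ 1 := fun i => by
      have h2 := bf_cs hs hp (φ i) (u n)
      rw [hφ.ortho, if_pos rfl, hu1, mul_one] at h2
      exact abs_le_one_iff_mul_self_le_one.2 (by simpa only [ha, sq] using h2)
    exact ⟨fun i => (abs_le.1 (h1 i)).1, fun i => (abs_le.1 (h1 i)).2⟩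
  obtain ⟨aL, _, σ, hσ, hlim⟩ := isCompact_Icc.tendsto_subseq hab
  -- projections
  set A : ℕ → Q := fun n => prj ip φ (u (σ n)) with hA
  have hAe : ∀ n, A n = ∑ i, a (σ n) i • φ i := fun n => rfl
  have hAlim : Tendsto A atTop (𝓝 (∑ i, aL i • φ i)) := by
    have : A = fun n => ∑ i, a (σ n) i • φ i := funext hAe
    rw [this]
    refine tendsto_finsetSum _ fun i _ => ?_
    exact ((tendsto_pi_nhds.1 hlim) i).smul_const _
  have hAc : CauchySeq A := hAlim.cauchySeq
  set k : ℕ → Q := fun n => u (σ n) - A n with hk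
  have hkc : CauchySeq k := by
    -- bound on the difference
    have hK : ∀ n l, c * ‖k n - k l‖ ^ 2 ≤ (1 + (|C| + |m|) / g)
        * (4 * (1 / ((σ n : ℝ) + 1)) + 4 * (1 / ((σ l : ℝ) + 1)) + 2 * (‖b‖ * ‖A n - A l‖ ^ 2)) := by
      intro n l
      have h1 : k n - k l = (u (σ n) - u (σ l)) - (A n - A l) := by
        simp only [hk]; abel
      have h2 : b (k n - k l) (k n - k l)
          ≤ 4 * (1 / ((σ n : ℝ) + 1)) + 4 * (1 / ((σ l : ℝ) + 1)) + 2 * (‖b‖ * ‖A n - A l‖ ^ 2) := by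
        rw [h1]
        refine (bf_sub_le hbs hbn _ _).trans ?_
        have h3 := bf_sub_le hbs hbn (u (σ n)) (u (σ l))
        have h4 := hu2 (σ n)
        have h5 := hu2 (σ l)
        have h6 : b (A n - A l) (A n - A l) ≤ ‖b‖ * ‖A n - A l‖ ^ 2 := by
          have := (le_abs_self _).trans (bf_le_norm b (A n - A l) (A n - A l))
          calc _ ≤ _ := this
            _ = _ := by ring
        linarith only [h3, h4, h5, h6]
      have h7 : ∀ i, ip (φ i) (k n - k l) = 0 := fun i => by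
        rw [map_sub]
        simp only [hk, hA]
        rw [ip_rest hφ, ip_rest hφ, sub_zero]
      have h8 := hgap _ h7
      have h9 : g * ip (k n - k l) (k n - k l) ≤ b (k n - k l) (k n - k l) := by
        rw [hbe]
        have := mul_le_mul_of_nonneg_right hmE (hp (k n - k l))
        linarith only [h8, this]
      have h10 : ip (k n - k l) (k n - k l) ≤ b (k n - k l) (k n - k l) / g := by
        rw [le_div_iff₀ hg]; linarith only [h9]
      have h11 := hG (k n - k l)
      have h12 : q (k n - k l) (k n - k l) + C * ip (k n - k l) (k n - k l)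
          ≤ b (k n - k l) (k n - k l) + (|C| + |m|) * ip (k n - k l) (k n - k l) := by
        rw [hbe]
        have h13 := hp (k n - k l)
        have h14 := mul_le_mul_of_nonneg_right (le_abs_self C) h13
        have h15 := mul_le_mul_of_nonneg_right (le_abs_self m) h13
        linarith only [h14, h15]
      have h16 : (|C| + |m|) * ip (k n - k l) (k n - k l)
          ≤ (|C| + |m|) * (b (k n - k l) (k n - k l) / g) :=
        mul_le_mul_of_nonneg_left h10 (by (clear * -; positivity))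
      have h17 : b (k n - k l) (k n - k l) + (|C| + |m|) * (b (k n - k l) (k n - k l) / g)
          = (1 + (|C| + |m|) / g) * b (k n - k l) (k n - k l) := by
        (clear * - hg; field_simp)
      have h18 : (1 + (|C| + |m|) / g) * b (k n - k l) (k n - k l) ≤ _ :=
        mul_le_mul_of_nonneg_left h2 (by (clear * - hg; positivity))
      linarith only [h11, h12, h16, h17, h18]
    rw [Metric.cauchySeq_iff]
    intro ε hε
    set M : ℝ := 1 + (|C| + |m|) / g with hM
    have hM0 : 0 < M := by (clear * - hg; positivity)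
    set B : ℝ := ‖b‖ with hB
    have hB0 : 0 ≤ B := norm_nonneg b
    have h1 : ∀ᶠ n : ℕ in atTop, 1 / ((n : ℝ) + 1) < c * ε ^ 2 / (16 * M) :=
      (tendsto_one_div_add_atTop_nhds_zero_nat).eventually_lt_const (by (clear * - hc hε hg; positivity))
    obtain ⟨N1, hN1⟩ := h1.exists_forall_of_atTop
    set η : ℝ := c * ε ^ 2 / (8 * M * (B + 1)) with hη
    have hη0 : 0 < η := by (clear * - hc hε hg; positivity)
    obtain ⟨N2, hN2⟩ := (Metric.cauchySeq_iff.1 hAc) (Real.sqrt η) (Real.sqrt_pos.2 hη0)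
    refine ⟨max N1 N2, fun n hn l hl => ?_⟩
    have hn1 : 1 / ((σ n : ℝ) + 1) < c * ε ^ 2 / (16 * M) :=
      hN1 _ (((le_max_left _ _).trans hn).trans (hσ.id_le n))
    have hl1 : 1 / ((σ l : ℝ) + 1) < c * ε ^ 2 / (16 * M) :=
      hN1 _ (((le_max_left _ _).trans hl).trans (hσ.id_le l))
    have hn3 : ‖A n - A l‖ ^ 2 ≤ η := by
      have h3 := hN2 n ((le_max_right _ _).trans hn) l ((le_max_right _ _).trans hl)
      rw [dist_eq_norm] at h3
      calc ‖A n - A l‖ ^ 2 ≤ (Real.sqrt η) ^ 2 := pow_le_pow_left₀ (norm_nonneg _) h3.le 2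
        _ = η := Real.sq_sqrt hη0.le
    have h4 := hK n l
    have h5 : B * ‖A n - A l‖ ^ 2 ≤ B * η := mul_le_mul_of_nonneg_left hn3 hB0
    have h6 : (B + 1) * η = c * ε ^ 2 / (8 * M) := by
      rw [hη]; (clear * - hB0 hM0 hε hc; field_simp)
    have h7 : M * (4 * (1 / ((σ n : ℝ) + 1)) + 4 * (1 / ((σ l : ℝ) + 1))
        + 2 * (B * ‖A n - A l‖ ^ 2)) < M * (c * ε ^ 2 / M) := by
      refine mul_lt_mul_of_pos_left ?_ hM0
      have e1 : c * ε ^ 2 / (16 * M) = c * ε ^ 2 / M / 16 := by (clear * - hM0 hε hc; field_simp)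
      have e2 : c * ε ^ 2 / (8 * M) = c * ε ^ 2 / M / 8 := by (clear * - hM0 hε hc; field_simp)
      rw [e1] at hn1 hl1
      rw [e2] at h6
      have h8 : B * η ≤ c * ε ^ 2 / M / 8 := by linarith only [hη0, h6]
      have h9 : 0 < c * ε ^ 2 / M := by (clear * - hc hε hg; positivity)
      linarith only [h9, h6, h5, hl1, hn1, hη0]
    have h10 : M * (c * ε ^ 2 / M) = c * ε ^ 2 := by (clear * - hM0 hε hc; field_simp)
    rw [h10] at h7
    have h11 : ‖k n - k l‖ ^ 2 < ε ^ 2 := by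
      have := h4.trans_lt h7
      exact lt_of_mul_lt_mul_left this hc.le
    rw [dist_eq_norm]
    exact lt_of_pow_lt_pow_left₀ 2 hε.le h11
  obtain ⟨kL, hkL⟩ := cauchySeq_tendsto_of_complete hkc
  set U : Q := (∑ i, aL i • φ i) + kL with hU
  have huL : Tendsto (fun n => u (σ n)) atTop (𝓝 U) := by
    have h1 : (fun n => u (σ n)) = fun n => A n + k n := by
      funext n; simp only [hk]; abel
    rw [h1]
    exact hAlim.add hkL
  have hcont : ∀ f : BF Q, Tendsto (fun n => f (u (σ n)) (u (σ n))) atTop (𝓝 (f U U)) := by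
    intro f
    have : Continuous fun v : Q => f v v := by fun_prop
    exact (this.tendsto U).comp huL
  have hipU : ip U U = 1 := by
    have h1 := hcont ip
    simp only [hu1] at h1
    exact (tendsto_nhds_unique h1 tendsto_const_nhds)
  have hbU : b U U ≤ 0 := by
    have h1 := hcont b
    have h2 : Tendsto (fun n : ℕ => 1 / ((σ n : ℝ) + 1)) atTop (𝓝 0) :=
      tendsto_one_div_add_atTop_nhds_zero_nat.comp hσ.tendsto_atTop
    exact le_of_tendsto_of_tendsto' h1 h2 fun n => (hu2 (σ n)).le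
  refine ⟨U, hipU, fun v => ?_⟩
  have h1 : q U U ≤ m := by
    rw [hbe, hipU] at hbU
    linarith only [hbU]
  exact (mul_le_mul_of_nonneg_right h1 (hp v)).trans (hlow v)

/-- data of a degenerate perturbation problem -/
structure PertData {ι : Type*} [Fintype ι] [DecidableEq ι] (ip q w : BF Q) (φ : ι → Q)
    (e0 g c C : ℝ) : Prop where
  sip : SymF ip
  pip : NonnegF ip
  sq : SymF q
  sw : SymF w
  ortho : OrthoF ip φ
  cpos : 0 < c
  Cnonneg : 0 ≤ C
  garding : ∀ u, c * ‖u‖ ^ 2 ≤ q u u + C * ip u u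
  gpos : 0 < g
  eig : ∀ i v, q (φ i) v = e0 * ip (φ i) v
  gap : ∀ u, (∀ i, ip (φ i) u = 0) → (e0 + g) * ip u u ≤ q u u

section pert

variable {ι : Type*} [Fintype ι] [DecidableEq ι] {ip q w : BF Q} {φ : ι → Q} {e0 g c C : ℝ}

theorem PertData.q_prj (D : PertData ip q w φ e0 g c C) (u v : Q) :
    q (prj ip φ u) v = e0 * ip (prj ip φ u) v := by
  unfold prj
  simp only [map_sum, FunLike.coe_sum, Finset.sum_apply, map_smul, smul_apply,
    smul_eq_mul, D.eig]
  rw [Finset.mul_sum]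
  exact Finset.sum_congr rfl fun i _ => by ring

theorem PertData.norm_prj (D : PertData ip q w φ e0 g c C) :
    ∃ K : ℝ, 0 < K ∧ ∀ u, ‖prj ip φ u‖ ^ 2 ≤ K * ip (prj ip φ u) (prj ip φ u) := by
  refine ⟨(|e0| + C) / c + 1, by have := D.cpos; have := D.Cnonneg; positivity, fun u => ?_⟩
  have h1 := D.garding (prj ip φ u)
  rw [D.q_prj] at h1
  have h2 := D.pip (prj ip φ u)
  have hc := D.cpos
  have h3 : e0 * ip (prj ip φ u) (prj ip φ u) ≤ |e0| * ip (prj ip φ u) (prj ip φ u) :=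
    mul_le_mul_of_nonneg_right (le_abs_self _) h2
  have h4 : ‖prj ip φ u‖ ^ 2 ≤ (|e0| + C) / c * ip (prj ip φ u) (prj ip φ u) := by
    rw [div_mul_eq_mul_div, le_div_iff₀ hc]
    linarith
  linarith only [h2, h4]

/-- The core inequality of degenerate perturbation theory. -/
theorem PertData.core (D : PertData ip q w φ e0 g c C) :
    ∃ c1 C1 ε1 : ℝ, 0 < c1 ∧ 0 ≤ C1 ∧ 0 < ε1 ∧ ∀ ε, 0 < ε → ε ≤ ε1 → ∀ u,
      e0 * ip u u + ε * w (prj ip φ u) (prj ip φ u) + c1 * ‖u - prj ip φ u‖ ^ 2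
        ≤ (q + ε • w) u u + C1 * ε ^ 2 * ip (prj ip φ u) (prj ip φ u) := by
  obtain ⟨K, hK, hKp⟩ := D.norm_prj
  have hc := D.cpos
  have hC := D.Cnonneg
  have hg := D.gpos
  set B : ℝ := ‖w‖ with hB
  have hB0 : 0 ≤ B := norm_nonneg w
  set θ : ℝ := g / (g + C + |e0|) with hθ
  have hθ0 : 0 < θ := by positivity
  have hden : 0 < g + C + |e0| := by positivity
  set c2 : ℝ := θ * c with hc2
  have hc20 : 0 < c2 := by positivity
  refine ⟨c2 / 2, 4 * B ^ 2 / c2 * K, c2 / (4 * (B + 1)), by positivity, by (clear * - hg hC hc hK; positivity),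
    by positivity, ?_⟩
  intro ε hε hε1 u
  set a : Q := prj ip φ u with ha
  set k : Q := u - a with hk
  have hu : u = a + k := by rw [hk]; abel
  have hipak : ip a k = 0 := ip_prj_rest D.ortho u u
  have hqak : q a k = 0 := by rw [ha, D.q_prj, ← ha, hipak, mul_zero]
  have hqa : q a a = e0 * ip a a := by rw [ha, D.q_prj]
  -- the rest
  have hk1 : (e0 + g) * ip k k ≤ q k k := D.gap k fun i => ip_rest D.ortho i u
  have hk2 := D.garding k
  have hipk := D.pip k
  have hk3 : e0 * ip k k + c2 * ‖k‖ ^ 2 ≤ q k k := by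
    have hθ1 : θ ≤ 1 := by
      rw [hθ, div_le_one hden]
      have := abs_nonneg e0
      linarith only [hC, this]
    have h1 : θ * (c * ‖k‖ ^ 2) ≤ θ * (q k k + C * ip k k) :=
      mul_le_mul_of_nonneg_left hk2 hθ0.le
    have h2 : (1 - θ) * ((e0 + g) * ip k k) ≤ (1 - θ) * q k k :=
      mul_le_mul_of_nonneg_left hk1 (by linarith only [hθ1])
    have h3 : θ * (g + C + |e0|) = g := by rw [hθ]; (clear * - hg hC; field_simp)
    have h4 : e0 ≤ |e0| := le_abs_self e0
    have h5 : 0 ≤ (1 - θ) * g - θ * C - θ * |e0| := by nlinarith only [h3]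
    have h6 : 0 ≤ ((1 - θ) * g - θ * C - θ * |e0|) * ip k k := mul_nonneg h5 hipk
    have h7 : 0 ≤ θ * (|e0| - e0) * ip k k :=
      mul_nonneg (mul_nonneg hθ0.le (by linarith only [h4])) hipk
    rw [hc2]
    linarith
  -- expansions
  have hip : ip u u = ip a a + ip k k := by
    rw [hu, bf_add ip D.sip, hipak]; ring
  have hq : q u u = q a a + q k k := by
    rw [hu, bf_add q D.sq, hqak]; ring
  have hw : w u u = w a a + 2 * w a k + w k k := by
    rw [hu, bf_add w D.sw]
  have hqe : (q + ε • w) u u = q u u + ε * w u u := by simp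
  have hwak : |w a k| ≤ B * ‖a‖ * ‖k‖ := bf_le_norm w a k
  have hwkk : |w k k| ≤ B * ‖k‖ * ‖k‖ := bf_le_norm w k k
  have h1 : -(c2 / 4 * ‖k‖ ^ 2) ≤ ε * w k k := by
    have h2 : ε * (B * ‖k‖ * ‖k‖) ≤ c2 / 4 * ‖k‖ ^ 2 := by
      have h3 : ε * B ≤ c2 / 4 := by
        calc ε * B ≤ c2 / (4 * (B + 1)) * (B + 1) :=
              mul_le_mul hε1 (by linarith only []) hB0 (by (clear * - hg hC hc; (clear * - hg hC hc; positivity)))
          _ = c2 / 4 := by (clear * - hB0 hc20; field_simp)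
      calc ε * (B * ‖k‖ * ‖k‖) = (ε * B) * ‖k‖ ^ 2 := by ring
        _ ≤ c2 / 4 * ‖k‖ ^ 2 := mul_le_mul_of_nonneg_right h3 (by (clear * -; positivity))
    have h3 := (abs_le.1 hwkk).1
    have h4 := mul_le_mul_of_nonneg_left h3 hε.le
    linarith only [h2, h4]
  have h2 : -(c2 / 4 * ‖k‖ ^ 2) - 4 * B ^ 2 / c2 * K * ε ^ 2 * ip a a ≤ ε * (2 * w a k) := by
    have h3 := (abs_le.1 hwak).1
    have h4 := mul_le_mul_of_nonneg_left h3 hε.le
    have h5 : 2 * ε * B * ‖a‖ * ‖k‖ ≤ c2 / 4 * ‖k‖ ^ 2 + 4 * B ^ 2 / c2 * ε ^ 2 * ‖a‖ ^ 2 := by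
      have h6 : 0 ≤ (c2 / 2 * ‖k‖ - 2 * B * ε * ‖a‖) ^ 2 / c2 := by (clear * - hg hC hc; positivity)
      have h7 : (c2 / 2 * ‖k‖ - 2 * B * ε * ‖a‖) ^ 2 / c2
          = c2 / 4 * ‖k‖ ^ 2 - 2 * ε * B * ‖a‖ * ‖k‖ + 4 * B ^ 2 / c2 * ε ^ 2 * ‖a‖ ^ 2 := by
        field_simp
        ring
      linarith only [h6, h7]
    have h8 : 4 * B ^ 2 / c2 * ε ^ 2 * ‖a‖ ^ 2 ≤ 4 * B ^ 2 / c2 * ε ^ 2 * (K * ip a a) :=
      mul_le_mul_of_nonneg_left (hKp u) (by (clear * - hg hC hc hε; (clear * - hg hC hc hε; positivity)))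
    linarith only [h4, h5, h8]
  rw [hqe, hip, hq, hw, hqa]
  linarith only [hk3, h1, h2]

/-- the situation of the perturbation theorem for a fixed small parameter -/
structure PC (ip qe w : BF Q) (φ : ι → Q) (ψ0 : Q) (e0 w0 δ ε c1 C1 Bi Kp : ℝ) : Prop where
  sip : SymF ip
  pip : NonnegF ip
  sq : SymF qe
  ortho : OrthoF ip φ
  hψ0 : prj ip φ ψ0 = ψ0
  hψ1 : ip ψ0 ψ0 = 1
  hψe : qe ψ0 ψ0 = e0 + ε * w0
  hw : ∀ a, prj ip φ a = a → w0 * ip a a + δ * (ip a a - (ip ψ0 a) ^ 2) ≤ w a a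
  εpos : 0 < ε
  εle : ε ≤ 1
  δpos : 0 < δ
  c1pos : 0 < c1
  C1nn : 0 ≤ C1
  Binn : 0 ≤ Bi
  Kpp : 0 < Kp
  hipb : ∀ u, ip u u ≤ (Bi + 1) * ‖u‖ ^ 2
  hKp : ∀ u, ‖prj ip φ u‖ ^ 2 ≤ Kp * ip (prj ip φ u) (prj ip φ u)
  hP : ∀ u, e0 * ip u u + ε * w (prj ip φ u) (prj ip φ u) + c1 * ‖u - prj ip φ u‖ ^ 2
        ≤ qe u u + C1 * ε ^ 2 * ip (prj ip φ u) (prj ip φ u)
  hw0δ : ∀ k, ε * ((|w0| + δ) * ip k k) ≤ c1 / 2 * ‖k‖ ^ 2

section PC

variable {qe : BF Q} {ψ0 : Q} {w0 δ ε c1 C1 Bi Kp : ℝ}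

theorem PC.w0k (P : PC ip qe w φ ψ0 e0 w0 δ ε c1 C1 Bi Kp) (k : Q) :
    ε * w0 * ip k k ≤ c1 / 2 * ‖k‖ ^ 2 := by
  have h1 := P.hw0δ k
  have h2 : 0 ≤ ε * (δ * ip k k) := mul_nonneg P.εpos.le (mul_nonneg P.δpos.le (P.pip k))
  have h3 : ε * w0 * ip k k ≤ ε * (|w0| * ip k k) := by
    rw [mul_assoc]
    exact mul_le_mul_of_nonneg_left
      (mul_le_mul_of_nonneg_right (le_abs_self _) (P.pip k)) P.εpos.le
  linarith

theorem PC.exist [CompleteSpace Q] (P : PC ip qe w φ ψ0 e0 w0 δ ε c1 C1 Bi Kp) {c C : ℝ}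
    (hc : 0 < c) (hG : ∀ u, c * ‖u‖ ^ 2 ≤ qe u u + C * ip u u) :
    ∃ (u : Q) (E : ℝ), ip u u = 1 ∧ E = qe u u ∧ (∀ v, E * ip v v ≤ qe v v) ∧ 0 ≤ ip ψ0 u := by
  have hc1 := P.c1pos
  have hBi := P.Binn
  obtain ⟨u', hu'1, hu'2⟩ : ∃ u, ip u u = 1 ∧ ∀ v, qe u u * ip v v ≤ qe v v := by
    refine exists_minimizer (c := c) (C := C) (E := e0 + ε * w0) (g := c1 / (2 * (Bi + 1)))
      P.sip P.pip P.sq P.ortho hc hG (by positivity) ⟨ψ0, P.hψ1, P.hψe.le⟩ ?_
    intro u hu
    have h1 := P.hP u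
    have h0 : prj ip φ u = 0 := by
      unfold prj
      simp only [hu, zero_smul, Finset.sum_const_zero]
    rw [h0] at h1
    simp only [map_zero, mul_zero, sub_zero, add_zero] at h1
    have h2 := P.w0k u
    have h3 : c1 / (2 * (Bi + 1)) * ip u u ≤ c1 / 2 * ‖u‖ ^ 2 := by
      calc c1 / (2 * (Bi + 1)) * ip u u ≤ c1 / (2 * (Bi + 1)) * ((Bi + 1) * ‖u‖ ^ 2) :=
            mul_le_mul_of_nonneg_left (P.hipb u) (by positivity)
        _ = c1 / 2 * ‖u‖ ^ 2 := by field_simp
    linarith only [h1, h2, h3]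
  rcases le_total 0 (ip ψ0 u') with h | h
  · exact ⟨u', _, hu'1, rfl, hu'2, h⟩
  · refine ⟨-u', qe (-u') (-u'), ?_, rfl, ?_, ?_⟩
    · simp only [map_neg, neg_apply, hu'1, neg_neg]
    · intro v
      have := hu'2 v
      simpa only [map_neg, neg_apply, neg_neg, ge_iff_le] using this
    · simp only [map_neg, Left.nonneg_neg_iff, h]

theorem euler_lagrange {q' : BF Q} (hs : SymF ip) (hq : SymF q') {u : Q} {E : ℝ}
    (hu : ip u u = 1) (hE : E = q' u u) (hmin : ∀ v, E * ip v v ≤ q' v v) (v : Q) :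
    q' u v = E * ip u v := by
  obtain ⟨b, hb⟩ : ∃ b : BF Q, b = q' - E • ip := ⟨_, rfl⟩
  have hbe : ∀ x y, b x y = q' x y - E * ip x y := fun x y => by simp [hb]
  have hbs : SymF b := fun x y => by rw [hbe, hbe, hq x y, hs x y]
  have hbn : NonnegF b := fun x => by rw [hbe]; linarith only [hmin x]
  have h1 := bf_cs hbs hbn u v
  have h2 : b u u = 0 := by rw [hbe, hu, ← hE]; ring
  rw [h2, zero_mul] at h1
  have h3 : b u v = 0 := by
    have := sq_nonneg (b u v)
    exact pow_eq_zero_iff (two_ne_zero) |>.1 (le_antisymm h1 this)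
  rw [hbe] at h3
  linarith only [h3]

theorem PC.psi_prj (P : PC ip qe w φ ψ0 e0 w0 δ ε c1 C1 Bi Kp) (v : Q) :
    ip ψ0 (prj ip φ v) = ip ψ0 v := by
  have h := ip_prj_rest (ip := ip) (φ := φ) P.ortho ψ0 v
  rw [P.hψ0, map_sub] at h
  linarith

theorem prj_prj (hφ : OrthoF ip φ) (v : Q) : prj ip φ (prj ip φ v) = prj ip φ v := by
  conv_lhs => unfold prj
  conv_rhs => unfold prj
  refine Finset.sum_congr rfl fun i _ => ?_
  rw [show (∑ i, ip (φ i) v • φ i) = prj ip φ v from rfl, ip_prj hφ]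

theorem PC.estim (P : PC ip qe w φ ψ0 e0 w0 δ ε c1 C1 Bi Kp) {u : Q} {E : ℝ} (hu : ip u u = 1)
    (hE : E = qe u u) :
    ε * δ * (ip (prj ip φ u) (prj ip φ u) - (ip ψ0 u) ^ 2) + c1 / 2 * ‖u - prj ip φ u‖ ^ 2
      ≤ (E - (e0 + ε * w0)) + C1 * ε ^ 2 := by
  obtain ⟨a, ha⟩ : ∃ a, a = prj ip φ u := ⟨_, rfl⟩
  obtain ⟨k, hk⟩ : ∃ k, k = u - a := ⟨_, rfl⟩
  have h1 := P.hP u
  have h2 := P.hw (prj ip φ u) (prj_prj P.ortho u)
  have hdec := ip_decomp P.sip P.ortho u
  rw [P.psi_prj] at h2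
  rw [← ha, ← hk] at h1 hdec ⊢
  rw [← ha] at h2
  rw [hu] at h1 hdec
  rw [← hE] at h1
  have hε := P.εpos
  have hC1 := P.C1nn
  have hkk := P.pip k
  have h3 := mul_le_mul_of_nonneg_left h2 hε.le
  have h5 := P.w0k k
  have h6 : C1 * ε ^ 2 * ip a a ≤ C1 * ε ^ 2 :=
    mul_le_of_le_one_right (by (clear * - hC1 hε; positivity)) (by linarith only [hdec, hkk])
  have h7 : ip a a = 1 - ip k k := by linarith only [hdec]
  have h8 : ε * (w0 * ip a a + δ * (ip a a - (ip ψ0 u) ^ 2))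
      = ε * w0 - ε * w0 * ip k k + ε * δ * (ip a a - (ip ψ0 u) ^ 2) := by
    rw [h7]; ring
  linarith only [h1, h3, h5, h6, h8]

theorem PC.closeness (P : PC ip qe w φ ψ0 e0 w0 δ ε c1 C1 Bi Kp) {u : Q} {E : ℝ}
    (hu : ip u u = 1) (hE : E = qe u u) (hEub : E ≤ e0 + ε * w0) (hp0 : 0 ≤ ip ψ0 u) :
    ‖u - ψ0‖ ^ 2 ≤ (4 * Kp * ((Bi + 1) * (2 * C1 / c1) + C1 / δ) + 4 * C1 / c1) * ε := by
  have hmain := P.estim hu hE
  have hc1 := P.c1pos
  have hC1 := P.C1nn
  have hBi := P.Binn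
  have hδ := P.δpos
  have hε := P.εpos
  have hεle := P.εle
  have hKp := P.Kpp
  have hdec := ip_decomp P.sip P.ortho u
  have hcs := bf_cs P.sip P.pip ψ0 (prj ip φ u)
  rw [P.hψ1, one_mul, P.psi_prj] at hcs
  have hkk := P.pip (u - prj ip φ u)
  have hkb := P.hipb (u - prj ip φ u)
  have h3 : prj ip φ (prj ip φ u - ψ0) = prj ip φ u - ψ0 := by
    have h4 : prj ip φ (prj ip φ u - ψ0) = prj ip φ (prj ip φ u) - prj ip φ ψ0 := by
      unfold prj
      rw [← Finset.sum_sub_distrib]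
      refine Finset.sum_congr rfl fun i _ => ?_
      rw [map_sub, sub_smul]
    rw [h4, P.hψ0, prj_prj P.ortho]
  have h5 := P.hKp (prj ip φ u - ψ0)
  rw [h3] at h5
  have h6 : ip (prj ip φ u - ψ0) (prj ip φ u - ψ0)
      = ip (prj ip φ u) (prj ip φ u) - 2 * ip ψ0 u + 1 := by
    rw [bf_sub ip P.sip, P.hψ1, P.sip _ ψ0, P.psi_prj]
  have hn : ‖u - ψ0‖ ^ 2 ≤ 2 * ‖prj ip φ u - ψ0‖ ^ 2 + 2 * ‖u - prj ip φ u‖ ^ 2 := by
    have h1 : u - ψ0 = (prj ip φ u - ψ0) + (u - prj ip φ u) := by abel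
    have h3 := norm_add_le (prj ip φ u - ψ0) (u - prj ip φ u)
    rw [← h1] at h3
    have h4 := norm_nonneg (u - ψ0)
    linarith only [mul_nonneg (sub_nonneg.2 h3) (sub_nonneg.2 h4), mul_nonneg (sub_nonneg.2 h3) (sub_nonneg.2 h3), sq_nonneg (‖prj ip φ u - ψ0‖ - ‖u - prj ip φ u‖)]
  rw [h6] at h5
  rw [hu] at hdec
  -- generalize
  generalize ip (prj ip φ u) (prj ip φ u) = α at *
  generalize ip (u - prj ip φ u) (u - prj ip φ u) = κ at *
  generalize ip ψ0 u = p at *
  generalize ‖u - prj ip φ u‖ ^ 2 = X at *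
  generalize ‖prj ip φ u - ψ0‖ ^ 2 = Y at *
  generalize ‖u - ψ0‖ ^ 2 = T at *
  clear h3
  have hε2 : ε ^ 2 ≤ ε := by nlinarith only [hε, hεle]
  have hX0 : 0 ≤ X := by nlinarith only [hkk, hkb, hBi]
  have hX : X ≤ 2 * C1 / c1 * ε ^ 2 := by
    have h1 : 0 ≤ ε * δ * (α - p ^ 2) := mul_nonneg (by positivity) (by linarith only [hcs])
    have h2 : c1 / 2 * X ≤ C1 * ε ^ 2 := by linarith only [hEub, hmain, h1]
    rw [div_mul_eq_mul_div, le_div_iff₀ hc1]
    linarith only [hEub, hmain, h1]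
  have hα : α - p ^ 2 ≤ C1 / δ * ε := by
    have h2 : 0 ≤ c1 / 2 * X := by (clear * - hc1 hX0; positivity)
    have h3 : ε * δ * (α - p ^ 2) ≤ C1 * ε ^ 2 := by linarith only [hEub, hmain, h2]
    rw [div_mul_eq_mul_div, le_div_iff₀ hδ]
    have h4 : ε * ((α - p ^ 2) * δ) ≤ ε * (C1 * ε) := by linarith only [hEub, hmain, h2]
    exact le_of_mul_le_mul_left h4 hε
  have hκ : κ ≤ (Bi + 1) * (2 * C1 / c1) * ε := by
    calc κ ≤ (Bi + 1) * X := hkb
      _ ≤ (Bi + 1) * (2 * C1 / c1 * ε ^ 2) := by (clear * - hX hBi; gcongr)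
      _ ≤ (Bi + 1) * (2 * C1 / c1 * ε) := by (clear * - hε2 hC1 hc1 hBi; gcongr)
      _ = (Bi + 1) * (2 * C1 / c1) * ε := by ring
  obtain ⟨K0, hK0⟩ : ∃ K0, K0 = (Bi + 1) * (2 * C1 / c1) + C1 / δ := ⟨_, rfl⟩
  rw [← hK0]
  have h1p : 1 - p ^ 2 ≤ K0 * ε := by
    rw [hK0, add_mul]
    linarith only [hdec, hα, hκ]
  have hp1 : p ≤ 1 := by
    have : p ^ 2 ≤ 1 := by linarith only [hkk, hdec, hcs]
    nlinarith only [hkk, hdec, hcs]
  have h6 : α - 2 * p + 1 ≤ 2 * (K0 * ε) := by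
    have : 1 - p ≤ 1 - p ^ 2 := by nlinarith only [hp0, hp1]
    linarith only [hkk, hdec, h1p, this]
  have h7 : Y ≤ Kp * (2 * (K0 * ε)) := h5.trans (mul_le_mul_of_nonneg_left h6 hKp.le)
  have h8 : 2 * C1 / c1 * ε ^ 2 ≤ 2 * C1 / c1 * ε := by (clear * - hε2 hC1 hc1; gcongr)
  have h9 : (4 * Kp * K0 + 4 * C1 / c1) * ε
      = 2 * (Kp * (2 * (K0 * ε))) + 2 * (2 * C1 / c1 * ε) := by ring
  rw [h9]
  linarith only [h8, h7, hX, hn]

theorem PC.gap0 (P : PC ip qe w φ ψ0 e0 w0 δ ε c1 C1 Bi Kp) {u : Q} {E K : ℝ} (_hK : 0 ≤ K)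
    (hEub : E ≤ e0 + ε * w0) (hnorm : ‖u - ψ0‖ ^ 2 ≤ K * ε)
    (hs3 : (δ * (Bi + 1) * K + C1) * ε ≤ δ / 2) {v : Q} (hv : ip u v = 0) :
    (E + ε * (δ / 2)) * ip v v ≤ qe v v := by
  have hc1 := P.c1pos
  have hC1 := P.C1nn
  have hBi := P.Binn
  have hδ := P.δpos
  have hε := P.εpos
  have h1 := P.hP v
  have h2 := P.hw _ (prj_prj P.ortho v)
  have hvd := ip_decomp P.sip P.ortho v
  have hkv0 := P.pip (v - prj ip φ v)
  have hav0 := P.pip (prj ip φ v)
  have hvv := P.pip v
  have h3 : (ip ψ0 v) ^ 2 ≤ (Bi + 1) * (K * ε) * ip v v := by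
    have h4 : ip ψ0 v = ip (ψ0 - u) v := by
      rw [map_sub, sub_apply, hv, sub_zero]
    rw [h4]
    have h5 := bf_cs P.sip P.pip (ψ0 - u) v
    have h6 : ip (ψ0 - u) (ψ0 - u) ≤ (Bi + 1) * (K * ε) := by
      refine (P.hipb _).trans ?_
      rw [norm_sub_rev]
      (clear * - hnorm hBi; gcongr)
    exact h5.trans (mul_le_mul_of_nonneg_right h6 hvv)
  rw [P.psi_prj] at h2
  have h5 := P.hw0δ (v - prj ip φ v)
  generalize ip (prj ip φ v) (prj ip φ v) = α at *
  generalize ip (v - prj ip φ v) (v - prj ip φ v) = κ at *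
  generalize ip v v = β at *
  generalize ip ψ0 v = p at *
  generalize w (prj ip φ v) (prj ip φ v) = ω at *
  have hX0 : 0 ≤ ‖v - prj ip φ v‖ ^ 2 := sq_nonneg _
  generalize ‖v - prj ip φ v‖ ^ 2 = X at *
  generalize qe v v = T at *
  have h4 := mul_le_mul_of_nonneg_left h2 hε.le
  have h6 : ε * w0 * κ ≤ ε * (|w0| * κ) := by
    rw [mul_assoc]
    exact mul_le_mul_of_nonneg_left (mul_le_mul_of_nonneg_right (le_abs_self _) hkv0) hε.le
  have h7 : C1 * ε ^ 2 * α ≤ C1 * ε ^ 2 * β := by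
    apply mul_le_mul_of_nonneg_left _ (by positivity)
    linarith only [hkv0, hvd]
  have h8 : ε * δ * p ^ 2 ≤ ε * δ * ((Bi + 1) * (K * ε) * β) :=
    mul_le_mul_of_nonneg_left h3 (by positivity)
  have h10 : (E - (e0 + ε * w0)) * β ≤ 0 := mul_nonpos_of_nonpos_of_nonneg (by linarith only [hEub]) hvv
  have h11 : (δ * (Bi + 1) * K + C1) * ε * (ε * β) ≤ δ / 2 * (ε * β) :=
    mul_le_mul_of_nonneg_right hs3 (by positivity)
  have h14 : ε * (w0 * α + δ * (α - p ^ 2))
      = ε * w0 * β + ε * δ * β - ε * w0 * κ - ε * δ * κ - ε * δ * p ^ 2 := by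
    have : α = β - κ := by linarith only [hvd]
    rw [this]; ring
  have h16 : c1 / 2 * X ≤ c1 * X := by
    have : 0 ≤ c1 * X := by positivity
    linarith only [this]
  have e1 : (δ * (Bi + 1) * K + C1) * ε * (ε * β)
      = ε * δ * ((Bi + 1) * (K * ε) * β) + C1 * ε ^ 2 * β := by ring
  have e2 : ε * ((|w0| + δ) * κ) = ε * (|w0| * κ) + ε * δ * κ := by ring
  have e3 : (E - (e0 + ε * w0)) * β = E * β - e0 * β - ε * w0 * β := by ring
  have e4 : (E + ε * (δ / 2)) * β = E * β + δ / 2 * (ε * β) := by ring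
  have e5 : ε * δ * β = δ / 2 * (ε * β) + δ / 2 * (ε * β) := by ring
  rw [e4]
  linarith only [h16, h14, h11, h10, h8, h7, h6, h4, h1, h5]

end PC

theorem gap_all {q' : BF Q} (hs : SymF ip) (hq : SymF q') {u : Q} {E γ : ℝ}
    (hu : ip u u = 1) (hE : E = q' u u) (hEL : ∀ v, q' u v = E * ip u v)
    (hgap : ∀ v, ip u v = 0 → (E + γ) * ip v v ≤ q' v v) (v : Q) :
    E * ip v v + γ * (ip v v - (ip u v) ^ 2) ≤ q' v v := by
  obtain ⟨r, hr⟩ : ∃ r : ℝ, r = ip u v := ⟨_, rfl⟩
  obtain ⟨v', hv'⟩ : ∃ v', v' = v - r • u := ⟨_, rfl⟩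
  have hv : v = r • u + v' := by rw [hv']; abel
  have h1 : ip u v' = 0 := by
    rw [hv', map_sub, map_smul, hu, ← hr]; simp
  have h2 : q' u v' = 0 := by rw [hEL, h1, mul_zero]
  have h3 := hgap v' h1
  have h4 : ip v v = r ^ 2 + ip v' v' := by
    conv_lhs => rw [hv]
    rw [bf_add ip hs, bf_smul, hu]
    simp [h1]
  have h5 : q' v v = r ^ 2 * E + q' v' v' := by
    conv_lhs => rw [hv]
    rw [bf_add q' hq, bf_smul, ← hE]
    simp only [map_smul, smul_apply, h2, smul_eq_mul, mul_zero, add_zero]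
  rw [← hr, h4, h5]
  linarith only [h3]

/-- Degenerate perturbation theory: minimizers, their limits, and the gap. -/
theorem PertData.main [CompleteSpace Q] (D : PertData ip q w φ e0 g c C) {ψ0 : Q}
    (hψ0 : prj ip φ ψ0 = ψ0) (hψ1 : ip ψ0 ψ0 = 1) {w0 δ : ℝ} (hδ : 0 < δ)
    (hw0 : w ψ0 ψ0 = w0)
    (hw : ∀ a, prj ip φ a = a → w0 * ip a a + δ * (ip a a - (ip ψ0 a) ^ 2) ≤ w a a) :
    ∃ ε1 K : ℝ, 0 < ε1 ∧ 0 ≤ K ∧ ∀ ε, 0 < ε → ε ≤ ε1 → ∃ (u : Q) (E : ℝ), ip u u = 1 ∧
      0 ≤ ip ψ0 u ∧ ‖u - ψ0‖ ^ 2 ≤ K * ε ∧ (∀ v, (q + ε • w) u v = E * ip u v) ∧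
      |E - (e0 + ε * w0)| ≤ K * ε ^ 2 ∧
      ∀ v, E * ip v v + ε * (δ / 2) * (ip v v - (ip u v) ^ 2) ≤ (q + ε • w) v v := by
  obtain ⟨c1, C1, ε1, hc1, hC1, hε1, hcore⟩ := D.core
  obtain ⟨Kp, hKp0, hKp⟩ := D.norm_prj
  obtain ⟨Bi, hBi⟩ : ∃ Bi : ℝ, Bi = ‖ip‖ := ⟨_, rfl⟩
  have hBi0 : 0 ≤ Bi := by rw [hBi]; exact norm_nonneg ip
  have hipb : ∀ u, ip u u ≤ (Bi + 1) * ‖u‖ ^ 2 := fun u => by
    have h1 := (le_abs_self _).trans (bf_le_norm ip u u)
    have h2 : ‖ip‖ * ‖u‖ * ‖u‖ = Bi * ‖u‖ ^ 2 := by rw [hBi]; ring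
    rw [h2] at h1
    have := sq_nonneg ‖u‖
    linarith
  obtain ⟨K1, hK1⟩ : ∃ K1, K1 = 4 * Kp * ((Bi + 1) * (2 * C1 / c1) + C1 / δ) + 4 * C1 / c1 :=
    ⟨_, rfl⟩
  have hK10 : 0 ≤ K1 := by rw [hK1]; (clear * - hKp0 hBi0 hC1 hc1 hδ; positivity)
  obtain ⟨B, hB⟩ : ∃ B : ℝ, B = ‖w‖ := ⟨_, rfl⟩
  have hB0 : 0 ≤ B := by rw [hB]; exact norm_nonneg w
  have hc := D.cpos
  obtain ⟨C4, hC4⟩ : ∃ C4, C4 = δ * (Bi + 1) * K1 + C1 := ⟨_, rfl⟩
  have hC40 : 0 ≤ C4 := by rw [hC4]; (clear * - hδ hBi0 hK10 hC1; positivity)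
  refine ⟨min 1 (min (min ε1 (c1 / (2 * (Bi + 1) * (|w0| + δ + 1))))
    (min (c / (2 * (B + 1))) (δ / (2 * (C4 + 1))))), K1 + C1, by (clear * - hε1 hc1 hBi0 hδ hc hB0 hC40; positivity), by (clear * - hK10 hC1; positivity), ?_⟩
  intro ε hε hεle
  have hεle1 : ε ≤ 1 := hεle.trans (min_le_left _ _)
  have hεa : ε ≤ ε1 := hεle.trans ((min_le_right _ _).trans ((min_le_left _ _).trans
    (min_le_left _ _)))
  have hεb : ε ≤ c1 / (2 * (Bi + 1) * (|w0| + δ + 1)) :=
    hεle.trans ((min_le_right _ _).trans ((min_le_left _ _).trans (min_le_right _ _)))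
  have hεc : ε ≤ c / (2 * (B + 1)) := hεle.trans ((min_le_right _ _).trans
    ((min_le_right _ _).trans (min_le_left _ _)))
  have hεd : ε ≤ δ / (2 * (C4 + 1)) := hεle.trans ((min_le_right _ _).trans
    ((min_le_right _ _).trans (min_le_right _ _)))
  obtain ⟨qe, hqe⟩ : ∃ qe : BF Q, qe = q + ε • w := ⟨_, rfl⟩
  have hqeu : ∀ u v, qe u v = q u v + ε * w u v := fun u v => by simp [hqe]
  have hqes : SymF qe := fun u v => by rw [hqeu, hqeu, D.sq u v, D.sw u v]
  have hs1 : ε * ((|w0| + δ) * (Bi + 1)) ≤ c1 / 2 := by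
    have h1 : ε * (2 * (Bi + 1) * (|w0| + δ + 1)) ≤ c1 := by
      rw [le_div_iff₀ (by (clear * - hBi0 hδ; positivity))] at hεb
      exact hεb
    have h2 : 0 ≤ ε * (Bi + 1) := by positivity
    linarith only [h2, h1]
  have hs2 : ε * B ≤ c / 2 := by
    rw [le_div_iff₀ (by positivity)] at hεc
    nlinarith only [hε, hεc]
  have hs3 : C4 * ε ≤ δ / 2 := by
    rw [le_div_iff₀ (by positivity)] at hεd
    nlinarith only [hε, hεd]
  have hP : PC ip qe w φ ψ0 e0 w0 δ ε c1 C1 Bi Kp :=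
    { sip := D.sip
      pip := D.pip
      sq := hqes
      ortho := D.ortho
      hψ0 := hψ0
      hψ1 := hψ1
      hψe := by
        rw [hqeu, hw0]
        have : q ψ0 ψ0 = e0 := by
          have h1 := D.q_prj ψ0 ψ0
          rw [hψ0, hψ1] at h1
          linarith only [h1]
        rw [this]
      hw := hw
      εpos := hε
      εle := hεle1
      δpos := hδ
      c1pos := hc1
      C1nn := hC1
      Binn := hBi0
      Kpp := hKp0
      hipb := hipb
      hKp := hKp
      hP := by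
        intro u
        rw [hqe]
        exact hcore ε hε hεa u
      hw0δ := fun k => by
        calc ε * ((|w0| + δ) * ip k k) ≤ ε * ((|w0| + δ) * ((Bi + 1) * ‖k‖ ^ 2)) := by
              gcongr
              exact hipb k
          _ = ε * ((|w0| + δ) * (Bi + 1)) * ‖k‖ ^ 2 := by ring
          _ ≤ c1 / 2 * ‖k‖ ^ 2 := mul_le_mul_of_nonneg_right hs1 (sq_nonneg _) }
  obtain ⟨u, E, hu1, hE, hmin, hu0⟩ := hP.exist (c := c / 2) (C := C) (by positivity) (by
    intro u
    have h1 := D.garding u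
    have h2 := (abs_le.1 (bf_le_norm w u u)).1
    rw [← hB] at h2
    have h3 : ε * (B * ‖u‖ * ‖u‖) ≤ c / 2 * ‖u‖ ^ 2 := by
      calc ε * (B * ‖u‖ * ‖u‖) = (ε * B) * ‖u‖ ^ 2 := by ring
        _ ≤ c / 2 * ‖u‖ ^ 2 := mul_le_mul_of_nonneg_right hs2 (sq_nonneg _)
    have h4 := mul_le_mul_of_nonneg_left h2 hε.le
    rw [hqeu]
    linarith only [h1, h3, h4])
  have hEub : E ≤ e0 + ε * w0 := by
    have := hmin ψ0
    rw [hψ1, hP.hψe, mul_one] at this
    exact this
  have hEL := euler_lagrange D.sip hqes hu1 hE hmin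
  have hn := hP.closeness hu1 hE hEub hu0
  rw [← hK1] at hn
  have hest := hP.estim hu1 hE
  have hElb : -(C1 * ε ^ 2) ≤ E - (e0 + ε * w0) := by
    have hcs := bf_cs D.sip D.pip ψ0 (prj ip φ u)
    rw [hψ1, one_mul, hP.psi_prj] at hcs
    have h1 : 0 ≤ ε * δ * (ip (prj ip φ u) (prj ip φ u) - (ip ψ0 u) ^ 2) :=
      mul_nonneg (by positivity) (by linarith only [hcs])
    have h2 : 0 ≤ c1 / 2 * ‖u - prj ip φ u‖ ^ 2 := by (clear * - hc1; positivity)
    linarith only [hest, h1, h2]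
  have hg := gap_all (γ := ε * (δ / 2)) D.sip hqes hu1 hE hEL fun v hv =>
    hP.gap0 hK10 hEub hn (by rw [← hC4]; exact hs3) hv
  rw [← hqe]
  refine ⟨u, E, hu1, hu0, ?_, hEL, ?_, hg⟩
  · refine hn.trans ?_
    have : 0 ≤ C1 * ε := by (clear * - hC1 hε; positivity)
    linarith only [this]
  · have h1 : 0 ≤ K1 * ε ^ 2 := by (clear * - hK10 hε; positivity)
    have h2 : 0 ≤ C1 * ε ^ 2 := by (clear * - hC1 hε; positivity)
    rw [abs_le]
    constructor <;> linarith only [hElb, h1, hEub]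

end pert

end Vale.Agent.P363.D
end
end
end

section

section

/-!
# P363, disproof: generic definitions (Laplacian, mollification)
-/

namespace Vale.Agent.P363.D

open MeasureTheory Set Filter Topology
open scoped ENNReal ContDiff

noncomputable section

/-- `k`-th partial derivative on `ℝ³`. -/
def pdv (k : Fin 3) (f : R3 → ℝ) (x : R3) : ℝ := fderiv ℝ f x (dir3 k)

/-- The Laplacian on `ℝ³`. -/
def lap (f : R3 → ℝ) (x : R3) : ℝ := ∑ k, pdv k (pdv k f) x

end

end Vale.Agent.P363.D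
end
end

section

section

/-!
# P363, block X: interface between the many-body identities (E0) and the scalar analysis (E1-E3)
-/

namespace Vale.Agent.P363.D

open MeasureTheory Set Filter Topology
open scoped ENNReal ContDiff

noncomputable section

/-- Bounded `H¹` test functions on `ℝ³` vanishing on the ball of radius `ρ`. -/
structure Test (ρ : ℝ) (h : R3 → ℝ) (hg : Fin 3 → R3 → ℝ) : Prop where
  H1 : H1o h hg
  bdd : ∃ B : ℝ, ∀ᵐ x : R3, |h x| ≤ B
  zero : ∀ᵐ x : R3, ‖x‖ ≤ ρ → h x = 0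

/-- Range of the parameters: decay rate `κ`, charge `q`, coupling `ε`. -/
structure Par (κ q ε : ℝ) : Prop where
  κl : 2 / 5 ≤ κ
  κu : κ ≤ 3 / 5
  ql : 1 / 2 ≤ q
  qu : q ≤ 3 / 2
  ε0 : 0 < ε
  ε1 : ε ≤ 1

/-- The scalar data of the exact side: `d` Dyson orbital, `s = √(∫ F(x,·)²)`, `p` norm of the
perpendicular part, `n = 4 s²` density, `D = ∇ n / 2`, `V` potential of the equation of `d`, `S`
its source, `TP` the (conditional) energy of the perpendicular part.  `C`, `ρ` do not depend on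
`ε`, `C'` does. -/
structure Scal (κ q ε δ C ρ C' : ℝ) (n : R3 → ℝ) (D : Fin 3 → R3 → ℝ)
    (d : R3 → ℝ) (dg : Fin 3 → R3 → ℝ) (s : R3 → ℝ) (sg : Fin 3 → R3 → ℝ)
    (p : R3 → ℝ) (pg : Fin 3 → R3 → ℝ) (V S TP : R3 → ℝ) : Prop where
  par : Par κ q ε
  C'_nonneg : 0 ≤ C'
  d_H1 : H1o d dg
  s_H1 : H1o s sg
  p_H1 : H1o p pg
  s_nonneg : ∀ x, 0 ≤ s x
  p_nonneg : ∀ x, 0 ≤ p x
  sq : ∀ᵐ x : R3, s x ^ 2 = d x ^ 2 + p x ^ 2
  s_norm : ∫ x, s x ^ 2 = 1
  d_odd : ∀ᵐ x : R3, d (refl 2 x) = - d x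
  n_nonneg : ∀ x, 0 ≤ n x
  n_eq : ∀ᵐ x : R3, n x = 4 * s x ^ 2
  n_int : Integrable n volume
  n_acl : ∀ k, ACL volume (dir3 k) n (fun x => 2 * D k x)
  D_int : ∀ k, Integrable (D k) volume
  D2_int : ∀ k, Integrable (fun x => D k x ^ 2 / n x) volume
  V_meas : Measurable V
  V_le : ∀ x : R3, ρ < ‖x‖ → |V x - (κ ^ 2 / 2 - q / ‖x‖)| ≤ ε * C / ‖x‖ ^ 2
  S_meas : AEStronglyMeasurable S volume
  S_le : ∀ᵐ x : R3, ρ < ‖x‖ → |S x| ≤ ε * C / ‖x‖ ^ 2 * p x
  /-- `-(1/2) Δ d + V d = S` outside the ball of radius `ρ` -/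
  d_eq : ∀ h hg, Test ρ h hg →
    (1 / 2) * (∑ k, ∫ x, dg k x * hg k x) + ∫ x, V x * d x * h x = ∫ x, S x * h x
  /-- `-(1/2) Δ p + (κ²/2 + ε δ - (q + 3 ε)/r - ε C/r²) p ≤ ε C/r² |d|` -/
  p_ineq : ∀ h hg, Test ρ h hg → (∀ᵐ x : R3, 0 ≤ h x) →
    (1 / 2) * (∑ k, ∫ x, pg k x * hg k x) +
      ∫ x, (κ ^ 2 / 2 + ε * δ - (q + 3 * ε) / ‖x‖ - ε * C / ‖x‖ ^ 2) * p x * h x ≤
      ∫ x, ε * C / ‖x‖ ^ 2 * |d x| * h x
  /-- `-(1/2) Δ s + (κ²/2 - q/r - ε C/r²) s ≤ 0` -/
  s_ineq : ∀ h hg, Test ρ h hg → (∀ᵐ x : R3, 0 ≤ h x) →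
    (1 / 2) * (∑ k, ∫ x, sg k x * hg k x) +
      ∫ x, (κ ^ 2 / 2 - q / ‖x‖ - ε * C / ‖x‖ ^ 2) * s x * h x ≤ 0
  TP_nonneg : ∀ x, 0 ≤ TP x
  TP_int : Integrable TP volume
  /-- Caccioppoli inequality for the perpendicular part -/
  cacc : ∀ χ : R3 → ℝ, ContDiff ℝ ∞ χ → HasCompactSupport χ → (∀ x, χ x ≠ 0 → ρ < ‖x‖) →
    ∫ x, χ x ^ 2 * TP x ≤ C' * (∫ x, (χ x ^ 2 + ∑ k, pdv k χ x ^ 2) * p x ^ 2) +
      C' * ∫ x, χ x ^ 2 / ‖x‖ ^ 4 * d x ^ 2
  /-- the energy identity tested with `g(x) F(x,y)` -/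
  energy : ∀ (g : R3 → ℝ) (gg : Fin 3 → R3 → ℝ), H1o g gg → (∀ᵐ x : R3, 0 ≤ g x) →
    (∃ B : ℝ, ∀ᵐ x : R3, g x ≤ B) → (∀ x : R3, ‖x‖ ≤ ρ → g x = 0) →
    (∀ᵐ x : R3, g x ≠ 0 → 0 < n x) → (∀ k, Integrable (fun x => gg k x ^ 2 * n x) volume) →
    -(1 / 2) * (∑ k, ∫ x, D k x * gg k x) - (1 / 2) * (∑ k, ∫ x, g x * (D k x ^ 2 / n x)) ≤
      ∫ x, g x * ((κ ^ 2 / 2 - q / ‖x‖ + C' / ‖x‖ ^ 2) * n x + C' * TP x +
        C' * ((∑ k, dg k x ^ 2) * p x ^ 2 / n x))

end

end Vale.Agent.P363.D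
end
end

section

section

/-! # P363, exact side: Hardy's inequality with the squared distance -/

namespace Vale.Agent.P363.D

open MeasureTheory Set Filter Topology
open scoped ENNReal ContDiff

noncomputable section

/-- Regularized vector field component. -/
def e5v (ε : ℝ) (k : Fin 3) (z : R3) : ℝ := z k / (‖z‖ ^ 2 + ε)

def e5v' (ε : ℝ) (k : Fin 3) (z : R3) : ℝ :=
  1 / (‖z‖ ^ 2 + ε) - 2 * (z k) ^ 2 / (‖z‖ ^ 2 + ε) ^ 2

lemma e5v_line {ε : ℝ} (hε : 0 < ε) (k : Fin 3) (z : R3) (t : ℝ) :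
    HasDerivAt (fun t : ℝ => e5v ε k (z + t • (EuclideanSpace.single k (1:ℝ) : R3)))
      (e5v' ε k (z + t • (EuclideanSpace.single k (1:ℝ) : R3))) t := by
  unfold e5v e5v'
  simp only [norm_add_single_sq]
  have hk : ∀ t : ℝ, (z + t • (EuclideanSpace.single k (1:ℝ) : R3)) k = z k + t := by
    intro t; simp
  simp only [hk]
  have hS : 0 < ‖z‖ ^ 2 + 2 * t * z k + t ^ 2 + ε := by
    have := norm_add_single_sq z k t
    rw [← this]; positivity
  have h1 : HasDerivAt (fun t : ℝ => z k + t) 1 t := (hasDerivAt_id t).const_add _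
  have h2 : HasDerivAt (fun t : ℝ => ‖z‖ ^ 2 + 2 * t * z k + t ^ 2 + ε) (2 * z k + 2 * t) t := by
    have a1 : HasDerivAt (fun t : ℝ => 2 * t * z k) (2 * z k) t := by
      have := ((hasDerivAt_id t).const_mul 2).mul_const (z k)
      simpa using this
    have a2 : HasDerivAt (fun t : ℝ => t ^ 2) (2 * t) t := by
      have := hasDerivAt_pow 2 t
      simpa using this
    exact ((a1.const_add (‖z‖ ^ 2)).add a2).add_const ε
  refine (h1.div h2 hS.ne').congr_deriv ?_
  (clear * - hS; field_simp)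

lemma e5v_cont {ε : ℝ} (hε : 0 < ε) (k : Fin 3) : Continuous (e5v ε k) := by
  unfold e5v
  apply Continuous.div
  · fun_prop
  · fun_prop
  · intro z; positivity

lemma e5v'_cont {ε : ℝ} (hε : 0 < ε) (k : Fin 3) : Continuous (e5v' ε k) := by
  unfold e5v'
  apply Continuous.sub
  · apply Continuous.div continuous_const (by fun_prop)
    intro z; positivity
  · apply Continuous.div (by fun_prop) (by fun_prop)
    intro z; positivity

lemma e5_coord (z : R3) (k : Fin 3) : (z k) ^ 2 ≤ ‖z‖ ^ 2 := by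
  have := abs_coord_le z k
  have h2 : |z k| ^ 2 ≤ ‖z‖ ^ 2 := by gcongr
  rwa [sq_abs] at h2

lemma e5v_bound {ε : ℝ} (hε : 0 < ε) (k : Fin 3) (z : R3) : |e5v ε k z| ≤ 1 + 1 / ε := by
  unfold e5v
  have hS : 0 < ‖z‖ ^ 2 + ε := by positivity
  rw [abs_div, abs_of_pos hS, div_le_iff₀ hS]
  have h1 := abs_coord_le z k
  have h2 : ‖z‖ ≤ 1 + ‖z‖ ^ 2 := by nlinarith only []
  have e1 : (1 + 1 / ε) * (‖z‖ ^ 2 + ε) = ‖z‖ ^ 2 + ε + ‖z‖ ^ 2 / ε + 1 := by
    field_simp
    ring
  have h3 : 0 ≤ ‖z‖ ^ 2 / ε := by positivity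
  rw [e1]
  linarith only [hε, h1, h2, h3]

lemma e5v'_bound {ε : ℝ} (hε : 0 < ε) (k : Fin 3) (z : R3) : |e5v' ε k z| ≤ 3 / ε := by
  unfold e5v'
  have hS : 0 < ‖z‖ ^ 2 + ε := by positivity
  have h1 : 1 / (‖z‖ ^ 2 + ε) ≤ 1 / ε :=
    one_div_le_one_div_of_le hε (by linarith [sq_nonneg ‖z‖])
  have h2 : 2 * (z k) ^ 2 / (‖z‖ ^ 2 + ε) ^ 2 ≤ 2 * (1 / ε) := by
    have h3 : 2 * (z k) ^ 2 / (‖z‖ ^ 2 + ε) ^ 2 ≤ 2 * (1 / (‖z‖ ^ 2 + ε)) := by
      rw [div_le_iff₀ (by positivity)]
      have e1 : 2 * (1 / (‖z‖ ^ 2 + ε)) * (‖z‖ ^ 2 + ε) ^ 2 = 2 * (‖z‖ ^ 2 + ε) := by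
        field_simp
      rw [e1]
      linarith only [hε, e5_coord z k]
    linarith
  have h4 : 0 ≤ 2 * (z k) ^ 2 / (‖z‖ ^ 2 + ε) ^ 2 := by positivity
  have h5 : 0 ≤ 1 / (‖z‖ ^ 2 + ε) := by positivity
  have h6 : 3 / ε = 3 * (1 / ε) := by ring
  have h7 : 0 < 1 / ε := by positivity
  rw [abs_le, h6]
  constructor <;> linarith only [h1, h4, h7, h2, h5]

lemma e5_normsq (z : R3) : ∑ k, (z k) ^ 2 = ‖z‖ ^ 2 := by
  rw [EuclideanSpace.norm_sq_eq]; simp

lemma e5v'_sum {ε : ℝ} (hε : 0 < ε) (z : R3) : 1 / (‖z‖ ^ 2 + ε) ≤ ∑ k, e5v' ε k z := by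
  unfold e5v'
  have hS : 0 < ‖z‖ ^ 2 + ε := by positivity
  have h0 : ∑ k, 2 * (z k) ^ 2 / (‖z‖ ^ 2 + ε) ^ 2 = 2 * ‖z‖ ^ 2 / (‖z‖ ^ 2 + ε) ^ 2 := by
    rw [← Finset.sum_div, ← Finset.mul_sum, e5_normsq]
  rw [Finset.sum_sub_distrib, h0]
  have h1 : 2 * ‖z‖ ^ 2 / (‖z‖ ^ 2 + ε) ^ 2 ≤ 2 * (1 / (‖z‖ ^ 2 + ε)) := by
    rw [div_le_iff₀ (by positivity)]
    have e1 : 2 * (1 / (‖z‖ ^ 2 + ε)) * (‖z‖ ^ 2 + ε) ^ 2 = 2 * (‖z‖ ^ 2 + ε) := by
      field_simp
    rw [e1]
    linarith only [hε]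
  have h2 : ∑ _k : Fin 3, 1 / (‖z‖ ^ 2 + ε) = 3 * (1 / (‖z‖ ^ 2 + ε)) := by
    simp only [Finset.sum_const, Finset.card_univ, Fintype.card_fin, nsmul_eq_mul]
    push_cast
    ring
  rw [h2]
  linarith only [h1]

lemma e5v_sq_sum {ε : ℝ} (hε : 0 < ε) (z : R3) : ∑ k, e5v ε k z ^ 2 ≤ 1 / (‖z‖ ^ 2 + ε) := by
  unfold e5v
  have hS : 0 < ‖z‖ ^ 2 + ε := by positivity
  simp only [div_pow]
  rw [← Finset.sum_div, e5_normsq, div_le_iff₀ (by positivity)]
  have e1 : 1 / (‖z‖ ^ 2 + ε) * (‖z‖ ^ 2 + ε) ^ 2 = ‖z‖ ^ 2 + ε := by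
    field_simp
  rw [e1]
  linarith only [hε]

variable {X : Type*} [NormedAddCommGroup X] [NormedSpace ℝ X] [FiniteDimensional ℝ X]
  [MeasurableSpace X] [BorelSpace X] {μ : Measure X} [μ.IsAddHaarMeasure]

lemma e5_reg {a : X → R3} {e : Fin 3 → X} (ha : Continuous a)
    (hae : ∀ x k, ∀ t : ℝ, a (x + t • e k) = a x + t • (EuclideanSpace.single k (1:ℝ) : R3))
    {f : X → ℝ} {f' : Fin 3 → X → ℝ} (hf : MemLp f 2 μ) (hf' : ∀ k, MemLp (f' k) 2 μ)
    (hacl : ∀ k, ACL μ (e k) f (f' k)) {ε : ℝ} (hε : 0 < ε) :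
    Integrable (fun x => f x ^ 2 / (‖a x‖ ^ 2 + ε)) μ ∧
    ∫ x, f x ^ 2 / (‖a x‖ ^ 2 + ε) ∂μ ≤ 4 * ∑ k, ∫ x, f' k x ^ 2 ∂μ := by
  have hf2 : Integrable (fun x => f x ^ 2) μ := hf.integrable_sq
  have hff2 : Integrable (fun x => f x * f x) μ := by simpa [sq] using hf2
  have hff : ∀ k, Integrable (fun x => f x * f' k x) μ := fun k => hf.integrable_mul (hf' k)
  have hvacl : ∀ k, ACL μ (e k) (fun x => e5v ε k (a x)) (fun x => e5v' ε k (a x)) := by
    intro k
    apply ACL.of_hasDerivAt ((e5v_cont hε k).comp ha) ((e5v'_cont hε k).comp ha)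
    intro x t
    have := e5v_line hε k (a x) t
    simpa only [Function.comp, hae] using this
  have hsq : ∀ k, ACL μ (e k) (fun x => f x * f x) (fun x => f' k x * f x + f x * f' k x) :=
    fun k => (hacl k).mul (hacl k)
  have hi1 : ∀ k, Integrable (fun x => (f x * f x) * e5v ε k (a x)) μ := by
    intro k
    refine hff2.mul_bdd (c := 1 + 1 / ε) ((e5v_cont hε k).comp ha).aestronglyMeasurable ?_
    filter_upwards with x
    exact e5v_bound hε k _
  have hi2 : ∀ k, Integrable (fun x => (f x * f x) * e5v' ε k (a x)) μ := by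
    intro k
    refine hff2.mul_bdd (c := 3 / ε) ((e5v'_cont hε k).comp ha).aestronglyMeasurable ?_
    filter_upwards with x
    exact e5v'_bound hε k _
  have hi3 : ∀ k, Integrable (fun x => (f' k x * f x + f x * f' k x) * e5v ε k (a x)) μ := by
    intro k
    have h1 : Integrable (fun x => f' k x * f x + f x * f' k x) μ := by
      have := (hff k)
      refine (this.add this).congr ?_
      filter_upwards with x
      simp only [Pi.add_apply]; ring
    refine h1.mul_bdd (c := 1 + 1 / ε) ((e5v_cont hε k).comp ha).aestronglyMeasurable ?_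
    filter_upwards with x
    exact e5v_bound hε k _
  have hint : Integrable (fun x => f x ^ 2 / (‖a x‖ ^ 2 + ε)) μ := by
    have hc : Continuous (fun x => (‖a x‖ ^ 2 + ε)⁻¹) := by
      apply Continuous.inv₀ (by fun_prop)
      intro x; (clear * - hε; positivity)
    have := hf2.mul_bdd (c := ε⁻¹) hc.aestronglyMeasurable (by
      filter_upwards with x
      rw [Real.norm_eq_abs, abs_of_nonneg (by positivity)]
      exact inv_anti₀ hε (by linarith [sq_nonneg ‖a x‖]))
    simpa only [div_eq_mul_inv] using this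
  refine ⟨hint, ?_⟩
  have hlow : ∫ x, f x ^ 2 / (‖a x‖ ^ 2 + ε) ∂μ ≤
      ∑ k, ∫ x, (f x * f x) * e5v' ε k (a x) ∂μ := by
    rw [← integral_finsetSum _ (fun k _ => hi2 k)]
    apply integral_mono hint (integrable_finsetSum _ (fun k _ => hi2 k))
    intro x
    simp only
    rw [← Finset.mul_sum]
    have := e5v'_sum hε (a x)
    calc f x ^ 2 / (‖a x‖ ^ 2 + ε) = (f x * f x) * (1 / (‖a x‖ ^ 2 + ε)) := by ring
      _ ≤ (f x * f x) * ∑ k, e5v' ε k (a x) :=
        mul_le_mul_of_nonneg_left this (mul_self_nonneg _)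
  have hup : ∑ k, ∫ x, (f x * f x) * e5v' ε k (a x) ∂μ ≤
      (1 / 2) * ∫ x, f x ^ 2 / (‖a x‖ ^ 2 + ε) ∂μ + 2 * ∑ k, ∫ x, f' k x ^ 2 ∂μ := by
    have h1 : ∀ k, ∫ x, (f x * f x) * e5v' ε k (a x) ∂μ =
        ∫ x, -((f' k x * f x + f x * f' k x) * e5v ε k (a x)) ∂μ := by
      intro k
      rw [ACL.integral_mul (hsq k) (hvacl k) (hi1 k) (hi3 k) (hi2 k), ← integral_neg]
    have hi3n : ∀ k, Integrable (fun x => -((f' k x * f x + f x * f' k x) * e5v ε k (a x))) μ :=
      fun k => (hi3 k).neg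
    rw [Finset.sum_congr rfl fun k _ => h1 k, ← integral_finsetSum _ (fun k _ => hi3n k),
      Finset.mul_sum]
    have i2 : ∀ k, Integrable (fun x => 2 * f' k x ^ 2) μ :=
      fun k => ((hf' k).integrable_sq).const_mul 2
    have h2 : ∀ k, 2 * ∫ x, f' k x ^ 2 ∂μ = ∫ x, 2 * f' k x ^ 2 ∂μ :=
      fun k => (integral_const_mul _ _).symm
    rw [Finset.sum_congr rfl fun k _ => h2 k, ← integral_finsetSum _ (fun k _ => i2 k),
      ← integral_const_mul, ← integral_add (hint.const_mul _)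
        (integrable_finsetSum _ (fun k _ => i2 k))]
    apply integral_mono (integrable_finsetSum _ (fun k _ => hi3n k))
      ((hint.const_mul _).add (integrable_finsetSum _ (fun k _ => i2 k)))
    intro x
    simp only [Pi.add_apply]
    have h3 : ∀ k, -((f' k x * f x + f x * f' k x) * e5v ε k (a x)) ≤
        (1 / 2) * f x ^ 2 * e5v ε k (a x) ^ 2 + 2 * f' k x ^ 2 := by
      intro k
      linarith only [sq_nonneg (f x * e5v ε k (a x) + 2 * f' k x)]
    refine (Finset.sum_le_sum fun k _ => h3 k).trans ?_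
    rw [Finset.sum_add_distrib, ← Finset.mul_sum]
    have h4 := mul_le_mul_of_nonneg_left (e5v_sq_sum hε (a x))
      (show 0 ≤ (1 / 2) * f x ^ 2 by (clear * -; positivity))
    have e1 : 1 / 2 * f x ^ 2 * (1 / (‖a x‖ ^ 2 + ε)) =
        1 / 2 * (f x ^ 2 / (‖a x‖ ^ 2 + ε)) := by ring
    rw [e1] at h4
    linarith only [h4]
  linarith

theorem hardy2 {X : Type*} [NormedAddCommGroup X] [NormedSpace ℝ X] [FiniteDimensional ℝ X]
    [MeasurableSpace X] [BorelSpace X] {μ : Measure X} [μ.IsAddHaarMeasure]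
    {a : X → R3} {e : Fin 3 → X} (ha : Continuous a)
    (hae : ∀ x k, ∀ t : ℝ, a (x + t • e k) = a x + t • (EuclideanSpace.single k (1:ℝ) : R3))
    {f : X → ℝ} {f' : Fin 3 → X → ℝ} (hf : MemLp f 2 μ) (hf' : ∀ k, MemLp (f' k) 2 μ)
    (hacl : ∀ k, ACL μ (e k) f (f' k)) :
    Integrable (fun x => f x ^ 2 / ‖a x‖ ^ 2) μ ∧
    ∫ x, f x ^ 2 / ‖a x‖ ^ 2 ∂μ ≤ 4 * ∑ k, ∫ x, f' k x ^ 2 ∂μ := by
  set C := 4 * ∑ k, ∫ x, f' k x ^ 2 ∂μ with hC
  have hC0 : 0 ≤ C := by
    have : 0 ≤ ∑ k, ∫ x, f' k x ^ 2 ∂μ :=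
      Finset.sum_nonneg (fun k _ => integral_nonneg (fun x => sq_nonneg _))
    linarith
  have hreg : ∀ n : ℕ, ∫⁻ x, ENNReal.ofReal (f x ^ 2 / (‖a x‖ ^ 2 + 1 / ((n:ℝ) + 1))) ∂μ ≤
      ENNReal.ofReal C := by
    intro n
    obtain ⟨h1, h2⟩ := e5_reg ha hae hf hf' hacl (ε := 1 / ((n:ℝ) + 1)) (by positivity)
    rw [← ofReal_integral_eq_lintegral_ofReal h1 (by
      filter_upwards with x; simp only [Pi.zero_apply]; (clear * -; positivity))]
    exact ENNReal.ofReal_le_ofReal h2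
  have hm : AEStronglyMeasurable (fun x => f x ^ 2 / ‖a x‖ ^ 2) μ :=
    (hf.1.pow 2).div₀ (ha.norm.pow 2).aestronglyMeasurable
  have hmain : ∫⁻ x, ENNReal.ofReal (f x ^ 2 / ‖a x‖ ^ 2) ∂μ ≤ ENNReal.ofReal C := by
    calc ∫⁻ x, ENNReal.ofReal (f x ^ 2 / ‖a x‖ ^ 2) ∂μ
        ≤ ∫⁻ x, liminf (fun n : ℕ => ENNReal.ofReal
            (f x ^ 2 / (‖a x‖ ^ 2 + 1 / ((n:ℝ) + 1)))) atTop ∂μ := by
          apply lintegral_mono
          intro x
          by_cases h0 : ‖a x‖ = 0
          · simp only [h0, ne_eq, OfNat.ofNat_ne_zero, not_false_eq_true, zero_pow, div_zero, ENNReal.ofReal_zero, one_div, zero_add, div_inv_eq_mul, zero_le]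
          · have hlim : Tendsto (fun n : ℕ => ENNReal.ofReal
                (f x ^ 2 / (‖a x‖ ^ 2 + 1 / ((n:ℝ) + 1)))) atTop
                (𝓝 (ENNReal.ofReal (f x ^ 2 / ‖a x‖ ^ 2))) := by
              apply ENNReal.tendsto_ofReal
              refine Tendsto.div tendsto_const_nhds ?_ (pow_ne_zero 2 h0)
              have h1 : Tendsto (fun n : ℕ => ‖a x‖ ^ 2 + 1 / ((n:ℝ) + 1)) atTop
                  (𝓝 (‖a x‖ ^ 2 + 0)) :=
                tendsto_one_div_add_atTop_nhds_zero_nat.const_add _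
              rwa [add_zero] at h1
            beta_reduce
            rw [hlim.liminf_eq]
      _ ≤ liminf (fun n : ℕ => ∫⁻ x, ENNReal.ofReal
            (f x ^ 2 / (‖a x‖ ^ 2 + 1 / ((n:ℝ) + 1))) ∂μ) atTop := by
          apply lintegral_liminf_le'
          intro n
          apply AEMeasurable.ennreal_ofReal
          apply AEStronglyMeasurable.aemeasurable
          exact (e5_reg ha hae hf hf' hacl (ε := 1 / ((n:ℝ) + 1)) (by positivity)).1.1
      _ ≤ ENNReal.ofReal C := by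
          apply liminf_le_of_le
          · isBoundedDefault
          · intro b hb
            obtain ⟨n, hn⟩ := hb.exists
            exact hn.trans (hreg n)
  have hint : Integrable (fun x => f x ^ 2 / ‖a x‖ ^ 2) μ := by
    refine ⟨hm, ?_⟩
    rw [hasFiniteIntegral_iff_ofReal (by filter_upwards with x; (clear * -; positivity))]
    exact hmain.trans_lt ENNReal.ofReal_lt_top
  refine ⟨hint, ?_⟩
  rw [integral_eq_lintegral_of_nonneg_ae (by filter_upwards with x; (clear * -; positivity)) hm]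
  exact ENNReal.toReal_le_of_le_ofReal hC0 hmain

end

end Vale.Agent.P363.D
end
end

section

section

/-!
# P363, block X: definitions (weights, barriers, truncation, bundled scalar data)
-/

namespace Vale.Agent.P363.D

open MeasureTheory Set Filter Topology
open scoped ENNReal ContDiff

noncomputable section

/-- Smooth radius. -/
def rad (x : R3) : ℝ := √(1 + ‖x‖ ^ 2)

/-- The comparison functions `R^γ e^{-κ R}`, `R = √(1+|x|²)`. -/
def wt (γ κ : ℝ) (x : R3) : ℝ := rad x ^ γ * Real.exp (-(κ * rad x))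

/-- Profile of the lower barrier: convex, negative at `0`, `z - 2 ≤ kk z ≤ z - 3/2` on `z ≥ 0`. -/
def kk (z : ℝ) : ℝ := z - 2 + 1 / (1 + (1 + z) ^ 2)

/-- `C¹` truncation, `t²/(1+t²)` for `t > 0` and `0` for `t ≤ 0`. -/
def gf (t : ℝ) : ℝ := if 0 < t then t ^ 2 / (1 + t ^ 2) else 0

/-- Derivative of `gf`. -/
def gf' (t : ℝ) : ℝ := if 0 < t then 2 * t / (1 + t ^ 2) ^ 2 else 0

/-- Smooth functions with square integrable derivatives. -/
structure Barr (b : R3 → ℝ) : Prop where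
  smooth : ContDiff ℝ ∞ b
  memLp : MemLp b 2 volume
  memLp1 : ∀ k, MemLp (pdv k b) 2 volume
  memLp2 : ∀ k, MemLp (pdv k (pdv k b)) 2 volume

/-- Bundled scalar data, see `Scal`. -/
structure SD where
  κ : ℝ
  q : ℝ
  ε : ℝ
  C' : ℝ
  n : R3 → ℝ
  D : Fin 3 → R3 → ℝ
  d : R3 → ℝ
  dg : Fin 3 → R3 → ℝ
  s : R3 → ℝ
  sg : Fin 3 → R3 → ℝ
  p : R3 → ℝ
  pg : Fin 3 → R3 → ℝ
  V : R3 → ℝ
  S : R3 → ℝ
  TP : R3 → ℝ

/-- The data satisfy the hypotheses `Scal`. -/
def SD.Ok (X : SD) (δ C ρ : ℝ) : Prop :=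
  Scal X.κ X.q X.ε δ C ρ X.C' X.n X.D X.d X.dg X.s X.sg X.p X.pg X.V X.S X.TP

/-- Closeness of the data to the limit `ε → 0`: `d → c · 2p_z`. -/
structure SD.Close (X : SD) (C c τ : ℝ) : Prop where
  ε_lt : X.ε < τ
  κ_lt : |X.κ ^ 2 / 2 - 1 / 8| < τ
  q_le : |X.q - 1| ≤ C * X.ε
  int : Integrable (fun x => (X.d x - c * KD.chi 4 x) ^ 2) volume
  lt : ∫ x, (X.d x - c * KD.chi 4 x) ^ 2 < τ

/-- (E1): upper bound of `s = √(d² + p²)`. -/
def SD.E1 (X : SD) (η R C : ℝ) : Prop :=
  ∀ᵐ x : R3, R < ‖x‖ → X.s x ≤ C * wt (X.q / X.κ - 1 + η) X.κ x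

/-- (E2): upper bound of `p`. -/
def SD.E2 (X : SD) (η R C : ℝ) : Prop :=
  ∀ᵐ x : R3, R < ‖x‖ → X.p x ≤ C * wt (X.q / X.κ - 3 + η) X.κ x

/-- (E3): lower bound of `d` in the half space. -/
def SD.E3 (X : SD) (η R c : ℝ) : Prop :=
  ∀ᵐ x : R3, R < ‖x‖ → 0 < x 2 → c * wt (X.q / X.κ - 2 - η) X.κ x * kk (x 2) ≤ X.d x

end

end Vale.Agent.P363.D
end
end

section

section

/-!
# P363, block X: the truncation function
-/

namespace Vale.Agent.P363.D

open MeasureTheory Set Filter Topology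
open scoped ENNReal ContDiff

noncomputable section

theorem xgf_eq (t : ℝ) : gf t = (max t 0) ^ 2 / (1 + (max t 0) ^ 2) := by
  unfold gf
  split_ifs with h
  · rw [max_eq_left h.le]
  · rw [max_eq_right (not_lt.1 h)]; simp

theorem xgf_eq' (t : ℝ) : gf' t = 2 * (max t 0) / (1 + (max t 0) ^ 2) ^ 2 := by
  unfold gf'
  split_ifs with h
  · rw [max_eq_left h.le]
  · rw [max_eq_right (not_lt.1 h)]; simp

theorem gf_of_nonpos {t : ℝ} (h : t ≤ 0) : gf t = 0 := if_neg (not_lt.2 h)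

theorem gf'_of_nonpos {t : ℝ} (h : t ≤ 0) : gf' t = 0 := if_neg (not_lt.2 h)

/-- XGf. Elementary facts on the truncation `gf`. -/
theorem hasDerivAt_gf (t : ℝ) : HasDerivAt gf (gf' t) t := by
  rcases lt_trichotomy t 0 with h | h | h
  · rw [gf'_of_nonpos h.le]
    refine (hasDerivAt_const t (0 : ℝ)).congr_of_eventuallyEq ?_
    filter_upwards [Iio_mem_nhds h] with s hs
    exact gf_of_nonpos (mem_Iio.1 hs).le
  · subst h
    rw [gf'_of_nonpos le_rfl, hasDerivAt_iff_isLittleO_nhds_zero]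
    simp only [zero_add, gf_of_nonpos (le_refl (0 : ℝ)), sub_zero, smul_zero]
    refine Asymptotics.IsBigO.trans_isLittleO (g := fun h : ℝ => h ^ 2) ?_ ?_
    · refine Asymptotics.IsBigO.of_bound 1 (Eventually.of_forall fun s => ?_)
      rw [one_mul, Real.norm_eq_abs, Real.norm_eq_abs, abs_of_nonneg (sq_nonneg s)]
      unfold gf
      split_ifs with hs
      · rw [abs_of_nonneg (by positivity)]
        exact div_le_self (sq_nonneg s) (by nlinarith only [])
      · rw [abs_zero]; exact sq_nonneg s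
    · simpa using Asymptotics.isLittleO_pow_id (𝕜 := ℝ) (n := 2) (by norm_num)
  · have e : gf' t = (2 * t * (1 + t ^ 2) - t ^ 2 * (2 * t)) / (1 + t ^ 2) ^ 2 := by
      unfold gf'
      rw [if_pos h]
      ring
    rw [e]
    have h1 : HasDerivAt (fun s : ℝ => s ^ 2) (2 * t) t := by simpa using hasDerivAt_pow 2 t
    have h2 : HasDerivAt (fun s : ℝ => 1 + s ^ 2) (2 * t) t := h1.const_add 1
    refine (h1.div h2 (by positivity)).congr_of_eventuallyEq ?_
    filter_upwards [Ioi_mem_nhds h] with s hs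
    exact if_pos hs

theorem continuous_gf' : Continuous gf' := by
  have e : gf' = fun t => 2 * (max t 0) / (1 + (max t 0) ^ 2) ^ 2 := funext xgf_eq'
  rw [e]
  refine Continuous.div (by fun_prop) (by fun_prop) fun t => by positivity

theorem continuous_gf : Continuous gf :=
  continuous_iff_continuousAt.2 fun t => (hasDerivAt_gf t).continuousAt

theorem gf_nonneg (t : ℝ) : 0 ≤ gf t := by
  rw [xgf_eq]; positivity

theorem gf_le_one (t : ℝ) : gf t ≤ 1 := by
  rw [xgf_eq]
  exact (div_le_one (by positivity)).2 (by linarith)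

theorem gf_le_abs (t : ℝ) : gf t ≤ |t| := by
  unfold gf
  split_ifs with h
  · rw [abs_of_pos h, div_le_iff₀ (by positivity)]
    have h1 : 2 * t ≤ 1 + t ^ 2 := by linarith only [sq_nonneg (t - 1)]
    nlinarith only [h]
  · exact abs_nonneg t

theorem gf'_nonneg (t : ℝ) : 0 ≤ gf' t := by
  rw [xgf_eq']; positivity

theorem gf'_le_one (t : ℝ) : gf' t ≤ 1 := by
  rw [xgf_eq']
  have h0 : 0 ≤ max t 0 := le_max_right _ _
  refine (div_le_one (by positivity)).2 ?_
  (by_contra nlg; linarith [mul_pos (sub_pos.2 (not_le.1 nlg)) (sub_pos.2 (not_le.1 nlg)), mul_nonneg (sq_nonneg (1 + max t 0 ^ 2 : ℝ)) (sq_nonneg (max t 0 ^ 2)), mul_nonneg (sq_nonneg (1 + max t 0 ^ 2 : ℝ)) (le_of_lt (sub_pos.2 (not_le.1 nlg))), mul_nonneg (sq_nonneg (max t 0 : ℝ)) (sq_nonneg (max t 0 ^ 2)), mul_nonneg (sq_nonneg (max t 0 : ℝ)) (sq_nonneg (max t 0 : ℝ))])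

theorem mul_gf_nonneg (t : ℝ) : 0 ≤ t * gf t := by
  rcases le_or_gt t 0 with h | h
  · rw [gf_of_nonpos h, mul_zero]
  · exact mul_nonneg h.le (gf_nonneg t)

theorem nonpos_of_mul_gf {t : ℝ} (h : t * gf t = 0) : t ≤ 0 := by
  by_contra h1
  have h2 : 0 < t := not_le.1 h1
  have h3 : 0 < gf t := by
    unfold gf
    rw [if_pos h2]
    positivity
  exact absurd h (mul_pos h2 h3).ne'

end

end Vale.Agent.P363.D
end
end

section

section

/-!
# P363, block X: integration by parts for barriers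
-/

namespace Vale.Agent.P363.D

open MeasureTheory Set Filter Topology
open scoped ENNReal ContDiff

noncomputable section

/-- XBarr. Integration by parts of a smooth barrier against an `H¹` function. -/
theorem Barr.ibp {b : R3 → ℝ} (hb : Barr b) {h : R3 → ℝ} {hg : Fin 3 → R3 → ℝ} (hh : H1o h hg) :
    (∑ k, ∫ x, pdv k b x * hg k x) = - ∫ x, lap b x * h x ∧
      Integrable (fun x => lap b x * h x) volume ∧
      ∀ k, Integrable (fun x => pdv k b x * hg k x) volume := by
  have hs : ∀ k, ContDiff ℝ 1 (pdv k b) := fun k =>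
    (hb.smooth.fderiv_right (m := 1) (by norm_cast)).clm_apply contDiff_const
  have i1 : ∀ k, Integrable (fun x => pdv k b x * hg k x) volume := fun k =>
    (hb.memLp1 k).integrable_mul (hh.memLp' k)
  have i2 : ∀ k, Integrable (fun x => pdv k (pdv k b) x * h x) volume := fun k =>
    (hb.memLp2 k).integrable_mul hh.memLp
  have i3 : ∀ k, Integrable (fun x => pdv k b x * h x) volume := fun k =>
    (hb.memLp1 k).integrable_mul hh.memLp
  have e1 : ∀ k, ∫ x, pdv k b x * hg k x = - ∫ x, pdv k (pdv k b) x * h x := by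
    intro k
    have := ACL.integral_mul (ACL.of_contDiff (μ := (volume : Measure R3)) (e := dir3 k) (hs k))
      (hh.acl k) (i3 k) (i2 k) (i1 k)
    exact this
  have e2 : (fun x => lap b x * h x) = fun x => ∑ k, pdv k (pdv k b) x * h x := by
    funext x
    rw [lap, Finset.sum_mul]
  refine ⟨?_, ?_, i1⟩
  · rw [e2, integral_finsetSum _ fun k _ => i2 k, ← Finset.sum_neg_distrib]
    exact Finset.sum_congr rfl fun k _ => e1 k
  · rw [e2]
    exact integrable_finsetSum _ fun k _ => i2 k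

end

end Vale.Agent.P363.D
end
end

section

section

/-!
# P363, disproof: calculus rules for the Laplacian
-/

namespace Vale.Agent.P363.D

open MeasureTheory Set Filter Topology
open scoped ENNReal ContDiff

noncomputable section

variable {f g : R3 → ℝ} {x : R3} {k : Fin 3}

theorem pdv_eventuallyEq (h : f =ᶠ[𝓝 x] g) : pdv k f =ᶠ[𝓝 x] pdv k g := by
  filter_upwards [h.eventuallyEq_nhds] with y hy
  unfold pdv
  rw [hy.fderiv_eq]

theorem pdv_congr (h : f =ᶠ[𝓝 x] g) : pdv k f x = pdv k g x :=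
  (pdv_eventuallyEq h).self_of_nhds

theorem ContDiffAt.pdv {m n : WithTop ℕ∞} (hf : ContDiffAt ℝ n f x) (h : m + 1 ≤ n) (k : Fin 3) :
    ContDiffAt ℝ m (pdv k f) x :=
  (hf.fderiv_right h).clm_apply contDiffAt_const

theorem _root_.ContDiff.pdv {m n : WithTop ℕ∞} (hf : ContDiff ℝ n f) (h : m + 1 ≤ n) (k : Fin 3) :
    ContDiff ℝ m (pdv k f) :=
  (hf.fderiv_right h).clm_apply contDiff_const

theorem ContDiffAt.pdv_diff (hf : ContDiffAt ℝ 2 f x) (k : Fin 3) :
    DifferentiableAt ℝ (D.pdv k f) x :=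
  (ContDiffAt.pdv hf (m := 1) (by norm_num) k).differentiableAt (by norm_num)

theorem ContDiffAt.ev_diff2 (hf : ContDiffAt ℝ 2 f x) : ∀ᶠ y in 𝓝 x, DifferentiableAt ℝ f y := by
  filter_upwards [hf.eventually (by simp)] with y hy
  exact hy.differentiableAt (by norm_num)

theorem _root_.ContDiff.lap_continuous (hf : ContDiff ℝ 2 f) : Continuous (lap f) := by
  unfold lap
  apply continuous_finsetSum
  intro k _
  exact ((hf.pdv (m := 1) (by norm_num) k).pdv (m := 0) (by norm_num) k).continuous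

theorem pdv_add (hf : DifferentiableAt ℝ f x) (hg : DifferentiableAt ℝ g x) :
    pdv k (fun y => f y + g y) x = pdv k f x + pdv k g x := by
  unfold pdv
  rw [fderiv_fun_add hf hg]
  rfl

theorem pdv_const_mul (c : ℝ) (hf : DifferentiableAt ℝ f x) :
    pdv k (fun y => c * f y) x = c * pdv k f x := by
  unfold pdv
  rw [fderiv_const_mul hf]
  rfl

theorem pdv_mul (hf : DifferentiableAt ℝ f x) (hg : DifferentiableAt ℝ g x) :
    pdv k (fun y => f y * g y) x = pdv k f x * g x + f x * pdv k g x := by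
  unfold pdv
  rw [fderiv_fun_mul hf hg]
  simp only [_root_.add_apply, _root_.smul_apply, smul_eq_mul]
  ring

theorem pdv_comp {φ : ℝ → ℝ} (hφ : DifferentiableAt ℝ φ (f x)) (hf : DifferentiableAt ℝ f x) :
    pdv k (fun y => φ (f y)) x = deriv φ (f x) * pdv k f x := by
  unfold pdv
  have h := (hφ.hasDerivAt.comp_hasFDerivAt x hf.hasFDerivAt).fderiv
  have e : (fun y => φ (f y)) = φ ∘ f := rfl
  rw [e, h]
  simp

theorem lap_const_mul (c : ℝ) (hf : ContDiffAt ℝ 2 f x) :
    lap (fun y => c * f y) x = c * lap f x := by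
  unfold lap
  rw [Finset.mul_sum]
  apply Finset.sum_congr rfl
  intro k _
  have h : pdv k (fun y => c * f y) =ᶠ[𝓝 x] fun y => c * pdv k f y := by
    filter_upwards [ContDiffAt.ev_diff2 hf] with y h1 using pdv_const_mul c h1
  rw [pdv_congr h, pdv_const_mul c (ContDiffAt.pdv_diff hf k)]

theorem pdv_coord (j : Fin 3) : pdv k (fun y : R3 => y j) x = if k = j then 1 else 0 := by
  unfold pdv
  have h : (fun y : R3 => y j) = (EuclideanSpace.proj j : R3 →L[ℝ] ℝ) := rfl
  rw [h, ContinuousLinearMap.fderiv]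
  by_cases hk : k = j
  · subst hk
    simp [dir3]
  · have hk' : j ≠ k := fun h => hk h.symm
    simp [dir3, hk, hk']

theorem contDiff_coord {n : WithTop ℕ∞} (j : Fin 3) : ContDiff ℝ n (fun y : R3 => y j) :=
  (EuclideanSpace.proj j : R3 →L[ℝ] ℝ).contDiff

theorem pdv_norm_sq : pdv k (fun y : R3 => ‖y‖ ^ 2) x = 2 * x k := by
  unfold pdv
  have h := (hasStrictFDerivAt_norm_sq (F := R3) x).hasFDerivAt.fderiv
  rw [h]
  simp only [_root_.smul_apply, innerSL_apply_apply, nsmul_eq_mul, dir3]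
  rw [EuclideanSpace.inner_single_right]
  simp

theorem contDiff_norm_sq3 {n : WithTop ℕ∞} : ContDiff ℝ n (fun y : R3 => ‖y‖ ^ 2) :=
  contDiff_norm_sq ℝ

end

end Vale.Agent.P363.D
end
end

section

section

/-!
# P363, block X: smooth test functions
-/

namespace Vale.Agent.P363.D

open MeasureTheory Set Filter Topology
open scoped ENNReal ContDiff

noncomputable section

/-- XTest. Smooth compactly supported functions are `H¹`. -/
theorem h1o_of_smooth {h : R3 → ℝ} (h1 : ContDiff ℝ ∞ h) (h2 : HasCompactSupport h) :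
    H1o h (fun k => pdv k h) :=
  ⟨h1.continuous.memLp_of_hasCompactSupport h2,
    fun k => ((h1.continuous_fderiv (by norm_num)).clm_apply
      continuous_const).memLp_of_hasCompactSupport (h2.fderiv_apply (𝕜 := ℝ) (dir3 k)),
    fun k => ACL.of_contDiff (h1.of_le (by exact_mod_cast le_top))⟩

/-- XTest. Smooth functions supported outside the ball are test functions. -/
theorem test_of_smooth {ρ : ℝ} {h : R3 → ℝ} (h1 : ContDiff ℝ ∞ h) (h2 : HasCompactSupport h)
    (h3 : ∀ x, h x ≠ 0 → ρ < ‖x‖) : Test ρ h (fun k => pdv k h) := by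
  refine ⟨h1o_of_smooth h1 h2, ?_, Eventually.of_forall fun x hx => ?_⟩
  · obtain ⟨B, hB⟩ := h1.continuous.bounded_above_of_compact_support h2
    exact ⟨B, Eventually.of_forall fun x => hB x⟩
  · by_contra h0
    exact absurd (h3 x h0) (not_lt.2 hx)

/-- XTest. From balls to an exterior domain. -/
theorem ae_of_balls {r : ℝ} {P : R3 → Prop}
    (h : ∀ x0 : R3, r < ‖x0‖ → ∀ᵐ x : R3, x ∈ Metric.ball x0 (1 / 2) → P x) :
    ∀ᵐ x : R3, r < ‖x‖ → P x := by
  have h1 : ∀ᵐ x : R3, ∀ n : ℕ, r < ‖TopologicalSpace.denseSeq R3 n‖ →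
      x ∈ Metric.ball (TopologicalSpace.denseSeq R3 n) (1 / 2) → P x := by
    rw [ae_all_iff]
    intro n
    by_cases hn : r < ‖TopologicalSpace.denseSeq R3 n‖
    · filter_upwards [h _ hn] with x hx _ using hx
    · exact Eventually.of_forall fun x h' => absurd h' hn
  filter_upwards [h1] with x hx hr
  obtain ⟨n, hn⟩ := (TopologicalSpace.denseRange_denseSeq R3).exists_dist_lt x
    (lt_min (by norm_num : (0 : ℝ) < 1 / 2) (sub_pos.2 hr))
  have h2 := lt_of_lt_of_le hn (min_le_left _ _)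
  have h3 := lt_of_lt_of_le hn (min_le_right _ _)
  refine hx n ?_ (Metric.mem_ball.2 h2)
  have h4 := norm_sub_norm_le x (TopologicalSpace.denseSeq R3 n)
  rw [← dist_eq_norm] at h4
  linarith only [h3, h4]

end

end Vale.Agent.P363.D
end
end

section

section

/-!
# P363, disproof: sub-mean-value inequalities
-/

namespace Vale.Agent.P363.D

open MeasureTheory Set Filter Topology
open scoped ENNReal ContDiff

noncomputable section

/-- The weight `(1 - |y|²)₊`. -/
def qw (y : R3) : ℝ := max (1 - ‖y‖ ^ 2) 0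

theorem qw_nonneg (y : R3) : 0 ≤ qw y := le_max_right _ _

theorem qw_le_one (y : R3) : qw y ≤ 1 := by
  unfold qw
  apply max_le _ (by norm_num)
  have : 0 ≤ ‖y‖ ^ 2 := by positivity
  linarith

theorem qw_eq_zero {y : R3} (h : 1 ≤ ‖y‖) : qw y = 0 := by
  unfold qw
  apply max_eq_right
  nlinarith only [h]

theorem qw_pos {y : R3} (h : ‖y‖ < 1) : 0 < qw y := by
  unfold qw
  apply lt_max_of_lt_left
  nlinarith only [h, norm_nonneg y]

theorem qw_continuous : Continuous qw := by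
  unfold qw
  fun_prop

theorem hasDerivAt_qsq (s : ℝ) :
    HasDerivAt (fun s : ℝ => max (1 - s) 0 ^ 2) (-2 * max (1 - s) 0) s := by
  rcases lt_trichotomy s 1 with h | h | h
  · have h1 : HasDerivAt (fun s : ℝ => (1 - s) ^ 2) (-2 * (1 - s)) s := by
      have h2 : HasDerivAt (fun s : ℝ => 1 - s) (-1) s := by
        simpa using (hasDerivAt_id s).const_sub 1
      have h3 := h2.pow 2
      refine h3.congr_deriv ?_
      simp
    rw [max_eq_left (by linarith)]
    apply h1.congr_of_eventuallyEq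
    filter_upwards [Iio_mem_nhds h] with t ht
    have : (0 : ℝ) ≤ 1 - t := by
      have : t < 1 := ht
      linarith
    rw [max_eq_left this]
  · subst h
    rw [hasDerivAt_iff_isLittleO]
    have h1 : (fun x' : ℝ => max (1 - x') 0 ^ 2 - max (1 - (1 : ℝ)) 0 ^ 2 -
        (x' - 1) • (-2 * max (1 - (1 : ℝ)) 0)) =O[𝓝 1] fun x' => (x' - 1) ^ 2 := by
      apply Asymptotics.IsBigO.of_bound 1
      apply Eventually.of_forall
      intro t
      simp only [sub_self, max_self, mul_zero, smul_zero, sub_zero, one_mul]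
      rw [zero_pow (by norm_num), sub_zero, Real.norm_eq_abs, Real.norm_eq_abs, abs_of_nonneg (by positivity),
        abs_of_nonneg (by positivity)]
      rcases le_total (1 - t) 0 with h | h
      · rw [max_eq_right h]
        nlinarith only []
      · rw [max_eq_left h]
        nlinarith
    apply h1.trans_isLittleO
    have h2 : (fun x : ℝ => (x - 1) ^ 2) = fun x => (x - 1) * (x - 1) := by
      funext x
      ring
    rw [h2]
    have h3 : (fun x : ℝ => (x - 1) * (x - 1)) =o[𝓝 1] fun x : ℝ => (1 : ℝ) * (x - 1) := by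
      apply Asymptotics.IsLittleO.mul_isBigO _ (Asymptotics.isBigO_refl _ _)
      rw [Asymptotics.isLittleO_one_iff]
      have : Tendsto (fun x : ℝ => x - 1) (𝓝 1) (𝓝 (1 - 1)) := by
        exact (continuous_id.sub continuous_const).tendsto 1
      simpa using this
    simpa using h3
  · rw [max_eq_right (by linarith), mul_zero]
    apply (hasDerivAt_const s (0 : ℝ)).congr_of_eventuallyEq
    filter_upwards [Ioi_mem_nhds h] with t ht
    have : 1 - t ≤ (0 : ℝ) := by
      have : 1 < t := ht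
      linarith
    rw [max_eq_right this]
    norm_num

theorem qsq_differentiable : Differentiable ℝ (fun y : R3 => qw y ^ 2) := by
  intro y
  have h1 := (hasDerivAt_qsq (‖y‖ ^ 2)).differentiableAt
  have h2 : DifferentiableAt ℝ (fun y : R3 => ‖y‖ ^ 2) y :=
    (contDiff_norm_sq3 (n := 1)).differentiable (by norm_num) y
  exact DifferentiableAt.comp (g := fun s : ℝ => max (1 - s) 0 ^ 2) y h1 h2

theorem pdv_qsq (k : Fin 3) (y : R3) : pdv k (fun y : R3 => qw y ^ 2) y = -4 * (qw y * y k) := by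
  have h1 := hasDerivAt_qsq (‖y‖ ^ 2)
  have h2 : DifferentiableAt ℝ (fun y : R3 => ‖y‖ ^ 2) y :=
    (contDiff_norm_sq3 (n := 1)).differentiable (by norm_num) y
  have h3 := pdv_comp (k := k) h1.differentiableAt h2
  rw [h1.deriv, pdv_norm_sq] at h3
  have h4 : pdv k (fun y : R3 => qw y ^ 2) y =
      pdv k (fun y : R3 => (fun s : ℝ => max (1 - s) 0 ^ 2) (‖y‖ ^ 2)) y := rfl
  rw [h4, h3]
  unfold qw
  ring

/-- Integrability of a continuous function times something vanishing off the unit ball. -/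
theorem integrable_of_ball {F : R3 → ℝ} (hF : Continuous F) (h0 : ∀ y, 1 ≤ ‖y‖ → F y = 0) :
    Integrable F volume := by
  apply hF.integrable_of_hasCompactSupport
  apply HasCompactSupport.intro (isCompact_closedBall (0 : R3) 1)
  intro y hy
  apply h0
  rw [mem_closedBall_zero_iff] at hy
  linarith

theorem qw_integrable : Integrable qw volume :=
  integrable_of_ball qw_continuous fun _ h => qw_eq_zero h

theorem int_qw_pos : 0 < ∫ y, qw y := by
  rw [integral_pos_iff_support_of_nonneg qw_nonneg qw_integrable]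
  have h : Metric.ball (0 : R3) 1 ⊆ Function.support qw := by
    intro y hy
    rw [mem_ball_zero_iff] at hy
    exact (qw_pos hy).ne'
  exact lt_of_lt_of_le (Metric.measure_ball_pos volume 0 one_pos) (measure_mono h)

/-- Derivative of the weighted averages. -/
theorem hasDerivAt_avg {f : R3 → ℝ} (hf : ContDiff ℝ 2 f) (x : R3) (t : ℝ) :
    HasDerivAt (fun t : ℝ => ∫ y, qw y * f (x + t • y))
      (t / 4 * ∫ y, qw y ^ 2 * lap f (x + t • y)) t := by
  have hfc : Continuous f := hf.continuous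
  have hfd : Differentiable ℝ f := hf.differentiable (by norm_num)
  have hfd' : Continuous (fun z => fderiv ℝ f z) := hf.continuous_fderiv (by norm_num)
  -- bound of the derivative
  obtain ⟨M, hM⟩ : ∃ M : ℝ, ∀ z ∈ Metric.closedBall x (|t| + 1), ‖fderiv ℝ f z‖ ≤ M := by
    obtain ⟨M, hM⟩ := (isCompact_closedBall x (|t| + 1)).exists_bound_of_continuousOn
      hfd'.continuousOn
    exact ⟨M, hM⟩
  have hF : ∀ s : ℝ, Continuous (fun y : R3 => qw y * f (x + s • y)) := by
    intro s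
    have := qw_continuous
    fun_prop
  have hF0 : ∀ (s : ℝ) (y : R3), 1 ≤ ‖y‖ → qw y * f (x + s • y) = 0 := by
    intro s y hy
    rw [qw_eq_zero hy, zero_mul]
  have hF' : ∀ s : ℝ, Continuous (fun y : R3 => qw y * (fderiv ℝ f (x + s • y)) y) := by
    intro s
    apply qw_continuous.mul
    have h1 : Continuous (fun y : R3 => fderiv ℝ f (x + s • y)) := hfd'.comp (by fun_prop)
    exact h1.clm_apply continuous_id
  have key := hasDerivAt_integral_of_dominated_loc_of_deriv_le (μ := volume) (x₀ := t)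
    (s := Metric.ball t 1)
    (F := fun s y => qw y * f (x + s • y))
    (F' := fun s y => qw y * (fderiv ℝ f (x + s • y)) y)
    (bound := fun y => qw y * M) (Metric.ball_mem_nhds t one_pos)
    (Eventually.of_forall fun s => (hF s).aestronglyMeasurable)
    (integrable_of_ball (hF t) (hF0 t))
    (hF' t).aestronglyMeasurable
    (Eventually.of_forall fun y s hs => by
      rw [norm_mul, Real.norm_of_nonneg (qw_nonneg y)]
      rcases lt_or_ge ‖y‖ 1 with hy | hy
      · apply mul_le_mul_of_nonneg_left _ (qw_nonneg y)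
        have hs' : |s| ≤ |t| + 1 := by
          rw [Metric.mem_ball, Real.dist_eq] at hs
          have := abs_sub_abs_le_abs_sub s t
          linarith
        have h1 : x + s • y ∈ Metric.closedBall x (|t| + 1) := by
          rw [Metric.mem_closedBall, dist_eq_norm, add_sub_cancel_left, norm_smul,
            Real.norm_eq_abs]
          calc |s| * ‖y‖ ≤ (|t| + 1) * 1 := by
                apply mul_le_mul hs' hy.le (norm_nonneg _) (by positivity)
            _ = _ := by ring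
        have hM0 : 0 ≤ M := (norm_nonneg _).trans (hM _ h1)
        calc ‖(fderiv ℝ f (x + s • y)) y‖ ≤ ‖fderiv ℝ f (x + s • y)‖ * ‖y‖ :=
              ContinuousLinearMap.le_opNorm _ _
          _ ≤ M * 1 := mul_le_mul (hM _ h1) hy.le (norm_nonneg _) hM0
          _ = M := mul_one M
      · rw [qw_eq_zero hy, zero_mul, zero_mul])
    (qw_integrable.mul_const M)
    (Eventually.of_forall fun y s _ => by
      have h1 : HasDerivAt (fun s : ℝ => x + s • y) y s := by
        have h2 : HasDerivAt (fun s : ℝ => x + s • y) ((1 : ℝ) • y) s :=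
          ((hasDerivAt_id s).smul_const y).const_add x
        rwa [one_smul] at h2
      have h2 : HasDerivAt (fun s : ℝ => f (x + s • y)) ((fderiv ℝ f (x + s • y)) y) s :=
        (hfd _).hasFDerivAt.comp_hasDerivAt s h1
      exact h2.const_mul _)
  refine key.2.congr_deriv ?_
  -- integration by parts
  have hexp : ∀ y : R3, y = ∑ k, y k • dir3 k := by
    intro y
    have h := (EuclideanSpace.basisFun (Fin 3) ℝ).sum_repr y
    conv_lhs => rw [← h]
    apply Finset.sum_congr rfl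
    intro k _
    simp [dir3]
  have hL : ∀ y : R3, qw y * (fderiv ℝ f (x + t • y)) y =
      ∑ k, qw y * y k * pdv k f (x + t • y) := by
    intro y
    conv_lhs => rw [hexp y]
    rw [map_sum, Finset.mul_sum]
    apply Finset.sum_congr rfl
    intro k _
    rw [map_smul, smul_eq_mul]
    unfold pdv
    rw [← hexp y]
    ring
  have hpc : ∀ k, Continuous (fun y : R3 => pdv k f (x + t • y)) := by
    intro k
    have h1 : Continuous (pdv k f) := (hf.pdv (m := 1) (by norm_num) k).continuous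
    exact h1.comp (by fun_prop)
  have hcoord : ∀ k : Fin 3, Continuous (fun y : R3 => y k) := fun k =>
    (contDiff_coord (n := 0) k).continuous
  have hint : ∀ k, Integrable (fun y : R3 => qw y * y k * pdv k f (x + t • y)) volume := by
    intro k
    apply integrable_of_ball
    · exact (qw_continuous.mul (hcoord k)).mul (hpc k)
    · intro y hy
      rw [qw_eq_zero hy, zero_mul, zero_mul]
  have hpp : ∀ k (y : R3), fderiv ℝ (fun y => pdv k f (x + t • y)) y (dir3 k) =
      t * pdv k (pdv k f) (x + t • y) := by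
    intro k y
    have h1 : DifferentiableAt ℝ (pdv k f) (x + t • y) :=
      (hf.pdv (m := 1) (by norm_num) k).differentiable (by norm_num) _
    have h2 : HasFDerivAt (fun y : R3 => x + t • y) (t • ContinuousLinearMap.id ℝ R3) y :=
      ((hasFDerivAt_id y).const_smul t).const_add x
    have h3 := (h1.hasFDerivAt.comp y h2).fderiv
    have h4 : (fun y => pdv k f (x + t • y)) = pdv k f ∘ fun y : R3 => x + t • y := rfl
    rw [h4, h3]
    simp only [ContinuousLinearMap.comp_apply, _root_.smul_apply, ContinuousLinearMap.id_apply,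
      map_smul, smul_eq_mul]
    rfl
  have hdd : ∀ k, Differentiable ℝ (fun y : R3 => pdv k f (x + t • y)) := by
    intro k y
    have h1 : DifferentiableAt ℝ (pdv k f) (x + t • y) :=
      (hf.pdv (m := 1) (by norm_num) k).differentiable (by norm_num) _
    exact DifferentiableAt.comp (g := pdv k f) y h1 (by fun_prop)
  have hppc : ∀ k, Continuous (fun y : R3 => pdv k (pdv k f) (x + t • y)) := by
    intro k
    have h1 : Continuous (pdv k (pdv k f)) :=
      ((hf.pdv (m := 1) (by norm_num) k).pdv (m := 0) (by norm_num) k).continuous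
    exact h1.comp (by fun_prop)
  have hibp : ∀ k, ∫ y : R3, qw y * y k * pdv k f (x + t • y) =
      t / 4 * ∫ y : R3, qw y ^ 2 * pdv k (pdv k f) (x + t • y) := by
    intro k
    have e1 : ∀ y : R3, fderiv ℝ (fun y : R3 => qw y ^ 2) y (dir3 k) = -4 * (qw y * y k) :=
      fun y => pdv_qsq k y
    have h := integral_mul_fderiv_eq_neg_fderiv_mul_of_integrable (μ := volume)
      (f := fun y : R3 => qw y ^ 2) (g := fun y : R3 => pdv k f (x + t • y)) (v := dir3 k)
      (by
        simp only [e1]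
        apply integrable_of_ball
        · exact (continuous_const.mul (qw_continuous.mul (hcoord k))).mul (hpc k)
        · intro y hy
          rw [qw_eq_zero hy]
          ring)
      (by
        simp only [hpp]
        apply integrable_of_ball
        · exact (qw_continuous.pow 2).mul (continuous_const.mul (hppc k))
        · intro y hy
          rw [qw_eq_zero hy]
          ring)
      (by
        apply integrable_of_ball
        · exact (qw_continuous.pow 2).mul (hpc k)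
        · intro y hy
          rw [qw_eq_zero hy]
          ring)
      (fun y _ => qsq_differentiable y) (fun y _ => hdd k y)
    simp only [e1, hpp] at h
    have h5 : ∫ y : R3, -4 * (qw y * y k) * pdv k f (x + t • y) =
        -4 * ∫ y : R3, qw y * y k * pdv k f (x + t • y) := by
      rw [← integral_const_mul]
      congr 1
      funext y
      ring
    have h6 : ∫ y : R3, qw y ^ 2 * (t * pdv k (pdv k f) (x + t • y)) =
        t * ∫ y : R3, qw y ^ 2 * pdv k (pdv k f) (x + t • y) := by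
      rw [← integral_const_mul]
      congr 1
      funext y
      ring
    rw [h5, h6] at h
    linarith only [h]
  simp only [hL]
  rw [integral_finsetSum _ fun k _ => hint k]
  simp only [hibp]
  rw [← Finset.mul_sum, ← integral_finsetSum]
  · congr 1
    apply integral_congr_ae
    apply Eventually.of_forall
    intro y
    simp only [lap, Finset.mul_sum]
  · intro k _
    apply integrable_of_ball
    · exact (qw_continuous.pow 2).mul (hppc k)
    · intro y hy
      rw [qw_eq_zero hy]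
      ring

end

end Vale.Agent.P363.D
end
end

section

section

/-!
# P363, disproof: sub-mean-value inequalities, kernel form
-/

namespace Vale.Agent.P363.D

open MeasureTheory Set Filter Topology
open scoped ENNReal ContDiff

noncomputable section

theorem finrank_R3 : Module.finrank ℝ R3 = 3 := by simp

/-- `1 / |y|` is integrable on balls. -/
theorem integrableOn_inv_norm (s : ℝ) : IntegrableOn (fun y : R3 => 1 / ‖y‖) (Metric.ball 0 s) := by
  have h := integrableOn_fun_norm_addHaar (E := R3) (volume : Measure R3)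
    (f := fun t : ℝ => 1 / t) (r := s)
  rw [h, finrank_R3]
  have h1 : IntegrableOn (fun y : ℝ => y) (Ioo 0 s) := by
    have : IntegrableOn (fun y : ℝ => y) (Icc 0 s) := continuous_id.continuousOn.integrableOn_Icc
    exact this.mono_set Ioo_subset_Icc_self
  apply h1.congr_fun _ measurableSet_Ioo
  intro y hy
  have hy0 : y ≠ 0 := hy.1.ne'
  simp only [smul_eq_mul]
  field_simp

/-- `1 / |y|²` is integrable on balls. -/
theorem integrableOn_inv_norm_sq (s : ℝ) :
    IntegrableOn (fun y : R3 => (1 / ‖y‖) ^ 2) (Metric.ball 0 s) := by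
  have h := integrableOn_fun_norm_addHaar (E := R3) (volume : Measure R3)
    (f := fun t : ℝ => (1 / t) ^ 2) (r := s)
  rw [h, finrank_R3]
  have h1 : IntegrableOn (fun _ : ℝ => (1 : ℝ)) (Ioo 0 s) := by
    have : IntegrableOn (fun _ : ℝ => (1 : ℝ)) (Icc 0 s) := continuous_const.continuousOn.integrableOn_Icc
    exact this.mono_set Ioo_subset_Icc_self
  apply h1.congr_fun _ measurableSet_Ioo
  intro y hy
  have hy0 : y ≠ 0 := hy.1.ne'
  simp only [smul_eq_mul]
  field_simp

theorem continuous_avg {g : R3 → ℝ} (hg : Continuous g) (x : R3) (n : ℕ) :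
    Continuous (fun t : ℝ => ∫ y, qw y ^ (n + 1) * g (x + t • y)) := by
  have h1 : ∀ t : ℝ, ∫ y, qw y ^ (n + 1) * g (x + t • y) =
      ∫ y in Metric.closedBall 0 1, qw y ^ (n + 1) * g (x + t • y) := by
    intro t
    rw [setIntegral_eq_integral_of_forall_compl_eq_zero]
    intro y hy
    rw [mem_closedBall_zero_iff, not_le] at hy
    rw [qw_eq_zero hy.le]
    ring
  simp only [h1]
  apply continuous_parametric_integral_of_continuous _ (isCompact_closedBall 0 1)
  have := qw_continuous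
  fun_prop

/-- The mean value formula. -/
theorem avg_formula {f : R3 → ℝ} (hf : ContDiff ℝ 2 f) (x : R3) (s : ℝ) :
    (∫ y, qw y * f (x + s • y)) - f x * (∫ y, qw y) =
      ∫ t in (0 : ℝ)..s, t / 4 * ∫ y, qw y ^ 2 * lap f (x + t • y) := by
  have h := intervalIntegral.integral_eq_sub_of_hasDerivAt (a := 0) (b := s)
    (fun t _ => hasDerivAt_avg hf x t) (by
      apply Continuous.intervalIntegrable
      have := continuous_avg hf.lap_continuous x 1
      simp only [Nat.reduceAdd] at this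
      fun_prop)
  rw [h]
  congr 1
  simp only [zero_smul, add_zero]
  rw [integral_mul_const]
  ring

theorem lint_tail {a : ℝ} (ha : 0 < a) :
    ∫⁻ t in Ioi a, ENNReal.ofReal (t ^ (-2 : ℝ)) = ENNReal.ofReal (1 / a) := by
  have h1 : IntegrableOn (fun t : ℝ => t ^ (-2 : ℝ)) (Ioi a) :=
    integrableOn_Ioi_rpow_of_lt (by norm_num) ha
  rw [← ofReal_integral_eq_lintegral_ofReal h1]
  · rw [integral_Ioi_rpow_of_lt (by norm_num) ha]
    congr 1
    norm_num
    rw [Real.rpow_neg_one]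
  · filter_upwards [ae_restrict_mem measurableSet_Ioi] with t ht
    have : 0 < t := ha.trans ht
    positivity

/-- Kernel estimate: the double average is controlled by the Newton potential. -/
theorem kernel_est {G : R3 → ℝ} (hG : Continuous G) (h0 : ∀ y, 0 ≤ G y) (x : R3) :
    ∫ t in (0 : ℝ)..1, t / 4 * ∫ y, qw y ^ 2 * G (x + t • y) ≤
      ∫ y in Metric.ball x 1, G y / ‖y - x‖ := by
  have hq := qw_continuous
  -- the right side, translated
  have hR : ∫ y in Metric.ball x 1, G y / ‖y - x‖ = ∫ z in Metric.ball 0 1, G (x + z) / ‖z‖ := by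
    have h1 := (measurePreserving_add_left (volume : Measure R3) x).setIntegral_preimage_emb
      (measurableEmbedding_addLeft x) (fun y => G y / ‖y - x‖) (Metric.ball x 1)
    have h2 : (fun z => x + z) ⁻¹' Metric.ball x 1 = Metric.ball (0 : R3) 1 := by
      ext z
      simp [Metric.mem_ball, dist_eq_norm]
    rw [h2] at h1
    rw [← h1]
    simp only [add_sub_cancel_left]
  have hRi : IntegrableOn (fun z => G (x + z) / ‖z‖) (Metric.ball 0 1) := by
    obtain ⟨M, hM⟩ := (isCompact_closedBall (0 : R3) 1).exists_bound_of_continuousOn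
      (f := fun z => G (x + z)) (by (clear * - hG; fun_prop))
    have h1 := (integrableOn_inv_norm 1).const_mul M
    apply Integrable.mono' h1
    · apply AEMeasurable.aestronglyMeasurable
      apply Measurable.aemeasurable
      exact (by (clear * - hG; fun_prop) : Measurable fun z : R3 => G (x + z)).div measurable_norm
    · filter_upwards [ae_restrict_mem measurableSet_ball] with z hz
      have hz' := hM z (Metric.ball_subset_closedBall hz)
      rw [norm_div, norm_norm, mul_one_div]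
      gcongr
  rw [hR]
  have hRn : 0 ≤ ∫ z in Metric.ball 0 1, G (x + z) / ‖z‖ :=
    integral_nonneg fun z => div_nonneg (h0 _) (norm_nonneg _)
  set A : ℝ → ℝ := fun t => t / 4 * ∫ y, qw y ^ 2 * G (x + t • y) with hA
  have hAc : Continuous A := by
    have := continuous_avg hG x 1
    simp only [Nat.reduceAdd] at this
    fun_prop
  rw [intervalIntegral.integral_of_le zero_le_one]
  have hAi : IntegrableOn A (Ioc 0 1) :=
    (hAc.continuousOn.integrableOn_Icc (a := 0) (b := 1)).mono_set Ioc_subset_Icc_self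
  have hA0 : 0 ≤ᵐ[volume.restrict (Ioc 0 1)] A := by
    filter_upwards [ae_restrict_mem measurableSet_Ioc] with t ht
    apply mul_nonneg (by linarith only [ht.1])
    exact integral_nonneg fun y => mul_nonneg (sq_nonneg _) (h0 _)
  rw [← ENNReal.ofReal_le_ofReal_iff hRn, ofReal_integral_eq_lintegral_ofReal hAi hA0,
    ofReal_integral_eq_lintegral_ofReal hRi (Eventually.of_forall fun z =>
      div_nonneg (h0 _) (norm_nonneg _))]
  -- pointwise in `t`
  have step : ∀ t ∈ Ioc (0 : ℝ) 1, ENNReal.ofReal (A t) ≤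
      ∫⁻ z in Metric.ball (0 : R3) 1, if ‖z‖ < t then
        ENNReal.ofReal (t ^ (-2 : ℝ)) * ENNReal.ofReal (G (x + z)) else 0 := by
    intro t ht
    have ht0 : 0 < t := ht.1
    have h1 : ∫ y, qw y ^ 2 * G (x + t • y) = (t ^ 3)⁻¹ * ∫ z, qw (t⁻¹ • z) ^ 2 * G (x + z) := by
      have h2 := Measure.integral_comp_smul_of_nonneg (volume : Measure R3)
        (fun z => qw (t⁻¹ • z) ^ 2 * G (x + z)) t (hR := ht0.le)
      rw [finrank_R3, smul_eq_mul] at h2
      rw [← h2]
      congr 1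
      funext y
      rw [inv_smul_smul₀ ht0.ne']
    have hz0 : ∀ z : R3, ¬ ‖z‖ < t → qw (t⁻¹ • z) = 0 := by
      intro z hz
      apply qw_eq_zero
      rw [norm_smul, norm_inv, Real.norm_of_nonneg ht0.le]
      rw [not_lt] at hz
      rw [← div_eq_inv_mul, le_div_iff₀ ht0]
      linarith only [hz]
    have hint : Integrable (fun z => qw (t⁻¹ • z) ^ 2 * G (x + z)) volume := by
      apply Continuous.integrable_of_hasCompactSupport (by fun_prop)
      apply HasCompactSupport.intro (isCompact_closedBall (0 : R3) t)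
      intro z hz
      rw [mem_closedBall_zero_iff, not_le] at hz
      rw [hz0 z (not_lt.mpr hz.le)]
      ring
    rw [hA]
    simp only
    rw [h1, ← mul_assoc, ENNReal.ofReal_mul (by positivity),
      ofReal_integral_eq_lintegral_ofReal hint (Eventually.of_forall fun z =>
        mul_nonneg (sq_nonneg _) (h0 _)), ← lintegral_const_mul', ← lintegral_indicator
        measurableSet_ball]
    · apply lintegral_mono
      intro z
      simp only
      by_cases hz : ‖z‖ < t
      · have hz1 : z ∈ Metric.ball (0 : R3) 1 := by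
          rw [mem_ball_zero_iff]
          linarith only [hz, ht.2]
        rw [indicator_of_mem hz1, if_pos hz, ← ENNReal.ofReal_mul (by positivity),
          ← ENNReal.ofReal_mul (by positivity)]
        apply ENNReal.ofReal_le_ofReal
        rw [← mul_assoc]
        apply mul_le_mul_of_nonneg_right _ (h0 _)
        have h3 : qw (t⁻¹ • z) ^ 2 ≤ 1 := pow_le_one₀ (qw_nonneg _) (qw_le_one _)
        have h4 : t ^ (-2 : ℝ) = (t ^ 2)⁻¹ := by
          rw [Real.rpow_neg ht0.le]
          norm_num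
        rw [h4]
        calc t / 4 * (t ^ 3)⁻¹ * qw (t⁻¹ • z) ^ 2 ≤ t / 4 * (t ^ 3)⁻¹ * 1 := by (clear * - h3 ht0; gcongr)
          _ = (1 / 4) * (t ^ 2)⁻¹ := by
            field_simp
          _ ≤ (t ^ 2)⁻¹ := by
            have : 0 < (t ^ 2)⁻¹ := by positivity
            linarith only [this]
      · rw [hz0 z hz]
        simp only [ne_eq, OfNat.ofNat_ne_zero, not_false_eq_true, zero_pow, zero_mul, ENNReal.ofReal_zero, mul_zero, Real.rpow_neg_ofNat, Int.reduceNeg, zpow_neg, zpow_ofNat, zero_le]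
    · exact ENNReal.ofReal_ne_top
  calc ∫⁻ t in Ioc (0 : ℝ) 1, ENNReal.ofReal (A t)
      ≤ ∫⁻ t in Ioc (0 : ℝ) 1, ∫⁻ z in Metric.ball (0 : R3) 1, (if ‖z‖ < t then
        ENNReal.ofReal (t ^ (-2 : ℝ)) * ENNReal.ofReal (G (x + z)) else 0) :=
        setLIntegral_mono' measurableSet_Ioc step
    _ = ∫⁻ z in Metric.ball (0 : R3) 1, ∫⁻ t in Ioc (0 : ℝ) 1, (if ‖z‖ < t then
        ENNReal.ofReal (t ^ (-2 : ℝ)) * ENNReal.ofReal (G (x + z)) else 0) := by
        apply lintegral_lintegral_swap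
        apply Measurable.aemeasurable
        apply Measurable.ite
        · exact measurableSet_lt (by fun_prop) (by fun_prop)
        · have h1 : Measurable G := hG.measurable
          fun_prop
        · exact measurable_const
    _ ≤ ∫⁻ z in Metric.ball (0 : R3) 1, ENNReal.ofReal (G (x + z) / ‖z‖) := by
        apply lintegral_mono_ae
        have hne : ∀ᵐ z : R3 ∂(volume.restrict (Metric.ball (0 : R3) 1)), z ≠ 0 := by
          apply ae_restrict_of_ae
          exact Measure.ae_ne volume 0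
        filter_upwards [hne] with z hz
        have hz' : 0 < ‖z‖ := norm_pos_iff.mpr hz
        calc ∫⁻ t in Ioc (0 : ℝ) 1, (if ‖z‖ < t then
              ENNReal.ofReal (t ^ (-2 : ℝ)) * ENNReal.ofReal (G (x + z)) else 0)
            ≤ ∫⁻ t, (if ‖z‖ < t then
              ENNReal.ofReal (t ^ (-2 : ℝ)) * ENNReal.ofReal (G (x + z)) else 0) :=
              setLIntegral_le_lintegral _ _
          _ = ∫⁻ t in Ioi ‖z‖, ENNReal.ofReal (t ^ (-2 : ℝ)) * ENNReal.ofReal (G (x + z)) := by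
              rw [← lintegral_indicator measurableSet_Ioi]
              congr 1
          _ = ENNReal.ofReal (1 / ‖z‖) * ENNReal.ofReal (G (x + z)) := by
              rw [lintegral_mul_const' _ _ ENNReal.ofReal_ne_top, lint_tail hz']
          _ = ENNReal.ofReal (G (x + z) / ‖z‖) := by
              rw [← ENNReal.ofReal_mul (by positivity)]
              congr 1
              ring

/-- SUB-MEAN-VALUE INEQUALITY, kernel form. -/
theorem submean_kernel : ∃ C : ℝ, 0 ≤ C ∧ ∀ (f G : R3 → ℝ) (x : R3), ContDiff ℝ 2 f →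
    Continuous G → (∀ y, 0 ≤ G y) → (∀ y ∈ Metric.ball x 1, -(G y) ≤ lap f y) →
    f x ≤ C * ((∫ y in Metric.ball x 1, |f y|) + ∫ y in Metric.ball x 1, G y / ‖y - x‖) := by
  have hI := int_qw_pos
  refine ⟨1 / ∫ y, qw y, by positivity, ?_⟩
  intro f G x hf hG h0 hlap
  have hq := qw_continuous
  have hfc : Continuous f := hf.continuous
  have h1 := avg_formula hf x 1
  simp only [one_smul] at h1
  -- lower bound of the right side
  have h2 : -(∫ y in Metric.ball x 1, G y / ‖y - x‖) ≤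
      ∫ t in (0 : ℝ)..1, t / 4 * ∫ y, qw y ^ 2 * lap f (x + t • y) := by
    have h3 := kernel_est hG h0 x
    have h4 : -(∫ t in (0 : ℝ)..1, t / 4 * ∫ y, qw y ^ 2 * G (x + t • y)) ≤
        ∫ t in (0 : ℝ)..1, t / 4 * ∫ y, qw y ^ 2 * lap f (x + t • y) := by
      rw [← intervalIntegral.integral_neg]
      have c1 := continuous_avg hG x 1
      have c2 := continuous_avg hf.lap_continuous x 1
      simp only [Nat.reduceAdd] at c1 c2
      apply intervalIntegral.integral_mono_on zero_le_one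
      · exact Continuous.intervalIntegrable (by fun_prop) _ _
      · exact Continuous.intervalIntegrable (by fun_prop) _ _
      · intro t ht
        rw [← mul_neg, ← integral_neg]
        apply mul_le_mul_of_nonneg_left _ (by linarith only [ht.1])
        have hlc := hf.lap_continuous
        apply integral_mono
        · apply Integrable.neg
          apply integrable_of_ball (by fun_prop)
          intro y hy
          rw [qw_eq_zero hy]
          ring
        · apply integrable_of_ball (by fun_prop)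
          intro y hy
          rw [qw_eq_zero hy]
          ring
        · intro y
          simp only
          rcases lt_or_ge ‖y‖ 1 with hy | hy
          · rw [← mul_neg]
            apply mul_le_mul_of_nonneg_left _ (sq_nonneg _)
            apply hlap
            rw [Metric.mem_ball, dist_eq_norm, add_sub_cancel_left, norm_smul,
              Real.norm_of_nonneg ht.1]
            calc t * ‖y‖ ≤ 1 * ‖y‖ := by
                  apply mul_le_mul_of_nonneg_right ht.2 (norm_nonneg _)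
              _ < 1 := by linarith only [hy]
          · rw [qw_eq_zero hy]
            simp
    linarith only [h3, h4]
  -- upper bound of the average
  have h5 : ∫ y, qw y * f (x + y) ≤ ∫ y in Metric.ball x 1, |f y| := by
    have hR : ∫ y in Metric.ball x 1, |f y| = ∫ z in Metric.ball 0 1, |f (x + z)| := by
      have h1 := (measurePreserving_add_left (volume : Measure R3) x).setIntegral_preimage_emb
        (measurableEmbedding_addLeft x) (fun y => |f y|) (Metric.ball x 1)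
      have h2 : (fun z => x + z) ⁻¹' Metric.ball x 1 = Metric.ball (0 : R3) 1 := by
        ext z
        simp only [preimage_add_ball, sub_self, Metric.mem_ball, dist_eq_norm, sub_zero]
      rw [h2] at h1
      exact h1.symm
    rw [hR, ← integral_indicator measurableSet_ball]
    have hi : Integrable (fun y => qw y * f (x + y)) volume := by
      apply integrable_of_ball (by fun_prop)
      intro y hy
      rw [qw_eq_zero hy, zero_mul]
    apply integral_mono hi
    · rw [integrable_indicator_iff measurableSet_ball]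
      have : ContinuousOn (fun z => |f (x + z)|) (Metric.closedBall 0 1) := by fun_prop
      exact (this.integrableOn_compact (isCompact_closedBall _ _)).mono_set
        Metric.ball_subset_closedBall
    · intro y
      simp only
      by_cases hy : ‖y‖ < 1
      · rw [indicator_of_mem (by rwa [mem_ball_zero_iff])]
        calc qw y * f (x + y) ≤ qw y * |f (x + y)| :=
              mul_le_mul_of_nonneg_left (le_abs_self _) (qw_nonneg _)
          _ ≤ 1 * |f (x + y)| := mul_le_mul_of_nonneg_right (qw_le_one _) (abs_nonneg _)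
          _ = _ := one_mul _
      · rw [indicator_of_notMem (by rwa [mem_ball_zero_iff]), qw_eq_zero (not_lt.mp hy), zero_mul]
  rw [one_div, ← div_eq_inv_mul, le_div_iff₀ hI]
  linarith only [h1, h2, h5]

end

end Vale.Agent.P363.D
end
end

section

section

namespace Vale.Agent.P363

open MeasureTheory Filter Set
open scoped ContDiff Topology ENNReal

instance instHaarX6 : (volume : Measure X6).IsAddHaarMeasure :=
  inferInstanceAs (((volume : Measure R3).prod (volume : Measure R3)).IsAddHaarMeasure)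

instance instNegX6 : (volume : Measure X6).IsNegInvariant :=
  ⟨((Measure.measurePreserving_neg (volume : Measure R3)).prod
    (Measure.measurePreserving_neg (volume : Measure R3))).map_eq⟩

lemma lintegral_sq_eq (h : X6 → ℝ) : ∫⁻ x, ‖h x‖ₑ ^ 2 = (eLpNorm h 2 volume) ^ 2 := by
  have := eLpNorm_nnreal_pow_eq_lintegral (f := h) (μ := volume) (p := 2) (by norm_num)
  norm_num at this
  exact this.symm

lemma tau_tendsto {f : X6 → ℝ} (hf : MemLp f 2 volume) :
    Tendsto (fun y : X6 => ∫⁻ x, ‖f (x - y) - f x‖ₑ ^ 2) (𝓝 0) (𝓝 0) := by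
  have hfact : Fact ((1 : ℝ≥0∞) ≤ 2) := ⟨by norm_num⟩
  set F : Lp ℝ 2 (volume : Measure X6) := hf.toLp f with hF
  let g : C(X6, C(X6, X6)) := (ContinuousMap.mk (fun p : X6 × X6 => p.2 - p.1) (by (clear * - hfact; fun_prop))).curry
  have hgm : ∀ y, MeasurePreserving (g y) (volume : Measure X6) volume := fun y =>
    measurePreserving_sub_right volume y
  have hc : Continuous (fun y => Lp.compMeasurePreserving (g y) (hgm y) F) :=
    Continuous.compMeasurePreservingLp continuous_const g.continuous hgm (by norm_num)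
  have h0 : Lp.compMeasurePreserving (g 0) (hgm 0) F = F := by
    apply Lp.ext
    filter_upwards [Lp.coeFn_compMeasurePreserving F (hgm 0)] with x hx
    rw [hx]
    simp only [Function.comp_apply, ContinuousMap.curry_apply, ContinuousMap.coe_mk, sub_zero, g]
  have h1 : Tendsto (fun y => ‖Lp.compMeasurePreserving (g y) (hgm y) F - F‖) (𝓝 0) (𝓝 0) := by
    have := (hc.sub continuous_const).norm.tendsto 0 (f := fun y => ‖Lp.compMeasurePreserving (g y) (hgm y) F - F‖)
    simp only [h0, sub_self, norm_zero] at this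
    exact this
  have h2 : ∀ y, ∫⁻ x, ‖f (x - y) - f x‖ₑ ^ 2
      = (ENNReal.ofReal ‖Lp.compMeasurePreserving (g y) (hgm y) F - F‖) ^ 2 := by
    intro y
    rw [lintegral_sq_eq (fun x => f (x - y) - f x)]
    congr 1
    rw [Lp.norm_def, ENNReal.ofReal_toReal (Lp.eLpNorm_ne_top _)]
    apply eLpNorm_congr_ae
    have e1 := Lp.coeFn_compMeasurePreserving F (hgm y)
    have e2 := Lp.coeFn_sub (Lp.compMeasurePreserving (g y) (hgm y) F) F
    have e3 := hf.coeFn_toLp
    have e4 := (hgm y).quasiMeasurePreserving.ae_eq_comp e3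
    filter_upwards [e1, e2, e3, e4] with x x1 x2 x3 x4
    rw [x2, Pi.sub_apply, x1, x4, x3]
    rfl
  simp_rw [h2]
  have h3 := (ENNReal.continuous_ofReal.tendsto 0).comp h1
  rw [ENNReal.ofReal_zero] at h3
  have h4 := ((ENNReal.continuous_pow 2).tendsto 0).comp h3
  simp only [ne_eq, OfNat.ofNat_ne_zero, not_false_eq_true, zero_pow] at h4
  exact h4

lemma tau_le {f : X6 → ℝ} (hf : MemLp f 2 volume) (y : X6) :
    ∫⁻ x, ‖f (x - y) - f x‖ₑ ^ 2 ≤ 4 * (eLpNorm f 2 volume) ^ 2 := by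
  rw [lintegral_sq_eq (fun x => f (x - y) - f x)]
  have h1 : eLpNorm (fun x => f (x - y)) 2 volume = eLpNorm f 2 volume :=
    eLpNorm_comp_measurePreserving hf.1 (measurePreserving_sub_right volume y)
  have h2 : eLpNorm (fun x => f (x - y) - f x) 2 volume ≤ eLpNorm f 2 volume + eLpNorm f 2 volume := by
    refine (eLpNorm_sub_le (hf.comp_measurePreserving (measurePreserving_sub_right volume y)).1 hf.1
      (by norm_num)).trans ?_
    have : eLpNorm (f ∘ fun x => x - y) 2 volume = eLpNorm f 2 volume := h1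
    rw [this]
  calc _ ≤ (eLpNorm f 2 volume + eLpNorm f 2 volume) ^ 2 := by gcongr
    _ = _ := by ring

/-- Jensen for the heat kernel -/
lemma hE_jensen {s : ℝ} (hs : 0 < s) {G : X6 → ℝ≥0∞} (hG : AEMeasurable G) :
    (∫⁻ y, hE s y * G y) ^ 2 ≤ ∫⁻ y, hE s y * G y ^ 2 := by
  have hm := measurable_hE' s
  have h1 : ∫⁻ y, hE s y = 1 := by simpa using lintegral_hE_sub hs 0
  set ν := (volume : Measure X6).withDensity (hE s) with hν
  have hν1 : IsProbabilityMeasure ν := ⟨by rw [hν, withDensity_apply _ MeasurableSet.univ]; simpa using h1⟩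
  have e1 : ∫⁻ y, hE s y * G y = ∫⁻ y, G y ∂ν := by
    rw [hν, lintegral_withDensity_eq_lintegral_mul₀ hm.aemeasurable hG]; rfl
  have e2 : ∫⁻ y, hE s y * G y ^ 2 = ∫⁻ y, G y ^ 2 ∂ν := by
    rw [hν, lintegral_withDensity_eq_lintegral_mul₀ hm.aemeasurable (hG.pow_const 2)]; rfl
  rw [e1, e2]
  have hGν : AEMeasurable G ν := hG.mono_ac (withDensity_absolutelyContinuous _ _)
  have hpq : Real.HolderConjugate 2 2 := Real.HolderConjugate.two_two
  have := ENNReal.lintegral_mul_le_Lp_mul_Lq ν hpq hGν (aemeasurable_const (b := (1:ℝ≥0∞)))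
  simp only [Pi.mul_apply, mul_one, ENNReal.one_rpow, lintegral_const, measure_univ] at this
  calc (∫⁻ y, G y ∂ν) ^ 2 ≤ ((∫⁻ y, G y ^ (2:ℝ) ∂ν) ^ (1 / 2 : ℝ)) ^ 2 := by gcongr
    _ = ∫⁻ y, G y ^ 2 ∂ν := by
        rw [← ENNReal.rpow_natCast, ← ENNReal.rpow_mul]
        norm_num

lemma hk_le {s : ℝ} (hs : 0 < s) (y : X6) : hk s y ≤ ((2 * Real.pi * s) ^ 3)⁻¹ := by
  unfold hk
  apply mul_le_of_le_one_right (by positivity)
  rw [Real.exp_le_one_iff]
  have := nsq_nonneg y
  have : 0 ≤ nsq y / (2 * s) := by positivity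
  linarith

lemma integrable_hk {s : ℝ} (hs : 0 < s) : Integrable (hk s) := by
  refine ⟨(continuous_hk s).aestronglyMeasurable, ?_⟩
  have h1 : ∫⁻ y, hE s y = 1 := by simpa using lintegral_hE_sub hs 0
  rw [hasFiniteIntegral_iff_enorm]
  have : ∀ y, ‖hk s y‖ₑ = hE s y := fun y => by
    unfold hE
    rw [Real.enorm_eq_ofReal (hk_nonneg hs y)]
  simp_rw [this, h1]
  exact ENNReal.one_lt_top

lemma integral_hk {s : ℝ} (hs : 0 < s) : ∫ y, hk s y = 1 := by
  have h1 : ∫⁻ y, hE s y = 1 := by simpa using lintegral_hE_sub hs 0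
  rw [integral_eq_lintegral_of_nonneg_ae (Eventually.of_forall fun y => hk_nonneg hs y)
    (continuous_hk s).aestronglyMeasurable]
  have : ∫⁻ y, ENNReal.ofReal (hk s y) = 1 := h1
  rw [this]; simp

lemma memLp_hk {s : ℝ} (hs : 0 < s) : MemLp (hk s) 2 volume := by
  rw [memLp_two_iff_integrable_sq (continuous_hk s).aestronglyMeasurable]
  refine Integrable.mono' ((integrable_hk hs).const_mul ((2 * Real.pi * s) ^ 3)⁻¹)
    ((continuous_hk s).pow 2).aestronglyMeasurable ?_
  refine Eventually.of_forall fun y => ?_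
  have h1 := hk_nonneg hs y
  rw [Real.norm_eq_abs, abs_of_nonneg (by positivity), pow_two]
  gcongr
  exact hk_le hs y

lemma memLp_hk_sub {s : ℝ} (hs : 0 < s) (x : X6) : MemLp (fun y => hk s (x - y)) 2 volume :=
  (memLp_hk hs).comp_measurePreserving (Measure.measurePreserving_sub_left volume x)

lemma hk_far {δ s : ℝ} (hs : 0 < s) (hs1 : s ≤ 1) {y : X6} (hy : δ ≤ nsq y) :
    hk s y ≤ hk 1 y * ((s⁻¹) ^ 3 * Real.exp (-(δ / 2 * (s⁻¹ - 1)))) := by
  unfold hk
  have h1 : ((2 * Real.pi * s) ^ 3)⁻¹ = ((2 * Real.pi * 1) ^ 3)⁻¹ * (s⁻¹) ^ 3 := by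
    rw [mul_one, mul_pow, mul_inv, inv_pow]
  rw [h1]
  have h2 : Real.exp (-(nsq y / (2 * s))) ≤ Real.exp (-(nsq y / (2 * 1))) *
      Real.exp (-(δ / 2 * (s⁻¹ - 1))) := by
    rw [← Real.exp_add]
    apply Real.exp_le_exp.2
    have h3 : 0 ≤ s⁻¹ - 1 := by
      have := (one_le_inv₀ hs).2 hs1
      linarith only [this]
    have h4 : nsq y / (2 * s) = nsq y / (2 * 1) + nsq y / 2 * (s⁻¹ - 1) := by
      field_simp; ring
    rw [h4]
    have : δ / 2 * (s⁻¹ - 1) ≤ nsq y / 2 * (s⁻¹ - 1) := by gcongr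
    linarith only [this]
  calc _ ≤ ((2 * Real.pi * 1) ^ 3)⁻¹ * (s⁻¹) ^ 3 * (Real.exp (-(nsq y / (2 * 1))) *
      Real.exp (-(δ / 2 * (s⁻¹ - 1)))) := by gcongr
    _ = _ := by ring

/-- the sequence of times -/
noncomputable def sk (k : ℕ) : ℝ := ((k : ℝ) + 1)⁻¹

lemma sk_pos (k : ℕ) : 0 < sk k := by unfold sk; positivity

lemma sk_le_one (k : ℕ) : sk k ≤ 1 := by
  unfold sk
  apply inv_le_one_of_one_le₀
  have : (0:ℝ) ≤ k := by positivity
  linarith

lemma sk_tendsto : Tendsto sk atTop (𝓝 0) := by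
  unfold sk
  exact tendsto_inv_atTop_zero.comp (tendsto_atTop_add_const_right _ _ tendsto_natCast_atTop_atTop)

lemma far_tendsto {δ : ℝ} (hδ : 0 < δ) :
    Tendsto (fun k => ((sk k)⁻¹) ^ 3 * Real.exp (-(δ / 2 * ((sk k)⁻¹ - 1)))) atTop (𝓝 0) := by
  have h1 : Tendsto (fun x : ℝ => x ^ 3 * Real.exp (-(δ / 2 * (x - 1)))) atTop (𝓝 0) := by
    have h2 := Real.tendsto_pow_mul_exp_neg_atTop_nhds_zero 3
    have h3 : Tendsto (fun x : ℝ => δ / 2 * x) atTop atTop :=
      tendsto_id.const_mul_atTop (by positivity)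
    have h4 := (h2.comp h3).const_mul ((δ / 2) ^ 3)⁻¹
    have h5 := h4.const_mul (Real.exp (δ / 2))
    simp only [mul_zero] at h5
    refine h5.congr fun x => ?_
    simp only [Function.comp]
    have : Real.exp (-(δ / 2 * (x - 1))) = Real.exp (δ / 2) * Real.exp (-(δ / 2 * x)) := by
      rw [← Real.exp_add]; congr 1; ring
    rw [this]
    field_simp
  have h6 : Tendsto (fun k => (sk k)⁻¹) atTop atTop := by
    unfold sk
    simp only [inv_inv]
    exact tendsto_atTop_add_const_right _ _ tendsto_natCast_atTop_atTop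
  exact h1.comp h6

lemma hE_tau_tendsto {τ : X6 → ℝ≥0∞} (hτ0 : Tendsto τ (𝓝 0) (𝓝 0))
    {K : ℝ≥0∞} (hK : K ≠ ⊤) (hτK : ∀ y, τ y ≤ K) :
    Tendsto (fun k => ∫⁻ y, hE (sk k) y * τ y) atTop (𝓝 0) := by
  rw [ENNReal.tendsto_nhds_zero]
  intro ε hε
  by_cases hεt : ε = ⊤
  · filter_upwards with k; rw [hεt]; exact le_top
  have hε2 : 0 < ε / 2 := ENNReal.half_pos hε.ne'
  -- near part
  have hnear : ∃ δ > 0, ∀ y : X6, nsq y < δ → τ y ≤ ε / 2 := by
    have h1 := (ENNReal.tendsto_nhds_zero.1 hτ0) (ε / 2) hε2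
    rw [Metric.eventually_nhds_iff] at h1
    obtain ⟨d, hd, h2⟩ := h1
    refine ⟨d ^ 2, by positivity, fun y hy => h2 ?_⟩
    rw [dist_zero_right, Prod.norm_def, max_lt_iff]
    unfold nsq at hy
    constructor
    · apply lt_of_pow_lt_pow_left₀ 2 hd.le
      nlinarith only [hy]
    · apply lt_of_pow_lt_pow_left₀ 2 hd.le
      nlinarith only [hy]
  obtain ⟨δ, hδ, hn⟩ := hnear
  have hfar := ((ENNReal.continuous_ofReal.tendsto 0).comp (far_tendsto hδ))
  rw [ENNReal.ofReal_zero] at hfar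
  have hfar2 := ENNReal.Tendsto.const_mul hfar (Or.inr hK)
  rw [mul_zero] at hfar2
  have hfar3 := (ENNReal.tendsto_nhds_zero.1 hfar2) (ε / 2) hε2
  filter_upwards [hfar3] with k hk3
  have hs := sk_pos k
  have hle : ∀ y, hE (sk k) y * τ y ≤ hE (sk k) y * (ε / 2) + K * (ENNReal.ofReal
      (((sk k)⁻¹) ^ 3 * Real.exp (-(δ / 2 * ((sk k)⁻¹ - 1)))) * hE 1 y) := by
    intro y
    by_cases hy : nsq y < δ
    · calc _ ≤ hE (sk k) y * (ε / 2) := by gcongr; exact hn y hy
        _ ≤ _ := le_self_add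
    · push Not at hy
      calc hE (sk k) y * τ y ≤ (ENNReal.ofReal
          (((sk k)⁻¹) ^ 3 * Real.exp (-(δ / 2 * ((sk k)⁻¹ - 1)))) * hE 1 y) * K := by
            gcongr
            · unfold hE
              rw [← ENNReal.ofReal_mul (by positivity), mul_comm _ (hk 1 y)]
              exact ENNReal.ofReal_le_ofReal (hk_far hs (sk_le_one k) hy)
            · exact hτK y
        _ ≤ _ := by rw [mul_comm]; exact le_add_self
  have h1 : ∀ s : ℝ, 0 < s → ∫⁻ y, hE s y = 1 := fun s hs => by simpa using lintegral_hE_sub hs 0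
  calc ∫⁻ y, hE (sk k) y * τ y ≤ _ := lintegral_mono hle
    _ = ε / 2 + K * ENNReal.ofReal (((sk k)⁻¹) ^ 3 * Real.exp (-(δ / 2 * ((sk k)⁻¹ - 1)))) := by
        have m1 := measurable_hE' (sk k)
        have m2 := measurable_hE' 1
        rw [lintegral_add_left (by fun_prop), lintegral_mul_const _ m1, h1 _ hs, one_mul,
          lintegral_const_mul _ (by fun_prop), lintegral_const_mul _ m2, h1 _ one_pos, mul_one]
    _ ≤ ε / 2 + ε / 2 := by gcongr; exact hk3
    _ = ε := ENNReal.add_halves ε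

/-- real heat semigroup -/
noncomputable def PR (s : ℝ) (f : X6 → ℝ) (x : X6) : ℝ := ∫ y, hk s (x - y) * f y

lemma integrable_hk_mul {s : ℝ} (hs : 0 < s) {f : X6 → ℝ} (hf : MemLp f 2 volume) (x : X6) :
    Integrable (fun y => hk s (x - y) * f y) := (memLp_hk_sub hs x).integrable_mul hf

lemma PR_sub_le {s : ℝ} (hs : 0 < s) {f : X6 → ℝ} (hf : MemLp f 2 volume) (x : X6) :
    ‖PR s f x - f x‖ₑ ≤ ∫⁻ y, hE s y * ‖f (x - y) - f x‖ₑ := by
  have h1 : PR s f x = ∫ y, hk s y * f (x - y) := by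
    unfold PR
    rw [← integral_sub_left_eq_self _ volume x]
    simp
  have h2 : f x = ∫ y, hk s y * f x := by
    rw [integral_mul_const, integral_hk hs, one_mul]
  have h3 : Integrable (fun y => hk s y * f (x - y)) := by
    have := (integrable_hk_mul hs hf x).comp_sub_left x
    simpa only [sub_sub_cancel] using this
  have h4 : PR s f x - f x = ∫ y, hk s y * (f (x - y) - f x) := by
    rw [h1]
    have h5 : ∫ y, hk s y * (f (x - y) - f x) = (∫ y, hk s y * f (x - y)) - ∫ y, hk s y * f x := by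
      rw [← integral_sub h3 ((integrable_hk hs).mul_const _)]
      congr 1; ext y; ring
    rw [h5, ← h2]
  rw [h4]
  refine (enorm_integral_le_lintegral_enorm _).trans (le_of_eq ?_)
  congr 1; ext y
  rw [enorm_mul, Real.enorm_eq_ofReal (hk_nonneg hs y)]; rfl

lemma exists_seq_heat {f : X6 → ℝ} (hf : MemLp f 2 volume) :
    ∃ s : ℕ → ℝ, (∀ k, 0 < s k) ∧ Tendsto s atTop (𝓝 0) ∧
      ∀ᵐ x, Tendsto (fun k => PR (s k) f x) atTop (𝓝 (f x)) := by
  have hmeas : ∀ k, AEStronglyMeasurable (PR (sk k) f) volume := by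
    intro k
    have h1 : ∀ x, PR (sk k) f x = ∫ y, hk (sk k) (x - y) * hf.1.mk f y := by
      intro x
      unfold PR
      apply integral_congr_ae
      filter_upwards [hf.1.ae_eq_mk] with y hy
      rw [hy]
    have h2 : StronglyMeasurable (fun x => ∫ y, hk (sk k) (x - y) * hf.1.mk f y) := by
      apply StronglyMeasurable.integral_prod_right' (f := fun p : X6 × X6 => hk (sk k) (p.1 - p.2) * hf.1.mk f p.2)
      have h3 : Measurable (fun p : X6 × X6 => hk (sk k) (p.1 - p.2)) := by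
        have := continuous_hk (sk k)
        exact (this.comp (by (clear * -; fun_prop))).measurable
      exact h3.stronglyMeasurable.mul (hf.1.stronglyMeasurable_mk.comp_measurable measurable_snd)
    have h3 : PR (sk k) f = (fun x => ∫ y, hk (sk k) (x - y) * hf.1.mk f y) := funext h1
    rw [h3]
    exact h2.aestronglyMeasurable
  have hL2 : Tendsto (fun k => eLpNorm (PR (sk k) f - f) 2 volume) atTop (𝓝 0) := by
    have h1 : ∀ k, (eLpNorm (PR (sk k) f - f) 2 volume) ^ 2
        ≤ ∫⁻ y, hE (sk k) y * (∫⁻ x, ‖f (x - y) - f x‖ₑ ^ 2) := by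
      intro k
      have hs := sk_pos k
      rw [← lintegral_sq_eq]
      have hfx : AEMeasurable (fun p : X6 × X6 => ‖f (p.1 - p.2) - f p.1‖ₑ ^ 2) (volume.prod volume) := by
        have e1 : AEStronglyMeasurable (fun p : X6 × X6 => f (p.1 - p.2)) (volume.prod volume) :=
          hf.1.comp_quasiMeasurePreserving (quasiMeasurePreserving_sub volume volume)
        have e2 : AEStronglyMeasurable (fun p : X6 × X6 => f p.1) (volume.prod volume) := hf.1.comp_fst
        exact (e1.sub e2).enorm.pow_const 2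
      calc ∫⁻ x, ‖(PR (sk k) f - f) x‖ₑ ^ 2
          ≤ ∫⁻ x, ∫⁻ y, hE (sk k) y * ‖f (x - y) - f x‖ₑ ^ 2 := by
            apply lintegral_mono_ae
            filter_upwards with x
            have e3 : AEMeasurable (fun y => ‖f (x - y) - f x‖ₑ) := by
              have : AEStronglyMeasurable (fun y => f (x - y)) volume :=
                hf.1.comp_quasiMeasurePreserving (Measure.measurePreserving_sub_left volume x).quasiMeasurePreserving
              exact (this.sub aestronglyMeasurable_const).enorm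
            calc ‖(PR (sk k) f - f) x‖ₑ ^ 2 ≤ (∫⁻ y, hE (sk k) y * ‖f (x - y) - f x‖ₑ) ^ 2 := by
                  gcongr
                  exact PR_sub_le hs hf x
              _ ≤ _ := hE_jensen hs e3
        _ = ∫⁻ y, ∫⁻ x, hE (sk k) y * ‖f (x - y) - f x‖ₑ ^ 2 := by
            apply lintegral_lintegral_swap
            exact ((measurable_hE' (sk k)).comp measurable_snd).aemeasurable.mul hfx
        _ = _ := by
            apply lintegral_congr_ae
            filter_upwards with y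
            rw [lintegral_const_mul' _ _ (by simp [hE])]
    have h2 := hE_tau_tendsto (tau_tendsto hf) (K := 4 * (eLpNorm f 2 volume) ^ 2)
      (by exact ENNReal.mul_ne_top (by norm_num) (ENNReal.pow_ne_top hf.2.ne)) (tau_le hf)
    have h3 : Tendsto (fun k => (eLpNorm (PR (sk k) f - f) 2 volume) ^ 2) atTop (𝓝 0) :=
      tendsto_of_tendsto_of_tendsto_of_le_of_le tendsto_const_nhds h2 (fun _ => zero_le) h1
    have h4 := (ENNReal.continuous_rpow_const (y := (1 / 2 : ℝ))).tendsto 0 |>.comp h3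
    simp only [one_div, inv_pos, Nat.ofNat_pos, ENNReal.zero_rpow_of_pos] at h4
    refine h4.congr fun k => ?_
    simp only [Function.comp]
    rw [← ENNReal.rpow_natCast, ← ENNReal.rpow_mul]
    norm_num
  have hmeasure := tendstoInMeasure_of_tendsto_eLpNorm (by norm_num) hmeas hf.1 hL2
  obtain ⟨ns, hns, hae⟩ := hmeasure.exists_seq_tendsto_ae
  exact ⟨fun k => sk (ns k), fun k => sk_pos _, sk_tendsto.comp hns.tendsto_atTop, hae⟩

end Vale.Agent.P363
end
end

section

section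

namespace Vale.Agent.P363

open MeasureTheory Filter Set
open scoped ContDiff Topology ENNReal

/-- coordinate directions of `X6` -/
noncomputable def e6 : Fin 3 ⊕ Fin 3 → X6 := Sum.elim dirX dirY

/-- coordinates of `X6` -/
noncomputable def co : Fin 3 ⊕ Fin 3 → X6 → ℝ := Sum.elim (fun k z => z.1 k) (fun k z => z.2 k)

lemma nsq_line (i : Fin 3 ⊕ Fin 3) (z : X6) (t : ℝ) :
    nsq (z + t • e6 i) = nsq z + 2 * t * co i z + t ^ 2 := by
  rcases i with k | k
  · simp only [nsq, e6, co, Sum.elim_inl, dirX, Prod.fst_add, Prod.smul_fst, Prod.snd_add, Prod.smul_snd,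
      smul_zero, add_zero]
    rw [norm_add_sq_real, inner_smul_right, norm_smul, mul_pow, EuclideanSpace.inner_single_right]
    simp only [Real.ringHom_apply, one_mul, Real.norm_eq_abs, sq_abs, PiLp.norm_single, norm_one, one_pow, mul_one]
    ring
  · simp only [nsq, e6, co, Sum.elim_inr, dirY, Prod.fst_add, Prod.smul_fst, Prod.snd_add, Prod.smul_snd,
      smul_zero, add_zero]
    rw [norm_add_sq_real, inner_smul_right, norm_smul, mul_pow, EuclideanSpace.inner_single_right]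
    simp only [Real.ringHom_apply, one_mul, Real.norm_eq_abs, sq_abs, PiLp.norm_single, norm_one, one_pow, mul_one]
    ring

lemma co_line (i j : Fin 3 ⊕ Fin 3) (z : X6) (t : ℝ) :
    co j (z + t • e6 i) = co j z + if i = j then t else 0 := by
  rcases i with k | k <;> rcases j with l | l <;> simp [co, e6, dirX, dirY, eq_comm]

lemma sum_co_sq (z : X6) : ∑ i, co i z ^ 2 = nsq z := by
  simp only [Fintype.sum_sum_type, co, Sum.elim_inl, Sum.elim_inr, nsq]
  rw [EuclideanSpace.norm_sq_eq, EuclideanSpace.norm_sq_eq]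
  simp only [Real.norm_eq_abs, sq_abs]

lemma contDiff_nsq : ContDiff ℝ ∞ nsq := by
  unfold nsq
  exact (contDiff_fst.norm_sq ℝ).add (contDiff_snd.norm_sq ℝ)

lemma contDiff_co (i : Fin 3 ⊕ Fin 3) : ContDiff ℝ ∞ (co i) := by
  rcases i with k | k
  · simp only [co, Sum.elim_inl]
    fun_prop
  · simp only [co, Sum.elim_inr]
    fun_prop

lemma contDiff_hk (s : ℝ) : ContDiff ℝ ∞ (hk s) := by
  unfold hk
  have := contDiff_nsq
  fun_prop

lemma fderiv_of_line {f : X6 → ℝ} (hf : ContDiff ℝ 1 f) {y e : X6} {d : ℝ}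
    (h : HasDerivAt (fun t : ℝ => f (y + t • e)) d 0) : fderiv ℝ f y e = d := by
  have h1 : HasFDerivAt f (fderiv ℝ f y) y := ((hf.differentiable (by norm_num)) y).hasFDerivAt
  have h2 : HasDerivAt (fun t : ℝ => y + t • e) e 0 := by
    simpa using ((hasDerivAt_id (0:ℝ)).smul_const e).const_add y
  have h3 : HasFDerivAt f (fderiv ℝ f y) (y + (0:ℝ) • e) := by simpa using h1
  exact (h3.comp_hasDerivAt (0:ℝ) h2).unique h

lemma hk_line (s : ℝ) (i : Fin 3 ⊕ Fin 3) (x y : X6) :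
    HasDerivAt (fun t : ℝ => hk s (x - (y + t • e6 i))) (co i (x - y) / s * hk s (x - y)) 0 := by
  have h1 : ∀ t : ℝ, hk s (x - (y + t • e6 i)) = ((2 * Real.pi * s) ^ 3)⁻¹ *
      Real.exp (-((nsq (x - y) + 2 * (-t) * co i (x - y) + (-t) ^ 2) / (2 * s))) := by
    intro t
    have : x - (y + t • e6 i) = (x - y) + (-t) • e6 i := by rw [neg_smul]; abel
    rw [this]
    unfold hk
    rw [nsq_line]
  simp_rw [h1]
  have h2 : HasDerivAt (fun t : ℝ => -((nsq (x - y) + 2 * (-t) * co i (x - y) + (-t) ^ 2) / (2 * s)))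
      (co i (x - y) / s) 0 := by
    have h3 : HasDerivAt (fun t : ℝ => nsq (x - y) + 2 * (-t) * co i (x - y) + (-t) ^ 2)
        (-(2 * co i (x - y))) 0 := by
      have e1 : HasDerivAt (fun t : ℝ => -t) (-1) 0 := (hasDerivAt_id (0:ℝ)).neg
      have e2 := ((e1.const_mul 2).mul_const (co i (x - y))).const_add (nsq (x - y))
      have e3 := e2.add (e1.pow 2)
      convert! e3 using 1
      simp
    have h4 := (h3.div_const (2 * s)).neg
    convert! h4 using 1
    by_cases hs : s = 0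
    · simp [hs]
    · field_simp
  have h5 := h2.exp.const_mul ((2 * Real.pi * s) ^ 3)⁻¹
  convert! h5 using 1
  unfold hk
  simp only [neg_zero, mul_zero, zero_mul, add_zero, ne_eq, OfNat.ofNat_ne_zero, not_false_eq_true, zero_pow]
  ring

lemma co_sub_line (i j : Fin 3 ⊕ Fin 3) (x y : X6) :
    HasDerivAt (fun t : ℝ => co j (x - (y + t • e6 i))) (if i = j then -1 else 0) 0 := by
  have h1 : ∀ t : ℝ, co j (x - (y + t • e6 i)) = co j (x - y) + if i = j then -t else 0 := by
    intro t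
    have : x - (y + t • e6 i) = (x - y) + (-t) • e6 i := by rw [neg_smul]; abel
    rw [this, co_line]
  simp_rw [h1]
  split_ifs with h
  · simpa using (hasDerivAt_id (0:ℝ)).neg.const_add (co j (x - y))
  · simpa using hasDerivAt_const (0:ℝ) (co j (x - y) + 0)

lemma poly_exp_le (n : ℕ) {c : ℝ} (hc : 0 < c) :
    ∃ C : ℝ, 0 ≤ C ∧ ∀ x : ℝ, 0 ≤ x → (1 + x) ^ n * Real.exp (-(x / c)) ≤ C := by
  refine ⟨n.factorial * c ^ n * Real.exp (1 / c), by positivity, fun x hx => ?_⟩
  have h1 := Real.pow_div_factorial_le_exp ((1 + x) / c) (by positivity) n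
  rw [div_pow, div_div, div_le_iff₀ (by positivity)] at h1
  have h2 : Real.exp ((1 + x) / c) = Real.exp (1 / c) * Real.exp (x / c) := by
    rw [← Real.exp_add]; congr 1; ring
  rw [h2] at h1
  rw [Real.exp_neg, ← div_eq_mul_inv, div_le_iff₀ (Real.exp_pos _)]
  calc _ ≤ Real.exp (1 / c) * Real.exp (x / c) * (c ^ n * n.factorial) := h1
    _ = _ := by ring

lemma poly_hk_le (n : ℕ) {s0 t : ℝ} (hs0 : 0 < s0) (ht : s0 ≤ t) :
    ∃ C : ℝ, 0 ≤ C ∧ ∀ s ∈ Icc s0 t, ∀ z, (1 + nsq z) ^ n * hk s z ≤ C * hk (2 * t) z := by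
  have ht0 : 0 < t := hs0.trans_le ht
  obtain ⟨C1, hC1, h1⟩ := poly_exp_le n (c := 4 * t) (by positivity)
  refine ⟨((2 * Real.pi * s0) ^ 3)⁻¹ * (2 * Real.pi * (2 * t)) ^ 3 * C1, by positivity, fun s hs z => ?_⟩
  have hs' : 0 < s := hs0.trans_le hs.1
  have hz := nsq_nonneg z
  unfold hk
  have h2 : ((2 * Real.pi * s) ^ 3)⁻¹ ≤ ((2 * Real.pi * s0) ^ 3)⁻¹ := by
    gcongr
    exact hs.1
  have h3 : Real.exp (-(nsq z / (2 * s))) ≤ Real.exp (-(nsq z / (4 * t))) * Real.exp (-(nsq z / (2 * (2 * t)))) := by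
    rw [← Real.exp_add]
    apply Real.exp_le_exp.2
    have : nsq z / (4 * t) + nsq z / (2 * (2 * t)) ≤ nsq z / (2 * s) := by
      have e : nsq z / (4 * t) + nsq z / (2 * (2 * t)) = nsq z / (2 * t) := by field_simp; ring
      rw [e]
      gcongr
      exact hs.2
    linarith
  have h4 := h1 (nsq z) hz
  calc (1 + nsq z) ^ n * (((2 * Real.pi * s) ^ 3)⁻¹ * Real.exp (-(nsq z / (2 * s))))
      ≤ (1 + nsq z) ^ n * (((2 * Real.pi * s0) ^ 3)⁻¹ *
        (Real.exp (-(nsq z / (4 * t))) * Real.exp (-(nsq z / (2 * (2 * t)))))) := by gcongr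
    _ = ((1 + nsq z) ^ n * Real.exp (-(nsq z / (4 * t)))) * (((2 * Real.pi * s0) ^ 3)⁻¹ *
        Real.exp (-(nsq z / (2 * (2 * t))))) := by ring
    _ ≤ C1 * (((2 * Real.pi * s0) ^ 3)⁻¹ * Real.exp (-(nsq z / (2 * (2 * t))))) := by gcongr
    _ = _ := by field_simp

lemma abs_co_le (i : Fin 3 ⊕ Fin 3) (z : X6) : |co i z| ≤ 1 + nsq z := by
  have h1 : co i z ^ 2 ≤ nsq z := by
    rw [← sum_co_sq]
    exact Finset.single_le_sum (f := fun i => co i z ^ 2) (fun j _ => sq_nonneg _) (Finset.mem_univ i)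
  have h2 : |co i z| ≤ (1 + co i z ^ 2) / 2 := by
    linarith only [sq_abs (co i z), sq_nonneg (|co i z| - 1)]
  nlinarith only [h1, h2]

/-- a function bounded by polynomial times Gaussian is in `L²` -/
lemma memLp_of_bound {s : ℝ} (hs : 0 < s) {η : X6 → ℝ} (hη : Continuous η) (x : X6) (n : ℕ) {C : ℝ}
    (h : ∀ y, |η y| ≤ C * ((1 + nsq (x - y)) ^ n * hk s (x - y))) : MemLp η 2 volume := by
  obtain ⟨C1, hC1, h1⟩ := poly_hk_le n hs le_rfl
  have h2 : MemLp (fun y => |C| * C1 * hk (2 * s) (x - y)) 2 volume :=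
    (memLp_hk_sub (by positivity : 0 < 2 * s) x).const_mul _
  refine h2.mono' hη.aestronglyMeasurable (Eventually.of_forall fun y => ?_)
  rw [Real.norm_eq_abs]
  have h3 := h1 s ⟨le_rfl, le_rfl⟩ (x - y)
  have h4 : 0 ≤ (1 + nsq (x - y)) ^ n * hk s (x - y) := by
    have := nsq_nonneg (x - y); have := hk_nonneg hs (x - y); (clear η hη C h C1 hC1 h1 h2 h3; positivity)
  calc |η y| ≤ C * ((1 + nsq (x - y)) ^ n * hk s (x - y)) := h y
    _ ≤ |C| * ((1 + nsq (x - y)) ^ n * hk s (x - y)) := by gcongr; exact le_abs_self C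
    _ ≤ |C| * (C1 * hk (2 * s) (x - y)) := by gcongr
    _ = _ := by ring

end Vale.Agent.P363
end
end

section

section

namespace Vale.Agent.P363

open MeasureTheory Filter Set
open scoped ContDiff Topology ENNReal

variable {M : ℕ}

lemma VW {Z : Fin M → ℕ} {R : Fin M → R3} {E : ℝ} {u : X6 → ℝ} {ux uy : Fin 3 → X6 → ℝ}
    (hu : H1 u ux uy) (hw : WeakSol Z R E u ux uy) {η : X6 → ℝ} {η1 η2 : Fin 3 ⊕ Fin 3 → X6 → ℝ}
    (hη : ContDiff ℝ 1 η) (hη1 : ∀ i, ContDiff ℝ 1 (η1 i))
    (h1 : ∀ i y, fderiv ℝ η y (e6 i) = η1 i y) (h2 : ∀ i y, fderiv ℝ (η1 i) y (e6 i) = η2 i y)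
    (m0 : MemLp η 2 volume) (m1 : ∀ i, MemLp (η1 i) 2 volume) (m2 : ∀ i, MemLp (η2 i) 2 volume) :
    (1 / 2) * ∑ i, ∫ y, u y * η2 i y = ∫ y, (pot Z R y - E) * u y * η y := by
  have hA : ∀ i, ACL volume (e6 i) η (η1 i) := by
    intro i
    have := ACL.of_contDiff (μ := (volume : Measure X6)) (e := e6 i) hη
    have h3 : (fun x => fderiv ℝ η x (e6 i)) = η1 i := funext (h1 i)
    rw [h3] at this
    exact this
  have hA1 : ∀ i, ACL volume (e6 i) (η1 i) (η2 i) := by
    intro i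
    have := ACL.of_contDiff (μ := (volume : Measure X6)) (e := e6 i) (hη1 i)
    have h3 : (fun x => fderiv ℝ (η1 i) x (e6 i)) = η2 i := funext (h2 i)
    rw [h3] at this
    exact this
  have hH1 : H1 η (fun k => η1 (Sum.inl k)) (fun k => η1 (Sum.inr k)) :=
    ⟨m0, fun k => m1 _, fun k => m1 _, fun k => hA (Sum.inl k), fun k => hA (Sum.inr k)⟩
  have hW := hw η _ _ hH1
  have e1 : ∀ k, ∫ y, u y * η2 (Sum.inl k) y = - ∫ y, ux k y * η1 (Sum.inl k) y := fun k =>
    (hu.aclx k).integral_mul (hA1 (Sum.inl k)) (hu.memLp.integrable_mul (m1 _))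
      ((hu.memLpx k).integrable_mul (m1 _)) (hu.memLp.integrable_mul (m2 _))
  have e2 : ∀ k, ∫ y, u y * η2 (Sum.inr k) y = - ∫ y, uy k y * η1 (Sum.inr k) y := fun k =>
    (hu.acly k).integral_mul (hA1 (Sum.inr k)) (hu.memLp.integrable_mul (m1 _))
      ((hu.memLpy k).integrable_mul (m1 _)) (hu.memLp.integrable_mul (m2 _))
  rw [Fintype.sum_sum_type]
  simp_rw [e1, e2]
  have e3 : ∀ k, ∫ p, (ux k p * η1 (Sum.inl k) p + uy k p * η1 (Sum.inr k) p)
      = (∫ p, ux k p * η1 (Sum.inl k) p) + ∫ p, uy k p * η1 (Sum.inr k) p := fun k =>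
    integral_add ((hu.memLpx k).integrable_mul (m1 _)) ((hu.memLpy k).integrable_mul (m1 _))
  simp_rw [e3] at hW
  rw [Finset.sum_add_distrib] at hW
  rw [Finset.sum_neg_distrib, Finset.sum_neg_distrib]
  linarith only [hW]

/-! Kernel `k0 s x y = hk s (x - y)` -/

/-- first derivatives of `hk s (x - ·)`; also used as a kernel -/
noncomputable def k1 (s : ℝ) (x : X6) (i : Fin 3 ⊕ Fin 3) (y : X6) : ℝ :=
  co i (x - y) / s * hk s (x - y)

/-- second derivatives -/
noncomputable def k2 (s : ℝ) (x : X6) (j i : Fin 3 ⊕ Fin 3) (y : X6) : ℝ :=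
  (co j (x - y) * co i (x - y) / s ^ 2 - (if i = j then 1 / s else 0)) * hk s (x - y)

/-- third derivatives -/
noncomputable def k3 (s : ℝ) (x : X6) (j i : Fin 3 ⊕ Fin 3) (y : X6) : ℝ :=
  (co j (x - y) * co i (x - y) ^ 2 / s ^ 3 - (if i = j then 2 * co i (x - y) / s ^ 2 else 0)
    - co j (x - y) / s ^ 2) * hk s (x - y)

lemma contDiff_hk_sub (s : ℝ) (x : X6) : ContDiff ℝ 1 (fun y => hk s (x - y)) :=
  ((contDiff_hk s).of_le (by exact_mod_cast le_top)).comp (contDiff_const.sub contDiff_id)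

lemma contDiff_co_sub (i : Fin 3 ⊕ Fin 3) (x : X6) : ContDiff ℝ 1 (fun y => co i (x - y)) :=
  ((contDiff_co i).of_le (by exact_mod_cast le_top)).comp (contDiff_const.sub contDiff_id)

lemma contDiff_k1 (s : ℝ) (x : X6) (i : Fin 3 ⊕ Fin 3) : ContDiff ℝ 1 (k1 s x i) := by
  unfold k1
  have h1 := contDiff_hk_sub s x
  have h2 := contDiff_co_sub i x
  fun_prop

lemma contDiff_k2 (s : ℝ) (x : X6) (j i : Fin 3 ⊕ Fin 3) : ContDiff ℝ 1 (k2 s x j i) := by
  unfold k2
  have h1 := contDiff_hk_sub s x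
  have h2 := contDiff_co_sub i x
  have h3 := contDiff_co_sub j x
  (clear * - h3 h2 h1; fun_prop)

lemma contDiff_k3 (s : ℝ) (x : X6) (j i : Fin 3 ⊕ Fin 3) : ContDiff ℝ 1 (k3 s x j i) := by
  unfold k3
  have h1 := contDiff_hk_sub s x
  have h2 := contDiff_co_sub i x
  have h3 := contDiff_co_sub j x
  split_ifs <;> fun_prop

lemma fderiv_k0 (s : ℝ) (x : X6) (i : Fin 3 ⊕ Fin 3) (y : X6) :
    fderiv ℝ (fun y => hk s (x - y)) y (e6 i) = k1 s x i y :=
  fderiv_of_line (contDiff_hk_sub s x) (hk_line s i x y)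

lemma fderiv_k1 (s : ℝ) (x : X6) (j i : Fin 3 ⊕ Fin 3) (y : X6) :
    fderiv ℝ (k1 s x j) y (e6 i) = k2 s x j i y := by
  apply fderiv_of_line (contDiff_k1 s x j)
  have h1 := co_sub_line i j x y
  have h2 := hk_line s i x y
  have h3 := (h1.div_const s).mul h2
  convert! h3 using 1
  unfold k2
  simp only [zero_smul, add_zero]
  by_cases hs : s = 0
  · split_ifs <;> simp only [hs, ne_eq, OfNat.ofNat_ne_zero, not_false_eq_true, zero_pow, div_zero, sub_self, zero_mul, mul_zero, add_zero]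
  · split_ifs
    · field_simp; ring
    · field_simp; ring

lemma fderiv_k2 (s : ℝ) (x : X6) (j i : Fin 3 ⊕ Fin 3) (y : X6) :
    fderiv ℝ (k2 s x j i) y (e6 i) = k3 s x j i y := by
  apply fderiv_of_line (contDiff_k2 s x j i)
  have h1 := co_sub_line i j x y
  have h1' := co_sub_line i i x y
  have h2 := hk_line s i x y
  have h3 := (((h1.mul h1').div_const (s ^ 2)).sub_const (if i = j then 1 / s else 0)).mul h2
  convert! h3 using 1
  unfold k3
  simp only [zero_smul, add_zero, if_true]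
  by_cases hij : i = j
  · subst hij
    by_cases hs : s = 0
    · simp only [hs, ne_eq, OfNat.ofNat_ne_zero, not_false_eq_true, zero_pow, div_zero, ↓reduceIte, sub_self, zero_mul, neg_mul, one_mul, mul_neg, mul_one, Pi.mul_apply, zero_smul, add_zero, mul_zero]
    · simp only [↓reduceIte, neg_mul, one_mul, mul_neg, mul_one, Pi.mul_apply, zero_smul, add_zero, one_div]; field_simp; ring
  · by_cases hs : s = 0
    · simp only [hs, ne_eq, OfNat.ofNat_ne_zero, not_false_eq_true, zero_pow, div_zero, ite_self, sub_self, zero_mul, ite_mul, neg_mul, one_mul, mul_neg, mul_one, Pi.mul_apply, zero_smul, add_zero, mul_zero]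
    · simp only [hij, ↓reduceIte, sub_zero, zero_mul, mul_neg, mul_one, zero_add, Pi.mul_apply, zero_smul, add_zero]; field_simp; ring

lemma sum_k2 (s : ℝ) (x y : X6) :
    ∑ i, k2 s x i i y = (nsq (x - y) / s ^ 2 - 6 / s) * hk s (x - y) := by
  unfold k2
  simp only [if_true]
  rw [← Finset.sum_mul, Finset.sum_sub_distrib, ← Finset.sum_div]
  simp_rw [← pow_two]
  rw [sum_co_sq]
  simp only [Finset.sum_const, Finset.card_univ, Fintype.card_sum, Fintype.card_fin, nsmul_eq_mul]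
  push_cast
  ring

lemma sum_k3 (s : ℝ) (x : X6) (j : Fin 3 ⊕ Fin 3) (y : X6) :
    ∑ i, k3 s x j i y = (co j (x - y) * nsq (x - y) / s ^ 3 - 8 * co j (x - y) / s ^ 2) * hk s (x - y) := by
  unfold k3
  rw [← Finset.sum_mul, Finset.sum_sub_distrib, Finset.sum_sub_distrib, ← Finset.sum_div,
    ← Finset.mul_sum, sum_co_sq]
  simp only [Finset.sum_const, Finset.card_univ, Fintype.card_sum, Fintype.card_fin, nsmul_eq_mul,
    Finset.sum_ite_eq', Finset.mem_univ, if_true]
  push_cast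
  ring

/-- time derivative of the kernel -/
noncomputable def d0 (s : ℝ) (x y : X6) : ℝ := (nsq (x - y) / (2 * s ^ 2) - 3 / s) * hk s (x - y)

/-- time derivative of `k1` -/
noncomputable def d1 (s : ℝ) (x : X6) (j : Fin 3 ⊕ Fin 3) (y : X6) : ℝ :=
  (co j (x - y) * nsq (x - y) / (2 * s ^ 3) - 4 * co j (x - y) / s ^ 2) * hk s (x - y)

lemma hasDerivAt_hk {s : ℝ} (hs : 0 < s) (z : X6) :
    HasDerivAt (fun s => hk s z) ((nsq z / (2 * s ^ 2) - 3 / s) * hk s z) s := by
  have h1 : HasDerivAt (fun s : ℝ => ((2 * Real.pi * s) ^ 3)⁻¹)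
      (-(3 / s) * ((2 * Real.pi * s) ^ 3)⁻¹) s := by
    have e1 : HasDerivAt (fun s : ℝ => 2 * Real.pi * s) (2 * Real.pi) s := by
      simpa only [id_eq, mul_one] using (hasDerivAt_id s).const_mul (2 * Real.pi)
    have e2 := (e1.fun_pow 3).fun_inv (by positivity)
    convert! e2 using 1
    push_cast
    (clear * - hs; field_simp)
  have h2 : HasDerivAt (fun s : ℝ => Real.exp (-(nsq z / (2 * s))))
      (nsq z / (2 * s ^ 2) * Real.exp (-(nsq z / (2 * s)))) s := by
    have e1 : HasDerivAt (fun s : ℝ => 2 * s) 2 s := by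
      simpa using (hasDerivAt_id s).const_mul (2:ℝ)
    have e2 := (((hasDerivAt_const s (nsq z)).fun_div e1 (by positivity)).fun_neg).exp
    convert! e2 using 1
    field_simp
    ring
  have h3 := h1.mul h2
  convert! h3 using 1
  unfold hk
  ring

lemma hasDerivAt_k1 {s : ℝ} (hs : 0 < s) (x : X6) (j : Fin 3 ⊕ Fin 3) (y : X6) :
    HasDerivAt (fun s => k1 s x j y) (d1 s x j y) s := by
  have h1 := hasDerivAt_hk hs (x - y)
  have h2 : HasDerivAt (fun s : ℝ => co j (x - y) / s) (-(co j (x - y) / s ^ 2)) s := by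
    have := (hasDerivAt_const s (co j (x - y))).div (hasDerivAt_id s) (by simpa using hs.ne')
    convert! this using 1
    simp only [id_eq, zero_mul, mul_one, zero_sub]
    ring
  have h3 := h2.mul h1
  convert! h3 using 1
  unfold d1
  field_simp
  ring

lemma duhamel_abs {u W : X6 → ℝ} (hu : MemLp u 2 volume) {K K' : ℝ → X6 → ℝ} {s0 t : ℝ}
    (hst : s0 ≤ t)
    (hK : ∀ s ∈ Icc s0 t, ∀ y, HasDerivAt (fun s => K s y) (K' s y) s)
    (hK'm : Measurable (fun p : ℝ × X6 => K' p.1 p.2))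
    {D : X6 → ℝ} (hD : MemLp D 2 volume) (hdom : ∀ s ∈ Icc s0 t, ∀ y, |K' s y| ≤ D y)
    (hKm : ∀ s ∈ Icc s0 t, MemLp (K s) 2 volume)
    (hVW : ∀ s ∈ Icc s0 t, ∫ y, u y * K' s y = ∫ y, W y * u y * K s y) :
    ‖(∫ y, u y * K t y) - ∫ y, u y * K s0 y‖ₑ
      ≤ ∫⁻ s in Ioo s0 t, ∫⁻ y, ‖W y‖ₑ * ‖u y‖ₑ * ‖K s y‖ₑ := by
  have hii : ∀ y, IntervalIntegrable (fun s => K' s y) volume s0 t := by
    intro y
    rw [intervalIntegrable_iff_integrableOn_Icc_of_le hst]
    refine Measure.integrableOn_of_bounded (M := D y) (by simp) ?_ ?_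
    · exact (hK'm.comp (measurable_prodMk_right)).aestronglyMeasurable
    · rw [ae_restrict_iff' measurableSet_Icc]
      exact Eventually.of_forall fun s hs => hdom s hs y
  have e1 : ∀ y, K t y - K s0 y = ∫ s in Ioo s0 t, K' s y := by
    intro y
    rw [← integral_Ioc_eq_integral_Ioo, ← intervalIntegral.integral_of_le hst]
    rw [intervalIntegral.integral_eq_sub_of_hasDerivAt (fun s hs => ?_) (hii y)]
    rw [uIcc_of_le hst] at hs
    exact hK s hs y
  have e2 : (∫ y, u y * K t y) - ∫ y, u y * K s0 y = ∫ y, ∫ s in Ioo s0 t, u y * K' s y := by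
    have i1 : Integrable (fun y => u y * K t y) := hu.integrable_mul (hKm t ⟨hst, le_rfl⟩)
    have i2 : Integrable (fun y => u y * K s0 y) := hu.integrable_mul (hKm s0 ⟨le_rfl, hst⟩)
    rw [← integral_sub i1 i2]
    congr 1; ext y
    rw [integral_const_mul, ← e1 y]; ring
  have e3 : ∫ y, ∫ s in Ioo s0 t, u y * K' s y = ∫ s in Ioo s0 t, ∫ y, u y * K' s y := by
    apply integral_integral_swap
    have h1 : Integrable (fun p : X6 × ℝ => |u p.1| * D p.1)
        (volume.prod (volume.restrict (Ioo s0 t))) := by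
      have : Integrable (fun y => |u y| * D y) := hu.abs.integrable_mul hD
      exact this.comp_fst _
    refine h1.mono' ?_ ?_
    · exact hu.1.comp_fst.mul (hK'm.comp (measurable_snd.prodMk measurable_fst)).aestronglyMeasurable
    · have h2 : ∀ᵐ p : X6 × ℝ ∂(volume.prod (volume.restrict (Ioo s0 t))), p.2 ∈ Ioo s0 t := by
        have h3 : ∀ᵐ s ∂(volume.restrict (Ioo s0 t)), s ∈ Ioo s0 t := ae_restrict_mem measurableSet_Ioo
        exact (Measure.quasiMeasurePreserving_snd).ae h3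
      filter_upwards [h2] with p hp
      simp only [Function.uncurry]
      rw [Real.norm_eq_abs, abs_mul]
      gcongr
      exact hdom _ ⟨hp.1.le, hp.2.le⟩ _
  rw [e2, e3]
  refine (enorm_integral_le_lintegral_enorm _).trans ?_
  apply setLIntegral_mono' measurableSet_Ioo
  intro s hs
  rw [hVW s ⟨hs.1.le, hs.2.le⟩]
  refine (enorm_integral_le_lintegral_enorm _).trans (le_of_eq ?_)
  congr 1; ext y
  rw [enorm_mul, enorm_mul]

lemma measurable_hk_sub2 (x : X6) : Measurable (fun p : ℝ × X6 => hk p.1 (x - p.2)) :=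
  measurable_hk.comp (by (clear * -; fun_prop) : Measurable fun p : ℝ × X6 => (p.1, x - p.2))

lemma measurable_co (i : Fin 3 ⊕ Fin 3) : Measurable (co i) := (contDiff_co i).continuous.measurable

lemma measurable_d0 (x : X6) : Measurable (fun p : ℝ × X6 => d0 p.1 x p.2) := by
  unfold d0
  have h1 := measurable_hk_sub2 x
  have h2 := continuous_nsq.measurable
  fun_prop

lemma measurable_d1 (x : X6) (j : Fin 3 ⊕ Fin 3) : Measurable (fun p : ℝ × X6 => d1 p.1 x j p.2) := by
  unfold d1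
  have h1 := measurable_hk_sub2 x
  have h2 := continuous_nsq.measurable
  have h3 := measurable_co j
  fun_prop

lemma memLp_k1 {s : ℝ} (hs : 0 < s) (x : X6) (j : Fin 3 ⊕ Fin 3) : MemLp (k1 s x j) 2 volume := by
  refine memLp_of_bound hs (contDiff_k1 s x j).continuous x 1 (C := 1 / s) fun y => ?_
  unfold k1
  have h1 := abs_co_le j (x - y)
  have h2 := hk_nonneg hs (x - y)
  rw [abs_mul, abs_div, abs_of_pos hs, abs_of_nonneg h2]
  calc _ ≤ (1 + nsq (x - y)) / s * hk s (x - y) := by gcongr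
    _ = _ := by ring

lemma memLp_k2 {s : ℝ} (hs : 0 < s) (x : X6) (j i : Fin 3 ⊕ Fin 3) : MemLp (k2 s x j i) 2 volume := by
  refine memLp_of_bound hs (contDiff_k2 s x j i).continuous x 2 (C := 1 / s ^ 2 + 1 / s) fun y => ?_
  unfold k2
  have h1 := abs_co_le j (x - y)
  have h1' := abs_co_le i (x - y)
  have h2 := hk_nonneg hs (x - y)
  have h3 := nsq_nonneg (x - y)
  have h4 : |(if i = j then 1 / s else 0 : ℝ)| ≤ 1 / s := by
    split_ifs
    · rw [abs_of_pos (by positivity)]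
    · simp only [abs_zero, one_div, inv_nonneg]; positivity
  rw [abs_mul, abs_of_nonneg h2]
  calc _ ≤ (|co j (x - y) * co i (x - y) / s ^ 2| + |(if i = j then 1 / s else 0 : ℝ)|) * hk s (x - y) := by
        gcongr; exact abs_sub _ _
    _ ≤ ((1 + nsq (x - y)) * (1 + nsq (x - y)) / s ^ 2 + 1 / s * (1 + nsq (x - y)) ^ 2) * hk s (x - y) := by
        gcongr
        · rw [abs_div, abs_mul, abs_of_pos (by positivity : 0 < s ^ 2)]
          gcongr
        · refine h4.trans ?_
          apply le_mul_of_one_le_right (by positivity)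
          nlinarith only [h3]
    _ = _ := by ring

lemma memLp_k3 {s : ℝ} (hs : 0 < s) (x : X6) (j i : Fin 3 ⊕ Fin 3) : MemLp (k3 s x j i) 2 volume := by
  refine memLp_of_bound hs (contDiff_k3 s x j i).continuous x 3 (C := 1 / s ^ 3 + 2 / s ^ 2 + 1 / s ^ 2)
    fun y => ?_
  unfold k3
  have h1 := abs_co_le j (x - y)
  have h1' := abs_co_le i (x - y)
  have h2 := hk_nonneg hs (x - y)
  have h3 := nsq_nonneg (x - y)
  have h5 : 1 ≤ (1 + nsq (x - y)) ^ 2 := by nlinarith only [h3]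
  have h4 : |(if i = j then 2 * co i (x - y) / s ^ 2 else 0 : ℝ)| ≤ 2 / s ^ 2 * (1 + nsq (x - y)) ^ 3 := by
    split_ifs
    · rw [abs_div, abs_mul, abs_of_pos (by positivity : 0 < s ^ 2)]
      simp only [Nat.abs_ofNat]
      calc 2 * |co i (x - y)| / s ^ 2 ≤ 2 * (1 + nsq (x - y)) / s ^ 2 := by gcongr
        _ = 2 / s ^ 2 * ((1 + nsq (x - y)) * 1) := by ring
        _ ≤ 2 / s ^ 2 * ((1 + nsq (x - y)) * (1 + nsq (x - y)) ^ 2) := by gcongr
        _ = _ := by ring
    · simp only [abs_zero]; positivity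
  rw [abs_mul, abs_of_nonneg h2]
  calc _ ≤ (|co j (x - y) * co i (x - y) ^ 2 / s ^ 3| + |(if i = j then 2 * co i (x - y) / s ^ 2 else 0 : ℝ)|
        + |co j (x - y) / s ^ 2|) * hk s (x - y) := by
        gcongr
        exact (abs_sub _ _).trans (by gcongr; exact abs_sub _ _)
    _ ≤ ((1 + nsq (x - y)) * (1 + nsq (x - y)) ^ 2 / s ^ 3 + 2 / s ^ 2 * (1 + nsq (x - y)) ^ 3
        + (1 + nsq (x - y)) * (1 + nsq (x - y)) ^ 2 / s ^ 2) * hk s (x - y) := by
        gcongr
        · rw [abs_div, abs_mul, abs_of_pos (by positivity : 0 < s ^ 3), abs_pow]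
          gcongr
        · rw [abs_div, abs_of_pos (by positivity : 0 < s ^ 2)]
          gcongr
          calc _ ≤ (1 + nsq (x - y)) * 1 := by linarith only [h1]
            _ ≤ _ := by (clear * - h5 h3; gcongr)
    _ = _ := by ring

lemma dom_d0 {s0 t : ℝ} (hs0 : 0 < s0) (hst : s0 ≤ t) (x : X6) :
    ∃ D : X6 → ℝ, MemLp D 2 volume ∧ ∀ s ∈ Icc s0 t, ∀ y, |d0 s x y| ≤ D y := by
  obtain ⟨C, hC, h⟩ := poly_hk_le 1 hs0 hst
  have ht : 0 < t := hs0.trans_le hst
  refine ⟨fun y => (1 / (2 * s0 ^ 2) + 3 / s0) * C * hk (2 * t) (x - y),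
    (memLp_hk_sub (by positivity) x).const_mul _, fun s hs y => ?_⟩
  have hs' : 0 < s := hs0.trans_le hs.1
  have h2 := hk_nonneg hs' (x - y)
  have h3 := nsq_nonneg (x - y)
  unfold d0
  rw [abs_mul, abs_of_nonneg h2]
  calc _ ≤ (|nsq (x - y) / (2 * s ^ 2)| + |3 / s|) * hk s (x - y) := by
        gcongr; exact abs_sub _ _
    _ ≤ ((1 + nsq (x - y)) / (2 * s0 ^ 2) + 3 * (1 + nsq (x - y)) / s0) * hk s (x - y) := by
        rw [abs_of_nonneg (by positivity), abs_of_nonneg (by positivity)]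
        gcongr
        · linarith only []
        · exact hs.1
        · linarith only [h3]
        · exact hs.1
    _ = (1 / (2 * s0 ^ 2) + 3 / s0) * ((1 + nsq (x - y)) ^ 1 * hk s (x - y)) := by ring
    _ ≤ (1 / (2 * s0 ^ 2) + 3 / s0) * (C * hk (2 * t) (x - y)) :=
        mul_le_mul_of_nonneg_left (h s hs (x - y)) (by positivity)
    _ = _ := by ring

lemma dom_d1 {s0 t : ℝ} (hs0 : 0 < s0) (hst : s0 ≤ t) (x : X6) (j : Fin 3 ⊕ Fin 3) :
    ∃ D : X6 → ℝ, MemLp D 2 volume ∧ ∀ s ∈ Icc s0 t, ∀ y, |d1 s x j y| ≤ D y := by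
  obtain ⟨C, hC, h⟩ := poly_hk_le 2 hs0 hst
  have ht : 0 < t := hs0.trans_le hst
  refine ⟨fun y => (1 / (2 * s0 ^ 3) + 4 / s0 ^ 2) * C * hk (2 * t) (x - y),
    (memLp_hk_sub (by positivity) x).const_mul _, fun s hs y => ?_⟩
  have hs' : 0 < s := hs0.trans_le hs.1
  have h2 := hk_nonneg hs' (x - y)
  have h3 := nsq_nonneg (x - y)
  have h1 := abs_co_le j (x - y)
  unfold d1
  rw [abs_mul, abs_of_nonneg h2]
  calc _ ≤ (|co j (x - y) * nsq (x - y) / (2 * s ^ 3)| + |4 * co j (x - y) / s ^ 2|) * hk s (x - y) := by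
        gcongr; exact abs_sub _ _
    _ ≤ ((1 + nsq (x - y)) * (1 + nsq (x - y)) / (2 * s0 ^ 3)
        + 4 * ((1 + nsq (x - y)) * (1 + nsq (x - y))) / s0 ^ 2) * hk s (x - y) := by
        rw [abs_div, abs_div, abs_of_pos (by (clear * - hs'; positivity) : 0 < 2 * s ^ 3),
          abs_of_pos (by positivity : 0 < s ^ 2), abs_mul, abs_mul, abs_of_nonneg h3]
        simp only [Nat.abs_ofNat]
        gcongr
        · linarith
        · exact hs.1
        · nlinarith only [h3, h1]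
        · exact hs.1
    _ = (1 / (2 * s0 ^ 3) + 4 / s0 ^ 2) * ((1 + nsq (x - y)) ^ 2 * hk s (x - y)) := by ring
    _ ≤ (1 / (2 * s0 ^ 3) + 4 / s0 ^ 2) * (C * hk (2 * t) (x - y)) :=
        mul_le_mul_of_nonneg_left (h s hs (x - y)) (by positivity)
    _ = _ := by ring

end Vale.Agent.P363
end
end

section

section

namespace Vale.Agent.P363

open MeasureTheory Filter Set
open scoped ContDiff Topology ENNReal

lemma lintegral_ball_inv_sq (a : R3) :
    ∫⁻ w in Metric.ball a 1, ENNReal.ofReal (‖w - a‖⁻¹) ^ 2 ≤ ENNReal.ofReal (3 * beta3) := by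
  have h1 : ∫⁻ w in Metric.ball a 1, ENNReal.ofReal (‖w - a‖⁻¹) ^ 2
      = ∫⁻ w : R3, ENNReal.ofReal ((Iio (1:ℝ)).indicator (fun y => (y⁻¹) ^ 2) ‖w - a‖) := by
    rw [← lintegral_indicator measurableSet_ball]
    congr 1; ext w
    by_cases hw : ‖w - a‖ < 1
    · rw [indicator_of_mem (by simpa only [Metric.mem_ball, dist_eq_norm] using hw), indicator_of_mem (by simpa only [mem_Iio] using hw),
        ENNReal.ofReal_pow (by positivity)]
    · rw [indicator_of_notMem (by simpa only [Metric.mem_ball, dist_eq_norm, not_lt] using hw), indicator_of_notMem (by simpa only [mem_Iio, not_lt] using hw)]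
      simp
  rw [h1, lintegral_sub_right_eq_self
    (fun w : R3 => ENNReal.ofReal ((Iio (1:ℝ)).indicator (fun y => (y⁻¹) ^ 2) ‖w‖)) a]
  have e1 : ∀ y ∈ Ioi (0:ℝ), y ^ (Module.finrank ℝ R3 - 1) • (Iio (1:ℝ)).indicator (fun y : ℝ => (y⁻¹) ^ 2) y
      = (Iio (1:ℝ)).indicator (fun _ => (1:ℝ)) y := by
    intro y hy
    have hy : 0 < y := hy
    by_cases hyr : y < 1
    · rw [indicator_of_mem (by simpa only [mem_Iio] using hyr), indicator_of_mem (by simpa using hyr)]
      simp only [finrank_euclideanSpace, Fintype.card_fin, Nat.add_one_sub_one, inv_pow, smul_eq_mul]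
      field_simp
    · rw [indicator_of_notMem (by simpa only [mem_Iio, not_lt] using hyr), indicator_of_notMem (by simpa only [mem_Iio, not_lt] using hyr)]
      simp only [finrank_euclideanSpace, Fintype.card_fin, Nat.add_one_sub_one, smul_eq_mul, mul_zero]
  have h2 : Integrable (fun w : R3 => (Iio (1:ℝ)).indicator (fun y : ℝ => (y⁻¹) ^ 2) ‖w‖) := by
    rw [integrable_fun_norm_addHaar volume (f := (Iio (1:ℝ)).indicator (fun y : ℝ => (y⁻¹) ^ 2))]
    have : IntegrableOn (fun y : ℝ => (Iio (1:ℝ)).indicator (fun _ : ℝ => (1:ℝ)) y) (Ioi 0) := by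
      rw [IntegrableOn, integrable_indicator_iff measurableSet_Iio, IntegrableOn,
        Measure.restrict_restrict measurableSet_Iio]
      have : Iio 1 ∩ Ioi 0 ⊆ Icc (0:ℝ) 1 := by
        intro x hx; exact ⟨le_of_lt hx.2, le_of_lt hx.1⟩
      exact (continuous_const.integrableOn_Icc).mono_set this
    exact this.congr_fun (fun y hy => (e1 y hy).symm) measurableSet_Ioi
  rw [← ofReal_integral_eq_lintegral_ofReal h2]
  · apply ENNReal.ofReal_le_ofReal
    rw [integral_fun_norm_addHaar volume (fun y => (Iio (1:ℝ)).indicator (fun y : ℝ => (y⁻¹) ^ 2) y)]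
    rw [setIntegral_congr_fun measurableSet_Ioi e1, setIntegral_indicator measurableSet_Iio]
    have : Ioi (0:ℝ) ∩ Iio 1 = Ioo 0 1 := by ext; simp only [mem_inter_iff, mem_Ioi, mem_Iio, mem_Ioo]
    rw [this]
    simp only [finrank_euclideanSpace, Fintype.card_fin, integral_const, MeasurableSet.univ, measureReal_restrict_apply, univ_inter, Real.volume_real_Ioo, sub_zero, zero_le_one, sup_of_le_left, smul_eq_mul, mul_one, nsmul_eq_mul, Nat.cast_ofNat, beta3, Std.le_refl]
  · refine Eventually.of_forall fun w => ?_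
    apply indicator_nonneg
    intro y _
    (clear * -; positivity)

/-- square-integrability of inverse distances against Gaussians -/
lemma lintegral_hk3_inv_sq {s : ℝ} (hs : 0 < s) (m a : R3) :
    ∫⁻ w, ENNReal.ofReal (hk3 s (w - m)) * ENNReal.ofReal (‖w - a‖⁻¹) ^ 2
      ≤ ENNReal.ofReal (1 + (2 * Real.pi * s) ^ (-(3 / 2) : ℝ) * (3 * beta3)) := by
  have hβ := beta3_nonneg
  rw [← lintegral_add_compl _ (measurableSet_ball (x := a) (ε := 1)), add_comm,
    ENNReal.ofReal_add (by positivity) (by positivity)]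
  gcongr
  · calc ∫⁻ w in (Metric.ball a 1)ᶜ, ENNReal.ofReal (hk3 s (w - m)) * ENNReal.ofReal (‖w - a‖⁻¹) ^ 2
        ≤ ∫⁻ w in (Metric.ball a 1)ᶜ, ENNReal.ofReal (hk3 s (w - m)) := by
          apply setLIntegral_mono' measurableSet_ball.compl
          intro w hw
          have h1 : 1 ≤ ‖w - a‖ := by simpa only [mem_compl_iff, Metric.mem_ball, dist_eq_norm, not_lt] using hw
          have h2 : ENNReal.ofReal (‖w - a‖⁻¹) ≤ 1 := by
            rw [ENNReal.ofReal_le_one]; exact inv_le_one_of_one_le₀ h1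
          calc _ ≤ ENNReal.ofReal (hk3 s (w - m)) * 1 ^ 2 := by gcongr
            _ = _ := by simp
      _ ≤ ∫⁻ w, ENNReal.ofReal (hk3 s (w - m)) := setLIntegral_le_lintegral _ _
      _ = ENNReal.ofReal 1 := by rw [lintegral_hk3_sub hs]; simp
  · calc ∫⁻ w in (Metric.ball a 1), ENNReal.ofReal (hk3 s (w - m)) * ENNReal.ofReal (‖w - a‖⁻¹) ^ 2
        ≤ ∫⁻ w in (Metric.ball a 1), ENNReal.ofReal ((2 * Real.pi * s) ^ (-(3 / 2) : ℝ)) *
            ENNReal.ofReal (‖w - a‖⁻¹) ^ 2 := by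
          apply setLIntegral_mono' measurableSet_ball
          intro w hw
          gcongr
          exact hk3_le hs _
      _ ≤ _ := by
          rw [lintegral_const_mul' _ _ (by simp), ENNReal.ofReal_mul (by positivity)]
          gcongr
          exact lintegral_ball_inv_sq a

lemma ennreal_mul_le (a b : ℝ≥0∞) : a * b ≤ a ^ 2 + b ^ 2 := by
  rcases le_total a b with h | h
  · calc a * b ≤ b * b := by gcongr
      _ = b ^ 2 := (pow_two b).symm
      _ ≤ _ := le_add_self
  · calc a * b ≤ a * a := by (clear * - h; gcongr)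
      _ = a ^ 2 := (pow_two a).symm
      _ ≤ _ := le_self_add

variable {M : ℕ}

lemma fin_aux {s : ℝ} (hs : 0 < s) {f : X6 → ℝ≥0∞} (hf : ∫⁻ y, f y ^ 2 ≠ ⊤) {a : X6 → ℝ≥0∞}
    (ham : Measurable a) (ha : ∫⁻ y, hE s y * a y ^ 2 ≠ ⊤) :
    ∫⁻ y, hE s y * (a y * f y) ≠ ⊤ := by
  have h1 : ∀ y, hE s y * (a y * f y) ≤ hE s y * a y ^ 2 + ENNReal.ofReal (((2 * Real.pi * s) ^ 3)⁻¹) * f y ^ 2 := by
    intro y
    calc hE s y * (a y * f y) ≤ hE s y * (a y ^ 2 + f y ^ 2) := by gcongr; exact ennreal_mul_le _ _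
      _ = hE s y * a y ^ 2 + hE s y * f y ^ 2 := mul_add _ _ _
      _ ≤ _ := by
          gcongr
          exact ENNReal.ofReal_le_ofReal (hk_le hs y)
  have h2 := measurable_hE' s
  refine ne_top_of_le_ne_top ?_ (lintegral_mono h1)
  rw [lintegral_add_left (by fun_prop), lintegral_const_mul' _ _ (by simp only [ne_eq, ENNReal.ofReal_ne_top, not_false_eq_true])]
  exact ENNReal.add_ne_top.2 ⟨ha, ENNReal.mul_ne_top (by simp only [ne_eq, ENNReal.ofReal_ne_top, not_false_eq_true]) hf⟩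

lemma fin_UE {s : ℝ} (hs : 0 < s) (C0 : ℝ) (R : Fin M → R3) {f : X6 → ℝ≥0∞} (hfm : AEMeasurable f)
    (hf : ∫⁻ y, f y ^ 2 ≠ ⊤) :
    ∫⁻ y, hE s y * (UE C0 R y * f y) ≠ ⊤ := by
  have h0 : ∫⁻ y, hE s y * ((1:ℝ≥0∞) * f y) ≠ ⊤ := by
    apply fin_aux hs hf measurable_const
    simp only [one_pow, mul_one]
    rw [show ∫⁻ y, hE s y = 1 by simpa using lintegral_hE_sub hs 0]
    simp
  have h1 : ∀ j, ∫⁻ y : X6, hE s y * (ENNReal.ofReal (‖y.1 - R j‖⁻¹) * f y) ≠ ⊤ := by
    intro j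
    apply fin_aux hs hf (by fun_prop)
    have e1 := lintegral_hE_inv1 hs 0 (fun w => ENNReal.ofReal (‖w - R j‖⁻¹) ^ 2) (by fun_prop)
    have e2 := lintegral_hk3_inv_sq hs (0 : X6).1 (R j)
    rw [← e1] at e2
    simp only [sub_zero] at e2
    exact ne_top_of_le_ne_top ENNReal.ofReal_ne_top e2
  have h2 : ∀ j, ∫⁻ y : X6, hE s y * (ENNReal.ofReal (‖y.2 - R j‖⁻¹) * f y) ≠ ⊤ := by
    intro j
    apply fin_aux hs hf (by fun_prop)
    have e1 := lintegral_hE_inv2 hs 0 (fun w => ENNReal.ofReal (‖w - R j‖⁻¹) ^ 2) (by fun_prop)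
    have e2 := lintegral_hk3_inv_sq hs (0 : X6).2 (R j)
    rw [← e1] at e2
    simp only [sub_zero] at e2
    exact ne_top_of_le_ne_top ENNReal.ofReal_ne_top e2
  have h3 : ∫⁻ y : X6, hE s y * (ENNReal.ofReal (‖y.1 - y.2‖⁻¹) * f y) ≠ ⊤ := by
    apply fin_aux hs hf (by fun_prop)
    have : ∫⁻ z : X6, hE s z * ENNReal.ofReal (‖z.1 - z.2‖⁻¹) ^ 2
        ≤ ENNReal.ofReal (1 + (2 * Real.pi * s) ^ (-(3 / 2) : ℝ) * (3 * beta3)) := by
      simp_rw [hE_eq hs]
      rw [Measure.volume_eq_prod, lintegral_prod_symm _ (by have := measurable_hk3 s; fun_prop)]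
      calc _ ≤ ∫⁻ b : R3, ENNReal.ofReal (hk3 s b) *
            ENNReal.ofReal (1 + (2 * Real.pi * s) ^ (-(3 / 2) : ℝ) * (3 * beta3)) := by
            apply lintegral_mono
            intro b
            simp only
            have := lintegral_hk3_inv_sq hs 0 b
            simp only [sub_zero] at this
            calc _ = ∫⁻ x, ENNReal.ofReal (hk3 s b) * (ENNReal.ofReal (hk3 s x) *
                  ENNReal.ofReal (‖x - b‖⁻¹) ^ 2) := by
                  congr 1; ext x; ring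
              _ = ENNReal.ofReal (hk3 s b) * ∫⁻ x, (ENNReal.ofReal (hk3 s x) *
                  ENNReal.ofReal (‖x - b‖⁻¹) ^ 2) := by
                  rw [lintegral_const_mul' _ _ (by simp)]
              _ ≤ _ := by (clear * - this; gcongr)
        _ = _ := by
            rw [lintegral_mul_const' _ _ (by simp), lintegral_hk3 hs, one_mul]
    exact ne_top_of_le_ne_top ENNReal.ofReal_ne_top this
  have hm := measurable_hE' s
  have hle : ∀ y, hE s y * (UE C0 R y * f y) = ENNReal.ofReal C0 * (hE s y * (1 * f y)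
      + ∑ j, hE s y * (ENNReal.ofReal (‖y.1 - R j‖⁻¹) * f y)
      + ∑ j, hE s y * (ENNReal.ofReal (‖y.2 - R j‖⁻¹) * f y)
      + hE s y * (ENNReal.ofReal (‖y.1 - y.2‖⁻¹) * f y)) := by
    intro y
    unfold UE
    simp_rw [← Finset.mul_sum, ← Finset.sum_mul]
    ring
  simp_rw [hle]
  have a0 : AEMeasurable (fun y => hE s y * ((1:ℝ≥0∞) * f y)) :=
    hm.aemeasurable.mul (hfm.const_mul 1)
  have a1 : ∀ j, AEMeasurable (fun y : X6 => hE s y * (ENNReal.ofReal (‖y.1 - R j‖⁻¹) * f y)) :=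
    fun j => by (clear * - hm hfm; measurability)
  have a2 : ∀ j, AEMeasurable (fun y : X6 => hE s y * (ENNReal.ofReal (‖y.2 - R j‖⁻¹) * f y)) :=
    fun j => by fun_prop
  have a3 : AEMeasurable (fun y : X6 => hE s y * (ENNReal.ofReal (‖y.1 - y.2‖⁻¹) * f y)) := by fun_prop
  have s1 : AEMeasurable (fun y : X6 => ∑ j, hE s y * (ENNReal.ofReal (‖y.1 - R j‖⁻¹) * f y)) :=
    Finset.aemeasurable_fun_sum _ fun j _ => a1 j
  have s2 : AEMeasurable (fun y : X6 => ∑ j, hE s y * (ENNReal.ofReal (‖y.2 - R j‖⁻¹) * f y)) :=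
    Finset.aemeasurable_fun_sum _ fun j _ => a2 j
  have a01 : AEMeasurable (fun y : X6 => hE s y * ((1:ℝ≥0∞) * f y)
      + ∑ j, hE s y * (ENNReal.ofReal (‖y.1 - R j‖⁻¹) * f y)) := a0.add s1
  have a012 : AEMeasurable (fun y : X6 => hE s y * ((1:ℝ≥0∞) * f y)
      + ∑ j, hE s y * (ENNReal.ofReal (‖y.1 - R j‖⁻¹) * f y)
      + ∑ j, hE s y * (ENNReal.ofReal (‖y.2 - R j‖⁻¹) * f y)) := a01.add s2
  rw [lintegral_const_mul' _ _ (by simp), lintegral_add_left' a012,
    lintegral_add_left' a01, lintegral_add_left' a0,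
    lintegral_finsetSum' _ (fun j _ => a1 j), lintegral_finsetSum' _ (fun j _ => a2 j)]
  refine ENNReal.mul_ne_top (by simp) ?_
  refine ENNReal.add_ne_top.2 ⟨ENNReal.add_ne_top.2 ⟨ENNReal.add_ne_top.2 ⟨h0, ?_⟩, ?_⟩, h3⟩
  · exact ENNReal.sum_ne_top.2 fun j _ => h1 j
  · exact ENNReal.sum_ne_top.2 fun j _ => h2 j

/-- Chapman-Kolmogorov -/
lemma hE_conv {s r : ℝ} (hs : 0 < s) (hr : 0 < r) (x y : X6) :
    ∫⁻ z, hE s (x - z) * hE r (z - y) = hE (s + r) (x - y) := by
  have h1 : ∀ z, hE s (x - z) * hE r (z - y)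
      = hE (s + r) (x - y) *
        (hE (s * r / (s + r)) (z - ((r / (s + r)) • x + (s / (s + r)) • y))) := by
    intro z
    rw [hE_bridge hs hr]
  simp_rw [h1]
  rw [lintegral_const_mul' _ _ (by simp [hE]), lintegral_hE_sub (by positivity), mul_one]

lemma hk_one_add_le {s : ℝ} (hs : 0 < s) (hs1 : s ≤ 1) (y : X6) : hk (1 + s) y ≤ 8 * hk 2 y := by
  unfold hk
  have h1 : ((2 * Real.pi * (1 + s)) ^ 3)⁻¹ ≤ 8 * ((2 * Real.pi * 2) ^ 3)⁻¹ := by
    have : 8 * ((2 * Real.pi * 2) ^ 3)⁻¹ = ((2 * Real.pi * 1) ^ 3)⁻¹ := by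
      have := Real.pi_pos
      field_simp; norm_num
    rw [this]
    gcongr
    linarith only [hs]
  have h2 : Real.exp (-(nsq y / (2 * (1 + s)))) ≤ Real.exp (-(nsq y / (2 * 2))) := by
    apply Real.exp_le_exp.2
    apply neg_le_neg
    have := nsq_nonneg y
    gcongr
    linarith only [hs1]
  calc _ ≤ (8 * ((2 * Real.pi * 2) ^ 3)⁻¹) * Real.exp (-(nsq y / (2 * 2))) := by gcongr
    _ = _ := by ring

lemma AE_finite {C0 : ℝ} {R : Fin M → R3} {t : ℝ} (ht1 : t ≤ 1) {f : X6 → ℝ≥0∞}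
    (hfm : AEMeasurable f) (hf : ∫⁻ y, f y ^ 2 ≠ ⊤) : ∀ᵐ x, AE C0 R t f x < ⊤ := by
  have hU := measurable_UE C0 R
  have hUf : AEMeasurable (fun z => UE C0 R z * f z) := hU.aemeasurable.mul hfm
  have hm1 := measurable_hE' 1
  have hPm : Measurable (fun p : X6 × ℝ => PE p.2 (fun z => UE C0 R z * f z) p.1) := by
    have h3 := measurable_PE hUf
    have h4 : Measurable (fun p : X6 × ℝ => (p.2, p.1)) := by fun_prop
    have h5 : Measurable ((fun p : ℝ × X6 => PE p.1 (fun z => UE C0 R z * f z) p.2) ∘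
      (fun p : X6 × ℝ => (p.2, p.1))) := Measurable.comp h3 h4
    exact h5
  have key : ∫⁻ x, hE 1 x * AE C0 R t f x ≠ ⊤ := by
    have e1 : ∀ x, hE 1 x * AE C0 R t f x = ∫⁻ s in Ioo 0 t, hE 1 x * PE s (fun z => UE C0 R z * f z) x := by
      intro x
      unfold AE
      rw [lintegral_const_mul _ (measurable_PE_time hUf x)]
    simp_rw [e1]
    rw [lintegral_lintegral_swap]
    · have e2 : ∀ s ∈ Ioo 0 t, ∫⁻ x, hE 1 x * PE s (fun z => UE C0 R z * f z) x
          ≤ 8 * ∫⁻ y, hE 2 y * (UE C0 R y * f y) := by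
        intro s hs
        have hms := measurable_hE' s
        unfold PE
        calc ∫⁻ x, hE 1 x * ∫⁻ y, hE s (x - y) * (UE C0 R y * f y)
            = ∫⁻ x, ∫⁻ y, hE 1 (0 - x) * hE s (x - y) * (UE C0 R y * f y) := by
              congr 1; ext x
              have hq9 : AEMeasurable (fun y => hE s (x - y) * (UE C0 R y * f y)) :=
                (hms.comp (measurable_const.sub measurable_id)).aemeasurable.mul hUf
              rw [← lintegral_const_mul'' _ hq9]
              congr 1; ext y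
              rw [hE_sub_comm 1 0 x, sub_zero]; ring
          _ = ∫⁻ y, ∫⁻ x, hE 1 (0 - x) * hE s (x - y) * (UE C0 R y * f y) := by
              apply lintegral_lintegral_swap
              have : AEMeasurable (fun p : X6 × X6 => UE C0 R p.2 * f p.2) (volume.prod volume) :=
                hUf.comp_snd
              have h2 : Measurable (fun p : X6 × X6 => hE 1 (0 - p.1) * hE s (p.1 - p.2)) := by
                fun_prop
              exact h2.aemeasurable.mul this
          _ ≤ ∫⁻ y, 8 * (hE 2 y * (UE C0 R y * f y)) := by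
              apply lintegral_mono
              intro y
              simp only
              have h5 : hE (1 + s) (0 - y) ≤ 8 * hE 2 y := by
                rw [hE_sub_comm, sub_zero]
                unfold hE
                have h8 : (8 : ℝ≥0∞) = ENNReal.ofReal 8 := by norm_num
                rw [h8, ← ENNReal.ofReal_mul (by norm_num)]
                exact ENNReal.ofReal_le_ofReal (hk_one_add_le hs.1 (hs.2.le.trans ht1) y)
              rw [lintegral_mul_const'' _ (by fun_prop), hE_conv one_pos hs.1]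
              calc hE (1 + s) (0 - y) * (UE C0 R y * f y) ≤ (8 * hE 2 y) * (UE C0 R y * f y) :=
                    mul_le_mul_left h5 _
                _ = _ := by ring
          _ = _ := by rw [lintegral_const_mul' _ _ (by simp)]
      refine ne_top_of_le_ne_top ?_ (setLIntegral_mono' measurableSet_Ioo e2)
      rw [setLIntegral_const]
      refine ENNReal.mul_ne_top (ENNReal.mul_ne_top (by simp) (fin_UE two_pos C0 R hfm hf)) (by simp only [Real.volume_Ioo, sub_zero, ne_eq, ENNReal.ofReal_ne_top, not_false_eq_true])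
    · exact ((hm1.comp measurable_fst).mul hPm).aemeasurable
  have h3 := ae_lt_top' (by
    have := measurable_AE (C0 := C0) (R := R) hfm t
    exact Measurable.aemeasurable (by fun_prop)) key
  filter_upwards [h3] with x hx
  by_contra hcon
  have : AE C0 R t f x = ⊤ := by simpa only [not_lt, top_le_iff] using hcon
  rw [this, ENNReal.mul_top] at hx
  · exact lt_irrefl _ hx
  · unfold hE
    simp only [ne_eq, ENNReal.ofReal_eq_zero, not_le, hk_pos one_pos x]

end Vale.Agent.P363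
end
end

section

section

namespace Vale.Agent.P363.KX

open MeasureTheory Set Filter Topology
open scoped ENNReal ContDiff

noncomputable section

variable {c : ℝ} {v : R3 → ℝ} {e : ℝ} {ψ : R3 → ℝ} {ψ' : Fin 3 → R3 → ℝ}

lemma x4a_prim_mem (h : Cut c v e ψ ψ') {δ : ℝ} (hδ : 0 < δ) (k : Fin 3) :
    ∀ᵐ x : R3, ∀ t, prim (ψ x) (fun s => ψ' k (x + s • dir3 k)) t ∈ {y : ℝ | -δ < y} := by
  have h1 := (h.h1.acl k).prim_ge (m := fun _ => 0) continuous_const h.nonneg
  filter_upwards [h1] with x hx t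
  have := hx t
  show -δ < _
  linarith

lemma acl_log (h : Cut c v e ψ ψ') {δ : ℝ} (hδ : 0 < δ) (k : Fin 3) :
    ACL volume (dir3 k) (fun x => Real.log (ψ x + δ)) (fun x => ψ' k x / (ψ x + δ)) := by
  have hm := (h.h1.acl k).meas
  have h1 := (h.h1.acl k).comp (Φ := fun y => Real.log (y + δ)) (Φ' := fun y => (y + δ)⁻¹)
    (Ω := {y : ℝ | -δ < y}) ?_ ?_ ?_ ?_ (x4a_prim_mem h hδ k)
  · refine h1.congr (by rfl) ?_
    filter_upwards with x
    rw [div_eq_inv_mul]
  · intro y hy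
    have hy' : y + δ ≠ 0 := by
      have : -δ < y := hy
      linarith only [this]
    have := ((hasDerivAt_id y).add_const δ).log hy'
    simpa using this
  · apply ContinuousOn.inv₀
    · fun_prop
    · intro y hy
      have : -δ < y := hy
      linarith only [this]
  · exact (Real.measurable_log.comp (measurable_id.add_const δ)).comp_aemeasurable hm.aemeasurable
      |>.aestronglyMeasurable
  · exact ((measurable_id.add_const δ).inv).comp_aemeasurable hm.aemeasurable
      |>.aestronglyMeasurable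

lemma x4a_acl_inv (h : Cut c v e ψ ψ') {δ : ℝ} (hδ : 0 < δ) (k : Fin 3) :
    ACL volume (dir3 k) (fun x => (ψ x + δ)⁻¹) (fun x => -(ψ' k x) / (ψ x + δ) ^ 2) := by
  have hm := (h.h1.acl k).meas
  have h1 := (h.h1.acl k).comp (Φ := fun y => (y + δ)⁻¹) (Φ' := fun y => -((y + δ) ^ 2)⁻¹)
    (Ω := {y : ℝ | -δ < y}) ?_ ?_ ?_ ?_ (x4a_prim_mem h hδ k)
  · refine h1.congr (by rfl) ?_
    filter_upwards with x
    ring
  · intro y hy
    have hy' : y + δ ≠ 0 := by
      have : -δ < y := hy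
      linarith only [this]
    have := ((hasDerivAt_id y).add_const δ).inv hy'
    refine this.congr_deriv ?_
    simp only [id]
    ring
  · apply ContinuousOn.neg
    apply ContinuousOn.inv₀
    · exact ((continuous_id.add continuous_const).pow 2).continuousOn
    · intro y hy
      have : -δ < y := hy
      have h2 : y + δ ≠ 0 := by linarith only [this]
      (clear * - h2; positivity)
  · exact ((measurable_id.add_const δ).inv).comp_aemeasurable hm.aemeasurable
      |>.aestronglyMeasurable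
  · exact (((measurable_id.add_const δ).pow_const 2).inv.neg).comp_aemeasurable hm.aemeasurable
      |>.aestronglyMeasurable

lemma h1_test (h : Cut c v e ψ ψ') {δ : ℝ} (hδ : 0 < δ) {χ : R3 → ℝ} (hχ : ContDiff ℝ ∞ χ)
    (hs : HasCompactSupport χ) :
    H1o (fun x => χ x / (ψ x + δ))
      (fun k x => pd k χ x / (ψ x + δ) - χ x * ψ' k x / (ψ x + δ) ^ 2) := by
  have hm := (h.h1.acl 0).meas
  have hχ1 : ContDiff ℝ 1 χ := hχ.of_le (by exact_mod_cast le_top)
  have hmi : AEStronglyMeasurable (fun x => (ψ x + δ)⁻¹) volume :=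
    ((measurable_id.add_const δ).inv).comp_aemeasurable hm.aemeasurable |>.aestronglyMeasurable
  have hb : ∀ᵐ x : R3, |(ψ x + δ)⁻¹| ≤ δ⁻¹ := by
    filter_upwards [h.nonneg] with x hx
    rw [abs_of_nonneg (by positivity)]
    exact inv_anti₀ hδ (by linarith)
  have hpc : ∀ k, Continuous (pd k χ) := fun k =>
    (hχ1.continuous_fderiv (by norm_num)).clm_apply continuous_const
  have hps : ∀ k, HasCompactSupport (pd k χ) := fun k => hs.fderiv_apply ℝ (dir3 k)
  obtain ⟨B, hB⟩ := hs.exists_bound_of_continuous hχ.continuous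
  have hB0 : 0 ≤ B := (norm_nonneg _).trans (hB 0)
  constructor
  · have h1 : MemLp (fun x => δ⁻¹ * χ x) 2 volume :=
      (hχ.continuous.memLp_of_hasCompactSupport hs).const_mul _
    refine h1.mono ((hχ.continuous.aestronglyMeasurable.mul hmi).congr (by
      filter_upwards with x
      rw [Pi.mul_apply, div_eq_mul_inv])) ?_
    filter_upwards [hb] with x hx
    rw [div_eq_mul_inv, norm_mul, norm_mul, mul_comm, Real.norm_eq_abs (ψ x + δ)⁻¹]
    refine mul_le_mul_of_nonneg_right (hx.trans (le_abs_self _)) (norm_nonneg _)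
  · intro k
    apply MemLp.sub
    · have h1 : MemLp (fun x => δ⁻¹ * pd k χ x) 2 volume :=
        ((hpc k).memLp_of_hasCompactSupport (hps k)).const_mul _
      refine h1.mono (((hpc k).aestronglyMeasurable.mul hmi).congr (by
        filter_upwards with x
        rw [Pi.mul_apply, div_eq_mul_inv])) ?_
      filter_upwards [hb] with x hx
      rw [div_eq_mul_inv, norm_mul, norm_mul, mul_comm, Real.norm_eq_abs (ψ x + δ)⁻¹]
      refine mul_le_mul_of_nonneg_right (hx.trans (le_abs_self _)) (norm_nonneg _)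
    · have h1 : MemLp (fun x => (B * (δ⁻¹) ^ 2) * ψ' k x) 2 volume := (h.h1.memLp' k).const_mul _
      refine h1.mono ?_ ?_
      · have h2 : (fun x => χ x * ψ' k x / (ψ x + δ) ^ 2) =
            fun x => (χ x * ψ' k x) * ((ψ x + δ)⁻¹) ^ 2 := by
          funext x
          rw [inv_pow, div_eq_mul_inv]
        rw [h2]
        exact (hχ.continuous.aestronglyMeasurable.mul (h.h1.acl k).meas').mul (hmi.pow 2)
      · filter_upwards [hb] with x hx
        have e1 : χ x * ψ' k x / (ψ x + δ) ^ 2 = (χ x * ((ψ x + δ)⁻¹) ^ 2) * ψ' k x := by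
          rw [inv_pow, div_eq_mul_inv]; ring
        rw [e1, norm_mul, norm_mul (B * _)]
        refine mul_le_mul_of_nonneg_right ?_ (norm_nonneg _)
        rw [norm_mul, Real.norm_of_nonneg (by (clear * - hB0 hδ; positivity) : (0:ℝ) ≤ B * (δ⁻¹) ^ 2), norm_pow]
        exact mul_le_mul (hB x) (pow_le_pow_left₀ (norm_nonneg _) hx 2) (by (clear * -; positivity)) hB0
  · intro k
    have h1 := (ACL.of_contDiff (μ := (volume : Measure R3)) (e := dir3 k) hχ1).mul (x4a_acl_inv h hδ k)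
    refine h1.congr ?_ ?_
    · filter_upwards with x
      rw [div_eq_mul_inv]
    · filter_upwards with x
      simp only [pd]
      ring

end

end Vale.Agent.P363.KX
end
end

section

section

namespace Vale.Agent.P363.KX

open MeasureTheory Set Filter Topology
open scoped ENNReal ContDiff

noncomputable section

/-! The equation of the regularized logarithm. -/

variable {c : ℝ} {v : R3 → ℝ} {e : ℝ} {ψ : R3 → ℝ} {ψ' : Fin 3 → R3 → ℝ}

lemma x4b_memLp_quot (h : Cut c v e ψ ψ') {δ : ℝ} (hδ : 0 < δ) (k : Fin 3) :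
    MemLp (fun x => ψ' k x / (ψ x + δ)) 2 volume := by
  refine MemLp.of_le_mul (c := δ⁻¹) (h.h1.memLp' k)
    ((h.h1.memLp' k).1.div₀ (h.h1.memLp.1.add aestronglyMeasurable_const)) ?_
  filter_upwards [h.nonneg] with x hx
  rw [norm_div, div_eq_inv_mul]
  apply mul_le_mul_of_nonneg_right _ (norm_nonneg _)
  rw [Real.norm_eq_abs, abs_of_pos (by linarith)]
  exact inv_anti₀ hδ (by linarith)

lemma x4b_cont_pd {χ : R3 → ℝ} (hχ : ContDiff ℝ ∞ χ) (k : Fin 3) : Continuous (pd k χ) :=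
  (hχ.continuous_fderiv (by simp)).clm_apply continuous_const

lemma x4b_pd_eq_zero {χ : R3 → ℝ} {x : R3} (hx : x ∉ tsupport χ) (k : Fin 3) : pd k χ x = 0 := by
  have h1 : fderiv ℝ χ x = 0 :=
    image_eq_zero_of_notMem_tsupport fun h => hx (tsupport_fderiv_subset ℝ h)
  simp [pd, h1]

lemma x4b_cs_pd {χ : R3 → ℝ} (hs : HasCompactSupport χ) (k : Fin 3) :
    HasCompactSupport (pd k χ) :=
  HasCompactSupport.intro' hs isClosed_closure fun _ hx => x4b_pd_eq_zero hx k

theorem ident_delta (h : Cut c v e ψ ψ') {δ : ℝ} (hδ : 0 < δ) {χ : R3 → ℝ}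
    (hχ : ContDiff ℝ ∞ χ) (hs : HasCompactSupport χ) (ht : tsupport χ ⊆ Om c) :
    (1 / 2) * (∑ k, ∫ x, pd k χ x * (ψ' k x / (ψ x + δ))) -
      (1 / 2) * (∑ k, ∫ x, χ x * (ψ' k x / (ψ x + δ)) ^ 2) +
      ∫ x, (v x - e) * (χ x * (ψ x / (ψ x + δ))) = 0 := by
  have hw := h.weak _ _ (h1_test h hδ hχ hs)
    (fun x hx => by
      rw [image_eq_zero_of_notMem_tsupport (fun h' => hx (ht h')), zero_div])
    (fun k x hx => by
      rw [image_eq_zero_of_notMem_tsupport (fun h' => hx (ht h')),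
        x4b_pd_eq_zero (fun h' => hx (ht h')) k]
      simp)
  have i1 : ∀ k, Integrable (fun x => pd k χ x * (ψ' k x / (ψ x + δ))) := fun k =>
    MemLp.integrable_mul (p := 2) (q := 2)
      ((x4b_cont_pd hχ k).memLp_of_hasCompactSupport (x4b_cs_pd hs k))
      (x4b_memLp_quot h hδ k)
  obtain ⟨C, hC⟩ := hs.exists_bound_of_continuous hχ.continuous
  have i2 : ∀ k, Integrable (fun x => χ x * (ψ' k x / (ψ x + δ)) ^ 2) := fun k =>
    (x4b_memLp_quot h hδ k).integrable_sq.bdd_mul hχ.continuous.aestronglyMeasurable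
      (Eventually.of_forall hC)
  have e1 : ∀ k, ∫ x, ψ' k x * (pd k χ x / (ψ x + δ) - χ x * ψ' k x / (ψ x + δ) ^ 2) =
      (∫ x, pd k χ x * (ψ' k x / (ψ x + δ))) - ∫ x, χ x * (ψ' k x / (ψ x + δ)) ^ 2 := by
    intro k
    rw [← integral_sub (i1 k) (i2 k)]
    congr 1
    funext x
    rw [div_pow]
    ring
  have e2 : ∫ x, (v x - e) * ψ x * (χ x / (ψ x + δ)) =
      ∫ x, (v x - e) * (χ x * (ψ x / (ψ x + δ))) := by
    congr 1
    funext x
    ring
  rw [e2] at hw
  simp only [e1, Finset.sum_sub_distrib] at hw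
  linarith

end

end Vale.Agent.P363.KX
end
end

section

section

namespace Vale.Agent.P363.KX

open MeasureTheory Set Filter Topology
open scoped ENNReal ContDiff

noncomputable section

/-! Logarithmic Caccioppoli inequality with parameter. -/

variable {c : ℝ} {v : R3 → ℝ} {e : ℝ} {ψ : R3 → ℝ} {ψ' : Fin 3 → R3 → ℝ}

lemma X5a_memG (h : Cut c v e ψ ψ') {δ : ℝ} (hδ : 0 < δ) (k : Fin 3) :
    MemLp (fun x => ψ' k x / (ψ x + δ)) 2 volume := by
  have hm : AEStronglyMeasurable (fun x => ψ' k x / (ψ x + δ)) volume :=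
    ((h.h1.memLp' k).aestronglyMeasurable.aemeasurable.div
      (h.h1.memLp.aestronglyMeasurable.aemeasurable.add_const δ)).aestronglyMeasurable
  refine MemLp.of_le ((h.h1.memLp' k).const_mul δ⁻¹) hm ?_
  filter_upwards [h.nonneg] with x hx
  have h1 : 0 < ψ x + δ := by linarith
  rw [norm_div, norm_mul, norm_inv, Real.norm_of_nonneg h1.le, Real.norm_of_nonneg hδ.le,
    div_eq_inv_mul]
  apply mul_le_mul_of_nonneg_right _ (norm_nonneg _)
  apply inv_anti₀ hδ
  linarith only [hx]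

lemma X5a_pd_continuous {θ : R3 → ℝ} (hθ : ContDiff ℝ ∞ θ) (k : Fin 3) :
    Continuous (pd k θ) := by
  unfold pd
  exact (hθ.continuous_fderiv (by simp)).clm_apply continuous_const

lemma X5a_pd_hcs {θ : R3 → ℝ} (hs : HasCompactSupport θ) (k : Fin 3) :
    HasCompactSupport (pd k θ) := by
  unfold pd
  have h1 : HasCompactSupport (fderiv ℝ θ) := hs.fderiv (𝕜 := ℝ)
  exact h1.comp_left (g := fun L : R3 →L[ℝ] ℝ => L (dir3 k)) (by simp)

lemma X5a_pd_sq {θ : R3 → ℝ} (hθ : ContDiff ℝ ∞ θ) (k : Fin 3) (x : R3) :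
    pd k (fun x => θ x ^ 2) x = 2 * θ x * pd k θ x := by
  unfold pd
  have hd : DifferentiableAt ℝ θ x := (hθ.differentiable (by simp)) x
  have := (hd.hasFDerivAt.pow 2).fderiv
  rw [this]
  simp

lemma X5a_hcs_sq {f : R3 → ℝ} (hs : HasCompactSupport f) :
    HasCompactSupport (fun x => f x ^ 2) := by
  have h1 : (fun x => f x ^ 2) = f * f := by
    funext x
    simp [pow_two]
  rw [h1]
  exact hs.mul_right

theorem cacc_delta (h : Cut c v e ψ ψ') {δ : ℝ} (hδ : 0 < δ) {θ : R3 → ℝ}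
    (hθ : ContDiff ℝ ∞ θ) (hs : HasCompactSupport θ) (ht : tsupport θ ⊆ Om c) :
    ∑ k, ∫ x, θ x ^ 2 * (ψ' k x / (ψ x + δ)) ^ 2 ≤
      4 * (∑ k, ∫ x, pd k θ x ^ 2) + 4 * ∫ x, |v x - e| * θ x ^ 2 := by
  have hθc : Continuous θ := hθ.continuous
  have hG := X5a_memG h hδ
  have hpc := X5a_pd_continuous hθ
  have hps := X5a_pd_hcs hs
  -- bound for θ
  obtain ⟨K, hK⟩ := hs.exists_bound_of_continuous hθc
  -- square supports
  have hs2 : HasCompactSupport (fun x => θ x ^ 2) := X5a_hcs_sq hs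
  have hθ2 : ContDiff ℝ ∞ (fun x => θ x ^ 2) := hθ.pow 2
  have ht2 : tsupport (fun x => θ x ^ 2) ⊆ Om c := by
    refine subset_trans (closure_mono ?_) ht
    intro x hx
    rw [Function.mem_support] at hx ⊢
    intro h0
    exact hx (by simp [h0])
  have key := ident_delta h hδ hθ2 hs2 ht2
  -- integrability
  have iG2 : ∀ k, Integrable (fun x => θ x ^ 2 * (ψ' k x / (ψ x + δ)) ^ 2) := by
    intro k
    have hg2 : Integrable (fun x => (ψ' k x / (ψ x + δ)) ^ 2) := (hG k).integrable_sq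
    refine Integrable.bdd_mul (c := K ^ 2) hg2 (hθc.pow 2).aestronglyMeasurable ?_
    filter_upwards with x
    rw [norm_pow]
    exact pow_le_pow_left₀ (norm_nonneg _) (hK x) 2
  have iP2 : ∀ k, Integrable (fun x => pd k θ x ^ 2) := by
    intro k
    apply Continuous.integrable_of_hasCompactSupport ((hpc k).pow 2)
    exact X5a_hcs_sq (hps k)
  have iM : ∀ k, Integrable (fun x => θ x * pd k θ x * (ψ' k x / (ψ x + δ))) := by
    intro k
    have h1 : MemLp (fun x => θ x * pd k θ x) 2 volume := by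
      apply Continuous.memLp_of_hasCompactSupport (hθc.mul (hpc k))
      exact hs.mul_right
    exact h1.integrable_mul (hG k)
  have iV : Integrable (fun x => |v x - e| * θ x ^ 2) := by
    have h1 : LocallyIntegrable (fun x => v x - e) volume :=
      h.vloc.sub (continuous_const.locallyIntegrable)
    have h2 : Integrable (fun x => θ x ^ 2 • (v x - e)) := h1.integrable_smul_left_of_hasCompactSupport
      (hθc.pow 2) hs2
    refine h2.norm.congr ?_
    filter_upwards with x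
    rw [norm_smul, Real.norm_eq_abs, Real.norm_eq_abs, abs_of_nonneg (sq_nonneg _), mul_comm]
  have iW : Integrable (fun x => (v x - e) * (θ x ^ 2 * (ψ x / (ψ x + δ)))) := by
    refine iV.mono ?_ ?_
    · have hv : AEStronglyMeasurable v volume := h.vloc.aestronglyMeasurable
      have hψ := h.h1.memLp.aestronglyMeasurable.aemeasurable
      exact (((hv.aemeasurable.sub_const e).mul
        ((hθc.pow 2).aemeasurable.mul (hψ.div (hψ.add_const δ))))).aestronglyMeasurable
    · filter_upwards [h.nonneg] with x hx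
      have h1 : 0 < ψ x + δ := by linarith only [hδ, hx]
      have h2 : ψ x / (ψ x + δ) ≤ 1 := by rw [div_le_one h1]; linarith only [hδ]
      have h3 : 0 ≤ ψ x / (ψ x + δ) := by (clear * - hx hδ; positivity)
      rw [norm_mul, norm_mul, norm_mul, Real.norm_eq_abs, Real.norm_eq_abs, Real.norm_eq_abs,
        Real.norm_eq_abs, abs_abs, abs_of_nonneg h3]
      apply mul_le_mul_of_nonneg_left _ (abs_nonneg _)
      calc |θ x ^ 2| * (ψ x / (ψ x + δ)) ≤ |θ x ^ 2| * 1 :=
            mul_le_mul_of_nonneg_left h2 (abs_nonneg _)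
        _ = |θ x ^ 2| := mul_one _
  -- rewrite the identity
  have e1 : ∀ k, ∫ x, pd k (fun x => θ x ^ 2) x * (ψ' k x / (ψ x + δ)) =
      2 * ∫ x, θ x * pd k θ x * (ψ' k x / (ψ x + δ)) := by
    intro k
    rw [← integral_const_mul]
    apply integral_congr_ae
    filter_upwards with x
    rw [X5a_pd_sq hθ]; ring
  have b1 : ∀ k, ∫ x, θ x * pd k θ x * (ψ' k x / (ψ x + δ)) ≤
      (1 / 4) * (∫ x, θ x ^ 2 * (ψ' k x / (ψ x + δ)) ^ 2) + ∫ x, pd k θ x ^ 2 := by
    intro k
    rw [← integral_const_mul, ← integral_add ((iG2 k).const_mul _) (iP2 k)]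
    apply integral_mono (iM k) (((iG2 k).const_mul _).add (iP2 k))
    intro x
    simp only [Pi.add_apply]
    linarith only [sq_nonneg (1 / 2 * (θ x * (ψ' k x / (ψ x + δ))) - pd k θ x)]
  have b2 : ∫ x, (v x - e) * (θ x ^ 2 * (ψ x / (ψ x + δ))) ≤ ∫ x, |v x - e| * θ x ^ 2 := by
    apply integral_mono_ae iW iV
    filter_upwards [h.nonneg] with x hx
    have h1 : 0 < ψ x + δ := by linarith only [hδ, hx]
    have h2 : ψ x / (ψ x + δ) ≤ 1 := by rw [div_le_one h1]; linarith only [hδ]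
    have h3 : 0 ≤ ψ x / (ψ x + δ) := by (clear * - hx hδ; positivity)
    calc (v x - e) * (θ x ^ 2 * (ψ x / (ψ x + δ)))
        ≤ |v x - e| * (θ x ^ 2 * (ψ x / (ψ x + δ))) :=
          mul_le_mul_of_nonneg_right (le_abs_self _) (by (clear * - hx hδ; positivity))
      _ ≤ |v x - e| * (θ x ^ 2 * 1) := by
          apply mul_le_mul_of_nonneg_left _ (abs_nonneg _)
          exact mul_le_mul_of_nonneg_left h2 (sq_nonneg _)
      _ = |v x - e| * θ x ^ 2 := by rw [mul_one]
  have s1 : ∑ k, ∫ x, pd k (fun x => θ x ^ 2) x * (ψ' k x / (ψ x + δ)) =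
      2 * ∑ k, ∫ x, θ x * pd k θ x * (ψ' k x / (ψ x + δ)) := by
    rw [Finset.mul_sum]
    exact Finset.sum_congr rfl (fun k _ => e1 k)
  have s2 : ∑ k, ∫ x, θ x * pd k θ x * (ψ' k x / (ψ x + δ)) ≤
      (1 / 4) * (∑ k, ∫ x, θ x ^ 2 * (ψ' k x / (ψ x + δ)) ^ 2) + ∑ k, ∫ x, pd k θ x ^ 2 := by
    rw [Finset.mul_sum, ← Finset.sum_add_distrib]
    exact Finset.sum_le_sum (fun k _ => b1 k)
  rw [s1] at key
  linarith

end

end Vale.Agent.P363.KX
end
end

section

section

namespace Vale.Agent.P363.KX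

open MeasureTheory Set Filter Topology
open scoped ENNReal ContDiff

noncomputable section

/-! Uniform local `L²` bound for the gradient of the logarithm. -/

/-- The cut-off at `x`. -/
def x10th (r : ℝ) (hr : 0 < r) (x : R3) : ContDiffBump x := ⟨r, 2 * r, hr, by linarith⟩

theorem x10th_eq {r : ℝ} (hr : 0 < r) (x y : R3) :
    x10th r hr x y = x10th r hr 0 (y - x) := by
  show (someContDiffBumpBase R3).toFun _ _ = (someContDiffBumpBase R3).toFun _ _
  simp only [x10th, sub_zero]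

theorem x10_pd_eq {r : ℝ} (hr : 0 < r) (k : Fin 3) (x y : R3) :
    pd k (x10th r hr x) y = pd k (x10th r hr 0) (y - x) := by
  have h : (x10th r hr x : R3 → ℝ) = fun y => x10th r hr 0 (y - x) := by
    funext y
    exact x10th_eq hr x y
  rw [pd, h, pd, fderiv_comp_sub]

theorem x10_int_pd {r : ℝ} (hr : 0 < r) (k : Fin 3) (x : R3) :
    ∫ y, pd k (x10th r hr x) y ^ 2 = ∫ y, pd k (x10th r hr 0) y ^ 2 := by
  simp_rw [x10_pd_eq hr k x]
  exact integral_sub_right_eq_self (fun y => pd k (x10th r hr 0) y ^ 2) x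

theorem x10_pd_sq {θ : R3 → ℝ} (hθ : ContDiff ℝ ∞ θ) (k : Fin 3) (y : R3) :
    pd k (fun y => θ y ^ 2) y = 2 * (θ y * pd k θ y) := by
  have h1 : HasFDerivAt θ (fderiv ℝ θ y) y :=
    ((hθ.differentiable (by simp)) y).hasFDerivAt
  have h2 := h1.pow 2
  rw [pd, h2.fderiv]
  simp only [pd, smul_apply, smul_eq_mul]
  push_cast
  ring

theorem x10_locInt {g : R3 → ℝ} (hm : AEStronglyMeasurable g volume)
    (hg : LocallyIntegrable (fun x => g x ^ 2) volume) : LocallyIntegrable g volume := by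
  have h1 : LocallyIntegrable (fun x => 1 + g x ^ 2) volume :=
    (locallyIntegrable_const (1 : ℝ)).add hg
  refine h1.mono hm (Eventually.of_forall fun x => ?_)
  rw [Real.norm_eq_abs, Real.norm_eq_abs, abs_of_nonneg (a := 1 + g x ^ 2) (by positivity)]
  (by_contra nlg; linarith only [sq_nonneg (g x : ℝ), sq_abs (g x), mul_nonneg (sq_nonneg (g x : ℝ)) (sq_nonneg (g x : ℝ)), mul_nonneg (sq_nonneg (g x : ℝ)) (le_of_lt (sub_pos.2 (not_le.1 nlg))), mul_pos (sub_pos.2 (not_le.1 nlg)) (sub_pos.2 (not_le.1 nlg)), nlg])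

theorem x10_locInt_v {v : R3 → ℝ}
    (hv : ∀ r : ℝ, ∃ C : ℝ, ∀ x : R3,
      IntegrableOn v (Metric.ball x r) volume ∧ ∫ y in Metric.ball x r, |v y| ≤ C) :
    LocallyIntegrable v volume := by
  obtain ⟨C, hC⟩ := hv 1
  exact fun x => ⟨Metric.ball x 1, Metric.ball_mem_nhds x one_pos, (hC x).1⟩

theorem x10_potential {v : R3 → ℝ} {e C r : ℝ} {x : R3} {χ : R3 → ℝ}
    (hv : IntegrableOn v (Metric.ball x r) volume) (hC : ∫ y in Metric.ball x r, |v y| ≤ C)
    (h0 : ∀ y, 0 ≤ χ y) (h1 : ∀ y, χ y ≤ 1) (hs : ∀ y, y ∉ Metric.ball x r → χ y = 0)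
    (hI : Integrable (fun y => (v y - e) * χ y) volume) :
    ∫ y, (v y - e) * χ y ≤ C + |e| * (volume (Metric.ball (0 : R3) r)).toReal := by
  have hvol : volume (Metric.ball x r) = volume (Metric.ball (0 : R3) r) :=
    Measure.addHaar_ball_center volume x r
  have hfin : volume (Metric.ball x r) ≠ ⊤ := Metric.isBounded_ball.measure_lt_top.ne
  have i1 : IntegrableOn (fun y => |v y|) (Metric.ball x r) volume := hv.abs
  have i2 : IntegrableOn (fun _ : R3 => |e|) (Metric.ball x r) volume := by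
    exact integrableOn_const hfin
  have i3 : IntegrableOn (fun y => |v y| + |e|) (Metric.ball x r) volume := i1.add i2
  calc ∫ y, (v y - e) * χ y
      ≤ ∫ y, (Metric.ball x r).indicator (fun y => |v y| + |e|) y := by
        refine integral_mono hI (i3.integrable_indicator Metric.isOpen_ball.measurableSet) ?_
        intro y
        by_cases hy : y ∈ Metric.ball x r
        · rw [indicator_of_mem hy]
          calc (v y - e) * χ y ≤ |(v y - e) * χ y| := le_abs_self _
            _ = |v y - e| * χ y := by rw [abs_mul, abs_of_nonneg (h0 y)]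
            _ ≤ |v y - e| * 1 := mul_le_mul_of_nonneg_left (h1 y) (abs_nonneg _)
            _ ≤ |v y| + |e| := by rw [mul_one]; exact abs_sub _ _
        · rw [indicator_of_notMem hy]
          show (v y - e) * χ y ≤ 0
          rw [hs y hy, mul_zero]
    _ = (∫ y in Metric.ball x r, |v y|) + ∫ y in Metric.ball x r, |e| := by
        rw [integral_indicator Metric.isOpen_ball.measurableSet, integral_add i1 i2]
    _ = (∫ y in Metric.ball x r, |v y|) + |e| * (volume (Metric.ball (0 : R3) r)).toReal := by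
        rw [setIntegral_const, smul_eq_mul, Measure.real, hvol, mul_comm]
    _ ≤ _ := by linarith only [hC]

theorem g_unif {v : R3 → ℝ} {e : ℝ} {φ H : R3 → ℝ} {g : Fin 3 → R3 → ℝ}
    (hL : LogOut (1 / 2) v e φ H g)
    (hv : ∀ r : ℝ, ∃ C : ℝ, ∀ x : R3,
      IntegrableOn v (Metric.ball x r) volume ∧ ∫ y in Metric.ball x r, |v y| ≤ C)
    {r : ℝ} (hr : 0 < r) : ∃ C : ℝ, ∀ x : R3, 1 + 2 * r ≤ x 0 → ∀ k,
      ∫ y in Metric.ball x r, g k y ^ 2 ≤ C := by
  obtain ⟨C₀, hC₀⟩ := hv (2 * r)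
  refine ⟨4 * (∑ k, ∫ y, pd k (x10th r hr 0) y ^ 2) +
    4 * (C₀ + |e| * (volume (Metric.ball (0 : R3) (2 * r))).toReal), fun x hx => ?_⟩
  set θ : R3 → ℝ := (x10th r hr x : R3 → ℝ) with hθdef
  have hθs : ContDiff ℝ ∞ θ := (x10th r hr x).contDiff
  have hθc : HasCompactSupport θ := (x10th r hr x).hasCompactSupport
  have hθ0 : ∀ y, 0 ≤ θ y := fun y => (x10th r hr x).nonneg
  have hθ1 : ∀ y, θ y ≤ 1 := fun y => (x10th r hr x).le_one
  have hθz : ∀ y, y ∉ Metric.ball x (2 * r) → θ y = 0 := by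
    intro y hy
    have h := (x10th r hr x).support_eq
    have h2 : y ∉ Function.support θ := by
      rw [hθdef, h]
      exact hy
    simpa using h2
  have hθone : ∀ y ∈ Metric.ball x r, θ y = 1 := fun y hy =>
    (x10th r hr x).one_of_mem_closedBall (Metric.ball_subset_closedBall hy)
  have hθt : tsupport θ ⊆ Metric.closedBall x (2 * r) := by
    rw [hθdef, (x10th r hr x).tsupport_eq]
    exact subset_rfl
  set χ : R3 → ℝ := fun y => θ y ^ 2 with hχ
  have hχs : ContDiff ℝ ∞ χ := hθs.pow 2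
  have hχt' : tsupport χ ⊆ tsupport θ := by
    apply closure_mono
    intro y hy
    simp only [hχ, Function.mem_support] at hy ⊢
    intro h0
    rw [h0] at hy
    simp at hy
  have hχc : HasCompactSupport χ := hθc.mono' (subset_closure.trans hχt')
  have hχt : tsupport χ ⊆ Om (1 / 2) := by
    intro y hy
    have h1 := hθt (hχt' hy)
    rw [Metric.mem_closedBall, dist_eq_norm] at h1
    have h2 : ‖(y - x) 0‖ ≤ ‖y - x‖ := PiLp.norm_apply_le (y - x) 0
    have h3 : |y 0 - x 0| ≤ 2 * r := by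
      simpa only [Fin.isValue, PiLp.sub_apply, Real.norm_eq_abs] using h2.trans h1
    rw [abs_le] at h3
    show 1 / 2 < y 0
    linarith only [hx, h3]
  have heq := hL.eqn χ hχs hχc hχt
  have hgl : ∀ k, LocallyIntegrable (g k) volume := fun k => x10_locInt (hL.meas k) (hL.locg k)
  have hvl : LocallyIntegrable (fun y => v y - e) volume :=
    (x10_locInt_v hv).sub (locallyIntegrable_const e)
  have iV : Integrable (fun y => (v y - e) * χ y) volume := by
    have h := hvl.integrable_smul_left_of_hasCompactSupport hχs.continuous hχc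
    refine h.congr (Eventually.of_forall fun y => ?_)
    simp only [smul_eq_mul]
    ring
  have iG : ∀ k, Integrable (fun y => χ y * g k y ^ 2) volume := fun k => by
    have h := (hL.locg k).integrable_smul_left_of_hasCompactSupport hχs.continuous hχc
    simpa only [smul_eq_mul] using h
  have cpd : ∀ k, Continuous (pd k θ) := fun k => by
    have h := hθs.continuous_fderiv (by simp)
    exact h.clm_apply continuous_const
  have spd : ∀ k, HasCompactSupport (pd k θ) := fun k => by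
    have h := hθc.fderiv (𝕜 := ℝ)
    refine h.mono ?_
    intro y hy
    simp only [Function.mem_support, pd] at hy ⊢
    intro h0
    rw [h0] at hy
    simp at hy
  have iP : ∀ k, Integrable (fun y => pd k χ y * g k y) volume := fun k => by
    have hc : Continuous (fun y => 2 * (θ y * pd k θ y)) := by
      have := cpd k
      have := hθs.continuous
      (clear v e φ H g hL hv C₀ hC₀ hx hθdef hθc hθ0 hθ1 hθz hθone hθt χ hχ hχs hχt' hχc hχt heq hgl hvl iV iG spd; fun_prop)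
    have hs : HasCompactSupport (fun y => 2 * (θ y * pd k θ y)) := by
      refine (spd k).mono ?_
      intro y hy
      simp only [Function.mem_support] at hy ⊢
      intro h0
      rw [h0] at hy
      simp at hy
    have h := (hgl k).integrable_smul_left_of_hasCompactSupport hc hs
    refine h.congr (Eventually.of_forall fun y => ?_)
    simp only [smul_eq_mul, hχ]
    rw [x10_pd_sq hθs]
  have iD : ∀ k, Integrable (fun y => pd k θ y ^ 2) volume := fun k => by
    refine Continuous.integrable_of_hasCompactSupport ((cpd k).pow 2) ?_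
    refine (spd k).mono ?_
    intro y hy
    simp only [Function.mem_support] at hy ⊢
    intro h0
    rw [h0] at hy
    simp at hy
  have hk : ∀ k, ∫ y, pd k χ y * g k y ≤
      (1 / 2) * (∫ y, χ y * g k y ^ 2) + 2 * ∫ y, pd k θ y ^ 2 := by
    intro k
    rw [← integral_const_mul, ← integral_const_mul,
      ← integral_add ((iG k).const_mul _) ((iD k).const_mul _)]
    refine integral_mono (iP k) (((iG k).const_mul _).add ((iD k).const_mul _)) ?_
    intro y
    simp only [hχ]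
    rw [x10_pd_sq hθs]
    linarith only [sq_nonneg (θ y * g k y - 2 * pd k θ y)]
  have hsum : ∑ k, ∫ y, pd k χ y * g k y ≤
      (1 / 2) * (∑ k, ∫ y, χ y * g k y ^ 2) + 2 * ∑ k, ∫ y, pd k θ y ^ 2 := by
    rw [Finset.mul_sum, Finset.mul_sum, ← Finset.sum_add_distrib]
    exact Finset.sum_le_sum fun k _ => hk k
  have hV : ∫ y, (v y - e) * χ y ≤
      C₀ + |e| * (volume (Metric.ball (0 : R3) (2 * r))).toReal :=
    x10_potential (hC₀ x).1 (hC₀ x).2 (fun y => sq_nonneg _)
      (fun y => pow_le_one₀ (hθ0 y) (hθ1 y)) (fun y hy => by simp [hχ, hθz y hy]) iV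
  have hD : ∑ k, ∫ y, pd k θ y ^ 2 = ∑ k, ∫ y, pd k (x10th r hr 0) y ^ 2 :=
    Finset.sum_congr rfl fun k _ => x10_int_pd hr k x
  intro k
  have hone : ∫ y in Metric.ball x r, g k y ^ 2 ≤ ∫ y, χ y * g k y ^ 2 := by
    have h1 : ∫ y in Metric.ball x r, g k y ^ 2 = ∫ y in Metric.ball x r, χ y * g k y ^ 2 := by
      refine setIntegral_congr_fun Metric.isOpen_ball.measurableSet fun y hy => ?_
      simp [hχ, hθone y hy]
    rw [h1]
    exact setIntegral_le_integral (iG k) (Eventually.of_forall fun y => by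
      simp only [hχ, Pi.zero_apply]; (clear * -; positivity))
  have hle : ∫ y, χ y * g k y ^ 2 ≤ ∑ k, ∫ y, χ y * g k y ^ 2 :=
    Finset.single_le_sum (f := fun k => ∫ y, χ y * g k y ^ 2)
      (fun k _ => integral_nonneg fun y => by simp only [hχ, Pi.zero_apply]; (clear * -; positivity))
      (Finset.mem_univ k)
  rw [← hD]
  linarith

end

end Vale.Agent.P363.KX
end
end

section

section

namespace Vale.Agent.P363.KX

open MeasureTheory Set Filter Topology
open scoped ENNReal ContDiff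

noncomputable section

/-! Laplacian calculus. -/

lemma x16b_pd_smooth {h : R3 → ℝ} (hh : ContDiff ℝ ∞ h) (k : Fin 3) :
    ContDiff ℝ ∞ (pd k h) := by
  unfold pd
  exact (hh.fderiv_right (m := ∞) (by simp)).clm_apply contDiff_const

lemma lap_exp {h : R3 → ℝ} (hh : ContDiff ℝ ∞ h) (x : R3) :
    lap (fun y => Real.exp (h y)) x =
      (lap h x + ∑ k, pd k h x ^ 2) * Real.exp (h x) := by
  have hd : Differentiable ℝ h := hh.differentiable (by simp)
  have h1 : ∀ k, pd k (fun y => Real.exp (h y)) = fun y => Real.exp (h y) * pd k h y := by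
    intro k
    funext y
    unfold pd
    rw [fderiv_exp (hd y)]
    simp
  have h2 : ∀ k, pd k (fun y => Real.exp (h y) * pd k h y) x
      = (pd k (pd k h) x + pd k h x ^ 2) * Real.exp (h x) := by
    intro k
    have d1 : DifferentiableAt ℝ (fun y => Real.exp (h y)) x := (hd x).exp
    have d2 : DifferentiableAt ℝ (pd k h) x := (x16b_pd_smooth hh k).differentiable (by simp) x
    have e1 : pd k (fun y => Real.exp (h y) * pd k h y) x
        = Real.exp (h x) * pd k (pd k h) x + pd k h x * pd k (fun y => Real.exp (h y)) x := by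
      have := fderiv_fun_mul d1 d2
      unfold pd at this ⊢
      rw [this]
      simp only [add_apply, smul_apply, smul_eq_mul]
    rw [e1, h1]
    ring
  unfold lap
  simp only [h1, h2]
  rw [← Finset.sum_mul, Finset.sum_add_distrib]

lemma x16b_differentiableAt_pd {f : R3 → ℝ} {x : R3} (hf : ContDiffAt ℝ ∞ f x) (k : Fin 3) :
    DifferentiableAt ℝ (pd k f) x := by
  have h2 : ContDiffAt ℝ 1 (fderiv ℝ f) x :=
    hf.fderiv_right (m := 1) (WithTop.coe_le_coe.mpr le_top)
  exact (h2.differentiableAt (by simp)).clm_apply (differentiableAt_const _)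

lemma x16b_eventually {f : R3 → ℝ} {x : R3} (hf : ContDiffAt ℝ ∞ f x) :
    ∀ᶠ y in 𝓝 x, DifferentiableAt ℝ f y := by
  have h1 : ContDiffAt ℝ 1 f x := hf.of_le (WithTop.coe_le_coe.mpr le_top)
  filter_upwards [h1.eventually (by simp)] with y hy
  exact hy.differentiableAt (by simp)

lemma lap_sub_const_mul {f h : R3 → ℝ} {x : R3} (hf : ContDiffAt ℝ ∞ f x)
    (hh : ContDiffAt ℝ ∞ h x) (C : ℝ) :
    lap (fun y => f y - C * h y) x = lap f x - C * lap h x := by
  have h1 : ∀ k, pd k (fun y => f y - C * h y) =ᶠ[𝓝 x] fun y => pd k f y - C * pd k h y := by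
    intro k
    filter_upwards [x16b_eventually hf, x16b_eventually hh] with y d1 d2
    unfold pd
    rw [fderiv_fun_sub d1 (d2.const_mul C), fderiv_const_mul d2]
    simp
  unfold lap
  rw [Finset.mul_sum, ← Finset.sum_sub_distrib]
  refine Finset.sum_congr rfl fun k _ => ?_
  have d1 := x16b_differentiableAt_pd hf k
  have d2 := x16b_differentiableAt_pd hh k
  have e1 : pd k (pd k fun y => f y - C * h y) x = pd k (fun y => pd k f y - C * pd k h y) x := by
    have := (h1 k).fderiv_eq (𝕜 := ℝ)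
    show fderiv ℝ (pd k fun y => f y - C * h y) x (dir3 k)
      = fderiv ℝ (fun y => pd k f y - C * pd k h y) x (dir3 k)
    rw [this]
  rw [e1]
  have e2 := fderiv_fun_sub d1 (d2.const_mul C)
  rw [fderiv_const_mul d2] at e2
  show fderiv ℝ (fun y => pd k f y - C * pd k h y) x (dir3 k)
    = fderiv ℝ (pd k f) x (dir3 k) - C * fderiv ℝ (pd k h) x (dir3 k)
  rw [e2]
  simp only [sub_apply, smul_apply, smul_eq_mul]

end

end Vale.Agent.P363.KX
end
end

section

section

namespace Vale.Agent.P363.KX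

open MeasureTheory Set Filter Topology
open scoped ENNReal ContDiff

noncomputable section

/-! Classical comparison with the barrier. -/

lemma cmp_coord_contDiff (i : Fin 3) : ContDiff ℝ ∞ (fun x : R3 => x i) :=
  (EuclideanSpace.proj i : R3 →L[ℝ] ℝ).contDiff

lemma cmp_bar_contDiffAt (κ γ T : ℝ) {y : R3} (hy : 0 < ‖y - cor T‖) :
    ContDiffAt ℝ ∞ (bar κ γ T) y := by
  have hne : y - cor T ≠ 0 := by
    intro h; rw [h, norm_zero] at hy; exact lt_irrefl _ hy
  have hnorm : ContDiffAt ℝ ∞ (fun x : R3 => ‖x - cor T‖) y :=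
    (contDiffAt_norm ℝ hne).comp y (contDiffAt_id.sub contDiffAt_const)
  have h1 : ContDiffAt ℝ ∞ (fun x : R3 => (x 0 - 1) * (x 2 - T)) y :=
    ((cmp_coord_contDiff 0).contDiffAt.sub contDiffAt_const).mul
      ((cmp_coord_contDiff 2).contDiffAt.sub contDiffAt_const)
  have h2 : ContDiffAt ℝ ∞ (fun x : R3 => ‖x - cor T‖ ^ γ) y :=
    hnorm.rpow_const_of_ne hy.ne'
  have h3 : ContDiffAt ℝ ∞ (fun x : R3 => Real.exp (-κ * ‖x - cor T‖)) y :=
    (contDiffAt_const.mul hnorm).exp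
  exact h1.mul (h2.mul h3)

lemma cmp_bar_nonneg (κ γ T : ℝ) {y : R3} (h0 : 1 ≤ y 0) (h2 : T ≤ y 2) :
    0 ≤ bar κ γ T y := by
  unfold bar prof
  have := sub_nonneg.2 h0
  have := sub_nonneg.2 h2
  positivity

theorem compare {κ γ q T R₂ : ℝ} (hκ : 0 < κ) (hq : κ * (γ + 3) < q) {h : R3 → ℝ}
    (hh : ContDiff ℝ ∞ h)
    (hle : ∀ x : R3, 1 ≤ x 0 → T ≤ x 2 → R₂ ≤ ‖x‖ →
      lap h x + ∑ k, pd k h x ^ 2 ≤ κ ^ 2 - 2 * q / ‖x‖) :
    ∃ R C : ℝ, 0 < C ∧ ∀ x : R3, 1 ≤ x 0 → T ≤ x 2 → R ≤ ‖x - cor T‖ →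
      bar κ γ T x ≤ C * Real.exp (h x) := by
  obtain ⟨Rs, hRs, hsub⟩ := bar_sub (T := T) hκ hq
  set R : ℝ := max Rs (max (R₂ + ‖cor T‖) (2 * |q| / κ ^ 2 + 1 + ‖cor T‖)) with hR
  have hR1 : Rs ≤ R := le_max_left _ _
  have hR2 : R₂ + ‖cor T‖ ≤ R := (le_max_left _ _).trans (le_max_right _ _)
  have hR3 : 2 * |q| / κ ^ 2 + 1 + ‖cor T‖ ≤ R := (le_max_right _ _).trans (le_max_right _ _)
  have hRpos : 0 < R := hRs.trans_le hR1
  have hnx : ∀ x : R3, R ≤ ‖x - cor T‖ → R₂ ≤ ‖x‖ ∧ 2 * |q| / κ ^ 2 + 1 ≤ ‖x‖ := by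
    intro x hx
    have := norm_sub_le x (cor T)
    constructor <;> linarith only [hR2, hx, this, hR3]
  have hcont : ∀ x : R3, R ≤ ‖x - cor T‖ → ContinuousAt (bar κ γ T) x := fun x hx =>
    (cmp_bar_contDiffAt κ γ T (hRpos.trans_le hx)).continuousAt
  -- bound on the sphere
  obtain ⟨C1, hC1⟩ := (isCompact_sphere (cor T) R).exists_bound_of_continuousOn
    (f := fun x => bar κ γ T x * Real.exp (-h x)) (by
      intro x hx
      have hx' : ‖x - cor T‖ = R := by simpa [dist_eq_norm] using hx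
      exact ((hcont x hx'.ge).mul
        (Real.continuous_exp.continuousAt.comp hh.continuous.neg.continuousAt)).continuousWithinAt)
  set C : ℝ := |C1| + 1 with hC
  have hCpos : 0 < C := by (clear * -; positivity)
  have hsph : ∀ x : R3, ‖x - cor T‖ = R → bar κ γ T x ≤ C * Real.exp (h x) := by
    intro x hx
    have hm : x ∈ Metric.sphere (cor T) R := by simpa only [mem_sphere_iff_norm] using hx
    have h1 := hC1 x hm
    have h2 : bar κ γ T x * Real.exp (-h x) ≤ C := by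
      have := (le_abs_self _).trans h1
      have := le_abs_self C1
      (clear hκ hq hh hle hRs hsub hR hR1 hR2 hR3 hRpos hnx hcont hC hCpos; linarith)
    have h3 : bar κ γ T x = bar κ γ T x * Real.exp (-h x) * Real.exp (h x) := by
      rw [mul_assoc, ← Real.exp_add]; simp
    rw [h3]
    exact mul_le_mul_of_nonneg_right h2 (Real.exp_pos _).le
  refine ⟨R, C, hCpos, ?_⟩
  intro xs hx0 hx2 hxR
  by_contra hcon
  rw [not_le] at hcon
  set u : R3 → ℝ := fun x => bar κ γ T x - C * Real.exp (h x) with hu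
  have hτ : 0 < u xs := sub_pos.2 hcon
  obtain ⟨R', hR'⟩ := bar_small (κ := κ) (γ := γ) (T := T) hκ hτ
  set R'' : ℝ := max R' ‖xs - cor T‖ with hR''
  set S : Set R3 := {x | 1 ≤ x 0 ∧ T ≤ x 2 ∧ R ≤ ‖x - cor T‖ ∧ ‖x - cor T‖ ≤ R''} with hS
  have hc0 : Continuous (fun x : R3 => x 0) := (cmp_coord_contDiff 0).continuous
  have hc2 : Continuous (fun x : R3 => x 2) := (cmp_coord_contDiff 2).continuous
  have hcn : Continuous (fun x : R3 => ‖x - cor T‖) := (continuous_id.sub continuous_const).norm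
  have hScl : IsClosed S :=
    (isClosed_le continuous_const hc0).inter ((isClosed_le continuous_const hc2).inter
      ((isClosed_le continuous_const hcn).inter (isClosed_le hcn continuous_const)))
  have hSco : IsCompact S := by
    refine (isCompact_closedBall (cor T) R'').of_isClosed_subset hScl ?_
    intro x hx
    simpa only [Metric.mem_closedBall, dist_eq_norm] using hx.2.2.2
  have hxsS : xs ∈ S := ⟨hx0, hx2, hxR, le_max_right _ _⟩
  have hucont : ContinuousOn u S := by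
    intro x hx
    exact ((hcont x hx.2.2.1).sub (continuousAt_const.mul
      (Real.continuous_exp.continuousAt.comp hh.continuous.continuousAt))).continuousWithinAt
  obtain ⟨y, hyS, hymax⟩ := hSco.exists_isMaxOn ⟨xs, hxsS⟩ hucont
  have huy : u xs ≤ u y := hymax hxsS
  have huypos : 0 < u y := hτ.trans_le huy
  obtain ⟨hy0, hy2, hyR, hyR''⟩ := hyS
  have hexp : 0 < C * Real.exp (h y) := mul_pos hCpos (Real.exp_pos _)
  have hy0' : 1 < y 0 := by
    rcases hy0.lt_or_eq with hlt | heq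
    · exact hlt
    · exfalso
      have hb : bar κ γ T y = 0 := by simp [bar, ← heq]
      have : u y = 0 - C * Real.exp (h y) := by simp [hu, hb]
      linarith only [hcon, huy, hexp, hb]
  have hy2' : T < y 2 := by
    rcases hy2.lt_or_eq with hlt | heq
    · exact hlt
    · exfalso
      have hb : bar κ γ T y = 0 := by simp [bar, ← heq]
      have : u y = 0 - C * Real.exp (h y) := by simp [hu, hb]
      linarith only [hcon, huy, hexp, hb]
  have hyR' : R < ‖y - cor T‖ := by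
    rcases hyR.lt_or_eq with hlt | heq
    · exact hlt
    · exfalso
      have hb := hsph y heq.symm
      have : u y ≤ 0 := sub_nonpos.2 hb
      linarith only [hcon, huy, hb]
  have hyR3 : ‖y - cor T‖ < R'' := by
    rcases hyR''.lt_or_eq with hlt | heq
    · exact hlt
    · exfalso
      have hb := hR' y (by rw [heq]; exact le_max_left _ _)
      have : u y < u xs := by
        have : u y = bar κ γ T y - C * Real.exp (h y) := rfl
        linarith only [hexp, hb]
      linarith only [huy, hexp, hb]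
  have hloc : IsLocalMax u y := by
    have h1 : ∀ᶠ x : R3 in 𝓝 y, 1 < x 0 := hc0.continuousAt.eventually (lt_mem_nhds hy0')
    have h2 : ∀ᶠ x : R3 in 𝓝 y, T < x 2 := hc2.continuousAt.eventually (lt_mem_nhds hy2')
    have h3 : ∀ᶠ x : R3 in 𝓝 y, R < ‖x - cor T‖ := hcn.continuousAt.eventually (lt_mem_nhds hyR')
    have h4 : ∀ᶠ x : R3 in 𝓝 y, ‖x - cor T‖ < R'' :=
      hcn.continuousAt.eventually (gt_mem_nhds hyR3)
    filter_upwards [h1, h2, h3, h4] with x a b c d
    exact hymax ⟨a.le, b.le, c.le, d.le⟩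
  have hbar : ContDiffAt ℝ ∞ (bar κ γ T) y := cmp_bar_contDiffAt κ γ T (hRpos.trans hyR')
  have hexpc : ContDiff ℝ ∞ (fun x => Real.exp (h x)) := hh.exp
  have hu2 : ContDiffAt ℝ 2 u y :=
    (hbar.sub (contDiffAt_const.mul hexpc.contDiffAt)).of_le (by norm_cast)
  have hlap := lap_nonpos hu2 hloc
  rw [hu, lap_sub_const_mul hbar hexpc.contDiffAt C, lap_exp hh] at hlap
  obtain ⟨hn1, hn2⟩ := hnx y hyR'.le
  have hb0 : 0 ≤ bar κ γ T y := cmp_bar_nonneg κ γ T hy0 hy2
  have hs := hsub y (hR1.trans hyR'.le) hb0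
  have hl := hle y hy0 hy2 hn1
  have hκ2 : 0 < κ ^ 2 := by positivity
  have hny : 0 < ‖y‖ := by
    have : 0 ≤ 2 * |q| / κ ^ 2 := by (clear * - hκ; positivity)
    linarith only [hn2, this]
  have hcoef : 0 < κ ^ 2 - 2 * q / ‖y‖ := by
    have h1 : 2 * |q| / κ ^ 2 < ‖y‖ := by linarith only [hn2]
    rw [div_lt_iff₀ hκ2] at h1
    have h2 : 2 * q / ‖y‖ < κ ^ 2 := by
      rw [div_lt_iff₀ hny]
      have := le_abs_self q
      linarith only [this, h1]
    linarith only [h2]
  have hmain : (κ ^ 2 - 2 * q / ‖y‖) * (bar κ γ T y - C * Real.exp (h y)) ≤ 0 := by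
    have h1 : C * ((lap h y + ∑ k, pd k h y ^ 2) * Real.exp (h y)) ≤
        C * ((κ ^ 2 - 2 * q / ‖y‖) * Real.exp (h y)) :=
      mul_le_mul_of_nonneg_left (mul_le_mul_of_nonneg_right hl (Real.exp_pos _).le) hCpos.le
    linarith only [h1, hs, hlap]
  have hpos : 0 < (κ ^ 2 - 2 * q / ‖y‖) * (bar κ γ T y - C * Real.exp (h y)) :=
    mul_pos hcoef huypos
  linarith only [hmain, hpos]

end

end Vale.Agent.P363.KX
end
end

section

section

namespace Vale.Agent.P363.KX

open MeasureTheory Set Filter Topology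
open scoped ENNReal ContDiff

noncomputable section

/-! Comparison of the two averages: `th (pt r z) - ker r ε` is a derivative in direction `2`. -/

/-- The test function. -/
def X18b_chi (r z ε : ℝ) (y : R3) : ℝ := beta (r - y 0) * beta (0 - y 1) * Sfun z ε (y 2)

lemma X18b_contDiff (r z ε : ℝ) : ContDiff ℝ ∞ (X18b_chi r z ε) := by
  have h0 : ContDiff ℝ ∞ (fun y : R3 => r - y 0) := by fun_prop
  have h1 : ContDiff ℝ ∞ (fun y : R3 => 0 - y 1) := by fun_prop
  have h2 : ContDiff ℝ ∞ (fun y : R3 => y 2) := by fun_prop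
  exact ((beta_contDiff.comp h0).mul (beta_contDiff.comp h1)).mul ((Sfun_contDiff z ε).comp h2)

lemma X18b_ne_zero {r z ε : ℝ} (hz : 0 < z) (hε : 0 < ε) (hε1 : ε ≤ 1) {y : R3}
    (h : X18b_chi r z ε y ≠ 0) : |y 0 - r| < 1 / 4 ∧ |y 1| < 1 / 4 ∧ |y 2 - z| < z + 1 := by
  unfold X18b_chi at h
  have h2 : Sfun z ε (y 2) ≠ 0 := right_ne_zero_of_mul h
  have h3 := left_ne_zero_of_mul h
  have h0 : beta (r - y 0) ≠ 0 := left_ne_zero_of_mul h3
  have h1 : beta (0 - y 1) ≠ 0 := right_ne_zero_of_mul h3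
  refine ⟨?_, ?_, ?_⟩
  · by_contra hcon
    push Not at hcon
    rw [abs_sub_comm] at hcon
    exact h0 (beta_eq_zero hcon)
  · by_contra hcon
    push Not at hcon
    refine h1 (beta_eq_zero ?_)
    rw [zero_sub, abs_neg]
    exact hcon
  · have h4 : ¬ (y 2 ≤ -1 ∨ z + 1 ≤ y 2) := fun hcon => h2 (Sfun_eq_zero hz hε hε1 hcon)
    push Not at h4
    rw [abs_lt]
    constructor <;> linarith only [h4, hz]

lemma X18b_mem {r z ε : ℝ} (hz : 0 < z) (hε : 0 < ε) (hε1 : ε ≤ 1) {y : R3}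
    (h : X18b_chi r z ε y ≠ 0) : y ∈ Metric.closedBall (pt r z) (z + 2) := by
  obtain ⟨h0, h1, h2⟩ := X18b_ne_zero hz hε hε1 h
  rw [Metric.mem_closedBall, dist_eq_norm]
  have h3 := ker_norm_le (y - pt r z)
  have e0 : (y - pt r z) 0 = y 0 - r := by simp [pt]
  have e1 : (y - pt r z) 1 = y 1 := by simp [pt]
  have e2 : (y - pt r z) 2 = y 2 - z := by simp [pt]
  rw [e0, e1, e2] at h3
  linarith only [h3, h2, h1, h0]

lemma X18b_tsupport {r z ε : ℝ} (hz : 0 < z) (hε : 0 < ε) (hε1 : ε ≤ 1) :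
    tsupport (X18b_chi r z ε) ⊆ {y | r - 1 / 4 ≤ y 0} := by
  refine closure_minimal (fun y hy => ?_) (isClosed_le continuous_const (by fun_prop))
  have h2 := (abs_lt.1 (X18b_ne_zero hz hε hε1 hy).1).1
  change r - 1 / 4 ≤ y 0
  linarith only [h2]

lemma X18b_compact {r z ε : ℝ} (hz : 0 < z) (hε : 0 < ε) (hε1 : ε ≤ 1) :
    HasCompactSupport (X18b_chi r z ε) :=
  HasCompactSupport.intro (isCompact_closedBall (pt r z) (z + 2)) fun y hy => by
    by_contra hcon
    exact hy (X18b_mem hz hε hε1 hcon)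

lemma X18b_pd (r z ε : ℝ) (y : R3) :
    pd 2 (X18b_chi r z ε) y = th (pt r z) y - ker r ε y := by
  have h1 : HasFDerivAt (X18b_chi r z ε) (fderiv ℝ (X18b_chi r z ε) y) y :=
    ((X18b_contDiff r z ε).differentiable (by simp) y).hasFDerivAt
  have h2 : HasDerivAt (fun t : ℝ => y + t • dir3 2) (dir3 2) 0 := by
    simpa using ((hasDerivAt_id (0 : ℝ)).smul_const (dir3 2)).const_add y
  have h3 : HasDerivAt (fun t : ℝ => X18b_chi r z ε (y + t • dir3 2))
      (fderiv ℝ (X18b_chi r z ε) y (dir3 2)) 0 := by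
    have h1' : HasFDerivAt (X18b_chi r z ε) (fderiv ℝ (X18b_chi r z ε) y)
        (y + (0 : ℝ) • dir3 2) := by
      rw [zero_smul, add_zero]
      exact h1
    exact h1'.comp_hasDerivAt (0 : ℝ) h2
  have h4 : HasDerivAt (fun t : ℝ => X18b_chi r z ε (y + t • dir3 2))
      (beta (r - y 0) * beta (0 - y 1) * (beta (z - y 2) - bsc ε (y 2))) 0 := by
    have e : (fun t : ℝ => X18b_chi r z ε (y + t • dir3 2)) =
        fun t => beta (r - y 0) * beta (0 - y 1) * Sfun z ε (y 2 + t) := by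
      funext t
      simp only [X18b_chi, Fin.isValue, dir3, PiLp.add_apply, PiLp.smul_apply, ne_eq, Fin.reduceEq, not_false_eq_true, PiLp.single_eq_of_ne, smul_eq_mul, mul_zero, add_zero, zero_sub, PiLp.single_eq_same, mul_one]
    rw [e]
    have h5 : HasDerivAt (fun t : ℝ => y 2 + t) 1 0 := by
      simpa only [Fin.isValue, id_eq] using (hasDerivAt_id (0 : ℝ)).const_add (y 2)
    have h6 : HasDerivAt (Sfun z ε) (beta (z - y 2) - bsc ε (y 2)) (y 2 + 0) := by
      rw [add_zero]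
      exact Sfun_deriv z ε (y 2)
    have h7 := h6.comp (0 : ℝ) h5
    rw [mul_one] at h7
    exact h7.const_mul _
  rw [pd, h3.unique h4]
  unfold th rho ker
  have e0 : (pt r z - y) 0 = r - y 0 := by simp [pt]
  have e1 : (pt r z - y) 1 = 0 - y 1 := by simp only [Fin.isValue, pt, PiLp.sub_apply, Matrix.cons_val_one, Matrix.cons_val_zero, zero_sub]
  have e2 : (pt r z - y) 2 = z - y 2 := by simp [pt]
  rw [e0, e1, e2]
  ring

theorem slab_compare {v : R3 → ℝ} {e : ℝ} {φ H : R3 → ℝ} {g : Fin 3 → R3 → ℝ}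
    (hL : LogOut (1 / 2) v e φ H g) {z : ℝ} (hz : 0 < z)
    (hg : ∀ r : ℝ, 0 < r → ∃ C : ℝ, ∀ x : R3, 1 + 2 * r ≤ x 0 → ∀ k,
      ∫ y in Metric.ball x r, g k y ^ 2 ≤ C) :
    ∃ R C : ℝ, ∀ r ε : ℝ, R ≤ r → 0 < ε → ε ≤ 1 →
      |moll H (pt r z) - ∫ y, ker r ε y * H y| ≤ C := by
  obtain ⟨K, hK, hKb, -⟩ := beta_bound
  obtain ⟨C, hC⟩ := hg (z + 3) (by linarith only [hz])
  set V : ℝ := (volume (Metric.ball (0 : R3) (z + 3))).toReal with hV
  refine ⟨1 + 2 * (z + 3), K * K * 2 * (V + C), fun r ε hr hε hε1 => ?_⟩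
  set χ := X18b_chi r z ε with hχ
  -- the identity
  have hd := hL.deriv χ (X18b_contDiff r z ε) (X18b_compact hz hε hε1)
    ((X18b_tsupport hz hε hε1).trans fun y hy => by
      have h1 : r - 1 / 4 ≤ y 0 := hy
      change 1 / 2 < y 0
      linarith only [hz, hr, h1]) 2
  have hi1 : Integrable (fun y => th (pt r z) y * H y) := by
    have h1 := hL.locH.integrable_smul_left_of_hasCompactSupport
      (th_contDiff (pt r z)).continuous (th_hasCompactSupport (pt r z))
    simpa only [smul_eq_mul] using h1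
  have hi2 : Integrable (fun y => ker r ε y * H y) := by
    have h1 := hL.locH.integrable_smul_left_of_hasCompactSupport
      (ker_contDiff r ε).continuous (ker_hasCompactSupport hε)
    simpa only [smul_eq_mul] using h1
  have hm : moll H (pt r z) - ∫ y, ker r ε y * H y = - ∫ y, χ y * g 2 y := by
    rw [← hd]
    have h1 : moll H (pt r z) = ∫ y, th (pt r z) y * H y := rfl
    rw [h1, ← integral_sub hi1 hi2]
    refine integral_congr_ae (Eventually.of_forall fun y => ?_)
    simp only [hχ, X18b_pd]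
    ring
  rw [hm, abs_neg]
  -- the bound
  have hx : 1 + 2 * (z + 3) ≤ (pt r z) 0 := by
    have e0 : (pt r z) 0 = r := by simp [pt]
    rw [e0]
    exact hr
  have hCr := hC (pt r z) hx 2
  have hgi : IntegrableOn (fun y => g 2 y ^ 2) (Metric.ball (pt r z) (z + 3)) volume :=
    ((hL.locg 2).integrableOn_isCompact (isCompact_closedBall (pt r z) (z + 3))).mono_set
      Metric.ball_subset_closedBall
  have hfin : volume (Metric.ball (pt r z) (z + 3)) ≠ ⊤ := measure_ball_lt_top.ne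
  have h1i : IntegrableOn (fun _ : R3 => (1 : ℝ)) (Metric.ball (pt r z) (z + 3)) volume :=
    integrableOn_const hfin
  have hbd : ∀ y, |χ y| ≤ K * K * 2 := by
    intro y
    rw [hχ]
    unfold X18b_chi
    rw [abs_mul, abs_mul, abs_of_nonneg (beta_nonneg _), abs_of_nonneg (beta_nonneg _)]
    exact mul_le_mul (mul_le_mul (hKb _) (hKb _) (beta_nonneg _) hK.le) (Sfun_bound hε _)
      (abs_nonneg _) (by positivity)
  have hpt : ∀ y, ‖χ y * g 2 y‖ ≤
      (Metric.ball (pt r z) (z + 3)).indicator (fun y => K * K * 2 * (1 + g 2 y ^ 2)) y := by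
    intro y
    by_cases h0 : χ y = 0
    · rw [h0, zero_mul, norm_zero]
      exact indicator_nonneg (fun y _ => by (clear * - hK; positivity)) y
    · have hy : y ∈ Metric.ball (pt r z) (z + 3) :=
        Metric.closedBall_subset_ball (by linarith only []) (X18b_mem hz hε hε1 h0)
      rw [indicator_of_mem hy, norm_mul, Real.norm_eq_abs, Real.norm_eq_abs]
      refine mul_le_mul (hbd y) ?_ (abs_nonneg _) (by positivity)
      rw [abs_le]
      constructor <;> nlinarith only []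
  have hii : Integrable ((Metric.ball (pt r z) (z + 3)).indicator
      (fun y => K * K * 2 * (1 + g 2 y ^ 2))) := by
    rw [integrable_indicator_iff Metric.isOpen_ball.measurableSet]
    exact (h1i.add hgi).const_mul _
  calc |∫ y, χ y * g 2 y| ≤ ∫ y, (Metric.ball (pt r z) (z + 3)).indicator
        (fun y => K * K * 2 * (1 + g 2 y ^ 2)) y := by
        rw [← Real.norm_eq_abs]
        exact norm_integral_le_of_norm_le hii (Eventually.of_forall hpt)
    _ = K * K * 2 * (V + ∫ y in Metric.ball (pt r z) (z + 3), g 2 y ^ 2) := by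
        rw [integral_indicator Metric.isOpen_ball.measurableSet, integral_const_mul,
          integral_add h1i hgi, setIntegral_const, Measure.real, smul_eq_mul, mul_one,
          Measure.addHaar_ball_center]
    _ ≤ K * K * 2 * (V + C) := by
        refine mul_le_mul_of_nonneg_left ?_ (by positivity)
        linarith only [hCr]

end

end Vale.Agent.P363.KX
end
end

section

section

/-! # The Hilbert space of `H¹` functions on configuration space, with antisymmetry conditions -/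

namespace Vale.Agent.P363.D

open MeasureTheory Set Filter Topology
open scoped ENNReal ContDiff

noncomputable section

/-- real `L²` functions on configuration space -/
abbrev LL (N : ℕ) : Type := Lp ℝ 2 (volume : Measure (Conf N))

/-- function and gradient -/
abbrev Amb (N : ℕ) : Type := PiLp 2 (fun _ : Option (Fin N × Fin 3) => LL N)

theorem fderiv_test_continuous {N : ℕ} {φ : Conf N → ℝ} (hφ : ContDiff ℝ ∞ φ) (e : Conf N) :
    Continuous (fun x => fderiv ℝ φ x e) :=
  (hφ.continuous_fderiv (by simp)).clm_apply continuous_const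

theorem fderiv_test_compact {N : ℕ} {φ : Conf N → ℝ} (hc : HasCompactSupport φ) (e : Conf N) :
    HasCompactSupport (fun x => fderiv ℝ φ x e) :=
  hc.fderiv_apply (𝕜 := ℝ) e

theorem test_mul_integrable {N : ℕ} {h : Conf N → ℝ} (hc : Continuous h)
    (hs : HasCompactSupport h) (u : LL N) : Integrable (fun x => h x * u x) :=
  (hc.memLp_of_hasCompactSupport hs (p := 2)).integrable_mul (Lp.memLp u)

/-- the `H¹` functions satisfying `f (x ∘ σ) = - f x` for all `σ ∈ S` -/
def QS (N : ℕ) (S : Set (Equiv.Perm (Fin N))) : Submodule ℝ (Amb N) where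
  carrier := {u | (∀ i k (φ : Conf N → ℝ), ContDiff ℝ ∞ φ → HasCompactSupport φ →
    ∫ x, fderiv ℝ φ x (axisDir i k) * u none x = - ∫ x, φ x * u (some (i, k)) x) ∧
    ∀ σ ∈ S, ∀ᵐ x : Conf N, u none (x ∘ σ) = - u none x}
  add_mem' := by
    rintro u v ⟨hu, hu'⟩ ⟨hv, hv'⟩
    refine ⟨fun i k φ hφ hc => ?_, fun σ hσ => ?_⟩
    · have h1 : ∫ x, fderiv ℝ φ x (axisDir i k) * (u + v) none x
          = ∫ x, (fderiv ℝ φ x (axisDir i k) * u none x
            + fderiv ℝ φ x (axisDir i k) * v none x) := by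
        refine integral_congr_ae ?_
        filter_upwards [Lp.coeFn_add (u none) (v none)] with x hx
        have : (u + v) none = u none + v none := rfl
        rw [this, hx, Pi.add_apply]; ring
      have h2 : ∫ x, φ x * (u + v) (some (i, k)) x
          = ∫ x, (φ x * u (some (i, k)) x + φ x * v (some (i, k)) x) := by
        refine integral_congr_ae ?_
        filter_upwards [Lp.coeFn_add (u (some (i, k))) (v (some (i, k)))] with x hx
        have : (u + v) (some (i, k)) = u (some (i, k)) + v (some (i, k)) := rfl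
        rw [this, hx, Pi.add_apply]; ring
      have c1 := fderiv_test_continuous hφ (axisDir i k)
      have c2 := fderiv_test_compact hc (axisDir i k)
      rw [h1, h2, integral_add (test_mul_integrable c1 c2 _) (test_mul_integrable c1 c2 _),
        integral_add (test_mul_integrable hφ.continuous hc _)
          (test_mul_integrable hφ.continuous hc _), hu i k φ hφ hc, hv i k φ hφ hc]
      ring
    · have hq : Measure.QuasiMeasurePreserving (fun x : Conf N => x ∘ σ) volume volume := by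
        have h := volume_measurePreserving_piCongrLeft (fun _ : Fin N => R3) σ.symm
        have e : (MeasurableEquiv.piCongrLeft (fun _ : Fin N => R3) σ.symm : Conf N → Conf N)
            = fun x : Conf N => x ∘ σ := by
          funext x b
          rw [MeasurableEquiv.coe_piCongrLeft]
          have := Equiv.piCongrLeft_apply_apply (fun _ : Fin N => R3) σ.symm x (σ b)
          simpa using this
        rw [e] at h
        exact h.quasiMeasurePreserving
      filter_upwards [hu' σ hσ, hv' σ hσ, Lp.coeFn_add (u none) (v none),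
        hq.ae (Lp.coeFn_add (u none) (v none))] with x h1 h2 h3 h4
      have : (u + v) none = u none + v none := rfl
      rw [this, h3, h4, Pi.add_apply, Pi.add_apply, h1, h2]
      ring
  zero_mem' := by
    refine ⟨fun i k φ hφ hc => ?_, fun σ hσ => ?_⟩
    · have h0 : ∀ o, ((0 : Amb N) o : Conf N → ℝ) =ᵐ[volume] 0 := fun o => Lp.coeFn_zero ℝ 2 volume
      have h1 : ∫ x, fderiv ℝ φ x (axisDir i k) * (0 : Amb N) none x = 0 := by
        rw [integral_eq_zero_of_ae]
        filter_upwards [h0 none] with x hx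
        rw [hx]; simp
      have h2 : ∫ x, φ x * (0 : Amb N) (some (i, k)) x = 0 := by
        rw [integral_eq_zero_of_ae]
        filter_upwards [h0 (some (i, k))] with x hx
        rw [hx]; simp
      rw [h1, h2, neg_zero]
    · have hq : Measure.QuasiMeasurePreserving (fun x : Conf N => x ∘ σ) volume volume := by
        have h := volume_measurePreserving_piCongrLeft (fun _ : Fin N => R3) σ.symm
        have e : (MeasurableEquiv.piCongrLeft (fun _ : Fin N => R3) σ.symm : Conf N → Conf N)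
            = fun x : Conf N => x ∘ σ := by
          funext x b
          rw [MeasurableEquiv.coe_piCongrLeft]
          have := Equiv.piCongrLeft_apply_apply (fun _ : Fin N => R3) σ.symm x (σ b)
          simpa using this
        rw [e] at h
        exact h.quasiMeasurePreserving
      have h0 : ((0 : Amb N) none : Conf N → ℝ) =ᵐ[volume] 0 := Lp.coeFn_zero ℝ 2 volume
      filter_upwards [h0, hq.ae h0] with x h1 h2
      rw [h1, h2]; simp
  smul_mem' := by
    rintro c u ⟨hu, hu'⟩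
    refine ⟨fun i k φ hφ hc => ?_, fun σ hσ => ?_⟩
    · have h1 : ∫ x, fderiv ℝ φ x (axisDir i k) * (c • u) none x
          = ∫ x, c * (fderiv ℝ φ x (axisDir i k) * u none x) := by
        refine integral_congr_ae ?_
        filter_upwards [Lp.coeFn_smul c (u none)] with x hx
        have : (c • u) none = c • u none := rfl
        rw [this, hx, Pi.smul_apply, smul_eq_mul]; ring
      have h2 : ∫ x, φ x * (c • u) (some (i, k)) x
          = ∫ x, c * (φ x * u (some (i, k)) x) := by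
        refine integral_congr_ae ?_
        filter_upwards [Lp.coeFn_smul c (u (some (i, k)))] with x hx
        have : (c • u) (some (i, k)) = c • u (some (i, k)) := rfl
        rw [this, hx, Pi.smul_apply, smul_eq_mul]; ring
      rw [h1, h2, integral_const_mul, integral_const_mul, hu i k φ hφ hc]
      ring
    · have hq : Measure.QuasiMeasurePreserving (fun x : Conf N => x ∘ σ) volume volume := by
        have h := volume_measurePreserving_piCongrLeft (fun _ : Fin N => R3) σ.symm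
        have e : (MeasurableEquiv.piCongrLeft (fun _ : Fin N => R3) σ.symm : Conf N → Conf N)
            = fun x : Conf N => x ∘ σ := by
          funext x b
          rw [MeasurableEquiv.coe_piCongrLeft]
          have := Equiv.piCongrLeft_apply_apply (fun _ : Fin N => R3) σ.symm x (σ b)
          simpa using this
        rw [e] at h
        exact h.quasiMeasurePreserving
      filter_upwards [hu' σ hσ, Lp.coeFn_smul c (u none),
        hq.ae (Lp.coeFn_smul c (u none))] with x h1 h3 h4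
      have : (c • u) none = c • u none := rfl
      rw [this, h3, h4, Pi.smul_apply, Pi.smul_apply, h1]
      simp

variable {N : ℕ} {S : Set (Equiv.Perm (Fin N))}

theorem mpPerm0 (σ : Equiv.Perm (Fin N)) :
    MeasurePreserving (fun x : Conf N => x ∘ σ) volume volume := by
  have h := volume_measurePreserving_piCongrLeft (fun _ : Fin N => R3) σ.symm
  have e : (MeasurableEquiv.piCongrLeft (fun _ : Fin N => R3) σ.symm : Conf N → Conf N)
      = fun x : Conf N => x ∘ σ := by
    funext x b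
    rw [MeasurableEquiv.coe_piCongrLeft]
    have := Equiv.piCongrLeft_apply_apply (fun _ : Fin N => R3) σ.symm x (σ b)
    simpa using this
  rwa [e] at h

theorem integral_mul_eq_inner {h : Conf N → ℝ} (hh : MemLp h 2 volume) (u : LL N) :
    ∫ x, h x * u x = inner ℝ (hh.toLp h) u := by
  rw [L2.inner_def]
  refine integral_congr_ae ?_
  filter_upwards [hh.coeFn_toLp] with x hx
  rw [hx]
  simp only [RCLike.inner_apply, Real.ringHom_apply, mul_comm]

theorem QS_isClosed (N : ℕ) (S : Set (Equiv.Perm (Fin N))) :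
    IsClosed (QS N S : Set (Amb N)) := by
  have hset : (QS N S : Set (Amb N)) = {u | ∀ i k (φ : Conf N → ℝ), ContDiff ℝ ∞ φ →
      HasCompactSupport φ → ∫ x, fderiv ℝ φ x (axisDir i k) * u none x
        = - ∫ x, φ x * u (some (i, k)) x} ∩
      {u | ∀ σ ∈ S, ∀ᵐ x : Conf N, u none (x ∘ σ) = - u none x} := rfl
  rw [hset]
  have hp : ∀ o, Continuous (fun u : Amb N => u o) := fun o =>
    (PiLp.proj 2 (𝕜 := ℝ) (fun _ : Option (Fin N × Fin 3) => LL N) o).continuous
  refine IsClosed.inter ?_ ?_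
  · simp only [ofPred_forall]
    refine isClosed_iInter fun i => isClosed_iInter fun k => isClosed_iInter fun φ =>
      isClosed_iInter fun hφ => isClosed_iInter fun hc => ?_
    have c1 := fderiv_test_continuous hφ (axisDir i k)
    have c2 := fderiv_test_compact hc (axisDir i k)
    have m1 : MemLp (fun x => fderiv ℝ φ x (axisDir i k)) 2 volume :=
      c1.memLp_of_hasCompactSupport c2
    have m2 : MemLp φ 2 volume := hφ.continuous.memLp_of_hasCompactSupport hc
    simp_rw [integral_mul_eq_inner m1, integral_mul_eq_inner m2]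
    exact isClosed_eq (continuous_const.inner (hp none))
      (continuous_const.inner (hp (some (i, k)))).neg
  · simp only [ofPred_forall]
    refine isClosed_iInter fun σ => isClosed_iInter fun _ => ?_
    have h1 : {u : Amb N | ∀ᵐ x : Conf N, u none (x ∘ σ) = - u none x}
        = {u : Amb N | Lp.compMeasurePreserving (fun x : Conf N => x ∘ σ) (mpPerm0 σ) (u none)
          = - u none} := by
      ext u
      simp only [mem_ofPred_eq]
      constructor
      · intro h
        apply Lp.ext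
        filter_upwards [h, Lp.coeFn_compMeasurePreserving (u none) (mpPerm0 σ),
          Lp.coeFn_neg (u none)] with x h1 h2 h3
        rw [h2, h3]
        exact h1
      · intro h
        filter_upwards [Lp.coeFn_compMeasurePreserving (u none) (mpPerm0 σ),
          Lp.coeFn_neg (u none)] with x h2 h3
        rw [h] at h2
        rw [h3] at h2
        exact h2.symm
    rw [h1]
    exact isClosed_eq ((Lp.isometry_compMeasurePreserving (mpPerm0 σ)).continuous.comp (hp none))
      (hp none).neg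

instance : CompleteSpace (QS N S) := (QS_isClosed N S).completeSpace_coe

/-- the function -/
def val (u : QS N S) : Conf N → ℝ := (u : Amb N) none

/-- the gradient -/
def grd (u : QS N S) (i : Fin N) (k : Fin 3) : Conf N → ℝ := (u : Amb N) (some (i, k))

theorem val_memLp (u : QS N S) : MemLp (val u) 2 volume := Lp.memLp _

theorem grd_memLp (u : QS N S) (i : Fin N) (k : Fin 3) : MemLp (grd u i k) 2 volume := Lp.memLp _

theorem val_anti (u : QS N S) (σ : Equiv.Perm (Fin N)) (hσ : σ ∈ S) :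
    ∀ᵐ x : Conf N, val u (x ∘ σ) = - val u x := u.2.2 σ hσ

theorem val_HN (u : QS N S) : HN (val u) (grd u) := by
  refine ⟨val_memLp u, grd_memLp u, fun i k => ?_⟩
  refine ACL.of_weak ((val_memLp u).locallyIntegrable (by norm_num))
    ((grd_memLp u i k).locallyIntegrable (by norm_num)) fun φ hφ hc => u.2.1 i k φ hφ hc

/-- element of the space from a function -/
def mk {f : Conf N → ℝ} {g : Fin N → Fin 3 → Conf N → ℝ} (h : HN f g)
    (hS : ∀ σ ∈ S, ∀ᵐ x : Conf N, f (x ∘ σ) = - f x) : QS N S :=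
  ⟨WithLp.toLp 2 (fun o => match o with
    | none => h.memLp.toLp f
    | some p => (h.memLp' p.1 p.2).toLp (g p.1 p.2)), by
    refine ⟨fun i k φ hφ hc => ?_, fun σ hσ => ?_⟩
    · change ∫ x, fderiv ℝ φ x (axisDir i k) * (h.memLp.toLp f : LL N) x
        = - ∫ x, φ x * ((h.memLp' i k).toLp (g i k) : LL N) x
      have h1 : ∫ x, fderiv ℝ φ x (axisDir i k) * (h.memLp.toLp f : LL N) x
          = ∫ x, fderiv ℝ φ x (axisDir i k) * f x := by
        refine integral_congr_ae ?_
        filter_upwards [h.memLp.coeFn_toLp] with x hx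
        rw [hx]
      have h2 : ∫ x, φ x * ((h.memLp' i k).toLp (g i k) : LL N) x = ∫ x, φ x * g i k x := by
        refine integral_congr_ae ?_
        filter_upwards [(h.memLp' i k).coeFn_toLp] with x hx
        rw [hx]
      rw [h1, h2]
      exact (h.acl i k).to_weak (h.memLp.locallyIntegrable (by norm_num))
        ((h.memLp' i k).locallyIntegrable (by norm_num)) hφ hc
    · change ∀ᵐ x : Conf N, (h.memLp.toLp f : LL N) (x ∘ σ) = - (h.memLp.toLp f : LL N) x
      filter_upwards [hS σ hσ, h.memLp.coeFn_toLp,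
        (mpPerm0 σ).quasiMeasurePreserving.ae h.memLp.coeFn_toLp] with x h1 h2 h3
      rw [h2, h3, h1]⟩

theorem val_mk {f : Conf N → ℝ} {g : Fin N → Fin 3 → Conf N → ℝ} (h : HN f g)
    (hS : ∀ σ ∈ S, ∀ᵐ x : Conf N, f (x ∘ σ) = - f x) : val (mk h hS) =ᵐ[volume] f :=
  h.memLp.coeFn_toLp

theorem grd_mk {f : Conf N → ℝ} {g : Fin N → Fin 3 → Conf N → ℝ} (h : HN f g)
    (hS : ∀ σ ∈ S, ∀ᵐ x : Conf N, f (x ∘ σ) = - f x) (i : Fin N) (k : Fin 3) :
    grd (mk h hS) i k =ᵐ[volume] g i k :=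
  (h.memLp' i k).coeFn_toLp

/-- the weak gradient is unique -/
theorem HN.grad_unique {f f' : Conf N → ℝ} {g g' : Fin N → Fin 3 → Conf N → ℝ} (h : HN f g)
    (h' : HN f' g') (hf : f =ᵐ[volume] f') (i : Fin N) (k : Fin 3) : g i k =ᵐ[volume] g' i k := by
  have hl : LocallyIntegrable (fun x => g i k x - g' i k x) volume :=
    ((h.memLp' i k).locallyIntegrable (by norm_num)).sub
      ((h'.memLp' i k).locallyIntegrable (by norm_num))
  have h0 : ∀ᵐ x, g i k x - g' i k x = 0 := by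
    apply ae_eq_zero_of_integral_contDiff_smul_eq_zero hl
    intro φ hφ hc
    have h1 := (h.acl i k).to_weak (h.memLp.locallyIntegrable (by norm_num))
      ((h.memLp' i k).locallyIntegrable (by norm_num)) hφ hc
    have h2 := (h'.acl i k).to_weak (h'.memLp.locallyIntegrable (by norm_num))
      ((h'.memLp' i k).locallyIntegrable (by norm_num)) hφ hc
    have h3 : ∫ x, fderiv ℝ φ x (axisDir i k) * f x = ∫ x, fderiv ℝ φ x (axisDir i k) * f' x := by
      refine integral_congr_ae ?_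
      filter_upwards [hf] with x hx
      rw [hx]
    have i1 : Integrable (fun x => φ x * g i k x) :=
      (hφ.continuous.memLp_of_hasCompactSupport hc (p := 2)).integrable_mul (h.memLp' i k)
    have i2 : Integrable (fun x => φ x * g' i k x) :=
      (hφ.continuous.memLp_of_hasCompactSupport hc (p := 2)).integrable_mul (h'.memLp' i k)
    have h4 : ∫ x, φ x • (g i k x - g' i k x) = (∫ x, φ x * g i k x) - ∫ x, φ x * g' i k x := by
      rw [← integral_sub i1 i2]
      refine integral_congr_ae (Filter.Eventually.of_forall fun x => ?_)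
      simp only [smul_eq_mul]; ring
    rw [h4]
    linarith
  filter_upwards [h0] with x hx
  linarith only [hx]

theorem norm_sq_Lp (u : LL N) : ‖u‖ ^ 2 = ∫ x, u x ^ 2 := by
  rw [← real_inner_self_eq_norm_sq, L2.inner_def]
  refine integral_congr_ae (Filter.Eventually.of_forall fun x => ?_)
  simp only [inner_self_eq_norm_sq_to_K, Real.norm_eq_abs, Real.ringHom_apply, sq, abs_mul_abs_self]

theorem norm_sq_QS (u : QS N S) :
    ‖u‖ ^ 2 = (∫ x, val u x ^ 2) + ∑ i, ∑ k, ∫ x, grd u i k x ^ 2 := by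
  have h1 : ‖u‖ ^ 2 = ‖(u : Amb N)‖ ^ 2 := rfl
  rw [h1, PiLp.norm_sq_eq_of_L2, Fintype.sum_option]
  congr 1
  · exact norm_sq_Lp _
  · rw [Fintype.sum_prod_type]
    refine Finset.sum_congr rfl fun i _ => Finset.sum_congr rfl fun k _ => ?_
    exact norm_sq_Lp _

/-! ### forms -/

/-- coordinate projections -/
def prC (S : Set (Equiv.Perm (Fin N))) (o : Option (Fin N × Fin 3)) : QS N S →L[ℝ] LL N :=
  (PiLp.proj 2 (𝕜 := ℝ) (fun _ : Option (Fin N × Fin 3) => LL N) o).comp (QS N S).subtypeL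

theorem prC_none (u : QS N S) : (prC S none u : Conf N → ℝ) = val u := rfl

theorem prC_some (u : QS N S) (i : Fin N) (k : Fin 3) :
    (prC S (some (i, k)) u : Conf N → ℝ) = grd u i k := rfl

/-- the `L²` inner product -/
def ipF (N : ℕ) (S : Set (Equiv.Perm (Fin N))) : BF (QS N S) :=
  (innerSL ℝ : LL N →L[ℝ] LL N →L[ℝ] ℝ).bilinearComp (prC S none) (prC S none)

theorem ipF_apply (u v : QS N S) : ipF N S u v = ∫ x, val u x * val v x := by
  unfold ipF
  rw [ContinuousLinearMap.bilinearComp_apply, innerSL_apply_apply, L2.inner_def]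
  refine integral_congr_ae (Filter.Eventually.of_forall fun x => ?_)
  simp only [prC_none]
  simp [mul_comm]

/-- the kinetic form -/
def kinF (N : ℕ) (S : Set (Equiv.Perm (Fin N))) : BF (QS N S) :=
  (1 / 2 : ℝ) • ∑ i : Fin N, ∑ k : Fin 3,
    (innerSL ℝ : LL N →L[ℝ] LL N →L[ℝ] ℝ).bilinearComp (prC S (some (i, k))) (prC S (some (i, k)))

theorem kinF_apply (u v : QS N S) :
    kinF N S u v = (1 / 2) * ∑ i, ∑ k, ∫ x, grd u i k x * grd v i k x := by
  unfold kinF
  simp only [smul_apply, sum_apply, smul_eq_mul,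
    ContinuousLinearMap.bilinearComp_apply, innerSL_apply_apply]
  congr 1
  refine Finset.sum_congr rfl fun i _ => Finset.sum_congr rfl fun k _ => ?_
  rw [L2.inner_def]
  refine integral_congr_ae (Filter.Eventually.of_forall fun x => ?_)
  simp only [prC_some]
  simp [mul_comm]

/-- form bounded potentials -/
structure FBd (w : Conf N → ℝ) : Prop where
  meas : AEStronglyMeasurable w volume
  bound : ∃ C : ℝ, 0 ≤ C ∧ ∀ f g, HN f g → Integrable (fun x => w x * f x ^ 2) ∧
    ∫ x, |w x| * f x ^ 2 ≤ C * ((∫ x, f x ^ 2) + ∑ i, ∑ k, ∫ x, g i k x ^ 2)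

theorem FBd.integrable_mul {w : Conf N → ℝ} (hw : FBd w) {f f' : Conf N → ℝ}
    {g g' : Fin N → Fin 3 → Conf N → ℝ} (h : HN f g) (h' : HN f' g') :
    Integrable (fun x => w x * (f x * f' x)) := by
  obtain ⟨C, _, hC⟩ := hw.bound
  have h1 := (hC f g h).1.norm
  have h2 := (hC f' g' h').1.norm
  refine (h1.add h2).mono' (hw.meas.mul (h.memLp.1.mul h'.memLp.1)) ?_
  filter_upwards with x
  simp only [Pi.add_apply]
  rw [norm_mul, norm_mul, norm_mul, norm_mul, norm_pow, norm_pow, ← mul_add]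
  refine mul_le_mul_of_nonneg_left ?_ (norm_nonneg _)
  nlinarith only []

theorem FBd.abs_bound {w : Conf N → ℝ} (hw : FBd w) : ∃ C : ℝ, 0 ≤ C ∧ ∀ u v : QS N S,
    ‖∫ x, w x * (val u x * val v x)‖ ≤ C * ‖u‖ * ‖v‖ := by
  obtain ⟨C, hC0, hC⟩ := hw.bound
  refine ⟨C, hC0, fun u v => ?_⟩
  have hu := hC _ _ (val_HN u)
  have hv := hC _ _ (val_HN v)
  rw [← norm_sq_QS] at hu hv
  -- Cauchy-Schwarz
  have ha : ∀ u : QS N S, Integrable (fun x => |w x| * val u x ^ 2) := fun u => by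
    have h1 := (hC _ _ (val_HN u)).1.norm
    refine h1.congr (Filter.Eventually.of_forall fun x => ?_)
    simp
  have key : ∀ t : ℝ, 0 < t → ‖∫ x, w x * (val u x * val v x)‖
      ≤ (t * ∫ x, |w x| * val u x ^ 2) / 2 + (t⁻¹ * ∫ x, |w x| * val v x ^ 2) / 2 := by
    intro t ht
    have h2 : Integrable (fun x => t * (|w x| * val u x ^ 2) / 2
        + t⁻¹ * (|w x| * val v x ^ 2) / 2) :=
      (((ha u).const_mul t).div_const 2).add (((ha v).const_mul t⁻¹).div_const 2)
    refine (norm_integral_le_of_norm_le h2 (Filter.Eventually.of_forall fun x => ?_)).trans ?_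
    · rw [norm_mul, norm_mul, Real.norm_eq_abs, Real.norm_eq_abs, Real.norm_eq_abs]
      have h3 : |val u x| * |val v x| ≤ t * val u x ^ 2 / 2 + t⁻¹ * val v x ^ 2 / 2 := by
        have h4 : 0 ≤ (t * |val u x| - |val v x|) ^ 2 * t⁻¹ := by (clear * - ht; positivity)
        have h5 : (t * |val u x| - |val v x|) ^ 2 * t⁻¹
            = t * val u x ^ 2 - 2 * (|val u x| * |val v x|) + t⁻¹ * val v x ^ 2 := by
          rw [← sq_abs (val u x), ← sq_abs (val v x)]
          field_simp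
          ring
        linarith only [h4, h5]
      have h6 := mul_le_mul_of_nonneg_left h3 (abs_nonneg (w x))
      have h7 : |w x| * (t * val u x ^ 2 / 2 + t⁻¹ * val v x ^ 2 / 2)
          = t * (|w x| * val u x ^ 2) / 2 + t⁻¹ * (|w x| * val v x ^ 2) / 2 := by ring
      linarith only [h6]
    · rw [integral_add (((ha u).const_mul t).div_const 2) (((ha v).const_mul t⁻¹).div_const 2),
        integral_div, integral_div, integral_const_mul, integral_const_mul]
  rcases (norm_nonneg u).eq_or_lt with h0 | h0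
  · -- u = 0
    have hu0 : u = 0 := norm_eq_zero.1 h0.symm
    have h1 : ∫ x, w x * (val u x * val v x) = 0 := by
      rw [integral_eq_zero_of_ae]
      have : val u =ᵐ[volume] 0 := by
        rw [hu0]
        exact Lp.coeFn_zero ℝ 2 volume
      filter_upwards [this] with x hx
      rw [hx]; simp
    rw [h1, norm_zero, ← h0]
    simp only [mul_zero, Submodule.coe_norm, zero_mul, Std.le_refl]
  rcases (norm_nonneg v).eq_or_lt with h0' | h0'
  · have hv0 : v = 0 := norm_eq_zero.1 h0'.symm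
    have h1 : ∫ x, w x * (val u x * val v x) = 0 := by
      rw [integral_eq_zero_of_ae]
      have : val v =ᵐ[volume] 0 := by
        rw [hv0]
        exact Lp.coeFn_zero ℝ 2 volume
      filter_upwards [this] with x hx
      rw [hx]; simp
    rw [h1, norm_zero, ← h0']
    simp only [Submodule.coe_norm, mul_zero, Std.le_refl]
  have h1 := key (‖v‖ / ‖u‖) (by positivity)
  have h2 : ‖v‖ / ‖u‖ * ∫ x, |w x| * val u x ^ 2 ≤ C * ‖u‖ * ‖v‖ := by
    calc ‖v‖ / ‖u‖ * ∫ x, |w x| * val u x ^ 2 ≤ ‖v‖ / ‖u‖ * (C * ‖u‖ ^ 2) :=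
          mul_le_mul_of_nonneg_left hu.2 (by positivity)
      _ = C * ‖u‖ * ‖v‖ := by field_simp
  have h3 : (‖v‖ / ‖u‖)⁻¹ * ∫ x, |w x| * val v x ^ 2 ≤ C * ‖u‖ * ‖v‖ := by
    calc (‖v‖ / ‖u‖)⁻¹ * ∫ x, |w x| * val v x ^ 2 ≤ (‖v‖ / ‖u‖)⁻¹ * (C * ‖v‖ ^ 2) :=
          mul_le_mul_of_nonneg_left hv.2 (by positivity)
      _ = C * ‖u‖ * ‖v‖ := by field_simp
  linarith only [h1, h2, h3]

theorem val_add (u v : QS N S) : val (u + v) =ᵐ[volume] fun x => val u x + val v x := by
  exact Lp.coeFn_add ((u : Amb N) none) ((v : Amb N) none)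

theorem val_smul (c : ℝ) (u : QS N S) : val (c • u) =ᵐ[volume] fun x => c * val u x := by
  exact Lp.coeFn_smul c ((u : Amb N) none)

/-- the form of a potential -/
def potF (N : ℕ) (S : Set (Equiv.Perm (Fin N))) (w : Conf N → ℝ) (hw : FBd w) : BF (QS N S) :=
  LinearMap.mkContinuous₂
    (LinearMap.mk₂ ℝ (fun u v : QS N S => ∫ x, w x * (val u x * val v x))
      (by
        intro u u' v
        rw [← integral_add (hw.integrable_mul (val_HN u) (val_HN v))
          (hw.integrable_mul (val_HN u') (val_HN v))]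
        refine integral_congr_ae ?_
        filter_upwards [val_add u u'] with x hx
        rw [hx]; ring)
      (by
        intro c u v
        rw [smul_eq_mul, ← integral_const_mul]
        refine integral_congr_ae ?_
        filter_upwards [val_smul c u] with x hx
        rw [hx]; ring)
      (by
        intro u v v'
        rw [← integral_add (hw.integrable_mul (val_HN u) (val_HN v))
          (hw.integrable_mul (val_HN u) (val_HN v'))]
        refine integral_congr_ae ?_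
        filter_upwards [val_add v v'] with x hx
        rw [hx]; ring)
      (by
        intro c u v
        rw [smul_eq_mul, ← integral_const_mul]
        refine integral_congr_ae ?_
        filter_upwards [val_smul c v] with x hx
        rw [hx]; ring))
    (hw.abs_bound (S := S)).choose
    (fun u v => (hw.abs_bound (S := S)).choose_spec.2 u v)

theorem potF_apply (w : Conf N → ℝ) (hw : FBd w) (u v : QS N S) :
    potF N S w hw u v = ∫ x, w x * (val u x * val v x) := by
  rfl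

end

end Vale.Agent.P363.D
end
end

section

section

/-! # Coulomb potentials as bounded forms, Garding inequality -/

namespace Vale.Agent.P363.D

open MeasureTheory Set Filter Topology
open scoped ENNReal ContDiff

noncomputable section

variable {N : ℕ} {S : Set (Equiv.Perm (Fin N))}

/-- Coulomb potential of the heavy nucleus -/
def w0N {N : ℕ} (x : Conf N) : ℝ := ∑ i, -(1 / ‖x i‖)

/-- the perturbation: light nuclei and repulsion -/
def wpN {N : ℕ} (A L : ℝ) (x : Conf N) : ℝ :=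
  (∑ i, -(A * (1 / ‖x i - L • ez‖ + 1 / ‖x i + L • ez‖))) +
    ∑ i, ∑ j ∈ Finset.Ioi i, 1 / ‖x i - x j‖

theorem vN_eq (ε A L : ℝ) (x : Conf N) : vN ε A L x = w0N x + ε * wpN A L x := by
  unfold vN w0N wpN v1
  rw [mul_add, ← add_assoc, Finset.mul_sum (s := Finset.univ)
    (f := fun i => -(A * (1 / ‖x i - L • ez‖ + 1 / ‖x i + L • ez‖))), ← Finset.sum_add_distrib]
  congr 1
  apply Finset.sum_congr rfl
  intro i _
  ring

theorem FBd.integrable_abs {w : Conf N → ℝ} (h : FBd w) {f : Conf N → ℝ}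
    {g : Fin N → Fin 3 → Conf N → ℝ} (hf : HN f g) :
    Integrable (fun x => |w x| * f x ^ 2) := by
  obtain ⟨C, _, hb⟩ := h.bound
  refine ((hb f g hf).1.abs).congr ?_
  filter_upwards with x
  rw [abs_mul, abs_of_nonneg (sq_nonneg (f x))]

theorem FBd.add {w w' : Conf N → ℝ} (h : FBd w) (h' : FBd w') : FBd (fun x => w x + w' x) := by
  obtain ⟨C, hC, hb⟩ := h.bound
  obtain ⟨C', hC', hb'⟩ := h'.bound
  refine ⟨h.meas.add h'.meas, C + C', by (clear * - hC hC'; positivity), fun f g hf => ⟨?_, ?_⟩⟩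
  · refine ((hb f g hf).1.add (hb' f g hf).1).congr ?_
    filter_upwards with x
    simp only [Pi.add_apply]
    ring
  · have i1 := h.integrable_abs hf
    have i2 := h'.integrable_abs hf
    calc ∫ x, |w x + w' x| * f x ^ 2
        ≤ ∫ x, (|w x| * f x ^ 2 + |w' x| * f x ^ 2) := by
          apply integral_mono_of_nonneg
          · filter_upwards with x; (clear * -; positivity)
          · exact i1.add i2
          · filter_upwards with x
            rw [← add_mul]
            exact mul_le_mul_of_nonneg_right (abs_add_le _ _) (sq_nonneg _)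
      _ = (∫ x, |w x| * f x ^ 2) + ∫ x, |w' x| * f x ^ 2 := integral_add i1 i2
      _ ≤ _ := by
          rw [add_mul]
          exact add_le_add (hb f g hf).2 (hb' f g hf).2

theorem FBd.const_mul {w : Conf N → ℝ} (h : FBd w) (c : ℝ) : FBd (fun x => c * w x) := by
  obtain ⟨C, hC, hb⟩ := h.bound
  refine ⟨h.meas.const_mul c, |c| * C, by (clear * - hC; positivity), fun f g hf => ⟨?_, ?_⟩⟩
  · refine ((hb f g hf).1.const_mul c).congr ?_
    filter_upwards with x
    ring
  · have e : (fun x => |c * w x| * f x ^ 2) = fun x => |c| * (|w x| * f x ^ 2) := by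
      funext x; rw [abs_mul]; ring
    rw [e, integral_const_mul, mul_assoc]
    exact mul_le_mul_of_nonneg_left (hb f g hf).2 (abs_nonneg c)

theorem FBd.const (c : ℝ) : FBd (fun _ : Conf N => c) := by
  refine ⟨aestronglyMeasurable_const, |c|, abs_nonneg c, fun f g hf => ⟨?_, ?_⟩⟩
  · exact hf.memLp.integrable_sq.const_mul c
  · rw [integral_const_mul]
    apply mul_le_mul_of_nonneg_left _ (abs_nonneg c)
    have : 0 ≤ ∑ i, ∑ k, ∫ x, g i k x ^ 2 := by (clear * -; positivity)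
    linarith only [this]

theorem FBd.sum {ι : Type*} (s : Finset ι) {w : ι → Conf N → ℝ} (h : ∀ i ∈ s, FBd (w i)) :
    FBd (fun x => ∑ i ∈ s, w i x) := by
  classical
  induction s using Finset.induction_on with
  | empty => simpa using FBd.const (N := N) 0
  | insert a s ha ih =>
    have h1 := FBd.add (h a (Finset.mem_insert_self a s))
      (ih fun i hi => h i (Finset.mem_insert_of_mem hi))
    have e : (fun x => ∑ i ∈ insert a s, w i x) = fun x => w a x + ∑ i ∈ s, w i x := by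
      funext x; rw [Finset.sum_insert ha]
    rw [e]; exact h1

/-- general Coulomb singularity -/
theorem fbd_gen {a : Conf N → R3} (ha : Continuous a) (i : Fin N)
    (hae : ∀ x k, ∀ t : ℝ, a (x + t • axisDir i k) =
      a x + t • (EuclideanSpace.single k (1 : ℝ) : R3)) :
    FBd (fun x : Conf N => 1 / ‖a x‖) := by
  refine ⟨(aestronglyMeasurable_const (b := (1:ℝ))).div₀ ha.norm.aestronglyMeasurable, 3,
    by norm_num, fun f g hf => ⟨?_, ?_⟩⟩
  · have := (hardy (μ := (volume : Measure (Conf N))) ha hae hf.memLp (hf.memLp' i)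
      (hf.acl i)).1
    refine this.congr ?_
    filter_upwards with x
    ring
  · have h1 := hardy_small (μ := (volume : Measure (Conf N))) ha hae hf.memLp (hf.memLp' i)
      (hf.acl i) (δ := 1) one_pos
    have e : (fun x => |1 / ‖a x‖| * f x ^ 2) = fun x => f x ^ 2 / ‖a x‖ := by
      funext x; rw [abs_of_nonneg (by (clear * -; positivity))]; ring
    rw [e]
    have h2 : ∑ k, ∫ x, g i k x ^ 2 ≤ ∑ i, ∑ k, ∫ x, g i k x ^ 2 :=
      Finset.single_le_sum (f := fun i => ∑ k, ∫ x, g i k x ^ 2)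
        (fun j _ => by (clear * -; positivity)) (Finset.mem_univ i)
    have h3 : 0 ≤ ∑ i, ∑ k, ∫ x, g i k x ^ 2 := by (clear * -; positivity)
    linarith only [h1, h2, h3]

theorem axisDir_self (i : Fin N) (k : Fin 3) :
    (axisDir i k : Conf N) i = EuclideanSpace.single k (1 : ℝ) := by
  simp [axisDir]

theorem axisDir_ne {i j : Fin N} (h : j ≠ i) (k : Fin 3) : (axisDir i k : Conf N) j = 0 := by
  simp [axisDir, h]

theorem fbd_nuc (i : Fin N) (c : R3) : FBd (fun x : Conf N => 1 / ‖x i - c‖) := by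
  apply fbd_gen (a := fun x : Conf N => x i - c) (by fun_prop) i
  intro x k t
  simp only [Pi.add_apply, Pi.smul_apply, axisDir_self]
  abel

theorem fbd_rep {i j : Fin N} (h : i ≠ j) : FBd (fun x : Conf N => 1 / ‖x i - x j‖) := by
  apply fbd_gen (a := fun x : Conf N => x i - x j) (by fun_prop) i
  intro x k t
  simp only [Pi.add_apply, Pi.smul_apply, axisDir_self, axisDir_ne h.symm]
  rw [smul_zero, add_zero]
  abel

theorem fbd_w0N (N : ℕ) : FBd (w0N : Conf N → ℝ) := by
  have h : FBd (fun x : Conf N => ∑ i, (-1) * (1 / ‖x i - 0‖)) :=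
    FBd.sum Finset.univ fun i _ => (fbd_nuc i 0).const_mul (-1)
  have e : (w0N : Conf N → ℝ) = fun x : Conf N => ∑ i, (-1) * (1 / ‖x i - 0‖) := by
    funext x
    unfold w0N
    apply Finset.sum_congr rfl
    intro i _
    rw [sub_zero]; ring
  rw [e]; exact h

theorem fbd_wpN (N : ℕ) (A L : ℝ) : FBd (wpN A L : Conf N → ℝ) := by
  have h1 : FBd (fun x : Conf N => ∑ i, (-A) * (1 / ‖x i - L • ez‖ + 1 / ‖x i - (-(L • ez))‖)) :=
    FBd.sum Finset.univ fun i _ => ((fbd_nuc i (L • ez)).add (fbd_nuc i (-(L • ez)))).const_mul (-A)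
  have h2 : FBd (fun x : Conf N => ∑ i, ∑ j ∈ Finset.Ioi i, 1 / ‖x i - x j‖) :=
    FBd.sum Finset.univ fun i _ => FBd.sum _ fun j hj => fbd_rep (Finset.mem_Ioi.1 hj).ne
  have e : (wpN A L : Conf N → ℝ) = fun x : Conf N =>
      (∑ i, (-A) * (1 / ‖x i - L • ez‖ + 1 / ‖x i - (-(L • ez))‖)) +
        ∑ i, ∑ j ∈ Finset.Ioi i, 1 / ‖x i - x j‖ := by
    funext x
    unfold wpN
    congr 1
    apply Finset.sum_congr rfl
    intro i _
    rw [sub_neg_eq_add]; ring
  rw [e]; exact h1.add h2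

theorem fbd_vN (N : ℕ) (ε A L : ℝ) : FBd (vN ε A L : Conf N → ℝ) := by
  have e : (vN ε A L : Conf N → ℝ) = fun x => w0N x + ε * wpN A L x := by
    funext x; exact vN_eq ε A L x
  rw [e]; exact (fbd_w0N N).add ((fbd_wpN N A L).const_mul ε)

/-- unperturbed form -/
def q0F (N : ℕ) (S : Set (Equiv.Perm (Fin N))) : BF (QS N S) :=
  kinF N S + potF N S w0N (fbd_w0N N)

/-- form of the perturbation -/
def wpF (N : ℕ) (S : Set (Equiv.Perm (Fin N))) (A L : ℝ) : BF (QS N S) :=
  potF N S (wpN A L) (fbd_wpN N A L)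

theorem ipF_symm : SymF (ipF N S) := by
  intro u v
  rw [ipF_apply, ipF_apply]
  simp only [mul_comm]

theorem ipF_nonneg : NonnegF (ipF N S) := by
  intro u
  rw [ipF_apply]
  exact integral_nonneg fun x => mul_self_nonneg _

theorem q0F_apply (u v : QS N S) :
    q0F N S u v = bN w0N (val u) (grd u) (val v) (grd v) := by
  unfold q0F bN
  rw [ContinuousLinearMap.add_apply, ContinuousLinearMap.add_apply, kinF_apply, potF_apply]

theorem q0F_self (u : QS N S) : q0F N S u u = qN w0N (val u) (grd u) := by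
  rw [q0F_apply]
  unfold bN qN
  simp only [sq]

theorem q0F_symm : SymF (q0F N S) := by
  intro u v
  rw [q0F_apply, q0F_apply]
  unfold bN
  simp only [mul_comm]

theorem wpF_symm (A L : ℝ) : SymF (wpF N S A L) := by
  intro u v
  unfold wpF
  rw [potF_apply, potF_apply]
  simp only [mul_comm (val u _) (val v _)]

theorem qe_apply (ε A L : ℝ) (u v : QS N S) :
    (q0F N S + ε • wpF N S A L) u v = bN (vN ε A L) (val u) (grd u) (val v) (grd v) := by
  rw [ContinuousLinearMap.add_apply, ContinuousLinearMap.add_apply,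
    ContinuousLinearMap.smul_apply, ContinuousLinearMap.smul_apply, q0F_apply]
  unfold wpF bN
  rw [potF_apply, smul_eq_mul, ← integral_const_mul, add_assoc]
  congr 1
  rw [← integral_add ((fbd_w0N N).integrable_mul (val_HN u) (val_HN v))
    (((fbd_wpN N A L).integrable_mul (val_HN u) (val_HN v)).const_mul ε)]
  apply integral_congr_ae
  filter_upwards with x
  rw [vN_eq]; ring

theorem qe_self (ε A L : ℝ) (u : QS N S) :
    (q0F N S + ε • wpF N S A L) u u = qN (vN ε A L) (val u) (grd u) := by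
  rw [qe_apply]
  unfold bN qN
  simp only [sq]

theorem garding (N : ℕ) (S : Set (Equiv.Perm (Fin N))) : ∃ c C : ℝ, 0 < c ∧ 0 ≤ C ∧
    ∀ u : QS N S, c * ‖u‖ ^ 2 ≤ q0F N S u u + C * ipF N S u u := by
  refine ⟨1 / 4, 12 * N + 1 / 4, by norm_num, by positivity, fun u => ?_⟩
  have hf := val_HN u
  have key : ∀ i : Fin N, ∫ x, val u x ^ 2 / ‖x i‖ ≤
      (1 / 4) * (∑ k, ∫ x, grd u i k x ^ 2) + 12 * ∫ x, val u x ^ 2 := by
    intro i
    have h1 := hardy_small (μ := (volume : Measure (Conf N))) (a := fun x : Conf N => x i)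
      (e := axisDir i) (by fun_prop) (by
        intro x k t
        simp only [Pi.add_apply, Pi.smul_apply, axisDir_self]) hf.memLp (hf.memLp' i)
      (hf.acl i) (δ := 1 / 4) (by norm_num)
    have h12 : (3 : ℝ) / (1 / 4) = 12 := by norm_num
    rw [h12] at h1
    exact h1
  have hi : ∀ i : Fin N, Integrable (fun x : Conf N => val u x ^ 2 / ‖x i‖) := by
    intro i
    exact (hardy (μ := (volume : Measure (Conf N))) (a := fun x : Conf N => x i)
      (e := axisDir i) (by fun_prop) (by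
        intro x k t
        simp only [Pi.add_apply, Pi.smul_apply, axisDir_self]) hf.memLp (hf.memLp' i)
      (hf.acl i)).1
  have hpot : ∫ x, w0N x * val u x ^ 2 = - ∑ i, ∫ x, val u x ^ 2 / ‖x i‖ := by
    rw [← integral_finsetSum _ fun i _ => hi i, ← integral_neg]
    apply integral_congr_ae
    filter_upwards with x
    unfold w0N
    rw [Finset.sum_neg_distrib, neg_mul, Finset.sum_mul]
    congr 1
    apply Finset.sum_congr rfl
    intro i _
    ring
  rw [q0F_self, norm_sq_QS, ipF_apply]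
  unfold qN
  rw [hpot]
  have hs : ∑ i : Fin N, ∫ x, val u x ^ 2 / ‖x i‖ ≤
      ∑ i : Fin N, ((1 / 4) * (∑ k, ∫ x, grd u i k x ^ 2) + 12 * ∫ x, val u x ^ 2) :=
    Finset.sum_le_sum fun i _ => key i
  rw [Finset.sum_add_distrib, ← Finset.mul_sum, Finset.sum_const, Finset.card_univ,
    Fintype.card_fin, nsmul_eq_mul] at hs
  have e : ∫ x, val u x * val u x = ∫ x, val u x ^ 2 := by
    simp only [sq]
  rw [e]
  have h0 : 0 ≤ ∑ i, ∑ k, ∫ x, grd u i k x ^ 2 := by (clear * -; positivity)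
  linarith

end

end Vale.Agent.P363.D
end
end

section

section

/-! # Permutations and reflections -/

namespace Vale.Agent.P363.D

open MeasureTheory Set Filter Topology
open scoped ENNReal ContDiff

noncomputable section

variable {N : ℕ}

/-! ### measure preserving maps -/

theorem mp_perm (σ : Equiv.Perm (Fin N)) :
    MeasurePreserving (fun x : Conf N => x ∘ σ) volume volume := by
  have h := MeasureTheory.volume_measurePreserving_piCongrLeft (fun _ : Fin N => R3) σ.symm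
  have he : (MeasurableEquiv.piCongrLeft (fun _ : Fin N => R3) σ.symm :
      (Fin N → R3) → (Fin N → R3)) = fun x => x ∘ σ := by
    funext x j
    have h := Equiv.piCongrLeft_apply (fun _ : Fin N => R3) σ.symm x j
    simpa [MeasurableEquiv.coe_piCongrLeft] using h
  rwa [he] at h

theorem me_perm (σ : Equiv.Perm (Fin N)) : MeasurableEmbedding (fun x : Conf N => x ∘ σ) := by
  have he : (MeasurableEquiv.piCongrLeft (fun _ : Fin N => R3) σ.symm :
      (Fin N → R3) → (Fin N → R3)) = fun x => x ∘ σ := by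
    funext x j
    have h := Equiv.piCongrLeft_apply (fun _ : Fin N => R3) σ.symm x j
    simpa [MeasurableEquiv.coe_piCongrLeft] using h
  have h := (MeasurableEquiv.piCongrLeft (fun _ : Fin N => R3) σ.symm).measurableEmbedding
  rwa [he] at h

theorem integral_perm (σ : Equiv.Perm (Fin N)) (f : Conf N → ℝ) :
    ∫ x, f (x ∘ σ) = ∫ x, f x :=
  (mp_perm σ).integral_comp (me_perm σ) f

theorem refl_apply (k i : Fin 3) (x : R3) : refl k x i = if i = k then - x i else x i := by
  by_cases h : i = k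
  · subst h
    simp [refl]
    ring
  · simp only [refl, PiLp.sub_apply, PiLp.smul_apply, ne_eq, h, not_false_eq_true, PiLp.single_eq_of_ne, smul_eq_mul, mul_zero, sub_zero, ↓reduceIte]

theorem refl_refl (k : Fin 3) (x : R3) : refl k (refl k x) = x := by
  ext i
  rw [refl_apply, refl_apply]
  split_ifs <;> simp

theorem norm_refl (k : Fin 3) (x : R3) : ‖refl k x‖ = ‖x‖ := by
  rw [EuclideanSpace.norm_eq, EuclideanSpace.norm_eq]
  congr 1
  refine Finset.sum_congr rfl fun i _ => ?_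
  rw [refl_apply]
  split_ifs
  · rw [norm_neg]
  · rfl

/-- The reflection as a linear isometry equivalence. -/
def reflE (k : Fin 3) : R3 ≃ₗᵢ[ℝ] R3 where
  toFun := refl k
  invFun := refl k
  left_inv := refl_refl k
  right_inv := refl_refl k
  map_add' x y := by
    ext i
    rw [refl_apply, PiLp.add_apply, PiLp.add_apply, refl_apply, refl_apply]
    split_ifs
    · ring
    · rfl
  map_smul' c x := by
    ext i
    simp only [refl_apply, PiLp.smul_apply, smul_eq_mul, RingHom.id_apply]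
    split_ifs
    · ring
    · rfl
  norm_map' x := norm_refl k x

theorem mp_refl (k : Fin 3) : MeasurePreserving (refl k) volume volume :=
  (reflE k).measurePreserving

theorem mp_reflN (k : Fin 3) : MeasurePreserving (D.reflN k : Conf N → Conf N) volume volume :=
  volume_preserving_pi (fun _ : Fin N => mp_refl k)

theorem reflN_reflN (k : Fin 3) (x : Conf N) : D.reflN k (D.reflN k x) = x := by
  funext i
  exact refl_refl k (x i)

theorem me_reflN (k : Fin 3) : MeasurableEmbedding (D.reflN k : Conf N → Conf N) := by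
  have hm : Measurable (D.reflN k : Conf N → Conf N) := (mp_reflN k).measurable
  let e : Conf N ≃ᵐ Conf N :=
    { toFun := D.reflN k
      invFun := D.reflN k
      left_inv := reflN_reflN k
      right_inv := reflN_reflN k
      measurable_toFun := hm
      measurable_invFun := hm }
  exact e.measurableEmbedding

theorem integral_reflN (k : Fin 3) (f : Conf N → ℝ) :
    ∫ x, f (D.reflN k x) = ∫ x, f x :=
  (mp_reflN k).integral_comp (me_reflN k) f

/-! ### action on `H¹` functions -/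

theorem perm_axisDir (σ : Equiv.Perm (Fin N)) (i : Fin N) (k : Fin 3) :
    (axisDir i k : Conf N) ∘ σ = axisDir (σ.symm i) k := by
  funext j
  by_cases h : σ j = i
  · subst h; simp [axisDir]
  · have h' : j ≠ σ.symm i := fun hh => h (by rw [hh]; simp)
    simp [axisDir, Pi.single_eq_of_ne, h, h']

theorem HN.perm {f : Conf N → ℝ} {g : Fin N → Fin 3 → Conf N → ℝ} (h : HN f g)
    (σ : Equiv.Perm (Fin N)) :
    HN (fun x => f (x ∘ σ)) (fun i k x => g (σ.symm i) k (x ∘ σ)) := by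
  refine ⟨h.memLp.comp_measurePreserving (mp_perm σ),
    fun i k => (h.memLp' _ k).comp_measurePreserving (mp_perm σ), fun i k => ?_⟩
  refine ACL.comp_qmp (mp_perm σ).quasiMeasurePreserving (e' := axisDir (σ.symm i) k)
    (fun x t => ?_) (h.acl (σ.symm i) k)
  rw [← perm_axisDir σ i k]
  funext j
  rfl

theorem refl_single (k l : Fin 3) (x : R3) (t : ℝ) :
    refl k (x + t • EuclideanSpace.single l (1 : ℝ)) =
      refl k x + t • ((if l = k then (-1 : ℝ) else 1) • EuclideanSpace.single l (1 : ℝ)) := by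
  ext i
  rw [refl_apply, PiLp.add_apply, PiLp.add_apply, refl_apply]
  simp only [PiLp.smul_apply, smul_eq_mul, PiLp.single_apply]
  by_cases h1 : i = k
  · by_cases h2 : l = k
    · subst h1; subst h2; simp only [↓reduceIte, mul_one, neg_add_rev, mul_neg]; ring
    · have h3 : ¬ k = l := fun h => h2 h.symm
      simp [h1, h2, h3]
  · by_cases h2 : l = k
    · simp [h1, h2]
    · simp [h1, h2]

theorem reflN_axisDir (k l : Fin 3) (i : Fin N) (x : Conf N) (t : ℝ) :
    D.reflN k (x + t • axisDir i l) =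
      D.reflN k x + t • ((if l = k then (-1 : ℝ) else 1) • axisDir i l) := by
  funext j
  by_cases h : j = i
  · subst h
    simp only [D.reflN, axisDir, Pi.add_apply, Pi.smul_apply, Pi.single_eq_same]
    exact refl_single k l (x j) t
  · by_cases hl : l = k <;> simp [D.reflN, axisDir, Pi.single_eq_of_ne, h, hl]

/-- Change of the sign of the direction. -/
theorem acl_neg_dir {e : Conf N} {f f' : Conf N → ℝ} (h : ACL volume e f f') :
    ACL volume (-e) f (fun x => - f' x) := by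
  refine ⟨h.meas, h.meas'.neg, ?_, ?_⟩
  · filter_upwards [h.locInt] with x hx
    have h1 : LocallyIntegrable (fun t : ℝ => f' (x + (-t) • e)) volume := by
      have hmp : MeasurePreserving (fun t : ℝ => -t) volume volume :=
        Measure.measurePreserving_neg volume
      have hx2 : LocallyIntegrable (fun t : ℝ => f' (x + t • e))
          (Measure.map (Homeomorph.neg ℝ) volume) := by
        have : Measure.map (Homeomorph.neg ℝ) (volume : Measure ℝ) = volume := hmp.map_eq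
        rw [this]
        exact hx
      exact (MeasureTheory.locallyIntegrable_map_homeomorph (Homeomorph.neg ℝ)).1 hx2
    have h2 := h1.neg
    refine h2.congr ?_
    filter_upwards with t
    simp only [neg_smul, Pi.neg_apply, smul_neg]
  · filter_upwards [h.ftc] with x hx
    have hmp : MeasurePreserving (fun t : ℝ => -t) volume volume :=
      Measure.measurePreserving_neg volume
    filter_upwards [hmp.quasiMeasurePreserving.ae hx] with t ht
    have e1 : x + t • -e = x + (-t) • e := by simp only [smul_neg, neg_smul]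
    rw [e1, ht]
    unfold prim
    congr 1
    rw [intervalIntegral.integral_neg]
    have h3 := intervalIntegral.integral_comp_neg (a := 0) (b := t)
      (fun s : ℝ => f' (x + s • e))
    rw [neg_zero] at h3
    have e2 : ∫ s in (0:ℝ)..t, f' (x + s • -e) = ∫ s in (0:ℝ)..t, f' (x + (-s) • e) := by
      congr 1
      funext s
      simp only [smul_neg, neg_smul]
    rw [e2, h3, intervalIntegral.integral_symm]

theorem HN.reflN {f : Conf N → ℝ} {g : Fin N → Fin 3 → Conf N → ℝ} (h : HN f g) (k : Fin 3) :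
    HN (fun x => f (D.reflN k x)) (fun i l x => (if l = k then -1 else 1) * g i l (D.reflN k x)) := by
  refine ⟨h.memLp.comp_measurePreserving (mp_reflN k),
    fun i l => ((h.memLp' i l).comp_measurePreserving (mp_reflN k)).const_mul _, fun i l => ?_⟩
  by_cases hl : l = k
  · simp only [if_pos hl]
    have h1 := ACL.comp_qmp (mp_reflN k).quasiMeasurePreserving (e := axisDir i l)
      (e' := -axisDir i l) (fun x t => by
        rw [reflN_axisDir, if_pos hl]; simp only [neg_smul, one_smul, smul_neg]) (acl_neg_dir (h.acl i l))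
    refine h1.congr (Filter.EventuallyEq.refl _ _) ?_
    filter_upwards with x
    ring
  · simp only [if_neg hl]
    have h1 := ACL.comp_qmp (mp_reflN k).quasiMeasurePreserving (e := axisDir i l)
      (e' := axisDir i l) (fun x t => by
        rw [reflN_axisDir, if_neg hl]; simp) (h.acl i l)
    refine h1.congr (Filter.EventuallyEq.refl _ _) ?_
    filter_upwards with x
    ring

theorem HN.add {f f' : Conf N → ℝ} {g g' : Fin N → Fin 3 → Conf N → ℝ} (h : HN f g)
    (h' : HN f' g') : HN (fun x => f x + f' x) (fun i k x => g i k x + g' i k x) :=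
  ⟨h.memLp.add h'.memLp, fun i k => (h.memLp' i k).add (h'.memLp' i k),
    fun i k => (h.acl i k).add (h'.acl i k)⟩

theorem HN.const_mul {f : Conf N → ℝ} {g : Fin N → Fin 3 → Conf N → ℝ} (h : HN f g) (c : ℝ) :
    HN (fun x => c * f x) (fun i k x => c * g i k x) :=
  ⟨h.memLp.const_mul c, fun i k => (h.memLp' i k).const_mul c,
    fun i k => (h.acl i k).const_mul c⟩

/-! ### invariance of the potential and of the forms -/

theorem pair_sum (F : Fin N → Fin N → ℝ) (hF : ∀ i j, F i j = F j i) :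
    2 * ∑ i, ∑ j ∈ Finset.Ioi i, F i j = ∑ i, ∑ j, if i = j then 0 else F i j := by
  have h1 : ∀ i, ∑ j, (if i = j then 0 else F i j) =
      ∑ j ∈ Finset.Ioi i, F i j + ∑ j ∈ Finset.Iio i, F i j := by
    intro i
    rw [← Finset.sum_union]
    · have h2 : ∑ j, (if i = j then 0 else F i j) = ∑ j ∈ Finset.univ.filter (fun j => i ≠ j), F i j := by
        rw [Finset.sum_filter]
        refine Finset.sum_congr rfl fun j _ => ?_
        by_cases h : i = j <;> simp [h]
      rw [h2]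
      congr 1
      ext j
      simp only [Finset.mem_filter, Finset.mem_univ, true_and, Finset.mem_union, Finset.mem_Ioi,
        Finset.mem_Iio]
      constructor
      · intro h; rcases lt_or_gt_of_ne h with h | h
        · exact Or.inl h
        · exact Or.inr h
      · rintro (h | h)
        · exact h.ne
        · exact h.ne'
    · rw [Finset.disjoint_left]
      intro j h1 h2
      rw [Finset.mem_Ioi] at h1
      rw [Finset.mem_Iio] at h2
      exact absurd (h1.trans h2) (lt_irrefl _)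
  simp only [h1]
  rw [Finset.sum_add_distrib, two_mul]
  congr 1
  rw [Finset.sum_comm' (s := Finset.univ) (t := fun i => Finset.Iio i) (t' := Finset.univ)
    (s' := fun j => Finset.Ioi j)]
  · refine Finset.sum_congr rfl fun i _ => Finset.sum_congr rfl fun j _ => hF _ _
  · intro x y
    simp only [Finset.mem_univ, Finset.mem_Iio, true_and, Finset.mem_Ioi, and_true]

theorem pair_sum_perm (F : Fin N → Fin N → ℝ) (hF : ∀ i j, F i j = F j i)
    (σ : Equiv.Perm (Fin N)) :
    ∑ i, ∑ j ∈ Finset.Ioi i, F (σ i) (σ j) = ∑ i, ∑ j ∈ Finset.Ioi i, F i j := by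
  have h1 := pair_sum F hF
  have h2 := pair_sum (fun i j => F (σ i) (σ j)) (fun i j => hF _ _)
  have h3 : ∑ i, ∑ j, (if i = j then 0 else F (σ i) (σ j)) =
      ∑ i, ∑ j, if i = j then 0 else F i j := by
    rw [← Equiv.sum_comp σ (fun i => ∑ j, if i = j then 0 else F i j)]
    refine Finset.sum_congr rfl fun i _ => ?_
    rw [← Equiv.sum_comp σ (fun j => if σ i = j then 0 else F (σ i) j)]
    refine Finset.sum_congr rfl fun j _ => ?_
    simp [σ.injective.eq_iff]
  linarith only [h1, h2, h3]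

theorem vN_perm (ε A L : ℝ) (σ : Equiv.Perm (Fin N)) (x : Conf N) :
    vN ε A L (x ∘ σ) = vN ε A L x := by
  unfold vN
  congr 1
  · exact Equiv.sum_comp σ (fun i => v1 ε A L (x i))
  · congr 1
    exact pair_sum_perm (fun i j => 1 / ‖x i - x j‖) (fun i j => by rw [norm_sub_rev]) σ

theorem refl_sub (k : Fin 3) (x y : R3) : refl k (x - y) = refl k x - refl k y :=
  map_sub (reflE k) x y

theorem norm_refl_sub (k : Fin 3) (x y : R3) : ‖refl k x - refl k y‖ = ‖x - y‖ := by
  rw [← refl_sub, norm_refl]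

theorem v1_refl (ε A L : ℝ) (k : Fin 3) (x : R3) : v1 ε A L (refl k x) = v1 ε A L x := by
  unfold v1
  rw [norm_refl]
  by_cases hk : k = 2
  · subst hk
    have h1 : refl 2 x - L • ez = refl 2 (x + L • ez) := by
      ext i
      rw [refl_apply, PiLp.sub_apply, PiLp.add_apply, refl_apply]
      by_cases h : i = 2
      · subst h; simp only [Fin.isValue, ↓reduceIte, ez, PiLp.smul_apply, PiLp.single_eq_same, smul_eq_mul, mul_one, neg_add_rev]; ring
      · simp [h, ez]
    have h2 : refl 2 x + L • ez = refl 2 (x - L • ez) := by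
      ext i
      rw [refl_apply, PiLp.sub_apply, PiLp.add_apply, refl_apply]
      by_cases h : i = 2
      · subst h; simp only [Fin.isValue, ↓reduceIte, ez, PiLp.smul_apply, PiLp.single_eq_same, smul_eq_mul, mul_one, neg_sub]; ring
      · simp [h, ez]
    rw [h1, h2, norm_refl, norm_refl]
    ring
  · have h1 : refl k x - L • ez = refl k (x - L • ez) := by
      ext i
      rw [refl_apply, PiLp.sub_apply, PiLp.sub_apply, refl_apply]
      by_cases h : i = k
      · subst h; simp only [↓reduceIte, ez, Fin.isValue, PiLp.smul_apply, ne_eq, hk, not_false_eq_true, PiLp.single_eq_of_ne, smul_eq_mul, mul_zero, sub_zero]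
      · simp only [h, ↓reduceIte, ez, Fin.isValue, PiLp.smul_apply, PiLp.single_apply, smul_eq_mul, mul_ite, mul_one, mul_zero]
    have h2 : refl k x + L • ez = refl k (x + L • ez) := by
      ext i
      rw [refl_apply, PiLp.add_apply, PiLp.add_apply, refl_apply]
      by_cases h : i = k
      · subst h; simp only [↓reduceIte, ez, Fin.isValue, PiLp.smul_apply, ne_eq, hk, not_false_eq_true, PiLp.single_eq_of_ne, smul_eq_mul, mul_zero, add_zero]
      · simp only [h, ↓reduceIte, ez, Fin.isValue, PiLp.smul_apply, PiLp.single_apply, smul_eq_mul, mul_ite, mul_one, mul_zero]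
    rw [h1, h2, norm_refl, norm_refl]

theorem vN_reflN (ε A L : ℝ) (k : Fin 3) (x : Conf N) :
    vN ε A L (D.reflN k x) = vN ε A L x := by
  unfold vN D.reflN
  simp only [v1_refl, norm_refl_sub]

/-- invariance of forms under permutations -/
theorem bN_perm {w : Conf N → ℝ} (σ : Equiv.Perm (Fin N)) (hw : ∀ x, w (x ∘ σ) = w x)
    (f f' : Conf N → ℝ) (g g' : Fin N → Fin 3 → Conf N → ℝ) :
    bN w (fun x => f (x ∘ σ)) (fun i k x => g (σ.symm i) k (x ∘ σ))
      (fun x => f' (x ∘ σ)) (fun i k x => g' (σ.symm i) k (x ∘ σ)) = bN w f g f' g' := by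
  unfold bN
  congr 1
  · congr 1
    rw [← Equiv.sum_comp σ.symm (fun i => ∑ k, ∫ x, g i k x * g' i k x)]
    refine Finset.sum_congr rfl fun i _ => Finset.sum_congr rfl fun k _ => ?_
    exact integral_perm σ (fun x => g (σ.symm i) k x * g' (σ.symm i) k x)
  · rw [← integral_perm σ (fun x => w x * (f x * f' x))]
    simp only [hw]

theorem bN_comm {w : Conf N → ℝ} (f f₁ : Conf N → ℝ) (g g₁ : Fin N → Fin 3 → Conf N → ℝ) :
    bN w f g f₁ g₁ = bN w f₁ g₁ f g := by
  unfold bN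
  simp only [mul_comm]

theorem bN_self {w : Conf N → ℝ} (f : Conf N → ℝ) (g : Fin N → Fin 3 → Conf N → ℝ) :
    bN w f g f g = qN w f g := by
  unfold bN qN
  simp only [sq]

theorem qN_perm {w : Conf N → ℝ} (σ : Equiv.Perm (Fin N)) (hw : ∀ x, w (x ∘ σ) = w x)
    (f : Conf N → ℝ) (g : Fin N → Fin 3 → Conf N → ℝ) :
    qN w (fun x => f (x ∘ σ)) (fun i k x => g (σ.symm i) k (x ∘ σ)) = qN w f g := by
  rw [← bN_self, ← bN_self]
  exact bN_perm σ hw f f g g

theorem qN_reflN {w : Conf N → ℝ} (k : Fin 3) (hw : ∀ x, w (D.reflN k x) = w x)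
    (f : Conf N → ℝ) (g : Fin N → Fin 3 → Conf N → ℝ) :
    qN w (fun x => f (D.reflN k x)) (fun i l x => (if l = k then -1 else 1) * g i l (D.reflN k x))
      = qN w f g := by
  unfold qN
  congr 1
  · congr 1
    refine Finset.sum_congr rfl fun i _ => Finset.sum_congr rfl fun l _ => ?_
    rw [← integral_reflN k (fun x => g i l x ^ 2)]
    refine integral_congr_ae (Filter.Eventually.of_forall fun x => ?_)
    simp only
    split_ifs <;> ring
  · rw [← integral_reflN k (fun x => w x * f x ^ 2)]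
    simp only [hw]

/-- bilinearity -/
theorem bN_add_right {w : Conf N → ℝ} (hw : FBd w) {f f₁ f₂ : Conf N → ℝ}
    {g g₁ g₂ : Fin N → Fin 3 → Conf N → ℝ} (h : HN f g) (h₁ : HN f₁ g₁) (h₂ : HN f₂ g₂) :
    bN w f g (fun x => f₁ x + f₂ x) (fun i k x => g₁ i k x + g₂ i k x)
      = bN w f g f₁ g₁ + bN w f g f₂ g₂ := by
  unfold bN
  have e1 : ∀ i k, ∫ x, g i k x * (g₁ i k x + g₂ i k x) =
      (∫ x, g i k x * g₁ i k x) + ∫ x, g i k x * g₂ i k x := by
    intro i k
    simp only [mul_add]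
    exact integral_add ((h.memLp' i k).integrable_mul (h₁.memLp' i k))
      ((h.memLp' i k).integrable_mul (h₂.memLp' i k))
  have e2 : ∫ x, w x * (f x * (f₁ x + f₂ x)) =
      (∫ x, w x * (f x * f₁ x)) + ∫ x, w x * (f x * f₂ x) := by
    simp only [mul_add]
    exact integral_add (hw.integrable_mul h h₁) (hw.integrable_mul h h₂)
  simp only [e1, e2, Finset.sum_add_distrib]
  ring

theorem bN_const_mul_right {w : Conf N → ℝ} {f f₁ : Conf N → ℝ}
    {g g₁ : Fin N → Fin 3 → Conf N → ℝ} (c : ℝ) :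
    bN w f g (fun x => c * f₁ x) (fun i k x => c * g₁ i k x) = c * bN w f g f₁ g₁ := by
  unfold bN
  have e1 : ∀ i k, ∫ x, g i k x * (c * g₁ i k x) = c * ∫ x, g i k x * g₁ i k x := by
    intro i k
    rw [← integral_const_mul]
    refine integral_congr_ae (Filter.Eventually.of_forall fun x => ?_)
    simp only
    ring
  have e2 : ∫ x, w x * (f x * (c * f₁ x)) = c * ∫ x, w x * (f x * f₁ x) := by
    rw [← integral_const_mul]
    refine integral_congr_ae (Filter.Eventually.of_forall fun x => ?_)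
    simp only
    ring
  simp only [e1, ← Finset.mul_sum, e2]
  ring

theorem bN_congr {w : Conf N → ℝ} {f f' f₁ f₁' : Conf N → ℝ}
    {g g' g₁ g₁' : Fin N → Fin 3 → Conf N → ℝ} (h1 : f =ᵐ[volume] f')
    (h2 : ∀ i k, g i k =ᵐ[volume] g' i k) (h3 : f₁ =ᵐ[volume] f₁')
    (h4 : ∀ i k, g₁ i k =ᵐ[volume] g₁' i k) : bN w f g f₁ g₁ = bN w f' g' f₁' g₁' := by
  unfold bN
  congr 1
  · congr 1
    refine Finset.sum_congr rfl fun i _ => Finset.sum_congr rfl fun k _ => ?_
    refine integral_congr_ae ?_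
    filter_upwards [h2 i k, h4 i k] with x a b
    rw [a, b]
  · refine integral_congr_ae ?_
    filter_upwards [h1, h3] with x a b
    rw [a, b]

/-- the two sectors -/
def S4 : Set (Equiv.Perm (Fin 4)) := {Equiv.swap 0 1, Equiv.swap 2 3}

def S3 : Set (Equiv.Perm (Fin 3)) := {Equiv.swap 1 2}

theorem Sec4.anti {f : Conf 4 → ℝ} (h : Sec4 f) : ∀ σ ∈ S4, ∀ᵐ x : Conf 4, f (x ∘ σ) = - f x := by
  intro σ hσ
  rcases hσ with rfl | hσ
  · exact h.1
  · rw [Set.mem_singleton_iff] at hσ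
    subst hσ
    exact h.2

theorem Sec3.anti {f : Conf 3 → ℝ} (h : Sec3 f) : ∀ σ ∈ S3, ∀ᵐ x : Conf 3, f (x ∘ σ) = - f x := by
  intro σ hσ
  rw [S3, Set.mem_singleton_iff] at hσ
  subst hσ
  exact h

theorem val_Sec4 (u : QS 4 S4) : Sec4 (val u) :=
  ⟨val_anti u _ (Or.inl rfl), val_anti u _ (Or.inr rfl)⟩

theorem val_Sec3 (u : QS 3 S3) : Sec3 (val u) := val_anti u _ rfl

/-! ### from sector test functions to all test functions -/

variable {S : Set (Equiv.Perm (Fin N))}

theorem grd_anti (u : QS N S) {σ : Equiv.Perm (Fin N)} (hσ : σ ∈ S) (i : Fin N) (k : Fin 3) :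
    (fun x => grd u (σ.symm i) k (x ∘ σ)) =ᵐ[volume] fun x => (-1) * grd u i k x := by
  refine HN.grad_unique ((val_HN u).perm σ) ((val_HN u).const_mul (-1)) ?_ i k
  filter_upwards [val_anti u σ hσ] with x hx
  rw [hx]
  ring

theorem bN_perm_right {w : Conf N → ℝ} {σ : Equiv.Perm (Fin N)} (hσ : σ ∈ S)
    (hw : ∀ x, w (x ∘ σ) = w x) (u : QS N S) (f : Conf N → ℝ) (g : Fin N → Fin 3 → Conf N → ℝ) :
    bN w (val u) (grd u) (fun x => f (x ∘ σ)) (fun i k x => g (σ.symm i) k (x ∘ σ)) =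
      - bN w (val u) (grd u) f g := by
  have h1 := bN_perm σ hw (val u) f (grd u) g
  have h2 : bN w (fun x => val u (x ∘ σ)) (fun i k x => grd u (σ.symm i) k (x ∘ σ))
      (fun x => f (x ∘ σ)) (fun i k x => g (σ.symm i) k (x ∘ σ)) =
      bN w (fun x => (-1) * val u x) (fun i k x => (-1) * grd u i k x)
      (fun x => f (x ∘ σ)) (fun i k x => g (σ.symm i) k (x ∘ σ)) := by
    refine bN_congr ?_ (fun i k => grd_anti u hσ i k) (Filter.EventuallyEq.refl _ _)
      (fun i k => Filter.EventuallyEq.refl _ _)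
    filter_upwards [val_anti u σ hσ] with x hx
    rw [hx]
    ring
  rw [h2, bN_comm, bN_const_mul_right, bN_comm] at h1
  linarith only [h1]

theorem ip_perm_right {σ : Equiv.Perm (Fin N)} (hσ : σ ∈ S) (u : QS N S) (f : Conf N → ℝ) :
    ∫ x, val u x * f (x ∘ σ) = - ∫ x, val u x * f x := by
  rw [← integral_perm σ (fun x => val u x * f x), ← integral_neg]
  refine integral_congr_ae ?_
  filter_upwards [val_anti u σ hσ] with x hx
  rw [hx]
  ring

/-- antisymmetrization -/
def asF (σ : Equiv.Perm (Fin N)) (f : Conf N → ℝ) : Conf N → ℝ := fun x => f x + (-1) * f (x ∘ σ)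

def asG (σ : Equiv.Perm (Fin N)) (g : Fin N → Fin 3 → Conf N → ℝ) :
    Fin N → Fin 3 → Conf N → ℝ := fun i k x => g i k x + (-1) * g (σ.symm i) k (x ∘ σ)

theorem as_HN (σ : Equiv.Perm (Fin N)) {f : Conf N → ℝ} {g : Fin N → Fin 3 → Conf N → ℝ}
    (h : HN f g) : HN (asF σ f) (asG σ g) := h.add ((h.perm σ).const_mul (-1))

theorem as_bN {w : Conf N → ℝ} (hwb : FBd w) {σ : Equiv.Perm (Fin N)} (hσ : σ ∈ S)
    (hw : ∀ x, w (x ∘ σ) = w x) (u : QS N S) {f : Conf N → ℝ} {g : Fin N → Fin 3 → Conf N → ℝ}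
    (h : HN f g) : bN w (val u) (grd u) (asF σ f) (asG σ g) = 2 * bN w (val u) (grd u) f g := by
  unfold asF asG
  rw [bN_add_right hwb (val_HN u) h ((h.perm σ).const_mul (-1)), bN_const_mul_right,
    bN_perm_right hσ hw]
  ring

theorem as_ip {σ : Equiv.Perm (Fin N)} (hσ : σ ∈ S) (u : QS N S) {f : Conf N → ℝ}
    {g : Fin N → Fin 3 → Conf N → ℝ} (h : HN f g) :
    ∫ x, val u x * asF σ f x = 2 * ∫ x, val u x * f x := by
  unfold asF
  have e1 : ∫ x, val u x * (f x + (-1) * f (x ∘ σ)) =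
      (∫ x, val u x * f x) + ∫ x, val u x * ((-1) * f (x ∘ σ)) := by
    simp only [mul_add]
    exact integral_add ((val_memLp u).integrable_mul h.memLp)
      ((val_memLp u).integrable_mul ((h.perm σ).const_mul (-1)).memLp)
  have e2 : ∫ x, val u x * ((-1) * f (x ∘ σ)) = (-1) * ∫ x, val u x * f (x ∘ σ) := by
    rw [← integral_const_mul]
    refine integral_congr_ae (Filter.Eventually.of_forall fun x => ?_)
    simp only
    ring
  rw [e1, e2, ip_perm_right hσ]
  ring

theorem as_anti {σ : Equiv.Perm (Fin N)} (hσ : σ * σ = 1) (f : Conf N → ℝ) (x : Conf N) :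
    asF σ f (x ∘ σ) = - asF σ f x := by
  have h1 : (x ∘ σ) ∘ σ = x := by
    have : (σ : Fin N → Fin N) ∘ σ = id := by
      rw [← Equiv.Perm.coe_mul, hσ]; rfl
    rw [Function.comp_assoc, this, Function.comp_id]
  unfold asF
  rw [h1]
  ring

theorem eq_all_aux {ε A L E : ℝ} {u : QS N S} {F : Conf N → ℝ} {G : Fin N → Fin 3 → Conf N → ℝ}
    (h : ∀ v : QS N S, (q0F N S + ε • wpF N S A L) u v = E * ipF N S u v) (hF : HN F G)
    (hS : ∀ σ ∈ S, ∀ᵐ x : Conf N, F (x ∘ σ) = - F x) :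
    bN (vN ε A L) (val u) (grd u) F G = E * ∫ x, val u x * F x := by
  have h1 := h (mk hF hS)
  rw [qe_apply, ipF_apply] at h1
  rw [bN_congr (Filter.EventuallyEq.refl _ (val u))
    (fun i k => Filter.EventuallyEq.refl _ (grd u i k)) (val_mk hF hS).symm
    (fun i k => (grd_mk hF hS i k).symm), h1]
  congr 1
  refine integral_congr_ae ?_
  filter_upwards [val_mk hF hS] with x hx
  rw [hx]

/-- the equation for sector test functions implies the equation for all test functions -/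
theorem eq_all4 {ε A L E : ℝ} {u : QS 4 S4}
    (h : ∀ v : QS 4 S4, (q0F 4 S4 + ε • wpF 4 S4 A L) u v = E * ipF 4 S4 u v) :
    ∀ f g, HN f g → bN (vN ε A L) (val u) (grd u) f g = E * ∫ x, val u x * f x := by
  intro f g hfg
  have m1 : Equiv.swap (0 : Fin 4) 1 ∈ S4 := Or.inl rfl
  have m2 : Equiv.swap (2 : Fin 4) 3 ∈ S4 := Or.inr rfl
  have hF1 := as_HN (Equiv.swap 0 1) hfg
  have hF := as_HN (Equiv.swap 2 3) hF1
  have hcomm : ∀ x : Conf 4, (x ∘ Equiv.swap 0 1) ∘ Equiv.swap 2 3 =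
      (x ∘ Equiv.swap 2 3) ∘ Equiv.swap 0 1 := by
    intro x
    rw [Function.comp_assoc, Function.comp_assoc]
    congr 1
    funext i
    revert i
    decide
  have key := eq_all_aux h hF (by
    rintro σ (rfl | hσ)
    · filter_upwards with x
      have e1 : ∀ y, asF (Equiv.swap (0 : Fin 4) 1) f (y ∘ Equiv.swap (0 : Fin 4) 1) =
          - asF (Equiv.swap 0 1) f y :=
        as_anti (by simp) f
      change asF (Equiv.swap 0 1) f (x ∘ Equiv.swap 0 1) +
          (-1) * asF (Equiv.swap 0 1) f ((x ∘ Equiv.swap 0 1) ∘ Equiv.swap 2 3) =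
        - (asF (Equiv.swap 0 1) f x + (-1) * asF (Equiv.swap 0 1) f (x ∘ Equiv.swap 2 3))
      rw [hcomm, e1, e1]
      ring
    · rw [Set.mem_singleton_iff] at hσ
      subst hσ
      filter_upwards with x
      exact as_anti (by simp) _ x)
  rw [as_bN (fbd_vN 4 ε A L) m2 (fun x => vN_perm _ _ _ _ _) u hF1,
    as_bN (fbd_vN 4 ε A L) m1 (fun x => vN_perm _ _ _ _ _) u hfg,
    as_ip m2 u hF1, as_ip m1 u hfg] at key
  linarith only [key]

theorem eq_all3 {ε A L E : ℝ} {u : QS 3 S3}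
    (h : ∀ v : QS 3 S3, (q0F 3 S3 + ε • wpF 3 S3 A L) u v = E * ipF 3 S3 u v) :
    ∀ f g, HN f g → bN (vN ε A L) (val u) (grd u) f g = E * ∫ x, val u x * f x := by
  intro f g hfg
  have m1 : Equiv.swap (1 : Fin 3) 2 ∈ S3 := rfl
  have hF1 := as_HN (Equiv.swap 1 2) hfg
  have key := eq_all_aux h hF1 (by
    intro σ hσ
    rw [S3, Set.mem_singleton_iff] at hσ
    subst hσ
    filter_upwards with x
    exact as_anti (by simp) _ x)
  rw [as_bN (fbd_vN 3 ε A L) m1 (fun x => vN_perm _ _ _ _ _) u hfg, as_ip m1 u hfg] at key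
  linarith only [key]

end

end Vale.Agent.P363.D
end
end

section

section

/-!
# P363, exact side, many-body part: definitions

Slices of functions on `R3 × Conf 3` over the first variable.
-/

namespace Vale.Agent.P363.D

open MeasureTheory Set Filter Topology
open scoped ENNReal ContDiff

noncomputable section

/-- Inner product of the slices. -/
def ipy (u w : X4 → ℝ) (x : R3) : ℝ := ∫ y, u (x, y) * w (x, y)

/-- Squared norm of the slice. -/
def nsq (u : X4 → ℝ) (x : R3) : ℝ := ∫ y, u (x, y) ^ 2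

/-- Norm of the slice. -/
def nrm (u : X4 → ℝ) (x : R3) : ℝ := √(nsq u x)

/-- Gradient of the norm of the slice. -/
def nrmg (u : X4 → ℝ) (ux : Fin 3 → X4 → ℝ) (k : Fin 3) (x : R3) : ℝ := ipy u (ux k) x / nrm u x

/-- The part of `F` whose slices are orthogonal to `Φ`; its `x`-gradient is `Pf (Fx k) Φ`. -/
def Pf (F : X4 → ℝ) (Φ : Conf 3 → ℝ) (p : X4) : ℝ := F p - dys F Φ p.1 * Φ p.2

/-- The `y`-gradient of `Pf F Φ`. -/
def Pfy (F : X4 → ℝ) (Fy : Fin 3 → Fin 3 → X4 → ℝ) (Φ : Conf 3 → ℝ)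
    (Φy : Fin 3 → Fin 3 → Conf 3 → ℝ) (i k : Fin 3) (p : X4) : ℝ :=
  Fy i k p - dys F Φ p.1 * Φy i k p.2

/-- Conditional energy of the other electrons (ion and repulsion with the electron at `x`). -/
def cen (ε A R : ℝ) (u : X4 → ℝ) (uy : Fin 3 → Fin 3 → X4 → ℝ) (x : R3) : ℝ :=
  qN (fun y => vN ε A R y + ε * rep x y) (fun y => u (x, y)) (fun i k y => uy i k (x, y))

/-- Repulsion potential of the ion. -/
def Uf (Φ : Conf 3 → ℝ) (x : R3) : ℝ := ∫ y, rep x y * (Φ y * Φ y)

/-- Source of the equation of the Dyson orbital. -/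
def Sf (ε : ℝ) (F : X4 → ℝ) (Φ : Conf 3 → ℝ) (x : R3) : ℝ :=
  ε * ∫ y, rep x y * (Φ y * Pf F Φ (x, y))

/-- Local `H¹` norm squared of the slices of the orthogonal part. -/
def TPf (F : X4 → ℝ) (Fx : Fin 3 → X4 → ℝ) (Fy : Fin 3 → Fin 3 → X4 → ℝ) (Φ : Conf 3 → ℝ)
    (Φy : Fin 3 → Fin 3 → Conf 3 → ℝ) (x : R3) : ℝ :=
  (∑ k, nsq (Pf (Fx k) Φ) x) + (∑ i, ∑ k, nsq (Pfy F Fy Φ Φy i k) x) + nsq (Pf F Φ) x

end

end Vale.Agent.P363.D
end
end

section

section

/-! # P363, exact side: slices -/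

namespace Vale.Agent.P363.D

open MeasureTheory Set Filter Topology
open scoped ENNReal ContDiff

noncomputable section

variable {u w : X4 → ℝ}

/-- Cauchy-Schwarz for integrals. -/
theorem e1_cs {α : Type*} [MeasurableSpace α] {ν : Measure α} {a b : α → ℝ}
    (ha : MemLp a 2 ν) (hb : MemLp b 2 ν) :
    |∫ x, a x * b x ∂ν| ≤ √(∫ x, a x ^ 2 ∂ν) * √(∫ x, b x ^ 2 ∂ν) := by
  have hA := ha.integrable_sq
  have hB := hb.integrable_sq
  have hAB : Integrable (fun x => a x * b x) ν := ha.integrable_mul hb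
  have key : ∀ t : ℝ, 0 ≤ (∫ x, b x ^ 2 ∂ν) * (t * t) +
      (2 * ∫ x, a x * b x ∂ν) * t + ∫ x, a x ^ 2 ∂ν := by
    intro t
    have j1 : Integrable (fun x => b x ^ 2 * (t * t) + a x * b x * (2 * t)) ν :=
      (hB.mul_const _).add (hAB.mul_const _)
    have e : ∫ x, (a x + t * b x) ^ 2 ∂ν = (∫ x, b x ^ 2 ∂ν) * (t * t) +
      (2 * ∫ x, a x * b x ∂ν) * t + ∫ x, a x ^ 2 ∂ν := by
      have e1 : ∀ x, (a x + t * b x) ^ 2 = (b x ^ 2 * (t * t) + a x * b x * (2 * t)) + a x ^ 2 := by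
        intro x
        ring
      simp_rw [e1]
      rw [integral_add j1 hA, integral_add (hB.mul_const _) (hAB.mul_const _),
        integral_mul_const, integral_mul_const]
      ring
    rw [← e]
    exact integral_nonneg fun x => sq_nonneg _
  have hd := discrim_le_zero key
  unfold discrim at hd
  rw [← Real.sqrt_mul (integral_nonneg fun x => sq_nonneg _)]
  apply Real.abs_le_sqrt
  linarith

/-- Almost all slices of a square integrable function are square integrable. -/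
theorem slice_memLp (hu : MemLp u 2 volume) : ∀ᵐ x : R3, MemLp (fun y => u (x, y)) 2 volume := by
  have h1 : Integrable (fun p => u p ^ 2) (volume.prod volume) := hu.integrable_sq
  have h2 : AEStronglyMeasurable u (volume.prod volume) := hu.1
  filter_upwards [h1.prod_right_ae, h2.prodMk_left] with x hx hm
  exact (memLp_two_iff_integrable_sq hm).2 hx

/-- Fubini with a weight depending on the first variable. -/
theorem fubini_fst {G : X4 → ℝ} (g : R3 → ℝ) (hG : Integrable (fun p : X4 => g p.1 * G p) volume) :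
    Integrable (fun x => g x * ∫ y, G (x, y)) volume ∧
      ∫ p : X4, g p.1 * G p = ∫ x, g x * ∫ y, G (x, y) := by
  have h1 : Integrable (fun p : X4 => g p.1 * G p) (volume.prod volume) := hG
  have h2 := h1.integral_prod_left
  simp only [integral_const_mul] at h2
  refine ⟨h2, ?_⟩
  have h3 := integral_prod _ h1
  simp only [integral_const_mul] at h3
  exact h3

theorem ipy_integrable (hu : MemLp u 2 volume) (hw : MemLp w 2 volume) :
    Integrable (ipy u w) volume ∧ ∫ x, ipy u w x = ∫ p, u p * w p := by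
  have h1 : Integrable (fun p : X4 => u p * w p) (volume.prod volume) := hu.integrable_mul hw
  exact ⟨h1.integral_prod_left, (integral_prod _ h1).symm⟩

theorem nsq_integrable (hu : MemLp u 2 volume) :
    Integrable (nsq u) volume ∧ ∫ x, nsq u x = ∫ p, u p ^ 2 := by
  have h1 : Integrable (fun p : X4 => u p ^ 2) (volume.prod volume) := hu.integrable_sq
  exact ⟨h1.integral_prod_left, (integral_prod _ h1).symm⟩

theorem nsq_nonneg (u : X4 → ℝ) (x : R3) : 0 ≤ nsq u x := integral_nonneg fun _ => sq_nonneg _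

theorem nrm_sq (u : X4 → ℝ) (x : R3) : nrm u x ^ 2 = nsq u x := Real.sq_sqrt (nsq_nonneg u x)

theorem nrm_nonneg (u : X4 → ℝ) (x : R3) : 0 ≤ nrm u x := Real.sqrt_nonneg _

theorem nrm_memLp (hu : MemLp u 2 volume) : MemLp (nrm u) 2 volume := by
  have hm : AEStronglyMeasurable (nrm u) volume :=
    Real.continuous_sqrt.comp_aestronglyMeasurable (nsq_integrable hu).1.1
  rw [memLp_two_iff_integrable_sq hm]
  simp only [nrm_sq]
  exact (nsq_integrable hu).1

/-- Cauchy-Schwarz on the slices. -/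
theorem ipy_cs (hu : MemLp u 2 volume) (hw : MemLp w 2 volume) :
    ∀ᵐ x : R3, |ipy u w x| ≤ nrm u x * nrm w x := by
  filter_upwards [slice_memLp hu, slice_memLp hw] with x h1 h2
  exact e1_cs h1 h2

theorem e1_slice_right {X Y : Type*} [NormedAddCommGroup X] [NormedSpace ℝ X]
    [FiniteDimensional ℝ X] [MeasurableSpace X] [BorelSpace X] {μ : Measure X}
    [μ.IsAddHaarMeasure] [NormedAddCommGroup Y] [NormedSpace ℝ Y] [FiniteDimensional ℝ Y]
    [MeasurableSpace Y] [BorelSpace Y] {ν : Measure Y} [ν.IsAddHaarMeasure]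
    {e : Y} {F F' : X × Y → ℝ} (h : ACL (μ.prod ν) ((0, e) : X × Y) F F') :
    ∀ᵐ x ∂μ, ACL ν e (fun y => F (x, y)) (fun y => F' (x, y)) := by
  have h1 := Measure.ae_ae_of_ae_prod h.locInt
  have h2 := Measure.ae_ae_of_ae_prod h.ftc
  filter_upwards [h1, h2, h.meas.prodMk_left, h.meas'.prodMk_left] with x h3 h4 h5 h6
  refine ⟨h5, h6, ?_, ?_⟩
  · filter_upwards [h3] with y hy
    simpa only [Prod.smul_mk, smul_zero, Prod.mk_add_mk, add_zero] using hy
  · filter_upwards [h4] with y hy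
    filter_upwards [hy] with t ht
    simpa only [Prod.smul_mk, smul_zero, Prod.mk_add_mk, add_zero] using ht

/-- Slices of `H¹` functions are `H¹`. -/
theorem HX.slice {ux : Fin 3 → X4 → ℝ} {uy : Fin 3 → Fin 3 → X4 → ℝ} (h : HX u ux uy) :
    ∀ᵐ x : R3, HN (fun y => u (x, y)) (fun i k y => uy i k (x, y)) := by
  have h1 : ∀ᵐ x : R3, ∀ i k, MemLp (fun y => uy i k (x, y)) 2 volume := by
    rw [ae_all_iff]
    intro i
    rw [ae_all_iff]
    intro k
    exact slice_memLp (h.memLpy i k)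
  have h2 : ∀ᵐ x : R3, ∀ i k, ACL volume (axisDir i k) (fun y => u (x, y))
      (fun y => uy i k (x, y)) := by
    rw [ae_all_iff]
    intro i
    rw [ae_all_iff]
    intro k
    exact e1_slice_right (h.acly i k)
  filter_upwards [slice_memLp h.memLp, h1, h2] with x a1 a2 a3
  exact ⟨a1, a2, a3⟩

end

end Vale.Agent.P363.D
end
end

section

section

/-! # P363, exact side: the Dyson orbital is an `H¹` function -/

namespace Vale.Agent.P363.D

open MeasureTheory Set Filter Topology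
open scoped ENNReal ContDiff

noncomputable section

theorem e3_cs {X : Type*} [MeasurableSpace X] {μ : Measure X} {f g : X → ℝ}
    (hf : MemLp f 2 μ) (hg : MemLp g 2 μ) :
    (∫ x, f x * g x ∂μ) ^ 2 ≤ (∫ x, f x ^ 2 ∂μ) * ∫ x, g x ^ 2 ∂μ := by
  have i1 : Integrable (fun x => f x ^ 2) μ := hf.integrable_sq
  have i2 : Integrable (fun x => g x ^ 2) μ := hg.integrable_sq
  have i3 : Integrable (fun x => f x * g x) μ := hf.integrable_mul hg
  have key : ∀ t : ℝ, 0 ≤ (∫ x, g x ^ 2 ∂μ) * (t * t) + (2 * ∫ x, f x * g x ∂μ) * t +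
      ∫ x, f x ^ 2 ∂μ := by
    intro t
    have h0 : 0 ≤ ∫ x, (f x + t * g x) ^ 2 ∂μ := integral_nonneg fun x => sq_nonneg _
    have e1 : (fun x => (f x + t * g x) ^ 2)
        = fun x => (f x ^ 2 + 2 * t * (f x * g x)) + t ^ 2 * g x ^ 2 := by
      funext x; ring
    have i4 : Integrable (fun x => f x ^ 2 + 2 * t * (f x * g x)) μ := i1.add (i3.const_mul _)
    rw [e1, integral_add i4 (i2.const_mul _), integral_add i1 (i3.const_mul _),
      integral_const_mul, integral_const_mul] at h0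
    linarith
  have hd := discrim_le_zero key
  rw [discrim] at hd
  linarith only [hd]

theorem e3_snd {Φ : Conf 3 → ℝ} (hΦ : AEStronglyMeasurable Φ volume) :
    AEStronglyMeasurable (fun p : X4 => Φ p.2) volume := by
  rw [Measure.volume_eq_prod]
  exact hΦ.comp_quasiMeasurePreserving Measure.quasiMeasurePreserving_snd

theorem e3_meas {F : X4 → ℝ} {Φ : Conf 3 → ℝ} (hF : AEStronglyMeasurable F volume)
    (hΦ : AEStronglyMeasurable Φ volume) :
    AEStronglyMeasurable (fun p : X4 => Φ p.2 * F p) volume := (e3_snd hΦ).mul hF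

/-- The Dyson orbital is square integrable. -/
theorem e3_memLp {F : X4 → ℝ} {Φ : Conf 3 → ℝ} (hF : MemLp F 2 volume)
    (hΦ : MemLp Φ 2 volume) : MemLp (dys F Φ) 2 volume := by
  have hm : AEStronglyMeasurable (dys F Φ) volume := by
    have h := e3_meas hF.1 hΦ.1
    rw [Measure.volume_eq_prod] at h
    exact h.integral_prod_right'
  rw [memLp_two_iff_integrable_sq hm]
  refine ((nsq_integrable hF).1.const_mul (∫ y, Φ y ^ 2)).mono' (hm.pow 2) ?_
  filter_upwards [slice_memLp hF] with x hx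
  rw [Real.norm_of_nonneg (sq_nonneg _)]
  exact e3_cs hΦ hx

/-- Tensor products of square integrable functions are square integrable. -/
theorem e3_tensor {φ : R3 → ℝ} {Φ : Conf 3 → ℝ} (hφ : MemLp φ 2 volume)
    (hΦ : MemLp Φ 2 volume) : MemLp (fun p : X4 => φ p.1 * Φ p.2) 2 volume := by
  have hm1 : AEStronglyMeasurable (fun p : X4 => φ p.1) volume := by
    rw [Measure.volume_eq_prod]
    exact hφ.1.comp_quasiMeasurePreserving Measure.quasiMeasurePreserving_fst
  have hm : AEStronglyMeasurable (fun p : X4 => φ p.1 * Φ p.2) volume := hm1.mul (e3_snd hΦ.1)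
  rw [memLp_two_iff_integrable_sq hm]
  have h := hφ.integrable_sq.mul_prod hΦ.integrable_sq
  rw [← Measure.volume_eq_prod] at h
  refine h.congr (Eventually.of_forall fun p => ?_)
  simp only
  ring

theorem dys_H1o {F : X4 → ℝ} {Fx : Fin 3 → X4 → ℝ} {Fy : Fin 3 → Fin 3 → X4 → ℝ}
    {Φ : Conf 3 → ℝ} (hF : HX F Fx Fy) (hΦ : MemLp Φ 2 volume) :
    H1o (dys F Φ) (fun k => dys (Fx k) Φ) := by
  have hd := e3_memLp hF.memLp hΦ
  have hd' := fun k => e3_memLp (hF.memLpx k) hΦ
  refine ⟨hd, hd', fun k => ?_⟩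
  refine ACL.of_weak (hd.locallyIntegrable (by norm_num)) ((hd' k).locallyIntegrable (by norm_num))
    fun φ hφ hc => ?_
  have hφ1 : ContDiff ℝ 1 φ := hφ.of_le (by exact_mod_cast le_top)
  -- the test function times the ion
  have a1 : ACL volume ((dir3 k, 0) : X4) (fun p : X4 => φ p.1)
      (fun p => fderiv ℝ φ p.1 (dir3 k)) := by
    have hq : Measure.QuasiMeasurePreserving (Prod.fst : X4 → R3) volume volume := by
      rw [Measure.volume_eq_prod R3 (Conf 3)]
      exact Measure.quasiMeasurePreserving_fst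
    exact ACL.comp_qmp (e := ((dir3 k, 0) : X4)) (e' := dir3 k) hq (fun x t => rfl)
      (ACL.of_contDiff hφ1)
  have a2 : ACL volume ((dir3 k, 0) : X4) (fun p : X4 => Φ p.2) (fun _ => 0) := by
    have hq : Measure.QuasiMeasurePreserving (Prod.snd : X4 → Conf 3) volume volume := by
      rw [Measure.volume_eq_prod R3 (Conf 3)]
      exact Measure.quasiMeasurePreserving_snd
    exact ACL.comp_qmp (e := ((dir3 k, 0) : X4)) (e' := (0 : Conf 3)) hq (fun x t => rfl)
      (ACL.zero_dir hΦ.1)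
  have a3 := a1.mul a2
  have hdc : Continuous (fun x => fderiv ℝ φ x (dir3 k)) :=
    (hφ1.continuous_fderiv (by norm_num)).clm_apply continuous_const
  have hφL : MemLp φ 2 volume := hφ.continuous.memLp_of_hasCompactSupport hc
  have hφL' : MemLp (fun x => fderiv ℝ φ x (dir3 k)) 2 volume :=
    hdc.memLp_of_hasCompactSupport (hc.fderiv_apply ℝ (dir3 k))
  have t1 := e3_tensor hφL hΦ
  have t2 := e3_tensor hφL' hΦ
  have e0 : (fun p : X4 => fderiv ℝ φ p.1 (dir3 k) * Φ p.2 + φ p.1 * 0)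
      = fun p : X4 => fderiv ℝ φ p.1 (dir3 k) * Φ p.2 := by
    funext p
    ring
  rw [e0] at a3
  have key := (hF.aclx k).integral_mul a3 (hF.memLp.integrable_mul t1)
    ((hF.memLpx k).integrable_mul t1) (hF.memLp.integrable_mul t2)
  have e1 : (fun p : X4 => F p * (fderiv ℝ φ p.1 (dir3 k) * Φ p.2))
      = fun p : X4 => fderiv ℝ φ p.1 (dir3 k) * (Φ p.2 * F p) := by
    funext p
    ring
  have e2 : (fun p : X4 => Fx k p * (φ p.1 * Φ p.2))
      = fun p : X4 => φ p.1 * (Φ p.2 * Fx k p) := by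
    funext p
    ring
  have i1 := hF.memLp.integrable_mul t2
  have i2 := (hF.memLpx k).integrable_mul t1
  have i1' : Integrable (fun p : X4 => fderiv ℝ φ p.1 (dir3 k) * (Φ p.2 * F p)) volume := by
    rw [← e1]
    exact i1
  have i2' : Integrable (fun p : X4 => φ p.1 * (Φ p.2 * Fx k p)) volume := by
    rw [← e2]
    exact i2
  rw [e1, e2, (fubini_fst (fun x => fderiv ℝ φ x (dir3 k)) i1').2, (fubini_fst φ i2').2] at key
  exact key

end

end Vale.Agent.P363.D
end
end

section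

section

/-! # P363, exact side: operations on `H¹` functions on `R3 × Conf 3` -/

namespace Vale.Agent.P363.D

open MeasureTheory Set Filter Topology
open scoped ENNReal ContDiff

noncomputable section

theorem HX.sub {u w : X4 → ℝ} {ux wx : Fin 3 → X4 → ℝ} {uy wy : Fin 3 → Fin 3 → X4 → ℝ}
    (hu : HX u ux uy) (hw : HX w wx wy) :
    HX (fun p => u p - w p) (fun k p => ux k p - wx k p) (fun i k p => uy i k p - wy i k p) :=
  ⟨hu.memLp.sub hw.memLp, fun k => (hu.memLpx k).sub (hw.memLpx k),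
    fun i k => (hu.memLpy i k).sub (hw.memLpy i k), fun k => (hu.aclx k).sub (hw.aclx k),
    fun i k => (hu.acly i k).sub (hw.acly i k)⟩

theorem e4_qmp_fst : Measure.QuasiMeasurePreserving (Prod.fst : X4 → R3) volume volume := by
  rw [Measure.volume_eq_prod]
  exact Measure.quasiMeasurePreserving_fst

theorem e4_qmp_snd : Measure.QuasiMeasurePreserving (Prod.snd : X4 → Conf 3) volume volume := by
  rw [Measure.volume_eq_prod]
  exact Measure.quasiMeasurePreserving_snd

/-- functions of the first variable, derivative in the first variable -/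
theorem e4_fst_x {f f' : R3 → ℝ} {e : R3} (h : ACL volume e f f') :
    ACL volume ((e, 0) : X4) (fun p => f p.1) (fun p => f' p.1) :=
  ACL.comp_qmp e4_qmp_fst (fun _ _ => rfl) h

/-- functions of the first variable, derivative in the second variable -/
theorem e4_fst_y {f : R3 → ℝ} (e : Conf 3) (h : AEStronglyMeasurable f volume) :
    ACL volume ((0, e) : X4) (fun p => f p.1) (fun _ => 0) :=
  ACL.comp_qmp (e := ((0, e) : X4)) (e' := 0) e4_qmp_fst (fun _ _ => rfl) (ACL.zero_dir h)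

/-- functions of the second variable, derivative in the second variable -/
theorem e4_snd_y {f f' : Conf 3 → ℝ} {e : Conf 3} (h : ACL volume e f f') :
    ACL volume ((0, e) : X4) (fun p => f p.2) (fun p => f' p.2) :=
  ACL.comp_qmp e4_qmp_snd (fun _ _ => rfl) h

/-- functions of the second variable, derivative in the first variable -/
theorem e4_snd_x {f : Conf 3 → ℝ} (e : R3) (h : AEStronglyMeasurable f volume) :
    ACL volume ((e, 0) : X4) (fun p => f p.2) (fun _ => 0) :=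
  ACL.comp_qmp (e := ((e, 0) : X4)) (e' := 0) e4_qmp_snd (fun _ _ => rfl) (ACL.zero_dir h)

theorem e4_tensor_memLp {f : R3 → ℝ} {Φ : Conf 3 → ℝ} (hf : MemLp f 2 volume)
    (hΦ : MemLp Φ 2 volume) : MemLp (fun p : X4 => f p.1 * Φ p.2) 2 volume := by
  have hm : AEStronglyMeasurable (fun p : X4 => f p.1 * Φ p.2) volume :=
    (hf.1.comp_quasiMeasurePreserving e4_qmp_fst).mul
      (hΦ.1.comp_quasiMeasurePreserving e4_qmp_snd)
  rw [memLp_two_iff_integrable_sq hm]
  have h1 := hf.integrable_sq.mul_prod hΦ.integrable_sq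
  rw [← Measure.volume_eq_prod] at h1
  refine h1.congr (Eventually.of_forall fun p => ?_)
  simp only
  ring

/-- Tensor products. -/
theorem HX.tensor {f : R3 → ℝ} {fg : Fin 3 → R3 → ℝ} {Φ : Conf 3 → ℝ}
    {Φy : Fin 3 → Fin 3 → Conf 3 → ℝ} (hf : H1o f fg) (hΦ : HN Φ Φy) :
    HX (fun p => f p.1 * Φ p.2) (fun k p => fg k p.1 * Φ p.2)
      (fun i k p => f p.1 * Φy i k p.2) := by
  refine ⟨e4_tensor_memLp hf.memLp hΦ.memLp, fun k => e4_tensor_memLp (hf.memLp' k) hΦ.memLp,
    fun i k => e4_tensor_memLp hf.memLp (hΦ.memLp' i k), fun k => ?_, fun i k => ?_⟩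
  · refine ((e4_fst_x (hf.acl k)).mul (e4_snd_x (dir3 k) hΦ.memLp.1)).congr
      (EventuallyEq.refl _ _) (Eventually.of_forall fun p => ?_)
    simp only
    ring
  · refine ((e4_fst_y (axisDir i k) hf.memLp.1).mul (e4_snd_y (hΦ.acl i k))).congr
      (EventuallyEq.refl _ _) (Eventually.of_forall fun p => ?_)
    simp only
    ring

/-- Multiplication by a bounded function of the first variable. -/
theorem HX.gmul {u : X4 → ℝ} {ux : Fin 3 → X4 → ℝ} {uy : Fin 3 → Fin 3 → X4 → ℝ}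
    (h : HX u ux uy) {g : R3 → ℝ} {gg : Fin 3 → R3 → ℝ} {C : ℝ}
    (hg : ∀ k, ACL volume (dir3 k) g (gg k)) (hb : ∀ᵐ x : R3, |g x| ≤ C)
    (hgg : ∀ k, MemLp (fun x => gg k x * nrm u x) 2 volume) :
    HX (fun p => g p.1 * u p) (fun k p => gg k p.1 * u p + g p.1 * ux k p)
      (fun i k p => g p.1 * uy i k p) := by
  have mg : AEStronglyMeasurable (fun p : X4 => g p.1) volume :=
    (hg 0).meas.comp_quasiMeasurePreserving e4_qmp_fst
  have hb' : ∀ᵐ p : X4, |g p.1| ≤ C := e4_qmp_fst.ae hb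
  have hbd : ∀ {w : X4 → ℝ}, MemLp w 2 volume → MemLp (fun p : X4 => g p.1 * w p) 2 volume := by
    intro w hw
    refine hw.of_le_mul (c := C) (mg.mul hw.1) ?_
    filter_upwards [hb'] with p hp
    rw [norm_mul]
    exact mul_le_mul_of_nonneg_right hp (norm_nonneg _)
  have hsl := slice_memLp h.memLp
  have hgu : ∀ k, MemLp (fun p : X4 => gg k p.1 * u p) 2 volume := by
    intro k
    have hm : AEStronglyMeasurable (fun p : X4 => gg k p.1 * u p) volume :=
      ((hg k).meas'.comp_quasiMeasurePreserving e4_qmp_fst).mul h.memLp.1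
    rw [memLp_two_iff_integrable_sq hm]
    have hm2 : AEStronglyMeasurable (fun p : X4 => (gg k p.1 * u p) ^ 2) volume := hm.pow 2
    rw [Measure.volume_eq_prod] at hm2 ⊢
    rw [integrable_prod_iff hm2]
    constructor
    · filter_upwards [hsl] with x hx
      refine (hx.integrable_sq.const_mul (gg k x ^ 2)).congr (Eventually.of_forall fun y => ?_)
      simp only
      ring
    · refine (hgg k).integrable_sq.congr (Eventually.of_forall fun x => ?_)
      have e1 : ∀ y : Conf 3, ‖(gg k x * u (x, y)) ^ 2‖ = gg k x ^ 2 * u (x, y) ^ 2 := by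
        intro y
        rw [Real.norm_of_nonneg (sq_nonneg _)]
        ring
      simp only [e1]
      rw [integral_const_mul, mul_pow, nrm_sq]
      rfl
  refine ⟨hbd h.memLp, fun k => (hgu k).add (hbd (h.memLpx k)), fun i k => hbd (h.memLpy i k),
    fun k => (e4_fst_x (hg k)).mul (h.aclx k), fun i k => ?_⟩
  refine ((e4_fst_y (axisDir i k) (hg 0).meas).mul (h.acly i k)).congr
    (EventuallyEq.refl _ _) (Eventually.of_forall fun p => ?_)
  simp only
  ring

/-- The part orthogonal to `Φ`. -/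
theorem HX.Pf {F : X4 → ℝ} {Fx : Fin 3 → X4 → ℝ} {Fy : Fin 3 → Fin 3 → X4 → ℝ}
    {Φ : Conf 3 → ℝ} {Φy : Fin 3 → Fin 3 → Conf 3 → ℝ} (hF : HX F Fx Fy) (hΦ : HN Φ Φy)
    (hd : H1o (dys F Φ) (fun k => dys (Fx k) Φ)) :
    HX (Pf F Φ) (fun k => Pf (Fx k) Φ) (Pfy F Fy Φ Φy) :=
  hF.sub (HX.tensor hd hΦ)

end

end Vale.Agent.P363.D
end
end

section

section

/-! # P363, exact side: integrability of the Coulomb terms -/

namespace Vale.Agent.P363.D

open MeasureTheory Set Filter Topology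
open scoped ENNReal ContDiff

noncomputable section

theorem H1o.int_v1 {f g : R3 → ℝ} {fg gg : Fin 3 → R3 → ℝ} (hf : H1o f fg) (hg : H1o g gg)
    (ε A R : ℝ) : Integrable (fun x => v1 ε A R x * (f x * g x)) volume := by
  have h : ∀ c : R3, Integrable (fun x => (1 / ‖x - c‖) * (f x * g x)) volume := by
    intro c
    apply hardy_mul (a := fun x : R3 => x - c) (e := dir3) (by fun_prop) _ hf.memLp hf.memLp'
      hf.acl hg.memLp hg.memLp' hg.acl
    intro x k t
    simp only [dir3]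
    abel
  refine ((h 0).neg.sub (((h (R • ez)).add (h (-(R • ez)))).const_mul (ε * A))).congr ?_
  filter_upwards with x
  simp only [Pi.add_apply, Pi.sub_apply, Pi.neg_apply]
  unfold v1
  rw [sub_neg_eq_add, sub_zero]
  ring

theorem HN.int_vN {N : ℕ} {f g : Conf N → ℝ} {fg gg : Fin N → Fin 3 → Conf N → ℝ}
    (hf : HN f fg) (hg : HN g gg) (ε A R : ℝ) :
    Integrable (fun y => vN ε A R y * (f y * g y)) volume :=
  (fbd_vN N ε A R).integrable_mul hf hg

theorem fbd_repx {N : ℕ} (x : R3) : FBd (fun y : Conf N => rep x y) := by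
  have h : FBd (fun y : Conf N => ∑ i, 1 / ‖y i - x‖) :=
    FBd.sum Finset.univ fun i _ => fbd_nuc i x
  have e : (fun y : Conf N => rep x y) = fun y : Conf N => ∑ i, 1 / ‖y i - x‖ := by
    funext y
    unfold rep
    exact Finset.sum_congr rfl fun i _ => by rw [norm_sub_rev]
  rw [e]
  exact h

theorem HN.int_rep {N : ℕ} {f g : Conf N → ℝ} {fg gg : Fin N → Fin 3 → Conf N → ℝ}
    (hf : HN f fg) (hg : HN g gg) (x : R3) :
    Integrable (fun y => rep x y * (f y * g y)) volume :=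
  (fbd_repx x).integrable_mul hf hg

/-- Relative bound of the repulsion, uniform in the position of the distinguished electron. -/
theorem HN.rep_le {N : ℕ} {f : Conf N → ℝ} {fg : Fin N → Fin 3 → Conf N → ℝ} (hf : HN f fg)
    (x : R3) {δ : ℝ} (hδ : 0 < δ) :
    ∫ y, rep x y * (f y * f y) ≤ δ * (∑ i, ∑ k, ∫ y, fg i k y ^ 2) + (3 * N / δ) * ∫ y, f y ^ 2 := by
  have hae : ∀ i : Fin N, ∀ (y : Conf N) (k : Fin 3) (t : ℝ), (fun y : Conf N => y i - x)
      (y + t • axisDir i k) = (fun y : Conf N => y i - x) y +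
        t • (EuclideanSpace.single k (1 : ℝ) : R3) := by
    intro i y k t
    simp only [Pi.add_apply, Pi.smul_apply, axisDir_self]
    abel
  have hi : ∀ i : Fin N, Integrable (fun y => f y ^ 2 / ‖y i - x‖) := fun i =>
    (hardy (μ := (volume : Measure (Conf N))) (a := fun y : Conf N => y i - x)
      (e := axisDir i) (by fun_prop) (hae i) hf.memLp (hf.memLp' i) (hf.acl i)).1
  have key : ∀ i : Fin N, ∫ y, f y ^ 2 / ‖y i - x‖ ≤
      δ * (∑ k, ∫ y, fg i k y ^ 2) + (3 / δ) * ∫ y, f y ^ 2 := fun i =>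
    hardy_small (μ := (volume : Measure (Conf N))) (a := fun y : Conf N => y i - x)
      (e := axisDir i) (by fun_prop) (hae i) hf.memLp (hf.memLp' i) (hf.acl i) hδ
  have e : ∫ y, rep x y * (f y * f y) = ∑ i, ∫ y, f y ^ 2 / ‖y i - x‖ := by
    rw [← integral_finsetSum _ fun i _ => hi i]
    apply integral_congr_ae
    filter_upwards with y
    unfold rep
    rw [Finset.sum_mul]
    refine Finset.sum_congr rfl fun i _ => ?_
    rw [norm_sub_rev]
    ring
  rw [e]
  refine (Finset.sum_le_sum fun i _ => key i).trans (le_of_eq ?_)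
  rw [Finset.sum_add_distrib, ← Finset.mul_sum, Finset.sum_const, Finset.card_univ,
    Fintype.card_fin, nsmul_eq_mul]
  ring

/-! ### Infinitesimally form bounded potentials -/

/-- infinitesimally form bounded potentials -/
def FBs {N : ℕ} (w : Conf N → ℝ) : Prop :=
  ∀ δ : ℝ, 0 < δ → ∃ C : ℝ, 0 ≤ C ∧ ∀ f g, HN f g → ∫ x, |w x| * f x ^ 2 ≤
    δ * (∑ i, ∑ k, ∫ x, g i k x ^ 2) + C * ∫ x, f x ^ 2

theorem FBs.add {N : ℕ} {w w' : Conf N → ℝ} (hb : FBd w) (hb' : FBd w') (h : FBs w)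
    (h' : FBs w') : FBs (fun x => w x + w' x) := by
  intro δ hδ
  obtain ⟨C, hC, h1⟩ := h (δ / 2) (by positivity)
  obtain ⟨C', hC', h2⟩ := h' (δ / 2) (by positivity)
  refine ⟨C + C', by positivity, fun f g hf => ?_⟩
  have i1 := hb.integrable_abs hf
  have i2 := hb'.integrable_abs hf
  have e1 := h1 f g hf
  have e2 := h2 f g hf
  calc ∫ x, |w x + w' x| * f x ^ 2
      ≤ ∫ x, (|w x| * f x ^ 2 + |w' x| * f x ^ 2) := by
        apply integral_mono_of_nonneg
        · filter_upwards with x; (clear * -; positivity)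
        · exact i1.add i2
        · filter_upwards with x
          rw [← add_mul]
          exact mul_le_mul_of_nonneg_right (abs_add_le _ _) (sq_nonneg _)
    _ = (∫ x, |w x| * f x ^ 2) + ∫ x, |w' x| * f x ^ 2 := integral_add i1 i2
    _ ≤ _ := by linarith only [e2, e1]

theorem FBs.const_mul {N : ℕ} {w : Conf N → ℝ} (h : FBs w) (c : ℝ) :
    FBs (fun x => c * w x) := by
  intro δ hδ
  obtain ⟨C, hC, h1⟩ := h (δ / (|c| + 1)) (by positivity)
  refine ⟨|c| * C, by positivity, fun f g hf => ?_⟩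
  have e : (fun x => |c * w x| * f x ^ 2) = fun x => |c| * (|w x| * f x ^ 2) := by
    funext x; rw [abs_mul]; ring
  rw [e, integral_const_mul]
  have h2 := mul_le_mul_of_nonneg_left (h1 f g hf) (abs_nonneg c)
  have h3 : 0 ≤ ∑ i, ∑ k, ∫ x, g i k x ^ 2 := by (clear * -; positivity)
  have h4 : |c| * (δ / (|c| + 1)) ≤ δ := by
    rw [mul_div_assoc', div_le_iff₀ (by positivity)]
    nlinarith only [hδ]
  have h5 := mul_le_mul_of_nonneg_right h4 h3
  calc _ ≤ _ := h2
    _ = |c| * (δ / (|c| + 1)) * (∑ i, ∑ k, ∫ x, g i k x ^ 2) + |c| * C * ∫ x, f x ^ 2 := by ring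
    _ ≤ _ := by linarith only [h5]

theorem FBs.zero {N : ℕ} : FBs (fun _ : Conf N => (0 : ℝ)) := by
  intro δ hδ
  refine ⟨0, le_rfl, fun f g hf => ?_⟩
  have h3 : 0 ≤ ∑ i, ∑ k, ∫ x, g i k x ^ 2 := by (clear * -; positivity)
  simp only [abs_zero, zero_mul, integral_zero, add_zero]
  positivity

theorem FBs.sum {N : ℕ} {ι : Type*} (s : Finset ι) {w : ι → Conf N → ℝ}
    (hb : ∀ i ∈ s, FBd (w i)) (h : ∀ i ∈ s, FBs (w i)) :
    FBs (fun x => ∑ i ∈ s, w i x) := by
  classical
  induction s using Finset.induction_on with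
  | empty => simpa using FBs.zero (N := N)
  | insert a s ha ih =>
    have h1 := FBs.add (hb a (Finset.mem_insert_self a s))
      (FBd.sum s fun i hi => hb i (Finset.mem_insert_of_mem hi))
      (h a (Finset.mem_insert_self a s))
      (ih (fun i hi => hb i (Finset.mem_insert_of_mem hi))
        fun i hi => h i (Finset.mem_insert_of_mem hi))
    have e : (fun x => ∑ i ∈ insert a s, w i x) = fun x => w a x + ∑ i ∈ s, w i x := by
      funext x; rw [Finset.sum_insert ha]
    rw [e]; exact h1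

theorem fbs_gen {N : ℕ} {a : Conf N → R3} (ha : Continuous a) (i : Fin N)
    (hae : ∀ x k, ∀ t : ℝ, a (x + t • axisDir i k) =
      a x + t • (EuclideanSpace.single k (1 : ℝ) : R3)) :
    FBs (fun x : Conf N => 1 / ‖a x‖) := by
  intro δ hδ
  refine ⟨3 / δ, by positivity, fun f g hf => ?_⟩
  have h1 := hardy_small (μ := (volume : Measure (Conf N))) ha hae hf.memLp (hf.memLp' i)
    (hf.acl i) hδ
  have e : (fun x => |1 / ‖a x‖| * f x ^ 2) = fun x => f x ^ 2 / ‖a x‖ := by
    funext x; rw [abs_of_nonneg (by positivity)]; ring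
  rw [e]
  have h2 : ∑ k, ∫ x, g i k x ^ 2 ≤ ∑ i, ∑ k, ∫ x, g i k x ^ 2 :=
    Finset.single_le_sum (f := fun i => ∑ k, ∫ x, g i k x ^ 2)
      (fun j _ => by (clear * -; positivity)) (Finset.mem_univ i)
  have h3 := mul_le_mul_of_nonneg_left h2 hδ.le
  linarith only [h3, h1]

theorem fbs_nuc {N : ℕ} (i : Fin N) (c : R3) : FBs (fun x : Conf N => 1 / ‖x i - c‖) := by
  apply fbs_gen (a := fun x : Conf N => x i - c) (by fun_prop) i
  intro x k t
  simp only [Pi.add_apply, Pi.smul_apply, axisDir_self]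
  abel

theorem fbs_rep {N : ℕ} {i j : Fin N} (h : i ≠ j) : FBs (fun x : Conf N => 1 / ‖x i - x j‖) := by
  apply fbs_gen (a := fun x : Conf N => x i - x j) (by fun_prop) i
  intro x k t
  simp only [Pi.add_apply, Pi.smul_apply, axisDir_self, axisDir_ne h.symm]
  rw [smul_zero, add_zero]
  abel

theorem fbs_w0N (N : ℕ) : FBs (w0N : Conf N → ℝ) := by
  have h : FBs (fun x : Conf N => ∑ i, (-1) * (1 / ‖x i - 0‖)) :=
    FBs.sum Finset.univ (fun i _ => (fbd_nuc i 0).const_mul (-1))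
      fun i _ => (fbs_nuc i 0).const_mul (-1)
  have e : (w0N : Conf N → ℝ) = fun x : Conf N => ∑ i, (-1) * (1 / ‖x i - 0‖) := by
    funext x
    unfold w0N
    apply Finset.sum_congr rfl
    intro i _
    rw [sub_zero]; ring
  rw [e]; exact h

theorem fbs_wpN (N : ℕ) (A L : ℝ) : FBs (wpN A L : Conf N → ℝ) := by
  have b1 : ∀ i : Fin N, FBd (fun x : Conf N =>
      (-A) * (1 / ‖x i - L • ez‖ + 1 / ‖x i - (-(L • ez))‖)) := fun i =>
    ((fbd_nuc i (L • ez)).add (fbd_nuc i (-(L • ez)))).const_mul (-A)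
  have h1 : FBs (fun x : Conf N => ∑ i, (-A) * (1 / ‖x i - L • ez‖ + 1 / ‖x i - (-(L • ez))‖)) :=
    FBs.sum Finset.univ (fun i _ => b1 i) fun i _ =>
      (FBs.add (fbd_nuc i (L • ez)) (fbd_nuc i (-(L • ez))) (fbs_nuc i (L • ez))
        (fbs_nuc i (-(L • ez)))).const_mul (-A)
  have b2 : ∀ i : Fin N, FBd (fun x : Conf N => ∑ j ∈ Finset.Ioi i, 1 / ‖x i - x j‖) := fun i =>
    FBd.sum _ fun j hj => fbd_rep (Finset.mem_Ioi.1 hj).ne
  have h2 : FBs (fun x : Conf N => ∑ i, ∑ j ∈ Finset.Ioi i, 1 / ‖x i - x j‖) :=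
    FBs.sum Finset.univ (fun i _ => b2 i) fun i _ =>
      FBs.sum _ (fun j hj => fbd_rep (Finset.mem_Ioi.1 hj).ne)
        fun j hj => fbs_rep (Finset.mem_Ioi.1 hj).ne
  have e : (wpN A L : Conf N → ℝ) = fun x : Conf N =>
      (∑ i, (-A) * (1 / ‖x i - L • ez‖ + 1 / ‖x i - (-(L • ez))‖)) +
        ∑ i, ∑ j ∈ Finset.Ioi i, 1 / ‖x i - x j‖ := by
    funext x
    unfold wpN
    congr 1
    apply Finset.sum_congr rfl
    intro i _
    rw [sub_neg_eq_add]; ring
  rw [e]
  exact FBs.add (FBd.sum Finset.univ fun i _ => b1 i) (FBd.sum Finset.univ fun i _ => b2 i) h1 h2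

theorem fbs_vN (N : ℕ) (ε A L : ℝ) : FBs (vN ε A L : Conf N → ℝ) := by
  have e : (vN ε A L : Conf N → ℝ) = fun x => w0N x + ε * wpN A L x := by
    funext x; exact vN_eq ε A L x
  rw [e]
  exact FBs.add (fbd_w0N N) ((fbd_wpN N A L).const_mul ε) (fbs_w0N N)
    ((fbs_wpN N A L).const_mul ε)

/-- Relative bound of the potential. -/
theorem HN.vN_le {N : ℕ} (ε A R : ℝ) {δ : ℝ} (hδ : 0 < δ) : ∃ C : ℝ, 0 ≤ C ∧
    ∀ (f : Conf N → ℝ) (fg : Fin N → Fin 3 → Conf N → ℝ), HN f fg →
      |∫ y, vN ε A R y * (f y * f y)| ≤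
        δ * (∑ i, ∑ k, ∫ y, fg i k y ^ 2) + C * ∫ y, f y ^ 2 := by
  obtain ⟨C, hC, h⟩ := fbs_vN N ε A R δ hδ
  refine ⟨C, hC, fun f fg hf => ?_⟩
  refine (abs_integral_le_integral_abs).trans (le_trans (le_of_eq ?_) (h f fg hf))
  apply integral_congr_ae
  filter_upwards with y
  rw [abs_mul, abs_mul_self, sq]

/-! ### Four electrons -/

theorem HX.int_c1 {u w : X4 → ℝ} {ux wx : Fin 3 → X4 → ℝ} {uy wy : Fin 3 → Fin 3 → X4 → ℝ}
    (hu : HX u ux uy) (hw : HX w wx wy) (c : R3) :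
    Integrable (fun p : X4 => (1 / ‖p.1 - c‖) * (u p * w p)) volume := by
  apply hardy_mul (μ := (volume : Measure X4)) (a := fun p : X4 => p.1 - c)
    (e := fun k => ((dir3 k, 0) : X4)) (by fun_prop) _ hu.memLp hu.memLpx hu.aclx hw.memLp
    hw.memLpx hw.aclx
  intro p k t
  simp only [dir3, Prod.fst_add, Prod.smul_fst]
  abel

theorem HX.int_c2 {u w : X4 → ℝ} {ux wx : Fin 3 → X4 → ℝ} {uy wy : Fin 3 → Fin 3 → X4 → ℝ}
    (hu : HX u ux uy) (hw : HX w wx wy) (i : Fin 3) (c : R3) :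
    Integrable (fun p : X4 => (1 / ‖p.2 i - c‖) * (u p * w p)) volume := by
  apply hardy_mul (μ := (volume : Measure X4)) (a := fun p : X4 => p.2 i - c)
    (e := fun k => ((0, axisDir i k) : X4)) (by fun_prop) _ hu.memLp (hu.memLpy i) (hu.acly i)
    hw.memLp (hw.memLpy i) (hw.acly i)
  intro p k t
  simp only [Prod.snd_add, Prod.smul_snd, Pi.add_apply, Pi.smul_apply, axisDir_self]
  abel

theorem HX.int_c3 {u w : X4 → ℝ} {ux wx : Fin 3 → X4 → ℝ} {uy wy : Fin 3 → Fin 3 → X4 → ℝ}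
    (hu : HX u ux uy) (hw : HX w wx wy) {i j : Fin 3} (hij : i ≠ j) :
    Integrable (fun p : X4 => (1 / ‖p.2 i - p.2 j‖) * (u p * w p)) volume := by
  apply hardy_mul (μ := (volume : Measure X4)) (a := fun p : X4 => p.2 i - p.2 j)
    (e := fun k => ((0, axisDir i k) : X4)) (by fun_prop) _ hu.memLp (hu.memLpy i) (hu.acly i)
    hw.memLp (hw.memLpy i) (hw.acly i)
  intro p k t
  simp only [Prod.snd_add, Prod.smul_snd, Pi.add_apply, Pi.smul_apply, axisDir_self,
    axisDir_ne hij.symm]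
  rw [smul_zero, add_zero]
  abel

theorem HX.int_c4 {u w : X4 → ℝ} {ux wx : Fin 3 → X4 → ℝ} {uy wy : Fin 3 → Fin 3 → X4 → ℝ}
    (hu : HX u ux uy) (hw : HX w wx wy) (i : Fin 3) :
    Integrable (fun p : X4 => (1 / ‖p.1 - p.2 i‖) * (u p * w p)) volume := by
  apply hardy_mul (μ := (volume : Measure X4)) (a := fun p : X4 => p.1 - p.2 i)
    (e := fun k => ((dir3 k, 0) : X4)) (by fun_prop) _ hu.memLp hu.memLpx hu.aclx hw.memLp
    hw.memLpx hw.aclx
  intro p k t
  simp only [dir3, Prod.fst_add, Prod.smul_fst, Prod.snd_add, Prod.smul_snd, smul_zero, Pi.add_apply, Pi.zero_apply, add_zero]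
  abel

theorem HX.int_v1 {u w : X4 → ℝ} {ux wx : Fin 3 → X4 → ℝ} {uy wy : Fin 3 → Fin 3 → X4 → ℝ}
    (hu : HX u ux uy) (hw : HX w wx wy) (ε A R : ℝ) :
    Integrable (fun p : X4 => v1 ε A R p.1 * (u p * w p)) volume := by
  refine ((hu.int_c1 hw 0).neg.sub (((hu.int_c1 hw (R • ez)).add
    (hu.int_c1 hw (-(R • ez)))).const_mul (ε * A))).congr ?_
  filter_upwards with x
  simp only [Pi.add_apply, Pi.sub_apply, Pi.neg_apply]
  unfold v1
  rw [sub_neg_eq_add, sub_zero]
  ring

theorem HX.int_vN {u w : X4 → ℝ} {ux wx : Fin 3 → X4 → ℝ} {uy wy : Fin 3 → Fin 3 → X4 → ℝ}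
    (hu : HX u ux uy) (hw : HX w wx wy) (ε A R : ℝ) :
    Integrable (fun p : X4 => vN ε A R p.2 * (u p * w p)) volume := by
  have h1 : ∀ i : Fin 3, Integrable (fun p : X4 => v1 ε A R (p.2 i) * (u p * w p)) volume := by
    intro i
    refine ((hu.int_c2 hw i 0).neg.sub (((hu.int_c2 hw i (R • ez)).add
      (hu.int_c2 hw i (-(R • ez)))).const_mul (ε * A))).congr ?_
    filter_upwards with x
    simp only [Pi.add_apply, Pi.sub_apply, Pi.neg_apply]
    unfold v1
    rw [sub_neg_eq_add, sub_zero]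
    ring
  have h2 : Integrable (fun p : X4 => ∑ i, v1 ε A R (p.2 i) * (u p * w p)) volume :=
    integrable_finsetSum _ fun i _ => h1 i
  have h3 : Integrable (fun p : X4 => ∑ i : Fin 3, ∑ j ∈ Finset.Ioi i,
      (1 / ‖p.2 i - p.2 j‖) * (u p * w p)) volume :=
    integrable_finsetSum _ fun i _ => integrable_finsetSum _ fun j hj =>
      hu.int_c3 hw (Finset.mem_Ioi.1 hj).ne
  refine (h2.add (h3.const_mul ε)).congr ?_
  filter_upwards with p
  simp only [Pi.add_apply]
  unfold vN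
  rw [add_mul, Finset.sum_mul, mul_assoc ε, Finset.sum_mul]
  congr 2
  exact Finset.sum_congr rfl fun i _ => by rw [Finset.sum_mul]

theorem HX.int_rep {u w : X4 → ℝ} {ux wx : Fin 3 → X4 → ℝ} {uy wy : Fin 3 → Fin 3 → X4 → ℝ}
    (hu : HX u ux uy) (hw : HX w wx wy) :
    Integrable (fun p : X4 => rep p.1 p.2 * (u p * w p)) volume := by
  have h : Integrable (fun p : X4 => ∑ i : Fin 3, (1 / ‖p.1 - p.2 i‖) * (u p * w p)) volume :=
    integrable_finsetSum _ fun i _ => hu.int_c4 hw i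
  refine h.congr ?_
  filter_upwards with p
  unfold rep
  rw [Finset.sum_mul]

end

end Vale.Agent.P363.D
end
end

section

section

/-! # P363, exact side: the repulsion acting on the ion state -/

namespace Vale.Agent.P363.D

open MeasureTheory Set Filter Topology
open scoped ENNReal ContDiff

noncomputable section

/-- Cauchy–Schwarz with an explicit bound of the first factor. -/
theorem e7_cs {g w : Conf 3 → ℝ} {K : ℝ} (hK : 0 ≤ K) (hg : AEStronglyMeasurable g volume)
    (hi : Integrable (fun y => g y ^ 2) volume) (hb : ∫ y, g y ^ 2 ≤ K ^ 2)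
    (hw : MemLp w 2 volume) :
    Integrable (fun y => g y * w y) volume ∧
      ∫ y, |g y * w y| ≤ K * √(∫ y, w y ^ 2) := by
  have hg2 : MemLp g 2 volume := (memLp_two_iff_integrable_sq hg).2 hi
  have hw2 : Integrable (fun y => w y ^ 2) volume := (memLp_two_iff_integrable_sq hw.1).1 hw
  have hgw : Integrable (fun y => g y * w y) volume := hg2.integrable_mul hw
  refine ⟨hgw, ?_⟩
  have h0 : ∀ s : ℝ, 0 ≤ (∫ y, g y ^ 2) * (s * s) + (-(2 * ∫ y, |g y * w y|)) * s +
      ∫ y, w y ^ 2 := by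
    intro s
    have h1 : 0 ≤ ∫ y, (s * |g y| - |w y|) ^ 2 := integral_nonneg fun y => sq_nonneg _
    have h2 : ∫ y, (s * |g y| - |w y|) ^ 2 =
        ∫ y, ((s * s * g y ^ 2 - 2 * s * |g y * w y|) + w y ^ 2) := by
      apply integral_congr_ae
      filter_upwards with y
      have e1 : |g y| ^ 2 = g y ^ 2 := sq_abs _
      have e2 : |w y| ^ 2 = w y ^ 2 := sq_abs _
      rw [abs_mul]
      linear_combination s * s * e1 + e2
    rw [h2, integral_add, integral_sub, integral_const_mul, integral_const_mul] at h1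
    · linarith only [h1]
    · exact hi.const_mul _
    · exact hgw.abs.const_mul _
    · exact (hi.const_mul _).sub (hgw.abs.const_mul _)
    · exact hw2
  have h3 := discrim_le_zero h0
  unfold discrim at h3
  have hA : 0 ≤ ∫ y, w y ^ 2 := integral_nonneg fun y => sq_nonneg _
  have h4 : (∫ y, |g y * w y|) ^ 2 ≤ K ^ 2 * ∫ y, w y ^ 2 := by
    have := mul_le_mul_of_nonneg_right hb hA
    linarith
  have h5 := Real.abs_le_sqrt h4
  rw [Real.sqrt_mul (sq_nonneg K), Real.sqrt_sq hK] at h5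
  exact (le_abs_self _).trans h5

theorem e7_line (x : R3) (i : Fin 3) : ∀ (y : Conf 3) (k : Fin 3) (t : ℝ),
    (fun y : Conf 3 => y i - x) (y + t • axisDir i k) =
      (fun y : Conf 3 => y i - x) y + t • (EuclideanSpace.single k (1:ℝ) : R3) := by
  intro y k t
  simp only [Pi.add_apply, Pi.smul_apply, axisDir_self]
  abel

/-- The weight `|y i|²` is absolutely continuous on lines. -/
theorem e7_acl (i k : Fin 3) :
    ACL (volume : Measure (Conf 3)) (axisDir i k) (fun y => ‖y i‖ ^ 2) (fun y => 2 * y i k) := by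
  apply ACL.of_hasDerivAt
  · fun_prop
  · fun_prop
  · intro y t
    have e : (fun t : ℝ => ‖(y + t • (axisDir i k : Conf 3)) i‖ ^ 2) =
        fun t => ‖y i‖ ^ 2 + 2 * t * (y i) k + t ^ 2 := by
      funext t
      simp only [Pi.add_apply, Pi.smul_apply, axisDir_self]
      exact norm_add_single_sq _ _ _
    have e2 : (y + t • (axisDir i k : Conf 3)) i k = y i k + t := by
      simp only [Pi.add_apply, Pi.smul_apply, axisDir_self]
      simp
    rw [e, e2]
    have h1 : HasDerivAt (fun t : ℝ => ‖y i‖ ^ 2 + 2 * t * (y i) k + t ^ 2)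
        (0 + (2 * 1) * (y i) k + 2 * t ^ (2 - 1) * 1) t := by
      refine HasDerivAt.add (HasDerivAt.add ?_ ?_) ?_
      · exact hasDerivAt_const _ _
      · exact ((hasDerivAt_id t).const_mul 2).mul_const _
      · exact (hasDerivAt_id t).pow 2
    convert h1 using 1
    norm_num
    ring

/-- Crude bound, uniform in `x`. -/
theorem rep_bound0 {Φ : Conf 3 → ℝ} {Φy : Fin 3 → Fin 3 → Conf 3 → ℝ} {M : ℝ} (hΦ : HN Φ Φy)
    (hM : ∑ i, ∑ k, ∫ y, Φy i k y ^ 2 ≤ M) (x : R3) {w : Conf 3 → ℝ} (hw : MemLp w 2 volume) :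
    Integrable (fun y => rep x y * (Φ y * w y)) volume ∧
      |∫ y, rep x y * (Φ y * w y)| ≤ 6 * √M * √(∫ y, w y ^ 2) := by
  have hM0 : 0 ≤ M := le_trans (by (clear * -; positivity)) hM
  have key : ∀ i : Fin 3, Integrable (fun y : Conf 3 => (Φ y / ‖x - y i‖) * w y) volume ∧
      ∫ y : Conf 3, |(Φ y / ‖x - y i‖) * w y| ≤ (2 * √M) * √(∫ y, w y ^ 2) := by
    intro i
    have hH := hardy2 (μ := (volume : Measure (Conf 3))) (a := fun y : Conf 3 => y i - x)
      (e := fun k => axisDir i k) (by fun_prop) (e7_line x i) hΦ.memLp (hΦ.memLp' i) (hΦ.acl i)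
    have e : (fun y : Conf 3 => (Φ y / ‖x - y i‖) ^ 2) = fun y => Φ y ^ 2 / ‖y i - x‖ ^ 2 := by
      funext y
      rw [div_pow, norm_sub_rev]
    refine e7_cs (by (clear * -; positivity)) ?_ ?_ ?_ hw
    · exact hΦ.memLp.1.div₀ (by fun_prop : Continuous fun y : Conf 3 => ‖x - y i‖).aestronglyMeasurable
    · rw [e]; exact hH.1
    · have h1 : ∑ k, ∫ y, Φy i k y ^ 2 ≤ ∑ i, ∑ k, ∫ y, Φy i k y ^ 2 :=
        Finset.single_le_sum (f := fun i => ∑ k, ∫ y, Φy i k y ^ 2)
          (fun j _ => by (clear * -; positivity)) (Finset.mem_univ i)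
      have h2 : (2 * √M) ^ 2 = 4 * M := by rw [mul_pow, Real.sq_sqrt hM0]; norm_num
      rw [e, h2]
      linarith only [hM, hH, h1]
  have e : (fun y : Conf 3 => rep x y * (Φ y * w y)) =
      fun y => ∑ i, (Φ y / ‖x - y i‖) * w y := by
    funext y
    unfold rep
    rw [Finset.sum_mul]
    apply Finset.sum_congr rfl
    intro i _
    ring
  rw [e]
  refine ⟨integrable_finsetSum _ fun i _ => (key i).1, ?_⟩
  rw [integral_finsetSum _ fun i _ => (key i).1]
  calc |∑ i : Fin 3, ∫ y : Conf 3, (Φ y / ‖x - y i‖) * w y|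
      ≤ ∑ i : Fin 3, |∫ y : Conf 3, (Φ y / ‖x - y i‖) * w y| := Finset.abs_sum_le_sum_abs _ _
    _ ≤ ∑ i : Fin 3, (2 * √M) * √(∫ y, w y ^ 2) := by
        apply Finset.sum_le_sum
        intro i _
        exact (abs_integral_le_integral_abs).trans (key i).2
    _ = 6 * √M * √(∫ y, w y ^ 2) := by
        rw [Finset.sum_const, Finset.card_univ, Fintype.card_fin]
        simp only [nsmul_eq_mul]
        push_cast
        ring

/-- Pointwise comparison of the Coulomb potentials of `y` and of the origin. -/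
theorem e7_pt {x : R3} (hx : x ≠ 0) (y : R3) :
    |1 / ‖x - y‖ - 1 / ‖x‖| ≤ (1 / ‖x‖ ^ 2) * (‖y‖ + ‖y‖ ^ 2 / ‖x - y‖) := by
  have hx0 : 0 < ‖x‖ := norm_pos_iff.2 hx
  rcases eq_or_ne x y with h | h
  · subst h
    rw [sub_self, norm_zero, div_zero, div_zero, zero_sub, abs_neg, add_zero,
      abs_of_nonneg (by positivity)]
    rw [le_iff_eq_or_lt]; left
    field_simp
  · have hd : 0 < ‖x - y‖ := norm_pos_iff.2 (sub_ne_zero.2 h)
    have h1 : |‖x‖ - ‖x - y‖| ≤ ‖y‖ := by
      have := abs_norm_sub_norm_le x (x - y)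
      rwa [sub_sub_cancel] at this
    have h2 : ‖x‖ ≤ ‖x - y‖ + ‖y‖ := by
      have := norm_add_le (x - y) y
      rwa [sub_add_cancel] at this
    have e1 : 1 / ‖x - y‖ - 1 / ‖x‖ = (‖x‖ - ‖x - y‖) / (‖x - y‖ * ‖x‖) := by
      field_simp
    rw [e1, abs_div, abs_of_pos (mul_pos hd hx0), div_le_iff₀ (mul_pos hd hx0)]
    have e2 : 1 / ‖x‖ ^ 2 * (‖y‖ + ‖y‖ ^ 2 / ‖x - y‖) * (‖x - y‖ * ‖x‖) =
        ‖y‖ * (‖x - y‖ + ‖y‖) / ‖x‖ := by
      field_simp
    rw [e2, le_div_iff₀ hx0]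
    have h3 : 0 ≤ ‖y‖ := norm_nonneg y
    calc |‖x‖ - ‖x - y‖| * ‖x‖ ≤ ‖y‖ * ‖x‖ := mul_le_mul_of_nonneg_right h1 hx0.le
      _ ≤ ‖y‖ * (‖x - y‖ + ‖y‖) := mul_le_mul_of_nonneg_left h2 h3

theorem e7_W (i : Fin 3) (y : Conf 3) : ‖y i‖ ≤ 1 + ∑ j, ‖y j‖ := by
  have : ‖y i‖ ≤ ∑ j, ‖y j‖ :=
    Finset.single_le_sum (f := fun j => ‖y j‖) (fun j _ => norm_nonneg _) (Finset.mem_univ i)
  linarith only [this]

theorem e7_W1 (y : Conf 3) : 1 ≤ 1 + ∑ j, ‖y j‖ := by
  have : 0 ≤ ∑ j, ‖y j‖ := Finset.sum_nonneg fun j _ => norm_nonneg _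
  linarith only [this]

theorem e7_sq (i : Fin 3) (y : Conf 3) : ‖y i‖ ^ 2 ≤ (1 + ∑ j, ‖y j‖) ^ 4 :=
  (pow_le_pow_left₀ (norm_nonneg _) (e7_W i y) 2).trans
    (pow_le_pow_right₀ (e7_W1 y) (by norm_num))

theorem e7_qu (i : Fin 3) (y : Conf 3) : ‖y i‖ ^ 4 ≤ (1 + ∑ j, ‖y j‖) ^ 4 :=
  pow_le_pow_left₀ (norm_nonneg _) (e7_W i y) 4

/-- The first term of the comparison. -/
theorem e7_k1 {Φ G : Conf 3 → ℝ} {M : ℝ} (hM0 : 0 ≤ M) (hΦ : MemLp Φ 2 volume)
    (hi : Integrable G volume) (hM : ∫ y, G y ≤ M)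
    (hG1 : ∀ y, (1 + ∑ j, ‖y j‖) ^ 4 * Φ y ^ 2 ≤ G y)
    {w : Conf 3 → ℝ} (hw : MemLp w 2 volume) (i : Fin 3) :
    Integrable (fun y : Conf 3 => (‖y i‖ * Φ y) * w y) volume ∧
      ∫ y : Conf 3, |(‖y i‖ * Φ y) * w y| ≤ √M * √(∫ y, w y ^ 2) := by
  have hm : AEStronglyMeasurable (fun y : Conf 3 => ‖y i‖ * Φ y) volume :=
    (by fun_prop : Continuous fun y : Conf 3 => ‖y i‖).aestronglyMeasurable.mul hΦ.1
  have hle : ∀ y : Conf 3, (‖y i‖ * Φ y) ^ 2 ≤ G y := by
    intro y
    refine le_trans ?_ (hG1 y)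
    rw [mul_pow]
    exact mul_le_mul_of_nonneg_right (e7_sq i y) (sq_nonneg _)
  have hint : Integrable (fun y : Conf 3 => (‖y i‖ * Φ y) ^ 2) volume := by
    refine Integrable.mono' hi (hm.pow 2) ?_
    filter_upwards with y
    rw [Real.norm_of_nonneg (sq_nonneg _)]
    exact hle y
  refine e7_cs (Real.sqrt_nonneg M) hm hint ?_ hw
  rw [Real.sq_sqrt hM0]
  exact (integral_mono hint hi hle).trans hM

theorem e7_ptk (Φ : Conf 3 → ℝ) (Φy : Fin 3 → Fin 3 → Conf 3 → ℝ) (i : Fin 3) (y : Conf 3) :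
    ∑ k, (2 * y i k * Φ y + ‖y i‖ ^ 2 * Φy i k y) ^ 2 ≤
      8 * ((1 + ∑ i, ‖y i‖) ^ 4 * (Φ y ^ 2 + ∑ i, ∑ k, Φy i k y ^ 2)) := by
  have h1 : ∀ k, (2 * y i k * Φ y + ‖y i‖ ^ 2 * Φy i k y) ^ 2 ≤
      8 * (y i k ^ 2 * Φ y ^ 2) + 2 * (‖y i‖ ^ 4 * Φy i k y ^ 2) := by
    intro k
    linarith only [sq_nonneg (2 * y i k * Φ y - ‖y i‖ ^ 2 * Φy i k y)]
  have h2 : ∑ k, (y i k) ^ 2 = ‖y i‖ ^ 2 := by
    rw [EuclideanSpace.norm_sq_eq]
    simp only [Real.norm_eq_abs, sq_abs]
  have h3 : ∑ k, Φy i k y ^ 2 ≤ ∑ i, ∑ k, Φy i k y ^ 2 :=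
    Finset.single_le_sum (f := fun i => ∑ k, Φy i k y ^ 2)
      (fun j _ => Finset.sum_nonneg fun k _ => sq_nonneg _) (Finset.mem_univ i)
  have h4 : 0 ≤ ∑ k, Φy i k y ^ 2 := Finset.sum_nonneg fun k _ => sq_nonneg _
  have hW : 0 ≤ (1 + ∑ j, ‖y j‖) ^ 4 := pow_nonneg (zero_le_one.trans (e7_W1 y)) 4
  calc ∑ k, (2 * y i k * Φ y + ‖y i‖ ^ 2 * Φy i k y) ^ 2
      ≤ ∑ k, (8 * (y i k ^ 2 * Φ y ^ 2) + 2 * (‖y i‖ ^ 4 * Φy i k y ^ 2)) :=
        Finset.sum_le_sum fun k _ => h1 k
    _ = 8 * (‖y i‖ ^ 2 * Φ y ^ 2) + 2 * (‖y i‖ ^ 4 * ∑ k, Φy i k y ^ 2) := by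
        rw [Finset.sum_add_distrib, ← Finset.mul_sum, ← Finset.mul_sum, ← Finset.sum_mul, h2,
          ← Finset.mul_sum]
    _ ≤ 8 * ((1 + ∑ j, ‖y j‖) ^ 4 * Φ y ^ 2) +
          8 * ((1 + ∑ j, ‖y j‖) ^ 4 * ∑ i, ∑ k, Φy i k y ^ 2) := by
        have a1 := mul_le_mul_of_nonneg_right (e7_sq i y) (sq_nonneg (Φ y))
        have a2 := mul_le_mul (e7_qu i y) h3 h4 hW
        have a3 : 0 ≤ (1 + ∑ j, ‖y j‖) ^ 4 * ∑ i, ∑ k, Φy i k y ^ 2 :=
          mul_nonneg hW (h4.trans h3)
        linarith only [a1, a2, a3]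
    _ = 8 * ((1 + ∑ i, ‖y i‖) ^ 4 * (Φ y ^ 2 + ∑ i, ∑ k, Φy i k y ^ 2)) := by ring

/-- The second term of the comparison. -/
theorem e7_k2 {Φ : Conf 3 → ℝ} {Φy : Fin 3 → Fin 3 → Conf 3 → ℝ} {G : Conf 3 → ℝ} {M : ℝ}
    (hM0 : 0 ≤ M) (hΦ : HN Φ Φy)
    (hi : Integrable G volume) (hM : ∫ y, G y ≤ M)
    (hG1 : ∀ y, (1 + ∑ j, ‖y j‖) ^ 4 * Φ y ^ 2 ≤ G y)
    (hG2 : ∀ i y, ∑ k, (2 * y i k * Φ y + ‖y i‖ ^ 2 * Φy i k y) ^ 2 ≤ 8 * G y)
    (x : R3) {w : Conf 3 → ℝ} (hw : MemLp w 2 volume) (i : Fin 3) :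
    Integrable (fun y : Conf 3 => (‖y i‖ ^ 2 * Φ y / ‖x - y i‖) * w y) volume ∧
      ∫ y : Conf 3, |(‖y i‖ ^ 2 * Φ y / ‖x - y i‖) * w y| ≤ (6 * √M) * √(∫ y, w y ^ 2) := by
  have hm : AEStronglyMeasurable (fun y : Conf 3 => ‖y i‖ ^ 2 * Φ y) volume :=
    (by fun_prop : Continuous fun y : Conf 3 => ‖y i‖ ^ 2).aestronglyMeasurable.mul hΦ.memLp.1
  have hint : Integrable (fun y : Conf 3 => (‖y i‖ ^ 2 * Φ y) ^ 2) volume := by
    refine Integrable.mono' hi (hm.pow 2) ?_
    filter_upwards with y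
    rw [Real.norm_of_nonneg (sq_nonneg _)]
    refine le_trans ?_ (hG1 y)
    rw [mul_pow, ← pow_mul]
    exact mul_le_mul_of_nonneg_right (e7_qu i y) (sq_nonneg _)
  have hf2 : MemLp (fun y : Conf 3 => ‖y i‖ ^ 2 * Φ y) 2 volume :=
    (memLp_two_iff_integrable_sq hm).2 hint
  have hmk : ∀ k, AEStronglyMeasurable
      (fun y : Conf 3 => 2 * y i k * Φ y + ‖y i‖ ^ 2 * Φy i k y) volume := by
    intro k
    refine AEStronglyMeasurable.add ?_ ?_
    · exact (by fun_prop : Continuous fun y : Conf 3 => 2 * y i k).aestronglyMeasurable.mul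
        hΦ.memLp.1
    · exact (by fun_prop : Continuous fun y : Conf 3 => ‖y i‖ ^ 2).aestronglyMeasurable.mul
        (hΦ.memLp' i k).1
  have hintk : ∀ k, Integrable
      (fun y : Conf 3 => (2 * y i k * Φ y + ‖y i‖ ^ 2 * Φy i k y) ^ 2) volume := by
    intro k
    refine Integrable.mono' (hi.const_mul 8) ((hmk k).pow 2) ?_
    filter_upwards with y
    rw [Real.norm_of_nonneg (sq_nonneg _)]
    refine le_trans ?_ (hG2 i y)
    exact Finset.single_le_sum
      (f := fun k => (2 * y i k * Φ y + ‖y i‖ ^ 2 * Φy i k y) ^ 2)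
      (fun j _ => sq_nonneg _) (Finset.mem_univ k)
  have hf2' : ∀ k, MemLp (fun y : Conf 3 => 2 * y i k * Φ y + ‖y i‖ ^ 2 * Φy i k y) 2 volume :=
    fun k => (memLp_two_iff_integrable_sq (hmk k)).2 (hintk k)
  have hH := hardy2 (μ := (volume : Measure (Conf 3))) (a := fun y : Conf 3 => y i - x)
    (e := fun k => axisDir i k) (by fun_prop) (e7_line x i) hf2 hf2'
    (fun k => (e7_acl i k).mul (hΦ.acl i k))
  have e : (fun y : Conf 3 => (‖y i‖ ^ 2 * Φ y / ‖x - y i‖) ^ 2) =
      fun y => (‖y i‖ ^ 2 * Φ y) ^ 2 / ‖y i - x‖ ^ 2 := by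
    funext y
    rw [div_pow, norm_sub_rev]
  refine e7_cs (by (clear * -; positivity)) ?_ ?_ ?_ hw
  · exact hm.div₀ (by fun_prop : Continuous fun y : Conf 3 => ‖x - y i‖).aestronglyMeasurable
  · rw [e]; exact hH.1
  · have h2 : (6 * √M) ^ 2 = 36 * M := by rw [mul_pow, Real.sq_sqrt hM0]; norm_num
    have h3 : ∑ k, ∫ y : Conf 3, (2 * y i k * Φ y + ‖y i‖ ^ 2 * Φy i k y) ^ 2 ≤ 8 * M := by
      rw [← integral_finsetSum _ fun k _ => hintk k]
      calc ∫ y : Conf 3, ∑ k, (2 * y i k * Φ y + ‖y i‖ ^ 2 * Φy i k y) ^ 2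
          ≤ ∫ y, 8 * G y :=
            integral_mono (integrable_finsetSum _ fun k _ => hintk k) (hi.const_mul 8) (hG2 i)
        _ = 8 * ∫ y, G y := integral_const_mul _ _
        _ ≤ 8 * M := by linarith only [hM]
    rw [e, h2]
    have h4 := hH.2
    linarith only [hM0, hH, h3]

/-- The difference of the two potentials of one electron. -/
theorem e7_kd {Φ w : Conf 3 → ℝ} {K L : ℝ} (hΦw : Integrable (fun y => Φ y * w y) volume)
    {x : R3} (hx : x ≠ 0) (i : Fin 3)
    (k1 : Integrable (fun y : Conf 3 => (‖y i‖ * Φ y) * w y) volume ∧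
      ∫ y : Conf 3, |(‖y i‖ * Φ y) * w y| ≤ K)
    (k2 : Integrable (fun y : Conf 3 => (‖y i‖ ^ 2 * Φ y / ‖x - y i‖) * w y) volume ∧
      ∫ y : Conf 3, |(‖y i‖ ^ 2 * Φ y / ‖x - y i‖) * w y| ≤ L) :
    Integrable (fun y : Conf 3 => (1 / ‖x - y i‖ - 1 / ‖x‖) * (Φ y * w y)) volume ∧
      |∫ y : Conf 3, (1 / ‖x - y i‖ - 1 / ‖x‖) * (Φ y * w y)| ≤ (1 / ‖x‖ ^ 2) * (K + L) := by
  have hdom : Integrable (fun y : Conf 3 => (1 / ‖x‖ ^ 2) *
      (|(‖y i‖ * Φ y) * w y| + |(‖y i‖ ^ 2 * Φ y / ‖x - y i‖) * w y|)) volume :=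
    (k1.1.abs.add k2.1.abs).const_mul _
  have hpt : ∀ y : Conf 3, |(1 / ‖x - y i‖ - 1 / ‖x‖) * (Φ y * w y)| ≤ (1 / ‖x‖ ^ 2) *
      (|(‖y i‖ * Φ y) * w y| + |(‖y i‖ ^ 2 * Φ y / ‖x - y i‖) * w y|) := by
    intro y
    have h1 := mul_le_mul_of_nonneg_right (e7_pt hx (y i)) (abs_nonneg (Φ y * w y))
    rw [abs_mul]
    refine h1.trans (le_of_eq ?_)
    have a1 : |‖y i‖ * Φ y * w y| = ‖y i‖ * |Φ y * w y| := by
      rw [mul_assoc, abs_mul, abs_of_nonneg (norm_nonneg (y i))]
    have a2 : |‖y i‖ ^ 2 * Φ y / ‖x - y i‖ * w y| =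
        ‖y i‖ ^ 2 / ‖x - y i‖ * |Φ y * w y| := by
      have h0 : (0:ℝ) ≤ ‖y i‖ ^ 2 / ‖x - y i‖ := by (clear * -; positivity)
      have : ‖y i‖ ^ 2 * Φ y / ‖x - y i‖ * w y = ‖y i‖ ^ 2 / ‖x - y i‖ * (Φ y * w y) := by ring
      rw [this, abs_mul, abs_of_nonneg h0]
    rw [a1, a2]
    ring
  have hm : AEStronglyMeasurable
      (fun y : Conf 3 => (1 / ‖x - y i‖ - 1 / ‖x‖) * (Φ y * w y)) volume := by
    refine AEStronglyMeasurable.mul ?_ hΦw.1
    refine AEStronglyMeasurable.sub ?_ aestronglyMeasurable_const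
    exact (aestronglyMeasurable_const (b := (1:ℝ))).div₀
      (by fun_prop : Continuous fun y : Conf 3 => ‖x - y i‖).aestronglyMeasurable
  have hint : Integrable
      (fun y : Conf 3 => (1 / ‖x - y i‖ - 1 / ‖x‖) * (Φ y * w y)) volume := by
    refine Integrable.mono' hdom hm ?_
    filter_upwards with y
    rw [Real.norm_eq_abs]
    exact hpt y
  refine ⟨hint, ?_⟩
  calc |∫ y : Conf 3, (1 / ‖x - y i‖ - 1 / ‖x‖) * (Φ y * w y)|
      ≤ ∫ y : Conf 3, |(1 / ‖x - y i‖ - 1 / ‖x‖) * (Φ y * w y)| := abs_integral_le_integral_abs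
    _ ≤ ∫ y : Conf 3, (1 / ‖x‖ ^ 2) *
        (|(‖y i‖ * Φ y) * w y| + |(‖y i‖ ^ 2 * Φ y / ‖x - y i‖) * w y|) :=
        integral_mono hint.abs hdom hpt
    _ = (1 / ‖x‖ ^ 2) * ((∫ y : Conf 3, |(‖y i‖ * Φ y) * w y|) +
          ∫ y : Conf 3, |(‖y i‖ ^ 2 * Φ y / ‖x - y i‖) * w y|) := by
        rw [integral_const_mul, integral_add k1.1.abs k2.1.abs]
    _ ≤ (1 / ‖x‖ ^ 2) * (K + L) :=
        mul_le_mul_of_nonneg_left (add_le_add k1.2 k2.2) (by positivity)

/-- The repulsion is `3 / |x|` up to `O(|x|⁻²)`. -/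
theorem rep_bound {Φ : Conf 3 → ℝ} {Φy : Fin 3 → Fin 3 → Conf 3 → ℝ} {M : ℝ} (hΦ : HN Φ Φy)
    (hi : Integrable (fun y : Conf 3 =>
      (1 + ∑ i, ‖y i‖) ^ 4 * (Φ y ^ 2 + ∑ i, ∑ k, Φy i k y ^ 2)) volume)
    (hM : ∫ y, (1 + ∑ i, ‖y i‖) ^ 4 * (Φ y ^ 2 + ∑ i, ∑ k, Φy i k y ^ 2) ≤ M)
    {x : R3} (hx : x ≠ 0) {w : Conf 3 → ℝ} (hw : MemLp w 2 volume) :
    |(∫ y, rep x y * (Φ y * w y)) - 3 / ‖x‖ * ∫ y, Φ y * w y| ≤
      21 * √M / ‖x‖ ^ 2 * √(∫ y, w y ^ 2) := by
  have hM0 : 0 ≤ M := by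
    refine le_trans ?_ hM
    apply integral_nonneg
    intro y
    have hW : 0 ≤ (1 + ∑ j, ‖y j‖) ^ 4 := pow_nonneg (zero_le_one.trans (e7_W1 y)) 4
    exact mul_nonneg hW (add_nonneg (sq_nonneg _)
      (Finset.sum_nonneg fun i _ => Finset.sum_nonneg fun k _ => sq_nonneg _))
  have hΦw : Integrable (fun y => Φ y * w y) volume := hΦ.memLp.integrable_mul hw
  have hG1 : ∀ y : Conf 3, (1 + ∑ j, ‖y j‖) ^ 4 * Φ y ^ 2 ≤
      (1 + ∑ i, ‖y i‖) ^ 4 * (Φ y ^ 2 + ∑ i, ∑ k, Φy i k y ^ 2) := by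
    intro y
    have hW : 0 ≤ (1 + ∑ j, ‖y j‖) ^ 4 := pow_nonneg (zero_le_one.trans (e7_W1 y)) 4
    refine mul_le_mul_of_nonneg_left ?_ hW
    have h1 : 0 ≤ ∑ i, ∑ k, Φy i k y ^ 2 :=
      Finset.sum_nonneg fun i _ => Finset.sum_nonneg fun k _ => sq_nonneg _
    linarith only [h1]
  have kd : ∀ i : Fin 3, Integrable
      (fun y : Conf 3 => (1 / ‖x - y i‖ - 1 / ‖x‖) * (Φ y * w y)) volume ∧
      |∫ y : Conf 3, (1 / ‖x - y i‖ - 1 / ‖x‖) * (Φ y * w y)| ≤
        (1 / ‖x‖ ^ 2) * (√M * √(∫ y, w y ^ 2) + (6 * √M) * √(∫ y, w y ^ 2)) := fun i =>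
    e7_kd hΦw hx i (e7_k1 hM0 hΦ.memLp hi hM hG1 hw i)
      (e7_k2 hM0 hΦ hi hM hG1 (fun i y => e7_ptk Φ Φy i y) x hw i)
  have e : (fun y : Conf 3 => rep x y * (Φ y * w y)) =
      fun y => (∑ i : Fin 3, (1 / ‖x - y i‖ - 1 / ‖x‖) * (Φ y * w y)) +
        3 / ‖x‖ * (Φ y * w y) := by
    funext y
    unfold rep
    simp only [Fin.sum_univ_three]
    ring
  rw [e, integral_add (integrable_finsetSum _ fun i _ => (kd i).1) (hΦw.const_mul _),
    integral_const_mul, add_sub_cancel_right, integral_finsetSum _ fun i _ => (kd i).1]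
  calc |∑ i : Fin 3, ∫ y : Conf 3, (1 / ‖x - y i‖ - 1 / ‖x‖) * (Φ y * w y)|
      ≤ ∑ i : Fin 3, |∫ y : Conf 3, (1 / ‖x - y i‖ - 1 / ‖x‖) * (Φ y * w y)| :=
        Finset.abs_sum_le_sum_abs _ _
    _ ≤ ∑ i : Fin 3, (1 / ‖x‖ ^ 2) *
          (√M * √(∫ y, w y ^ 2) + (6 * √M) * √(∫ y, w y ^ 2)) :=
        Finset.sum_le_sum fun i _ => (kd i).2
    _ = 21 * √M / ‖x‖ ^ 2 * √(∫ y, w y ^ 2) := by
        rw [Finset.sum_const, Finset.card_univ, Fintype.card_fin, nsmul_eq_mul]
        push_cast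
        ring

end

end Vale.Agent.P363.D
end
end

section

section

/-! # P363, exact side: the part of the state orthogonal to the ion state -/

namespace Vale.Agent.P363.D

open MeasureTheory Set Filter Topology
open scoped ENNReal ContDiff

noncomputable section

variable {F G : X4 → ℝ} {Φ : Conf 3 → ℝ}

/-- Cauchy-Schwarz. -/
theorem e8_cs {X : Type*} [MeasurableSpace X] {μ : Measure X} {f g : X → ℝ}
    (hf : MemLp f 2 μ) (hg : MemLp g 2 μ) :
    |∫ x, f x * g x ∂μ| ≤ √(∫ x, f x ^ 2 ∂μ) * √(∫ x, g x ^ 2 ∂μ) := by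
  rw [← Real.sqrt_mul (integral_nonneg fun x => sq_nonneg _)]
  refine Real.abs_le_sqrt ?_
  have i1 : Integrable (fun x => f x ^ 2) μ := hf.integrable_sq
  have i2 : Integrable (fun x => g x ^ 2) μ := hg.integrable_sq
  have i3 : Integrable (fun x => f x * g x) μ := hf.integrable_mul hg
  have key : ∀ t : ℝ, 0 ≤ (∫ x, g x ^ 2 ∂μ) * (t * t) + (2 * ∫ x, f x * g x ∂μ) * t +
      ∫ x, f x ^ 2 ∂μ := by
    intro t
    have h0 : 0 ≤ ∫ x, (f x + t * g x) ^ 2 ∂μ := integral_nonneg fun x => sq_nonneg _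
    have e1 : (fun x => (f x + t * g x) ^ 2)
        = fun x => (f x ^ 2 + 2 * t * (f x * g x)) + t ^ 2 * g x ^ 2 := by
      funext x; ring
    have i4 : Integrable (fun x => f x ^ 2 + 2 * t * (f x * g x)) μ := i1.add (i3.const_mul _)
    rw [e1, integral_add i4 (i2.const_mul _), integral_add i1 (i3.const_mul _),
      integral_const_mul, integral_const_mul] at h0
    linarith only [h0]
  have hd := discrim_le_zero key
  rw [discrim] at hd
  linarith only [hd]

theorem dys_memLp (hF : MemLp F 2 volume) (hΦ : MemLp Φ 2 volume) :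
    MemLp (dys F Φ) 2 volume := by
  have hm : AEStronglyMeasurable (dys F Φ) volume := by
    have h2 : AEStronglyMeasurable (fun p : R3 × Conf 3 => Φ p.2)
      ((volume : Measure R3).prod (volume : Measure (Conf 3))) := hΦ.1.comp_snd
    have h1 : AEStronglyMeasurable (fun p : R3 × Conf 3 => Φ p.2 * F p)
      ((volume : Measure R3).prod (volume : Measure (Conf 3))) := h2.mul hF.1
    exact h1.integral_prod_right'
  refine (nrm_memLp hF).of_le_mul (c := √(∫ y, Φ y ^ 2)) hm ?_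
  filter_upwards [slice_memLp hF] with x hx
  rw [Real.norm_eq_abs, Real.norm_eq_abs, abs_of_nonneg (nrm_nonneg _ _)]
  exact e8_cs hΦ hx

theorem tensor_memLp {f : R3 → ℝ} (hf : MemLp f 2 volume) (hΦ : MemLp Φ 2 volume) :
    MemLp (fun p : X4 => f p.1 * Φ p.2) 2 volume := by
  have hm : AEStronglyMeasurable (fun p : R3 × Conf 3 => f p.1 * Φ p.2)
      ((volume : Measure R3).prod (volume : Measure (Conf 3))) := hf.1.comp_fst.mul hΦ.1.comp_snd
  refine (memLp_two_iff_integrable_sq hm).2 ?_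
  have h := hf.integrable_sq.mul_prod hΦ.integrable_sq
  refine h.congr (Eventually.of_forall fun p => ?_)
  simp only [mul_pow]

theorem Pf_memLp (hF : MemLp F 2 volume) (hΦ : MemLp Φ 2 volume) : MemLp (Pf F Φ) 2 volume :=
  hF.sub (tensor_memLp (dys_memLp hF hΦ) hΦ)

theorem Pf_orth_of {x : R3} (hF : MemLp (fun y => F (x, y)) 2 volume) (hΦ : MemLp Φ 2 volume)
    (h1 : ∫ y, Φ y ^ 2 = 1) : ∫ y, Φ y * Pf F Φ (x, y) = 0 := by
  have e : ∀ y, Φ y * Pf F Φ (x, y) = Φ y * F (x, y) - dys F Φ x * Φ y ^ 2 := by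
    intro y
    unfold Pf
    ring
  simp only [e]
  have i1 : Integrable (fun y => Φ y * F (x, y)) volume := hΦ.integrable_mul hF
  have i2 : Integrable (fun y => dys F Φ x * Φ y ^ 2) volume := hΦ.integrable_sq.const_mul _
  rw [integral_sub i1 i2, integral_const_mul, h1, mul_one]
  exact sub_self _

theorem Pf_orth (hF : MemLp F 2 volume) (hΦ : MemLp Φ 2 volume) (h1 : ∫ y, Φ y ^ 2 = 1) :
    ∀ᵐ x : R3, ∫ y, Φ y * Pf F Φ (x, y) = 0 := by
  filter_upwards [slice_memLp hF] with x hx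
  exact Pf_orth_of hx hΦ h1

theorem ipy_split (hF : MemLp F 2 volume) (hG : MemLp G 2 volume) (hΦ : MemLp Φ 2 volume)
    (h1 : ∫ y, Φ y ^ 2 = 1) :
    ∀ᵐ x : R3, ipy F G x = dys F Φ x * dys G Φ x + ipy (Pf F Φ) (Pf G Φ) x ∧
      ipy F (Pf G Φ) x = ipy (Pf F Φ) (Pf G Φ) x := by
  filter_upwards [slice_memLp hF, slice_memLp hG] with x hx hx'
  have oF := Pf_orth_of hx hΦ h1
  have oG := Pf_orth_of hx' hΦ h1
  have mF : MemLp (fun y => Pf F Φ (x, y)) 2 volume := hx.sub (hΦ.const_mul (dys F Φ x))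
  have mG : MemLp (fun y => Pf G Φ (x, y)) 2 volume := hx'.sub (hΦ.const_mul (dys G Φ x))
  have i1 : Integrable (fun y => Pf F Φ (x, y) * Pf G Φ (x, y)) volume := mF.integrable_mul mG
  have i2 : Integrable (fun y => dys F Φ x * (Φ y * Pf G Φ (x, y))) volume :=
    (hΦ.integrable_mul mG).const_mul _
  have i3 : Integrable (fun y => dys G Φ x * (Φ y * Pf F Φ (x, y))) volume :=
    (hΦ.integrable_mul mF).const_mul _
  have i4 : Integrable (fun y => dys F Φ x * dys G Φ x * Φ y ^ 2) volume :=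
    hΦ.integrable_sq.const_mul _
  constructor
  · have e : ∀ y, F (x, y) * G (x, y) = (dys F Φ x * dys G Φ x * Φ y ^ 2 +
        Pf F Φ (x, y) * Pf G Φ (x, y)) + (dys F Φ x * (Φ y * Pf G Φ (x, y)) +
        dys G Φ x * (Φ y * Pf F Φ (x, y))) := by
      intro y
      unfold Pf
      ring
    have i5 : Integrable (fun y => dys F Φ x * dys G Φ x * Φ y ^ 2 +
        Pf F Φ (x, y) * Pf G Φ (x, y)) volume := i4.add i1
    have i6 : Integrable (fun y => dys F Φ x * (Φ y * Pf G Φ (x, y)) +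
        dys G Φ x * (Φ y * Pf F Φ (x, y))) volume := i2.add i3
    unfold ipy
    simp only [e]
    rw [integral_add i5 i6, integral_add i4 i1, integral_add i2 i3,
      integral_const_mul, integral_const_mul, integral_const_mul, oF, oG, h1]
    ring
  · have e : ∀ y, F (x, y) * Pf G Φ (x, y) = dys F Φ x * (Φ y * Pf G Φ (x, y)) +
        Pf F Φ (x, y) * Pf G Φ (x, y) := by
      intro y
      unfold Pf
      ring
    unfold ipy
    simp only [e]
    rw [integral_add i2 i1, integral_const_mul, oG]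
    ring

variable {A R ε δ M E4 E3 : ℝ} {Fx : Fin 3 → X4 → ℝ} {Fy : Fin 3 → Fin 3 → X4 → ℝ}
  {Φy : Fin 3 → Fin 3 → Conf 3 → ℝ}

theorem Sys.dys_H1 (hS : Sys A R ε δ M E4 E3 F Fx Fy Φ Φy) :
    H1o (dys F Φ) (fun k => dys (Fx k) Φ) := dys_H1o hS.F_H1 hS.Φ_H1.memLp

theorem Sys.P_HX (hS : Sys A R ε δ M E4 E3 F Fx Fy Φ Φy) :
    HX (Pf F Φ) (fun k => Pf (Fx k) Φ) (Pfy F Fy Φ Φy) := hS.F_H1.Pf hS.Φ_H1 hS.dys_H1

/-- The Dyson orbital is odd. -/
theorem Sys.dys_odd (hS : Sys A R ε δ M E4 E3 F Fx Fy Φ Φy) :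
    ∀ᵐ x : R3, dys F Φ (refl 2 x) = - dys F Φ x := by
  have h : ∀ᵐ x : R3, ∀ᵐ y : Conf 3, F (refl 2 x, reflN 2 y) = F (x, y) := by
    have hz := Measure.ae_ae_of_ae_prod hS.F_even2
    exact hz
  filter_upwards [h] with x hx
  unfold dys
  rw [← integral_reflN 2 (fun y => Φ y * F (refl 2 x, y)), ← integral_neg]
  refine integral_congr_ae ?_
  filter_upwards [hx, hS.Φ_odd2] with y hy hy'
  rw [hy, hy']
  ring

theorem Sys.P_anti (hS : Sys A R ε δ M E4 E3 F Fx Fy Φ Φy) :
    ∀ᵐ x : R3, Sec3 (fun y => Pf F Φ (x, y)) := by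
  have h : ∀ᵐ x : R3, ∀ᵐ y : Conf 3, F (x, y ∘ Equiv.swap 1 2) = - F (x, y) := by
    have hz := Measure.ae_ae_of_ae_prod hS.F_anti
    exact hz
  have h' : ∀ᵐ y : Conf 3, Φ (y ∘ Equiv.swap 1 2) = - Φ y := hS.Φ_anti
  filter_upwards [h] with x hx
  show ∀ᵐ y : Conf 3, Pf F Φ (x, y ∘ Equiv.swap 1 2) = - Pf F Φ (x, y)
  filter_upwards [hx, h'] with y hy hy'
  unfold Pf
  simp only
  rw [hy, hy']
  ring

end

end Vale.Agent.P363.D
end
end

section

section

/-! # P363, exact side: bounds of the repulsion terms -/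

namespace Vale.Agent.P363.D

open MeasureTheory Set Filter Topology
open scoped ENNReal ContDiff

noncomputable section

variable {F : X4 → ℝ} {Φ : Conf 3 → ℝ}
variable {A R ε δ M E4 E3 : ℝ} {Fx : Fin 3 → X4 → ℝ} {Fy : Fin 3 → Fin 3 → X4 → ℝ}
  {Φy : Fin 3 → Fin 3 → Conf 3 → ℝ}

theorem e8c_measurable_rep : Measurable fun p : X4 => rep p.1 p.2 := by
  unfold rep
  fun_prop

theorem Sys.e8c_grad (hS : Sys A R ε δ M E4 E3 F Fx Fy Φ Φy) :
    ∑ i, ∑ k, ∫ y, Φy i k y ^ 2 ≤ M := by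
  have hi : ∀ i k, Integrable (fun y => Φy i k y ^ 2) volume := fun i k =>
    (hS.Φ_H1.memLp' i k).integrable_sq
  have hi1 : ∀ i, Integrable (fun y => ∑ k, Φy i k y ^ 2) volume := fun i =>
    integrable_finsetSum _ fun k _ => hi i k
  have h1 : ∑ i, ∑ k, ∫ y, Φy i k y ^ 2 = ∫ y, ∑ i, ∑ k, Φy i k y ^ 2 := by
    rw [integral_finsetSum _ fun i _ => hi1 i]
    refine Finset.sum_congr rfl fun i _ => ?_
    rw [integral_finsetSum _ fun k _ => hi i k]
  rw [h1]
  refine le_trans ?_ hS.moment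
  refine integral_mono (integrable_finsetSum _ fun i _ => hi1 i) hS.moment_int fun y => ?_
  have h2 : 0 ≤ ∑ i, ‖y i‖ := Finset.sum_nonneg fun i _ => norm_nonneg _
  have h3 : 1 ≤ (1 + ∑ i, ‖y i‖) ^ 4 := one_le_pow₀ (by linarith only [h2])
  have h4 : 0 ≤ ∑ i, ∑ k, Φy i k y ^ 2 :=
    Finset.sum_nonneg fun i _ => Finset.sum_nonneg fun k _ => sq_nonneg _
  have h5 : 0 ≤ Φ y ^ 2 := sq_nonneg _
  show ∑ i, ∑ k, Φy i k y ^ 2 ≤ (1 + ∑ i, ‖y i‖) ^ 4 * (Φ y ^ 2 + ∑ i, ∑ k, Φy i k y ^ 2)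
  linarith only [mul_nonneg (sub_nonneg.2 h3) (sub_nonneg.2 h4), mul_nonneg (sq_nonneg (Φ y : ℝ)) (sub_nonneg.2 h3), sq_nonneg (Φ y : ℝ)]

theorem Sys.Uf_bound (hS : Sys A R ε δ M E4 E3 F Fx Fy Φ Φy) :
    Measurable (Uf Φ) ∧ (∀ x, |Uf Φ x| ≤ 6 * √M) ∧
      ∀ x, x ≠ 0 → |Uf Φ x - 3 / ‖x‖| ≤ 21 * √M / ‖x‖ ^ 2 := by
  have hm := hS.Φ_H1.memLp
  have h1 : ∫ y, Φ y * Φ y = 1 := by
    rw [← hS.Φ_norm]
    simp only [sq]
  refine ⟨?_, fun x => ?_, fun x hx => ?_⟩
  · have h2 : Uf Φ = fun x => ∫ y, rep x y * (hm.1.mk Φ y * hm.1.mk Φ y) := by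
      funext x
      refine integral_congr_ae ?_
      filter_upwards [hm.1.ae_eq_mk] with y hy
      rw [← hy]
    rw [h2]
    have h3 : Measurable (hm.1.mk Φ) := hm.1.stronglyMeasurable_mk.measurable
    have h4 : Measurable fun p : X4 => rep p.1 p.2 * (hm.1.mk Φ p.2 * hm.1.mk Φ p.2) :=
      e8c_measurable_rep.mul ((h3.comp measurable_snd).mul (h3.comp measurable_snd))
    exact (h4.stronglyMeasurable.integral_prod_right').measurable
  · have h2 := (rep_bound0 hS.Φ_H1 hS.e8c_grad x hm).2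
    rw [hS.Φ_norm, Real.sqrt_one, mul_one] at h2
    exact h2
  · have h2 := rep_bound hS.Φ_H1 hS.moment_int hS.moment hx hm
    rw [hS.Φ_norm, h1, Real.sqrt_one, mul_one, mul_one] at h2
    exact h2

theorem Sys.Sf_bound (hS : Sys A R ε δ M E4 E3 F Fx Fy Φ Φy) (hε : 0 ≤ ε) :
    AEStronglyMeasurable (Sf ε F Φ) volume ∧
      ∀ᵐ x : R3, |Sf ε F Φ x| ≤ ε * (6 * √M) * nrm (Pf F Φ) x ∧
        |Sf ε F Φ x| ≤ ε * (21 * √M) / ‖x‖ ^ 2 * nrm (Pf F Φ) x := by
  have hm := hS.Φ_H1.memLp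
  have hP := Pf_memLp hS.F_H1.memLp hm
  constructor
  · have h1 : AEStronglyMeasurable (fun p : X4 => rep p.1 p.2 * (Φ p.2 * Pf F Φ p)) volume :=
      e8c_measurable_rep.aestronglyMeasurable.mul (hm.1.comp_snd.mul hP.1)
    have h2 : AEStronglyMeasurable (fun x : R3 => ∫ y, rep x y * (Φ y * Pf F Φ (x, y)))
        volume := h1.integral_prod_right'
    exact h2.const_mul ε
  · have h0 : ∀ᵐ x : R3, x ≠ 0 := by
      rw [ae_iff]
      simp
    filter_upwards [slice_memLp hP, Pf_orth hS.F_H1.memLp hm hS.Φ_norm, h0] with x h1 h2 h3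
    have h4 := (rep_bound0 hS.Φ_H1 hS.e8c_grad x h1).2
    have h5 := rep_bound hS.Φ_H1 hS.moment_int hS.moment h3 h1
    rw [h2, mul_zero, sub_zero] at h5
    have h6 : |Sf ε F Φ x| = ε * |∫ y, rep x y * (Φ y * Pf F Φ (x, y))| := by
      rw [Sf, abs_mul, abs_of_nonneg hε]
    rw [h6]
    constructor
    · calc ε * |∫ y, rep x y * (Φ y * Pf F Φ (x, y))|
          ≤ ε * (6 * √M * √(∫ y, Pf F Φ (x, y) ^ 2)) := mul_le_mul_of_nonneg_left h4 hε
        _ = ε * (6 * √M) * nrm (Pf F Φ) x := by rw [nrm, nsq]; ring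
    · calc ε * |∫ y, rep x y * (Φ y * Pf F Φ (x, y))|
          ≤ ε * (21 * √M / ‖x‖ ^ 2 * √(∫ y, Pf F Φ (x, y) ^ 2)) :=
            mul_le_mul_of_nonneg_left h5 hε
        _ = ε * (21 * √M) / ‖x‖ ^ 2 * nrm (Pf F Φ) x := by rw [nrm, nsq]; ring

end

end Vale.Agent.P363.D
end
end

section

section

/-! # P363, exact side: the energy identities -/

namespace Vale.Agent.P363.D

open MeasureTheory Set Filter Topology
open scoped ENNReal ContDiff

noncomputable section

/-- Multiplication of an integrable function by a bounded function of the first variable. -/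
theorem E9_bdd {G : X4 → ℝ} (hG : Integrable G volume) {g : R3 → ℝ} {C : ℝ}
    (hm : AEStronglyMeasurable g volume) (hb : ∀ᵐ x : R3, |g x| ≤ C) :
    Integrable (fun p : X4 => g p.1 * G p) volume := by
  have hm' : AEStronglyMeasurable (fun p : X4 => g p.1) volume := by
    rw [Measure.volume_eq_prod]
    exact hm.comp_fst
  have hb' : ∀ᵐ p : X4, ‖g p.1‖ ≤ C := by
    rw [Measure.volume_eq_prod]
    exact Measure.quasiMeasurePreserving_fst.ae hb
  exact hG.bdd_mul hm' hb'

/-- The slice integrals of the potential energy without the distinguished electron. -/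
theorem E9_pot {u : X4 → ℝ} {ux : Fin 3 → X4 → ℝ} {uy : Fin 3 → Fin 3 → X4 → ℝ}
    (h : HX u ux uy) (ε A R : ℝ) :
    Integrable (fun p : X4 => (vN ε A R p.2 + ε * rep p.1 p.2) * u p ^ 2) volume := by
  refine ((h.int_vN h ε A R).add ((h.int_rep h).const_mul ε)).congr ?_
  refine Eventually.of_forall fun p => ?_
  simp only [Pi.add_apply]
  ring

theorem E9_cen (ε A R : ℝ) (u : X4 → ℝ) (uy : Fin 3 → Fin 3 → X4 → ℝ) (x : R3) :
    cen ε A R u uy x = (1 / 2) * (∑ i, ∑ k, nsq (uy i k) x) +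
      ∫ y, (fun p : X4 => (vN ε A R p.2 + ε * rep p.1 p.2) * u p ^ 2) (x, y) := rfl

theorem HX.cen_integrable {u : X4 → ℝ} {ux : Fin 3 → X4 → ℝ} {uy : Fin 3 → Fin 3 → X4 → ℝ}
    (h : HX u ux uy) (ε A R : ℝ) : Integrable (cen ε A R u uy) volume := by
  have h1 : Integrable (fun x : R3 => (1 / 2) * (∑ i, ∑ k, nsq (uy i k) x)) volume := by
    refine Integrable.const_mul ?_ _
    refine integrable_finsetSum _ fun i _ => integrable_finsetSum _ fun k _ => ?_
    exact (nsq_integrable (h.memLpy i k)).1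
  have h2 := E9_pot h ε A R
  rw [Measure.volume_eq_prod] at h2
  exact h1.add h2.integral_prod_left

theorem HX.v1_nsq_integrable {u : X4 → ℝ} {ux : Fin 3 → X4 → ℝ} {uy : Fin 3 → Fin 3 → X4 → ℝ}
    (h : HX u ux uy) (ε A R : ℝ) : Integrable (fun x => v1 ε A R x * nsq u x) volume := by
  have h1 : Integrable (fun p : X4 => v1 ε A R p.1 * u p ^ 2) volume := by
    refine (h.int_v1 h ε A R).congr (Eventually.of_forall fun p => ?_)
    simp only
    ring
  exact (fubini_fst (G := fun p => u p ^ 2) (v1 ε A R) h1).1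

variable {F : X4 → ℝ} {Φ : Conf 3 → ℝ}
variable {A R ε δ M E4 E3 : ℝ} {Fx : Fin 3 → X4 → ℝ} {Fy : Fin 3 → Fin 3 → X4 → ℝ}
  {Φy : Fin 3 → Fin 3 → Conf 3 → ℝ}

/-- The equation tested with `g(x) F`. -/
theorem Sys.F_identity (hS : Sys A R ε δ M E4 E3 F Fx Fy Φ Φy) {g : R3 → ℝ}
    {gg : Fin 3 → R3 → ℝ} {C : ℝ}
    (hg : ∀ k, ACL volume (dir3 k) g (gg k)) (hb : ∀ᵐ x : R3, |g x| ≤ C)
    (hgg : ∀ k, MemLp (fun x => gg k x * nrm F x) 2 volume) :
    (∀ k, Integrable (fun x => gg k x * ipy F (Fx k) x) volume) ∧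
    (1 / 2) * (∑ k, ∫ x, gg k x * ipy F (Fx k) x) + (1 / 2) * (∑ k, ∫ x, g x * nsq (Fx k) x) +
      ∫ x, g x * (cen ε A R F Fy x + (v1 ε A R x - E4) * nsq F x) = 0 := by
  have hF := hS.F_H1
  have hH := hF.gmul hg hb hgg
  have hgm : AEStronglyMeasurable g volume := (hg 0).meas
  have hgm' : AEStronglyMeasurable (fun p : X4 => g p.1) volume := by
    rw [Measure.volume_eq_prod]
    exact hgm.comp_fst
  have hb' : ∀ᵐ p : X4, |g p.1| ≤ C := by
    rw [Measure.volume_eq_prod]
    exact Measure.quasiMeasurePreserving_fst.ae hb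
  -- the function `gg k * F` is square integrable
  have hgF : ∀ k, MemLp (fun p : X4 => gg k p.1 * F p) 2 volume := by
    intro k
    have h1 : MemLp (fun p : X4 => g p.1 * Fx k p) 2 volume := by
      refine MemLp.of_le_mul (c := C) (hF.memLpx k)
        (hgm'.mul (hF.memLpx k).aestronglyMeasurable) ?_
      filter_upwards [hb'] with p hp
      rw [norm_mul, Real.norm_eq_abs]
      exact mul_le_mul_of_nonneg_right hp (norm_nonneg _)
    have h2 := (hH.memLpx k).sub h1
    refine h2.ae_eq (Eventually.of_forall fun p => ?_)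
    simp
  have iT1 : ∀ k, Integrable (fun p : X4 => gg k p.1 * (F p * Fx k p)) volume := by
    intro k
    refine ((hgF k).integrable_mul (hF.memLpx k)).congr (Eventually.of_forall fun p => ?_)
    simp only [Pi.mul_apply]
    ring
  have iT2 : ∀ k, Integrable (fun p : X4 => g p.1 * (Fx k p ^ 2)) volume := by
    intro k
    exact E9_bdd (G := fun p => Fx k p ^ 2) (hF.memLpx k).integrable_sq hgm hb
  have iT3 : ∀ i k, Integrable (fun p : X4 => g p.1 * (Fy i k p ^ 2)) volume := by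
    intro i k
    exact E9_bdd (G := fun p => Fy i k p ^ 2) (hF.memLpy i k).integrable_sq hgm hb
  have iT4 : Integrable (fun p : X4 => (g p.1 * (v1 ε A R p.1 - E4)) * F p ^ 2) volume := by
    have h1 : Integrable (fun p : X4 => v1 ε A R p.1 * (F p * F p) - E4 * F p ^ 2) volume :=
      (hF.int_v1 hF ε A R).sub (hF.memLp.integrable_sq.const_mul E4)
    refine (E9_bdd h1 hgm hb).congr (Eventually.of_forall fun p => ?_)
    simp only
    ring
  have iT5 : Integrable (fun p : X4 => g p.1 * ((vN ε A R p.2 + ε * rep p.1 p.2) * F p ^ 2))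
      volume := E9_bdd (E9_pot hF ε A R) hgm hb
  have f1 := fun k => fubini_fst (G := fun p => F p * Fx k p) (gg k) (iT1 k)
  have f2 := fun k => fubini_fst (G := fun p => Fx k p ^ 2) g (iT2 k)
  have f3 := fun i k => fubini_fst (G := fun p => Fy i k p ^ 2) g (iT3 i k)
  have f4 := fubini_fst (G := fun p => F p ^ 2) (fun x => g x * (v1 ε A R x - E4)) iT4
  have f5 := fubini_fst (G := fun p => (vN ε A R p.2 + ε * rep p.1 p.2) * F p ^ 2) g iT5
  refine ⟨fun k => (f1 k).1, ?_⟩
  have heq := hS.F_eq _ _ _ hH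
  have e1 : ∀ k, ∫ p, Fx k p * (gg k p.1 * F p + g p.1 * Fx k p) =
      (∫ x, gg k x * ipy F (Fx k) x) + ∫ x, g x * nsq (Fx k) x := by
    intro k
    have h1 : ∫ p, Fx k p * (gg k p.1 * F p + g p.1 * Fx k p) =
        ∫ p : X4, (gg k p.1 * (F p * Fx k p) + g p.1 * (Fx k p ^ 2)) := by
      refine integral_congr_ae (Eventually.of_forall fun p => ?_)
      simp only
      ring
    rw [h1, integral_add (iT1 k) (iT2 k), (f1 k).2, (f2 k).2]
    rfl
  have e3 : ∀ i k, ∫ p, Fy i k p * (g p.1 * Fy i k p) = ∫ x, g x * nsq (Fy i k) x := by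
    intro i k
    have h1 : ∫ p, Fy i k p * (g p.1 * Fy i k p) = ∫ p : X4, g p.1 * (Fy i k p ^ 2) := by
      refine integral_congr_ae (Eventually.of_forall fun p => ?_)
      simp only
      ring
    rw [h1, (f3 i k).2]
    rfl
  have e4 : ∫ p, (vX ε A R p - E4) * F p * (g p.1 * F p) =
      (∫ x, (g x * (v1 ε A R x - E4)) * nsq F x) +
        ∫ x, g x * ∫ y, (fun p : X4 => (vN ε A R p.2 + ε * rep p.1 p.2) * F p ^ 2) (x, y) := by
    have h1 : ∫ p, (vX ε A R p - E4) * F p * (g p.1 * F p) =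
        ∫ p : X4, ((g p.1 * (v1 ε A R p.1 - E4)) * F p ^ 2 +
          g p.1 * ((vN ε A R p.2 + ε * rep p.1 p.2) * F p ^ 2)) := by
      refine integral_congr_ae (Eventually.of_forall fun p => ?_)
      simp only [vX]
      ring
    rw [h1, integral_add iT4 iT5, f4.2, f5.2]
    rfl
  have e5 : ∫ x, g x * (cen ε A R F Fy x + (v1 ε A R x - E4) * nsq F x) =
      (1 / 2) * (∑ i, ∑ k, ∫ x, g x * nsq (Fy i k) x) +
      ((∫ x, (g x * (v1 ε A R x - E4)) * nsq F x) +
        ∫ x, g x * ∫ y, (fun p : X4 => (vN ε A R p.2 + ε * rep p.1 p.2) * F p ^ 2) (x, y)) := by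
    have i3 : ∀ i k, Integrable (fun x => g x * nsq (Fy i k) x) volume := fun i k => (f3 i k).1
    have i3s : Integrable (fun x => (1 / 2) * (∑ i, ∑ k, g x * nsq (Fy i k) x)) volume := by
      refine Integrable.const_mul ?_ _
      exact integrable_finsetSum _ fun i _ => integrable_finsetSum _ fun k _ => i3 i k
    have i4 : Integrable (fun x => (g x * (v1 ε A R x - E4)) * nsq F x) volume := f4.1
    have i5 : Integrable (fun x => g x *
        ∫ y, (fun p : X4 => (vN ε A R p.2 + ε * rep p.1 p.2) * F p ^ 2) (x, y)) volume := f5.1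
    have h1 : ∫ x, g x * (cen ε A R F Fy x + (v1 ε A R x - E4) * nsq F x) =
        ∫ x, ((1 / 2) * (∑ i, ∑ k, g x * nsq (Fy i k) x) +
          ((g x * (v1 ε A R x - E4)) * nsq F x + g x *
          ∫ y, (fun p : X4 => (vN ε A R p.2 + ε * rep p.1 p.2) * F p ^ 2) (x, y))) := by
      refine integral_congr_ae (Eventually.of_forall fun x => ?_)
      simp only
      rw [E9_cen]
      simp only [← Finset.mul_sum]
      ring
    have i45 : Integrable (fun x => (g x * (v1 ε A R x - E4)) * nsq F x + g x *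
        ∫ y, (fun p : X4 => (vN ε A R p.2 + ε * rep p.1 p.2) * F p ^ 2) (x, y)) volume :=
      i4.add i5
    rw [h1, integral_add i3s i45, integral_add i4 i5, integral_const_mul,
      integral_finsetSum _ fun i _ => integrable_finsetSum _ fun k _ => i3 i k]
    congr 2
    refine Finset.sum_congr rfl fun i _ => ?_
    rw [integral_finsetSum _ fun k _ => i3 i k]
  rw [e4] at heq
  simp only [e1, e3, Finset.sum_add_distrib] at heq
  rw [e5]
  (clear * - heq; linarith)

end

end Vale.Agent.P363.D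
end
end

section

section

/-! # P363, exact side: Kato's inequality for Hilbert space valued functions -/

namespace Vale.Agent.P363.D

open MeasureTheory Set Filter Topology
open scoped ENNReal ContDiff

noncomputable section

/-- The weight `h / √(|u|² + τ²)`. -/
def kw (u : X4 → ℝ) (h : R3 → ℝ) (τ : ℝ) (x : R3) : ℝ := h x / √(nsq u x + τ ^ 2)

/-- Gradient of the weight. -/
def kwg (u : X4 → ℝ) (ux : Fin 3 → X4 → ℝ) (h : R3 → ℝ) (hg : Fin 3 → R3 → ℝ) (τ : ℝ) (k : Fin 3)
    (x : R3) : ℝ :=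
  hg k x / √(nsq u x + τ ^ 2) - h x * ipy u (ux k) x / √(nsq u x + τ ^ 2) ^ 3

variable {u : X4 → ℝ} {ux : Fin 3 → X4 → ℝ} {uy : Fin 3 → Fin 3 → X4 → ℝ}
  {h : R3 → ℝ} {hg : Fin 3 → R3 → ℝ} {B0 : ℝ}

theorem kw_nsq_acl (hu : HX u ux uy) (k : Fin 3) :
    ACL volume (dir3 k) (nsq u) (fun x => 2 * ipy u (ux k) x) := by
  have h1 := (hu.aclx k).mul (hu.aclx k)
  have i1 : Integrable (fun p => u p * u p) (volume : Measure X4) :=
    hu.memLp.integrable_mul hu.memLp
  have i2 : Integrable (fun p => ux k p * u p + u p * ux k p) (volume : Measure X4) :=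
    ((hu.memLpx k).integrable_mul hu.memLp).add (hu.memLp.integrable_mul (hu.memLpx k))
  rw [Measure.volume_eq_prod] at h1 i1 i2
  have h2 := ACL.marginal h1 i1 i2
  have e1 : (fun x => ∫ y, u (x, y) * u (x, y)) = nsq u := by
    funext x
    simp only [nsq]
    congr 1
    funext y
    ring
  have e2 : (fun x => ∫ y, (ux k (x, y) * u (x, y) + u (x, y) * ux k (x, y))) =
      fun x => 2 * ipy u (ux k) x := by
    funext x
    simp only [ipy]
    rw [← integral_const_mul]
    congr 1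
    funext y
    ring
  rw [e1, e2] at h2
  exact h2

theorem kw_hasDeriv {τ : ℝ} {y : ℝ} (hy : y ∈ Ioi (-τ ^ 2)) :
    HasDerivAt (fun t : ℝ => (√(t + τ ^ 2))⁻¹) (-(1 / (2 * √(y + τ ^ 2))) / √(y + τ ^ 2) ^ 2) y := by
  have hp : 0 < y + τ ^ 2 := by
    have : -τ ^ 2 < y := hy
    linarith only [this]
  have h1 : HasDerivAt (fun t : ℝ => √(t + τ ^ 2)) (1 / (2 * √(y + τ ^ 2))) y :=
    ((hasDerivAt_id y).add_const (τ ^ 2)).sqrt hp.ne'
  exact h1.inv (Real.sqrt_pos.mpr hp).ne'

theorem kato_weight (hu : HX u ux uy) (hh : H1o h hg) (hb : ∀ᵐ x : R3, |h x| ≤ B0) {τ : ℝ}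
    (hτ : 0 < τ) :
    (∀ k, ACL volume (dir3 k) (kw u h τ) (kwg u ux h hg τ k)) ∧
      (∀ᵐ x : R3, |kw u h τ x| ≤ B0 / τ) ∧
      ∀ k, MemLp (fun x => kwg u ux h hg τ k x * nrm u x) 2 volume := by
  have hge : ∀ x : R3, τ ≤ √(nsq u x + τ ^ 2) := by
    intro x
    apply Real.le_sqrt_of_sq_le
    have := nsq_nonneg u x
    linarith only [this]
  have hpos : ∀ x : R3, 0 < √(nsq u x + τ ^ 2) := fun x => lt_of_lt_of_le hτ (hge x)
  have hacl : ∀ k, ACL volume (dir3 k) (kw u h τ) (kwg u ux h hg τ k) := by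
    intro k
    have h1 := kw_nsq_acl hu k
    have hge0 := h1.prim_ge (m := fun _ => (0 : ℝ)) continuous_const
      (Eventually.of_forall (nsq_nonneg u))
    have hms : AEStronglyMeasurable (fun x => √(nsq u x + τ ^ 2)) (volume : Measure R3) :=
      Real.continuous_sqrt.comp_aestronglyMeasurable (h1.meas.add_const (τ ^ 2))
    have h2 := h1.comp (Φ := fun t : ℝ => (√(t + τ ^ 2))⁻¹)
      (Φ' := fun t : ℝ => -(1 / (2 * √(t + τ ^ 2))) / √(t + τ ^ 2) ^ 2) (Ω := Ioi (-τ ^ 2))
      (fun y hy => kw_hasDeriv hy)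
      (by
        have hne : ∀ y ∈ Ioi (-τ ^ 2), √(y + τ ^ 2) ≠ 0 := by
          intro y hy
          have : -τ ^ 2 < y := hy
          exact (Real.sqrt_pos.mpr (by linarith)).ne'
        have hc : Continuous (fun y : ℝ => √(y + τ ^ 2)) := by (clear * -; fun_prop)
        apply ContinuousOn.div
        · apply ContinuousOn.neg
          apply ContinuousOn.div continuousOn_const (continuous_const.mul hc).continuousOn
          intro y hy
          exact mul_ne_zero two_ne_zero (hne y hy)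
        · exact (hc.pow 2).continuousOn
        · intro y hy
          exact pow_ne_zero 2 (hne y hy))
      (hms.inv₀)
      (((aestronglyMeasurable_const.div₀ (hms.const_mul 2)).neg).div₀ (hms.pow 2))
      (by
        filter_upwards [hge0] with x hx t
        have h3 := hx t
        have : 0 < τ ^ 2 := by positivity
        exact lt_of_lt_of_le (by linarith only [this]) h3)
    have h3 := (hh.acl k).mul h2
    have e1 : (fun x => h x * (√(nsq u x + τ ^ 2))⁻¹) = kw u h τ := by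
      funext x
      rw [kw, div_eq_mul_inv]
    have e2 : (fun x => hg k x * (√(nsq u x + τ ^ 2))⁻¹ + h x *
        (-(1 / (2 * √(nsq u x + τ ^ 2))) / √(nsq u x + τ ^ 2) ^ 2 * (2 * ipy u (ux k) x))) =
        kwg u ux h hg τ k := by
      funext x
      have := (hpos x).ne'
      rw [kwg]
      field_simp
      ring
    rw [e1, e2] at h3
    exact h3
  refine ⟨hacl, ?_, ?_⟩
  · filter_upwards [hb] with x hx
    rw [kw, abs_div, abs_of_pos (hpos x)]
    have hB : 0 ≤ B0 := (abs_nonneg _).trans hx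
    exact div_le_div₀ hB hx hτ (hge x)
  · intro k
    have hmn : AEStronglyMeasurable (nrm u) (volume : Measure R3) := (nrm_memLp hu.memLp).1
    refine ((hh.memLp' k).norm.add ((nrm_memLp (hu.memLpx k)).const_mul (B0 / τ))).mono'
      ((hacl k).meas'.mul hmn) ?_
    filter_upwards [hb, ipy_cs hu.memLp (hu.memLpx k)] with x hx hc
    have hB : 0 ≤ B0 := (abs_nonneg _).trans hx
    have hs := hpos x
    have hn := nrm_nonneg u x
    have hnk := nrm_nonneg (ux k) x
    have hns : nrm u x ≤ √(nsq u x + τ ^ 2) := by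
      apply Real.sqrt_le_sqrt
      have : 0 < τ ^ 2 := by positivity
      linarith only [this]
    simp only [Pi.add_apply, Real.norm_eq_abs]
    rw [kwg, sub_mul]
    refine (abs_sub _ _).trans ?_
    apply add_le_add
    · rw [abs_mul, abs_div, abs_of_pos hs, abs_of_nonneg hn, div_mul_eq_mul_div, div_le_iff₀ hs]
      exact mul_le_mul_of_nonneg_left hns (abs_nonneg _)
    · rw [abs_mul, abs_div, abs_of_pos (pow_pos hs 3), abs_of_nonneg hn, abs_mul]
      set s := √(nsq u x + τ ^ 2) with hsdef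
      have hτs : τ ≤ s := hge x
      rw [div_mul_eq_mul_div, div_mul_eq_mul_div, div_le_div_iff₀ (pow_pos hs 3) hτ]
      have h1 : |h x| * |ipy u (ux k) x| ≤ B0 * (nrm u x * nrm (ux k) x) :=
        mul_le_mul hx hc (abs_nonneg _) hB
      have h2 : nrm u x * nrm u x * τ ≤ s * s * s :=
        mul_le_mul (mul_le_mul hns hns hn hs.le) hτs hτ.le (by (clear * - hs; positivity))
      calc |h x| * |ipy u (ux k) x| * nrm u x * τ
          ≤ B0 * (nrm u x * nrm (ux k) x) * nrm u x * τ := by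
            (clear * - h1 hn hτ; gcongr)
        _ = B0 * nrm (ux k) x * (nrm u x * nrm u x * τ) := by ring
        _ ≤ B0 * nrm (ux k) x * (s * s * s) :=
            mul_le_mul_of_nonneg_left h2 (mul_nonneg hB hnk)
        _ = B0 * nrm (ux k) x * s ^ 3 := by ring

end

end Vale.Agent.P363.D
end
end

section

section

/-! # P363, exact side: Kato's inequality, abstract form -/

namespace Vale.Agent.P363.D

open MeasureTheory Set Filter Topology
open scoped ENNReal ContDiff

noncomputable section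

variable {u : X4 → ℝ} {ux : Fin 3 → X4 → ℝ} {uy : Fin 3 → Fin 3 → X4 → ℝ}
  {h : R3 → ℝ} {hg : Fin 3 → R3 → ℝ} {B0 : ℝ}

/-- Kato's inequality from the energy identities. -/
theorem kato_abstract (hu : HX u ux uy) (hh : H1o h hg) (h0 : ∀ᵐ x : R3, 0 ≤ h x)
    (hb : ∀ᵐ x : R3, |h x| ≤ B0) {B b : R3 → ℝ}
    (hid : ∀ τ : ℝ, 0 < τ →
      (1 / 2) * (∑ k, ∫ x, kwg u ux h hg τ k x * ipy u (ux k) x) +
        (1 / 2) * (∑ k, ∫ x, kw u h τ x * nsq (ux k) x) + ∫ x, kw u h τ x * B x ≤ 0)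
    (hBi : Integrable B volume) (hbi : Integrable (fun x => b x * h x) volume)
    (hBb : ∀ᵐ x : R3, h x ≠ 0 → b x * nrm u x ≤ B x)
    (hb0 : ∀ᵐ x : R3, h x ≠ 0 → nrm u x = 0 → b x ≤ 0) :
    (1 / 2) * (∑ k, ∫ x, nrmg u ux k x * hg k x) + ∫ x, b x * h x ≤ 0 := by
  have hN : Integrable (nsq u) volume := (nsq_integrable hu.memLp).1
  have hS : ∀ k, Integrable (nsq (ux k)) volume := fun k => (nsq_integrable (hu.memLpx k)).1
  have hP : ∀ k, Integrable (ipy u (ux k)) volume := fun k =>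
    (ipy_integrable hu.memLp (hu.memLpx k)).1
  have hcs : ∀ k, ∀ᵐ x, |ipy u (ux k) x| ≤ nrm u x * nrm (ux k) x := fun k =>
    ipy_cs hu.memLp (hu.memLpx k)
  have mh : AEMeasurable h volume := hh.memLp.aestronglyMeasurable.aemeasurable
  have mhg : ∀ k, AEMeasurable (hg k) volume := fun k =>
    (hh.memLp' k).aestronglyMeasurable.aemeasurable
  have mP : ∀ k, AEMeasurable (ipy u (ux k)) volume := fun k =>
    (hP k).aestronglyMeasurable.aemeasurable
  have mN : AEMeasurable (nsq u) volume := hN.aestronglyMeasurable.aemeasurable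
  have mr : ∀ τ : ℝ, AEMeasurable (fun x => √(nsq u x + τ ^ 2)) volume := fun τ =>
    (mN.add_const _).sqrt
  have mnrm : AEMeasurable (nrm u) volume := mN.sqrt
  have hrpos : ∀ τ : ℝ, 0 < τ → ∀ x, 0 < √(nsq u x + τ ^ 2) := fun τ hτ x =>
    Real.sqrt_pos.2 (add_pos_of_nonneg_of_pos (nsq_nonneg u x) (by (clear * - hτ; positivity)))
  have hrge : ∀ τ : ℝ, ∀ x, nrm u x ≤ √(nsq u x + τ ^ 2) := fun τ x =>
    Real.sqrt_le_sqrt (le_add_of_nonneg_right (sq_nonneg τ))
  have hrτ : ∀ τ : ℝ, 0 < τ → ∀ x, τ ≤ √(nsq u x + τ ^ 2) := fun τ hτ x =>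
    Real.le_sqrt_of_sq_le (le_add_of_nonneg_left (nsq_nonneg u x))
  -- the dominating functions
  have hdom : ∀ k, Integrable (fun x => |hg k x| * nrm (ux k) x) volume := fun k =>
    (hh.memLp' k).abs.integrable_mul (nrm_memLp (hu.memLpx k))
  have hB0 : 0 ≤ B0 := by
    obtain ⟨x, hx⟩ := hb.exists
    exact (abs_nonneg _).trans hx
  -- integrability for fixed `τ`
  have i1 : ∀ τ : ℝ, 0 < τ → ∀ k,
      Integrable (fun x => hg k x * ipy u (ux k) x / √(nsq u x + τ ^ 2)) volume := by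
    intro τ hτ k
    refine (hdom k).mono' (((mhg k).mul (mP k)).div (mr τ)).aestronglyMeasurable ?_
    filter_upwards [hcs k] with x hx
    have h1 := hrpos τ hτ x
    have h2 : |ipy u (ux k) x| ≤ √(nsq u x + τ ^ 2) * nrm (ux k) x :=
      hx.trans (mul_le_mul_of_nonneg_right (hrge τ x) (nrm_nonneg _ _))
    rw [Real.norm_eq_abs, abs_div, abs_mul, abs_of_pos h1, div_le_iff₀ h1]
    calc |hg k x| * |ipy u (ux k) x| ≤ |hg k x| * (√(nsq u x + τ ^ 2) * nrm (ux k) x) :=
          mul_le_mul_of_nonneg_left h2 (abs_nonneg _)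
      _ = _ := by ring
  have i2 : ∀ τ : ℝ, 0 < τ → ∀ k, Integrable (fun x => kw u h τ x * nsq (ux k) x) volume := by
    intro τ hτ k
    refine ((hS k).const_mul (B0 / τ)).mono'
      ((mh.div (mr τ)).mul (hS k).aestronglyMeasurable.aemeasurable).aestronglyMeasurable ?_
    filter_upwards [hb] with x hx
    have h1 := hrpos τ hτ x
    rw [Real.norm_eq_abs, abs_mul, abs_of_nonneg (nsq_nonneg (ux k) x)]
    refine mul_le_mul_of_nonneg_right ?_ (nsq_nonneg _ _)
    rw [kw, abs_div, abs_of_pos h1]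
    exact div_le_div₀ hB0 hx hτ (hrτ τ hτ x)
  have i3 : ∀ τ : ℝ, 0 < τ → ∀ k,
      Integrable (fun x => h x * ipy u (ux k) x ^ 2 / √(nsq u x + τ ^ 2) ^ 3) volume := by
    intro τ hτ k
    refine ((hS k).const_mul (B0 / τ)).mono'
      ((mh.mul ((mP k).pow_const 2)).div ((mr τ).pow_const 3)).aestronglyMeasurable ?_
    filter_upwards [hb, hcs k] with x hx hc
    have h1 := hrpos τ hτ x
    have h2 : ipy u (ux k) x ^ 2 ≤ √(nsq u x + τ ^ 2) ^ 2 * nsq (ux k) x := by
      rw [← nrm_sq (ux k) x, ← mul_pow, ← sq_abs]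
      exact pow_le_pow_left₀ (abs_nonneg _)
        (hc.trans (mul_le_mul_of_nonneg_right (hrge τ x) (nrm_nonneg _ _))) 2
    rw [Real.norm_eq_abs, abs_div, abs_mul, abs_of_pos (pow_pos h1 3),
      abs_of_nonneg (sq_nonneg (ipy u (ux k) x)),
      div_le_iff₀ (pow_pos h1 3)]
    have h3 : |h x| ≤ B0 / τ * √(nsq u x + τ ^ 2) := by
      refine hx.trans ?_
      rw [div_mul_eq_mul_div, le_div_iff₀ hτ]
      exact mul_le_mul_of_nonneg_left (hrτ τ hτ x) hB0
    calc |h x| * ipy u (ux k) x ^ 2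
        ≤ (B0 / τ * √(nsq u x + τ ^ 2)) * (√(nsq u x + τ ^ 2) ^ 2 * nsq (ux k) x) :=
          mul_le_mul h3 h2 (sq_nonneg _) (mul_nonneg (div_nonneg hB0 hτ.le) h1.le)
      _ = _ := by ring
  have i4 : ∀ τ : ℝ, 0 < τ → Integrable (fun x => kw u h τ x * B x) volume := by
    intro τ hτ
    refine (hBi.abs.const_mul (B0 / τ)).mono'
      ((mh.div (mr τ)).mul hBi.aestronglyMeasurable.aemeasurable).aestronglyMeasurable ?_
    filter_upwards [hb] with x hx
    have h1 := hrpos τ hτ x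
    rw [Real.norm_eq_abs, abs_mul]
    refine mul_le_mul_of_nonneg_right ?_ (abs_nonneg _)
    rw [kw, abs_div, abs_of_pos h1]
    exact div_le_div₀ hB0 hx hτ (hrτ τ hτ x)
  have mb : AEMeasurable (fun x => b x * h x) volume := hbi.aestronglyMeasurable.aemeasurable
  have hratio : ∀ τ : ℝ, 0 < τ → ∀ x, |nrm u x / √(nsq u x + τ ^ 2)| ≤ 1 := by
    intro τ hτ x
    rw [abs_div, abs_of_nonneg (nrm_nonneg u x), abs_of_pos (hrpos τ hτ x),
      div_le_one (hrpos τ hτ x)]
    exact hrge τ x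
  have i5 : ∀ τ : ℝ, 0 < τ →
      Integrable (fun x => b x * h x * (nrm u x / √(nsq u x + τ ^ 2))) volume := by
    intro τ hτ
    refine hbi.abs.mono' (mb.mul (mnrm.div (mr τ))).aestronglyMeasurable
      (Eventually.of_forall fun x => ?_)
    rw [Real.norm_eq_abs, abs_mul]
    exact mul_le_of_le_one_right (abs_nonneg _) (hratio τ hτ x)
  -- inequality for fixed `τ`
  have key : ∀ τ : ℝ, 0 < τ →
      (1 / 2) * (∑ k, ∫ x, hg k x * ipy u (ux k) x / √(nsq u x + τ ^ 2)) +
        ∫ x, b x * h x * (nrm u x / √(nsq u x + τ ^ 2)) ≤ 0 := by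
    intro τ hτ
    have e1 : ∀ k, ∫ x, kwg u ux h hg τ k x * ipy u (ux k) x =
        (∫ x, hg k x * ipy u (ux k) x / √(nsq u x + τ ^ 2)) -
          ∫ x, h x * ipy u (ux k) x ^ 2 / √(nsq u x + τ ^ 2) ^ 3 := by
      intro k
      rw [← integral_sub (i1 τ hτ k) (i3 τ hτ k)]
      refine integral_congr_ae (Eventually.of_forall fun x => ?_)
      simp only [kwg]
      ring
    have e2 : ∀ k, ∫ x, h x * ipy u (ux k) x ^ 2 / √(nsq u x + τ ^ 2) ^ 3 ≤
        ∫ x, kw u h τ x * nsq (ux k) x := by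
      intro k
      refine integral_mono_ae (i3 τ hτ k) (i2 τ hτ k) ?_
      filter_upwards [h0, hcs k] with x hx hc
      have h1 := hrpos τ hτ x
      have h2 : ipy u (ux k) x ^ 2 ≤ √(nsq u x + τ ^ 2) ^ 2 * nsq (ux k) x := by
        rw [← nrm_sq (ux k) x, ← mul_pow, ← sq_abs]
        exact pow_le_pow_left₀ (abs_nonneg _)
          (hc.trans (mul_le_mul_of_nonneg_right (hrge τ x) (nrm_nonneg _ _))) 2
      rw [kw, div_mul_eq_mul_div, div_le_div_iff₀ (pow_pos h1 3) h1]
      calc h x * ipy u (ux k) x ^ 2 * √(nsq u x + τ ^ 2)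
          ≤ h x * (√(nsq u x + τ ^ 2) ^ 2 * nsq (ux k) x) * √(nsq u x + τ ^ 2) := by (clear * - h2 hx h1; gcongr)
        _ = _ := by ring
    have e3 : ∫ x, b x * h x * (nrm u x / √(nsq u x + τ ^ 2)) ≤ ∫ x, kw u h τ x * B x := by
      refine integral_mono_ae (i5 τ hτ) (i4 τ hτ) ?_
      filter_upwards [h0, hBb] with x hx hB
      have h1 := hrpos τ hτ x
      by_cases hz : h x = 0
      · simp [kw, hz]
      · have h2 := hB hz
        calc b x * h x * (nrm u x / √(nsq u x + τ ^ 2))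
            = h x / √(nsq u x + τ ^ 2) * (b x * nrm u x) := by ring
          _ ≤ h x / √(nsq u x + τ ^ 2) * B x :=
              mul_le_mul_of_nonneg_left h2 (div_nonneg hx h1.le)
    have e4 : (∑ k, ∫ x, hg k x * ipy u (ux k) x / √(nsq u x + τ ^ 2)) ≤
        (∑ k, ∫ x, kwg u ux h hg τ k x * ipy u (ux k) x) +
          ∑ k, ∫ x, kw u h τ x * nsq (ux k) x := by
      rw [← Finset.sum_add_distrib]
      refine Finset.sum_le_sum fun k _ => ?_
      rw [e1 k]
      linarith only [e2 k]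
    have e5 := hid τ hτ
    linarith only [e3, e4, e5]
  -- the limit
  have hτn : ∀ n : ℕ, (0 : ℝ) < 1 / ((n : ℝ) + 1) := fun n => by (clear * -; positivity)
  have hlim0 : ∀ x, Tendsto (fun n : ℕ => √(nsq u x + (1 / ((n : ℝ) + 1)) ^ 2)) atTop
      (𝓝 (nrm u x)) := by
    intro x
    have h1 : Tendsto (fun n : ℕ => nsq u x + (1 / ((n : ℝ) + 1)) ^ 2) atTop
        (𝓝 (nsq u x + 0 ^ 2)) := (tendsto_one_div_add_atTop_nhds_zero_nat.pow 2).const_add _
    have h2 := (Real.continuous_sqrt.tendsto _).comp h1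
    rw [zero_pow two_ne_zero, add_zero] at h2
    exact h2
  have l1 : ∀ k, Tendsto (fun n : ℕ => ∫ x, hg k x * ipy u (ux k) x /
      √(nsq u x + (1 / ((n : ℝ) + 1)) ^ 2)) atTop (𝓝 (∫ x, nrmg u ux k x * hg k x)) := by
    intro k
    refine tendsto_integral_of_dominated_convergence (fun x => |hg k x| * nrm (ux k) x)
      (fun n => (i1 _ (hτn n) k).aestronglyMeasurable) (hdom k) (fun n => ?_) ?_
    · filter_upwards [hcs k] with x hx
      have h1 := hrpos _ (hτn n) x
      have h2 : |ipy u (ux k) x| ≤ √(nsq u x + (1 / ((n : ℝ) + 1)) ^ 2) * nrm (ux k) x :=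
        hx.trans (mul_le_mul_of_nonneg_right (hrge _ x) (nrm_nonneg _ _))
      rw [Real.norm_eq_abs, abs_div, abs_mul, abs_of_pos h1, div_le_iff₀ h1]
      calc |hg k x| * |ipy u (ux k) x|
          ≤ |hg k x| * (√(nsq u x + (1 / ((n : ℝ) + 1)) ^ 2) * nrm (ux k) x) :=
            mul_le_mul_of_nonneg_left h2 (abs_nonneg _)
        _ = _ := by ring
    · filter_upwards [hcs k] with x hx
      by_cases hz : nrm u x = 0
      · have h3 : ipy u (ux k) x = 0 := by
          rw [hz, zero_mul] at hx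
          exact abs_eq_zero.1 (le_antisymm hx (abs_nonneg _))
        simp only [h3, mul_zero, one_div, inv_pow, zero_div, nrmg, zero_mul, tendsto_const_nhds_iff]
      · have h3 := (tendsto_const_nhds (x := hg k x * ipy u (ux k) x)).div (hlim0 x) hz
        have h4 : nrmg u ux k x * hg k x = hg k x * ipy u (ux k) x / nrm u x := by
          rw [nrmg]; ring
        rw [h4]
        exact h3
  have l2 : Tendsto (fun n : ℕ => ∫ x, b x * h x * (nrm u x /
      √(nsq u x + (1 / ((n : ℝ) + 1)) ^ 2))) atTop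
      (𝓝 (∫ x, {x | nrm u x ≠ 0}.indicator (fun x => b x * h x) x)) := by
    refine tendsto_integral_of_dominated_convergence (fun x => |b x * h x|)
      (fun n => (i5 _ (hτn n)).aestronglyMeasurable) hbi.abs (fun n => ?_) ?_
    · refine Eventually.of_forall fun x => ?_
      rw [Real.norm_eq_abs, abs_mul]
      exact mul_le_of_le_one_right (abs_nonneg _) (hratio _ (hτn n) x)
    · refine Eventually.of_forall fun x => ?_
      by_cases hz : nrm u x = 0
      · have h3 : x ∉ {x | nrm u x ≠ 0} := fun h => h hz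
        rw [indicator_of_notMem h3]
        simp only [hz, one_div, inv_pow, zero_div, mul_zero, tendsto_const_nhds_iff]
      · have h3 : x ∈ {x | nrm u x ≠ 0} := hz
        rw [indicator_of_mem h3]
        have h4 := ((tendsto_const_nhds (x := nrm u x)).div (hlim0 x) hz).const_mul (b x * h x)
        rwa [div_self hz, mul_one] at h4
  have l3 : (1 / 2) * (∑ k, ∫ x, nrmg u ux k x * hg k x) +
      ∫ x, {x | nrm u x ≠ 0}.indicator (fun x => b x * h x) x ≤ 0 :=
    le_of_tendsto' (((tendsto_finsetSum _ fun k _ => l1 k).const_mul (1 / 2)).add l2)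
      fun n => key _ (hτn n)
  have l4 : ∫ x, b x * h x ≤ ∫ x, {x | nrm u x ≠ 0}.indicator (fun x => b x * h x) x := by
    have mset : NullMeasurableSet {x | nrm u x ≠ 0} volume :=
      (nullMeasurableSet_eq_fun mnrm aemeasurable_const).compl
    refine integral_mono_ae hbi (hbi.indicator₀ mset) ?_
    filter_upwards [h0, hb0] with x hx hx0
    by_cases hz : nrm u x = 0
    · have h3 : x ∉ {x | nrm u x ≠ 0} := fun h => h hz
      rw [indicator_of_notMem h3]
      by_cases hhz : h x = 0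
      · rw [hhz, mul_zero]
      · exact mul_nonpos_of_nonpos_of_nonneg (hx0 hhz hz) hx
    · have h3 : x ∈ {x | nrm u x ≠ 0} := hz
      rw [indicator_of_mem h3]
  linarith only [l3, l4]

end

end Vale.Agent.P363.D
end
end

section

section

/-! # P363, exact side: Caccioppoli inequality for the orthogonal part -/

namespace Vale.Agent.P363.D

open MeasureTheory Set Filter Topology
open scoped ENNReal ContDiff

noncomputable section

theorem e13_norm_ez {R : ℝ} (hR : 0 < R) : ‖R • ez‖ = R := by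
  rw [norm_smul, Real.norm_of_nonneg hR.le]
  simp [ez]

theorem e13_inv {R : ℝ} (hR : 0 < R) {x c : R3} (hc : ‖c‖ = R) (hx : 2 * R ≤ ‖x‖) :
    |1 / ‖x - c‖ - 1 / ‖x‖| ≤ 2 * R / ‖x‖ ^ 2 := by
  have hx0 : 0 < ‖x‖ := by linarith only [hR, hx]
  have h1 : ‖x‖ - R ≤ ‖x - c‖ := by
    have := norm_sub_norm_le x c
    rw [hc] at this
    exact this
  have h2 : ‖x‖ / 2 ≤ ‖x - c‖ := by linarith only [hx, h1]
  have h3 : 0 < ‖x - c‖ := by linarith only [hR, hx, h1]
  have h4 : |‖x‖ - ‖x - c‖| ≤ R := by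
    have := abs_norm_sub_norm_le x (x - c)
    rw [sub_sub_cancel, hc] at this
    exact this
  have h5 : 1 / ‖x - c‖ - 1 / ‖x‖ = (‖x‖ - ‖x - c‖) / (‖x - c‖ * ‖x‖) := by
    (clear * - hx0 h3; field_simp)
  rw [h5, abs_div, abs_of_pos (mul_pos h3 hx0), div_le_div_iff₀ (mul_pos h3 hx0) (by (clear * - hx0; positivity))]
  calc |‖x‖ - ‖x - c‖| * ‖x‖ ^ 2 ≤ R * ‖x‖ ^ 2 := by (clear * - h4 hx0; gcongr)
    _ = 2 * R * (‖x‖ / 2 * ‖x‖) := by ring
    _ ≤ 2 * R * (‖x - c‖ * ‖x‖) := by (clear * - h2 hx0 hR; gcongr)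

/-- Far field of the nuclei. -/
theorem v1_far {A R ε : ℝ} (hA : 0 ≤ A) (hR : 0 < R) (hε : 0 ≤ ε) {x : R3} (hx : 2 * R ≤ ‖x‖) :
    |v1 ε A R x + (1 + 2 * ε * A) / ‖x‖| ≤ ε * (4 * A * R) / ‖x‖ ^ 2 := by
  have h1 := e13_inv hR (e13_norm_ez hR) hx
  have h2 := e13_inv hR (c := -(R • ez)) (by rw [norm_neg, e13_norm_ez hR]) hx
  rw [sub_neg_eq_add] at h2
  have h3 : v1 ε A R x + (1 + 2 * ε * A) / ‖x‖ =
      -(ε * A) * ((1 / ‖x - R • ez‖ - 1 / ‖x‖) + (1 / ‖x + R • ez‖ - 1 / ‖x‖)) := by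
    unfold v1
    ring
  rw [h3, abs_mul, abs_neg, abs_of_nonneg (mul_nonneg hε hA)]
  calc ε * A * |(1 / ‖x - R • ez‖ - 1 / ‖x‖) + (1 / ‖x + R • ez‖ - 1 / ‖x‖)|
      ≤ ε * A * (2 * R / ‖x‖ ^ 2 + 2 * R / ‖x‖ ^ 2) := by
        refine mul_le_mul_of_nonneg_left ?_ (mul_nonneg hε hA)
        exact (abs_add_le _ _).trans (add_le_add h1 h2)
    _ = ε * (4 * A * R) / ‖x‖ ^ 2 := by ring

variable {F : X4 → ℝ} {Φ : Conf 3 → ℝ}
variable {A R ε δ M E4 E3 : ℝ} {Fx : Fin 3 → X4 → ℝ} {Fy : Fin 3 → Fin 3 → X4 → ℝ}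
  {Φy : Fin 3 → Fin 3 → Conf 3 → ℝ}

/-- Coercivity of the conditional energy. -/
theorem HX.cen_coercive {u : X4 → ℝ} {ux : Fin 3 → X4 → ℝ} {uy : Fin 3 → Fin 3 → X4 → ℝ}
    (h : HX u ux uy) (ε A R : ℝ) (hε : 0 ≤ ε) : ∃ C : ℝ, 0 ≤ C ∧ ∀ᵐ x : R3,
      (1 / 4) * (∑ i, ∑ k, nsq (uy i k) x) ≤ cen ε A R u uy x + C * nsq u x ∧
      cen ε A R u uy x ≤ C * ((∑ i, ∑ k, nsq (uy i k) x) + nsq u x) := by
  obtain ⟨C1, hC1, hv⟩ := HN.vN_le (N := 3) ε A R (δ := 1 / 4) (by norm_num)
  refine ⟨1 + C1 + 9 * ε, by positivity, ?_⟩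
  filter_upwards [h.slice] with x hx
  have h1 := hv _ _ hx
  have h2 := hx.rep_le x (δ := 1) one_pos
  have i1 := hx.int_vN hx ε A R
  have i2 := hx.int_rep hx x
  set S : ℝ := ∑ i, ∑ k, nsq (uy i k) x with hS
  have hS' : (∑ i, ∑ k, ∫ y, uy i k (x, y) ^ 2) = S := rfl
  have hN' : (∫ y, u (x, y) ^ 2) = nsq u x := rfl
  rw [hS', hN'] at h1 h2
  have hS0 : 0 ≤ S := Finset.sum_nonneg fun i _ => Finset.sum_nonneg fun k _ => nsq_nonneg _ _
  have hN0 : 0 ≤ nsq u x := nsq_nonneg _ _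
  have h0 : 0 ≤ ∫ y, rep x y * (u (x, y) * u (x, y)) := by
    refine integral_nonneg fun y => mul_nonneg ?_ (mul_self_nonneg _)
    exact Finset.sum_nonneg fun i _ => by (clear * -; positivity)
  have hc : cen ε A R u uy x = (1 / 2) * S + ((∫ y, vN ε A R y * (u (x, y) * u (x, y))) +
      ε * ∫ y, rep x y * (u (x, y) * u (x, y))) := by
    unfold cen qN
    rw [← integral_const_mul, ← integral_add i1 (i2.const_mul ε)]
    congr 1
    refine integral_congr_ae (Filter.Eventually.of_forall fun y => ?_)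
    simp only
    ring
  have h3 := abs_le.1 h1
  rw [hc]
  norm_num at h2 h3
  constructor
  · nlinarith only [hN0, h3, hε, h0]
  · have h4 := mul_le_mul_of_nonneg_left h2 hε
    nlinarith only [hS0, hN0, h3, h4, hε, hC1]

theorem TPf_integrable (hS : Sys A R ε δ M E4 E3 F Fx Fy Φ Φy) :
    Integrable (TPf F Fx Fy Φ Φy) volume := by
  have h := hS.P_HX
  unfold TPf
  refine Integrable.add (Integrable.add ?_ ?_) (nsq_integrable h.memLp).1
  · exact integrable_finsetSum _ fun k _ => (nsq_integrable (h.memLpx k)).1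
  · exact integrable_finsetSum _ fun i _ => integrable_finsetSum _ fun k _ =>
      (nsq_integrable (h.memLpy i k)).1

end

end Vale.Agent.P363.D
end
end

section

section

/-! KD2: form bound for potentials in L^{3/2}+L^oo. -/

namespace Vale.Agent.P363.KD

open MeasureTheory Set Filter Topology
open scoped ENNReal ContDiff

noncomputable section

namespace K2

/-- Splitting of a potential: a small part in `L^{3/2}` and a bounded part. -/
lemma split {v : R3 → ℝ} (hv : MemV v) {ε : ℝ} (hε : 0 < ε) :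
    ∃ (a w : R3 → ℝ) (B : ℝ), 0 ≤ B ∧ MemLp a (3 / 2) volume ∧
      eLpNorm a (3 / 2) volume ≤ ENNReal.ofReal ε ∧ AEStronglyMeasurable w volume ∧
      (∀ᵐ x, |w x| ≤ B) ∧ v =ᵐ[volume] fun x => a x + w x := by
  obtain ⟨a0, b, ha0, hb, rfl⟩ := hv
  set a : R3 → ℝ := ha0.1.mk a0 with ha
  have hae : a0 =ᵐ[volume] a := ha0.1.ae_eq_mk
  have hsm : StronglyMeasurable a := ha0.1.stronglyMeasurable_mk
  have hmem : MemLp a (3 / 2) volume := ha0.ae_eq hae
  obtain ⟨M, hM0, hM⟩ := hmem.eLpNorm_indicator_norm_ge_pos_le hsm hε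
  set S : Set R3 := {x | M ≤ ‖a x‖₊} with hS
  have hSm : MeasurableSet S := by
    have : Measurable fun x => ((‖a x‖₊ : ℝ≥0∞).toReal : ℝ) := by
      fun_prop
    have h2 : Measurable fun x => ((‖a x‖₊ : NNReal) : ℝ) := hsm.measurable.nnnorm.coe_nnreal_real
    exact measurableSet_le measurable_const h2
  obtain ⟨Bb, hBb⟩ : ∃ Bb : ℝ, ∀ᵐ x, ‖b x‖ ≤ Bb := by
    refine ⟨(eLpNorm b ⊤ volume).toReal, ?_⟩
    have h1 := ae_le_eLpNormEssSup (f := b) (μ := volume)
    filter_upwards [h1] with x hx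
    have h2 : ‖b x‖ₑ ≤ eLpNorm b ⊤ volume := by
      rw [eLpNorm_exponent_top]; exact hx
    have h3 := ENNReal.toReal_mono hb.2.ne h2
    simpa only [Real.norm_eq_abs, eLpNorm_exponent_top, ge_iff_le, toReal_enorm] using h3
  refine ⟨S.indicator a, fun x => Sᶜ.indicator a x + b x, M + max Bb 0, by (clear * - hM0; positivity),
    hmem.indicator hSm, hM, ?_, ?_, ?_⟩
  · exact (hsm.indicator hSm.compl).aestronglyMeasurable.add hb.1
  · filter_upwards [hBb] with x hx
    have h1 : |Sᶜ.indicator a x| ≤ M := by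
      by_cases hxS : x ∈ S
      · rw [indicator_of_notMem (by simpa using hxS)]
        simpa only [abs_zero] using hM0.le
      · rw [indicator_of_mem (by simpa using hxS)]
        have : ¬ M ≤ ((‖a x‖₊ : NNReal) : ℝ) := hxS
        rw [coe_nnnorm, Real.norm_eq_abs] at this
        exact (not_le.1 this).le
    rw [Real.norm_eq_abs] at hx
    calc |Sᶜ.indicator a x + b x| ≤ |Sᶜ.indicator a x| + |b x| := abs_add_le _ _
      _ ≤ M + max Bb 0 := add_le_add h1 (hx.trans (le_max_left _ _))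
  · filter_upwards [hae] with x hx
    change a0 x + b x = S.indicator a x + (Sᶜ.indicator a x + b x)
    rw [← add_assoc, hx]
    congr 1
    by_cases hxS : x ∈ S
    · rw [indicator_of_mem hxS, indicator_of_notMem (by simpa using hxS), add_zero]
    · rw [indicator_of_notMem hxS, indicator_of_mem (by simpa using hxS), zero_add]

lemma holder_inst : ENNReal.HolderTriple (3 / 2) 3 1 := by
  constructor
  rw [ENNReal.inv_div (by simp) (by simp), inv_one, ← one_div, ENNReal.div_add_div_same]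
  norm_num
  exact ENNReal.div_self (by simp) (by simp)

/-- Hoelder. -/
lemma holder {a f : R3 → ℝ} (ha : MemLp a (3 / 2) volume) (hf : MemLp f 6 volume) :
    Integrable (fun x => a x * f x ^ 2) ∧
      ∫ x, |a x| * f x ^ 2 ≤ (eLpNorm a (3 / 2) volume).toReal *
        (eLpNorm f 6 volume).toReal ^ 2 := by
  have h1 : eLpNorm (fun x => f x ^ 2) 3 volume = eLpNorm f 6 volume ^ 2 := by
    have := eLpNorm_norm_rpow (p := 3) (μ := volume) f (q := 2) (by norm_num)
    have h3 : (3 : ℝ≥0∞) * ENNReal.ofReal 2 = 6 := by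
      rw [show (2 : ℝ) = ((2 : ℕ) : ℝ) by norm_num, ENNReal.ofReal_natCast]
      norm_num
    rw [h3] at this
    rw [show (2 : ℝ) = ((2 : ℕ) : ℝ) by norm_num] at this
    simp only [Real.rpow_natCast, ENNReal.rpow_natCast] at this
    rw [← this]
    congr 1
    ext x
    simp
  have hfm : AEStronglyMeasurable (fun x => f x ^ 2) volume := hf.1.pow 2
  have h2 : eLpNorm (a • fun x => f x ^ 2) 1 volume ≤
      eLpNorm a (3 / 2) volume * eLpNorm (fun x => f x ^ 2) 3 volume :=
    eLpNorm_smul_le_mul_eLpNorm (hpqr := holder_inst) hfm ha.1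
  have h4 : eLpNorm a (3 / 2) volume * eLpNorm (fun x => f x ^ 2) 3 volume < ⊤ := by
    rw [h1]
    exact ENNReal.mul_lt_top ha.2 (ENNReal.pow_lt_top hf.2)
  have h5 : Integrable (fun x => a x * f x ^ 2) := by
    rw [← memLp_one_iff_integrable]
    exact ⟨ha.1.mul hfm, h2.trans_lt h4⟩
  refine ⟨h5, ?_⟩
  have h6 := integral_norm_eq_lintegral_enorm h5.1
  rw [← eLpNorm_one_eq_lintegral_enorm] at h6
  have h7 : ∫ x, |a x| * f x ^ 2 = ∫ x, ‖a x * f x ^ 2‖ := by
    refine integral_congr_ae (Eventually.of_forall fun x => ?_)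
    simp
  rw [h7, h6, ← ENNReal.toReal_pow, ← ENNReal.toReal_mul, ← h1]
  exact ENNReal.toReal_mono h4.ne h2

lemma l2sq {f : R3 → ℝ} (hf : MemLp f 2 volume) :
    (eLpNorm f 2 volume).toReal ^ 2 = ∫ x, f x ^ 2 := by
  rw [hf.eLpNorm_eq_integral_rpow_norm (by simp) (by simp)]
  have h0 : 0 ≤ ∫ x, f x ^ 2 := integral_nonneg fun x => sq_nonneg _
  have h1 : ∫ x, ‖f x‖ ^ (2 : ℝ≥0∞).toReal = ∫ x, f x ^ 2 := by
    refine integral_congr_ae (Eventually.of_forall fun x => ?_)
    simp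
  rw [h1, ENNReal.toReal_ofReal (by (clear * -; positivity)), ← Real.rpow_natCast, ← Real.rpow_mul h0]
  simp

end K2

/-- KD2. Infinitesimal form bound. -/
theorem form_bound {v : R3 → ℝ} (hv : MemV v) {δ : ℝ} (hδ : 0 < δ) : ∃ C : ℝ, 0 ≤ C ∧
    ∀ (f : R3 → ℝ) (f' : Fin 3 → R3 → ℝ), H1o f f' →
      Integrable (fun x => v x * f x ^ 2) ∧
      ∫ x, |v x| * f x ^ 2 ≤ δ * ∑ k, (∫ x, f' k x ^ 2) + C * ∫ x, f x ^ 2 := by
  obtain ⟨C, hC0, hC⟩ := sobolev
  obtain ⟨a, w, B, hB, ha, hε, hwm, hw, hv⟩ := K2.split hv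
    (ε := δ / (3 * C ^ 2 + 1)) (by (clear * - hδ; positivity))
  refine ⟨B, hB, fun f f' hf => ?_⟩
  obtain ⟨h6, h7⟩ := hC f f' hf
  obtain ⟨h1, h2⟩ := K2.holder ha h6
  have hsq : Integrable (fun x => f x ^ 2) := hf.memLp.integrable_sq
  have h3 : Integrable (fun x => w x * f x ^ 2) := by
    refine hsq.bdd_mul hwm (c := B) ?_
    filter_upwards [hw] with x hx
    rwa [Real.norm_eq_abs]
  have h4 : Integrable (fun x => v x * f x ^ 2) := by
    refine (h1.add h3).congr ?_
    filter_upwards [hv] with x hx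
    rw [hx]
    simp only [Pi.add_apply]
    ring
  refine ⟨h4, ?_⟩
  have h5 : ∫ x, |v x| * f x ^ 2 ≤ ∫ x, (|a x| * f x ^ 2 + B * f x ^ 2) := by
    refine integral_mono_ae ?_ ?_ ?_
    · refine h4.abs.congr (Eventually.of_forall fun x => ?_)
      simp [abs_mul]
    · refine Integrable.add ?_ (hsq.const_mul B)
      refine h1.abs.congr (Eventually.of_forall fun x => ?_)
      simp [abs_mul]
    · filter_upwards [hv, hw] with x hx hwx
      have : |v x| ≤ |a x| + B := by
        rw [hx]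
        exact (abs_add_le _ _).trans (add_le_add_right hwx _)
      linarith only [mul_nonneg (sq_nonneg (f x : ℝ)) (sub_nonneg.2 this)]
  have h8 : ∫ x, (|a x| * f x ^ 2 + B * f x ^ 2) =
      (∫ x, |a x| * f x ^ 2) + B * ∫ x, f x ^ 2 := by
    rw [integral_add, integral_const_mul]
    · refine h1.abs.congr (Eventually.of_forall fun x => ?_)
      simp [abs_mul]
    · exact hsq.const_mul B
  have h9 : (∑ k, (eLpNorm (f' k) 2 volume).toReal) ^ 2 ≤ 3 * ∑ k, ∫ x, f' k x ^ 2 := by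
    have e1 : ∑ k, ∫ x, f' k x ^ 2 = ∑ k, (eLpNorm (f' k) 2 volume).toReal ^ 2 :=
      Finset.sum_congr rfl fun k _ => (K2.l2sq (hf.memLp' k)).symm
    rw [e1]
    have := sq_sum_le_card_mul_sum_sq (s := (Finset.univ : Finset (Fin 3)))
      (f := fun k => (eLpNorm (f' k) 2 volume).toReal)
    simpa only [ge_iff_le, Finset.card_univ, Fintype.card_fin, Nat.cast_ofNat] using this
  have h10 : (eLpNorm a (3 / 2) volume).toReal ≤ δ / (3 * C ^ 2 + 1) := by
    have := ENNReal.toReal_mono ENNReal.ofReal_ne_top hε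
    rwa [ENNReal.toReal_ofReal (by (clear * - hδ; positivity))] at this
  have h11 : 0 ≤ ∑ k, ∫ x, f' k x ^ 2 :=
    Finset.sum_nonneg fun k _ => integral_nonneg fun x => sq_nonneg _
  have h12 : (eLpNorm f 6 volume).toReal ^ 2 ≤ C ^ 2 * (3 * ∑ k, ∫ x, f' k x ^ 2) := by
    calc (eLpNorm f 6 volume).toReal ^ 2
        ≤ (C * ∑ k, (eLpNorm (f' k) 2 volume).toReal) ^ 2 :=
          pow_le_pow_left₀ ENNReal.toReal_nonneg h7 2
      _ = C ^ 2 * (∑ k, (eLpNorm (f' k) 2 volume).toReal) ^ 2 := by ring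
      _ ≤ C ^ 2 * (3 * ∑ k, ∫ x, f' k x ^ 2) := mul_le_mul_of_nonneg_left h9 (sq_nonneg _)
  have h13 : (eLpNorm a (3 / 2) volume).toReal * (eLpNorm f 6 volume).toReal ^ 2 ≤
      δ * ∑ k, ∫ x, f' k x ^ 2 := by
    calc (eLpNorm a (3 / 2) volume).toReal * (eLpNorm f 6 volume).toReal ^ 2
        ≤ δ / (3 * C ^ 2 + 1) * (C ^ 2 * (3 * ∑ k, ∫ x, f' k x ^ 2)) :=
          mul_le_mul h10 h12 (sq_nonneg _) (by (clear * - hδ; positivity))
      _ = δ * (3 * C ^ 2 / (3 * C ^ 2 + 1)) * ∑ k, ∫ x, f' k x ^ 2 := by ring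
      _ ≤ δ * 1 * ∑ k, ∫ x, f' k x ^ 2 := by
        refine mul_le_mul_of_nonneg_right (mul_le_mul_of_nonneg_left ?_ hδ.le) h11
        rw [div_le_one (by (clear * -; positivity))]
        linarith only []
      _ = δ * ∑ k, ∫ x, f' k x ^ 2 := by ring
  linarith only [h2, h5, h8, h13]

end

end Vale.Agent.P363.KD
end
end

section

section

/-! KD9a: energies of density matrices. -/

namespace Vale.Agent.P363.KD

open MeasureTheory Set Filter Topology
open scoped ENNReal ContDiff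

noncomputable section

/-- Tonelli for series of nonnegative functions. -/
lemma tonelli_nonneg {ι : Type} [Countable ι] {g : ι → R3 → ℝ} (h0 : ∀ i x, 0 ≤ g i x)
    (hi : ∀ i, Integrable (g i)) (hs : Summable (fun i => ∫ x, g i x)) :
    (∀ᵐ x, Summable (fun i => g i x)) ∧ Integrable (fun x => ∑' i, g i x) := by
  have hL : ∫⁻ x, ∑' i, ENNReal.ofReal (g i x) = ∑' i, ENNReal.ofReal (∫ x, g i x) := by
    rw [lintegral_tsum (fun i => (hi i).1.aemeasurable.ennreal_ofReal)]
    congr 1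
    ext i
    rw [ofReal_integral_eq_lintegral_ofReal (hi i) (Eventually.of_forall (h0 i))]
  have hfin : ∫⁻ x, ∑' i, ENNReal.ofReal (g i x) ≠ ⊤ := by
    rw [hL]
    exact hs.tsum_ofReal_ne_top
  have hmeas : AEMeasurable (fun x => ∑' i, ENNReal.ofReal (g i x)) volume :=
    AEMeasurable.ennreal_tsum (fun i => (hi i).1.aemeasurable.ennreal_ofReal)
  have hae : ∀ᵐ x, ∑' i, ENNReal.ofReal (g i x) < ⊤ := ae_lt_top' hmeas hfin
  have hsum : ∀ᵐ x, Summable (fun i => g i x) := by
    filter_upwards [hae] with x hx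
    have h1 := ENNReal.summable_toReal hx.ne
    refine h1.congr ?_
    intro i
    rw [ENNReal.toReal_ofReal (h0 i x)]
  refine ⟨hsum, ?_⟩
  have h2 : Integrable (fun x => (∑' i, ENNReal.ofReal (g i x)).toReal) :=
    integrable_toReal_of_lintegral_ne_top hmeas hfin
  refine h2.congr ?_
  filter_upwards [hae] with x hx
  rw [ENNReal.tsum_toReal_eq (fun i => ENNReal.ofReal_ne_top)]
  congr 1
  ext i
  rw [ENNReal.toReal_ofReal (h0 i x)]

/-- KD9a. Summability of the energies. -/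
theorem summable_hform {ι : Type} {v : R3 → ℝ} (hv : MemV v) {f : ι → R3 → ℝ}
    {f' : ι → Fin 3 → R3 → ℝ} (hF : IsFam f f') : Summable (fun i => hform v (f i) (f' i)) := by
  obtain ⟨C, hC, hb⟩ := form_bound hv (δ := 1) one_pos
  have hk : Summable (fun i => ∑ k, ∫ x, f' i k x ^ 2) :=
    summable_sum (fun k _ => hF.sum1 k)
  have hmaj : Summable (fun i => (3 / 2) * (∑ k, ∫ x, f' i k x ^ 2) + C * ∫ x, f i x ^ 2) :=
    (hk.mul_left _).add (hF.sum0.mul_left C)
  refine Summable.of_norm_bounded hmaj ?_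
  intro i
  obtain ⟨h1, h2⟩ := hb (f i) (f' i) (hF.h1 i)
  have h3 : |∫ x, v x * f i x ^ 2| ≤ ∫ x, |v x| * f i x ^ 2 := by
    refine (abs_integral_le_integral_abs).trans (le_of_eq ?_)
    congr 1
    ext x
    rw [abs_mul, abs_of_nonneg (sq_nonneg (f i x))]
  have h4 : 0 ≤ ∑ k, ∫ x, f' i k x ^ 2 :=
    Finset.sum_nonneg (fun k _ => integral_nonneg (fun x => sq_nonneg _))
  rw [Real.norm_eq_abs, hform]
  refine (abs_add_le _ _).trans ?_
  rw [abs_mul, abs_of_nonneg h4, abs_of_nonneg (by norm_num : (0:ℝ) ≤ 1 / 2)]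
  linarith only [h3, h2]

/-- KD9b. Energy in terms of the density. -/
theorem hE_eq {ι : Type} [Countable ι] {v : R3 → ℝ} (hv : MemV v) {f : ι → R3 → ℝ}
    {f' : ι → Fin 3 → R3 → ℝ} (hF : IsFam f f') : (∀ᵐ x, Summable (fun i => f i x ^ 2)) ∧
      Integrable (rho f) ∧ Integrable (fun x => v x * rho f x) ∧
      hE v f f' = kin f' + ∫ x, v x * rho f x := by
  obtain ⟨C, hC, hb⟩ := form_bound hv (δ := 1) one_pos
  have hk : Summable (fun i => ∑ k, ∫ x, f' i k x ^ 2) :=
    summable_sum (fun k _ => hF.sum1 k)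
  have hI : ∀ i, Integrable (fun x => f i x ^ 2) := fun i => (hF.h1 i).memLp.integrable_sq
  have hV : ∀ i, Integrable (fun x => v x * f i x ^ 2) := fun i => (hb _ _ (hF.h1 i)).1
  have habs : ∀ i, (fun x => |v x * f i x ^ 2|) = fun x => |v x| * f i x ^ 2 := by
    intro i
    ext x
    rw [abs_mul, abs_of_nonneg (sq_nonneg (f i x))]
  have hVa : ∀ i, Integrable (fun x => |v x| * f i x ^ 2) := by
    intro i
    rw [← habs i]
    exact (hV i).abs
  have hVs : Summable (fun i => ∫ x, |v x| * f i x ^ 2) := by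
    refine Summable.of_nonneg_of_le (fun i => integral_nonneg (fun x => by (clear * -; positivity)))
      (fun i => (hb _ _ (hF.h1 i)).2) ?_
    exact (hk.mul_left 1).add (hF.sum0.mul_left C)
  obtain ⟨hs1, hr1⟩ := tonelli_nonneg (fun i x => sq_nonneg (f i x)) hI hF.sum0
  obtain ⟨hs2, hr2⟩ := tonelli_nonneg (g := fun i x => |v x| * f i x ^ 2)
    (fun i x => by (clear * -; positivity)) hVa hVs
  have hvm : AEStronglyMeasurable v volume := by
    obtain ⟨a, b, ha, hb', rfl⟩ := hv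
    exact ha.1.add hb'.1
  have hrho : Integrable (rho f) := hr1
  have hvr : Integrable (fun x => v x * rho f x) := by
    refine hr2.mono (hvm.mul hrho.1) (Eventually.of_forall ?_)
    intro x
    have h0 : 0 ≤ rho f x := tsum_nonneg (fun i => sq_nonneg _)
    have h1 : ∑' i, |v x| * f i x ^ 2 = |v x| * rho f x := tsum_mul_left
    rw [h1, norm_mul, Real.norm_eq_abs, Real.norm_of_nonneg h0,
      Real.norm_of_nonneg (mul_nonneg (abs_nonneg _) h0)]
  refine ⟨hs1, hrho, hvr, ?_⟩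
  have hsum : HasSum (fun i => ∫ x, v x * f i x ^ 2) (∫ x, ∑' i, v x * f i x ^ 2) := by
    refine hasSum_integral_of_summable_integral_norm hV ?_
    refine hVs.congr ?_
    intro i
    simp_rw [Real.norm_eq_abs]
    rw [habs i]
  have hsum2 : ∑' i, ∫ x, v x * f i x ^ 2 = ∫ x, v x * rho f x := by
    rw [hsum.tsum_eq]
    congr 1
    ext x
    exact tsum_mul_left
  unfold hE hform kin
  rw [Summable.tsum_add (hk.mul_left _) hsum.summable, hsum2]

end

end Vale.Agent.P363.KD
end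
end

section

section

/-! KD11a: reflections, elementary calculus of one-body functions. -/

namespace Vale.Agent.P363.KD

open MeasureTheory Set Filter Topology
open scoped ENNReal ContDiff

noncomputable section

lemma refl_apply (k i : Fin 3) (x : R3) : refl k x i = if i = k then - x i else x i := by
  show (x - (2 * x k) • EuclideanSpace.single k (1 : ℝ)) i = _
  by_cases h : i = k
  · subst h
    simp only [PiLp.sub_apply, PiLp.smul_apply, PiLp.single_eq_same, smul_eq_mul, mul_one, ↓reduceIte]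
    ring
  · simp [h]

lemma refl_refl (k : Fin 3) (x : R3) : refl k (refl k x) = x := by
  ext i
  rw [refl_apply, refl_apply]
  by_cases h : i = k <;> simp [h]

lemma norm_refl (k : Fin 3) (x : R3) : ‖refl k x‖ = ‖x‖ := by
  rw [EuclideanSpace.norm_eq, EuclideanSpace.norm_eq]
  congr 1
  refine Finset.sum_congr rfl fun i _ => ?_
  rw [refl_apply]
  split_ifs
  · rw [norm_neg]
  · rfl

/-- The reflection as a linear isometry equivalence. -/
def reflE (k : Fin 3) : R3 ≃ₗᵢ[ℝ] R3 where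
  toFun := refl k
  invFun := refl k
  left_inv := refl_refl k
  right_inv := refl_refl k
  map_add' x y := by
    ext i
    rw [PiLp.add_apply, refl_apply, refl_apply, refl_apply]
    by_cases h : i = k
    · simp [h]
      ring
    · simp [h]
  map_smul' c x := by
    ext i
    rw [RingHom.id_apply, PiLp.smul_apply, refl_apply, refl_apply]
    by_cases h : i = k <;> simp [h]
  norm_map' x := norm_refl k x

lemma reflE_coe (k : Fin 3) : (reflE k : R3 → R3) = refl k := rfl

lemma mp_refl (k : Fin 3) : MeasurePreserving (refl k) volume volume :=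
  (reflE k).measurePreserving

lemma me_refl (k : Fin 3) : MeasurableEmbedding (refl k) :=
  (reflE k).toHomeomorph.measurableEmbedding

lemma integral_refl (k : Fin 3) (f : R3 → ℝ) : ∫ x, f (refl k x) = ∫ x, f x :=
  (mp_refl k).integral_comp (me_refl k) f

lemma refl_line (j k : Fin 3) (x : R3) (t : ℝ) :
    refl k (x + t • dir3 j) = refl k x + t • (if j = k then - dir3 j else dir3 j) := by
  have h1 : refl k (x + t • dir3 j) = refl k x + t • refl k (dir3 j) := by
    have h2 := (reflE k).map_add x (t • dir3 j)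
    rw [(reflE k).map_smul] at h2
    exact h2
  rw [h1]
  congr 2
  ext i
  rw [refl_apply]
  by_cases h : j = k
  · subst h
    by_cases h2 : i = j
    · simp [h2]
    · simp [h2, dir3]
  · rw [if_neg h]
    by_cases h2 : i = k
    · rw [if_pos h2]
      have h3 : i ≠ j := fun h4 => h (h4.symm.trans h2)
      simp [dir3, h3]
    · rw [if_neg h2]

/-- Change of the sign of the direction. -/
lemma acl_neg_dir {e : R3} {f f' : R3 → ℝ} (h : ACL volume e f f') :
    ACL volume (-e) f (fun x => - f' x) := by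
  refine ⟨h.meas, h.meas'.neg, ?_, ?_⟩
  · filter_upwards [h.locInt] with x hx
    have h1 : LocallyIntegrable (fun t : ℝ => f' (x + (-t) • e)) volume := by
      have hmp : MeasurePreserving (fun t : ℝ => -t) volume volume :=
        Measure.measurePreserving_neg volume
      have hx2 : LocallyIntegrable (fun t : ℝ => f' (x + t • e))
          (Measure.map (Homeomorph.neg ℝ) volume) := by
        have : Measure.map (Homeomorph.neg ℝ) (volume : Measure ℝ) = volume := hmp.map_eq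
        rw [this]
        exact hx
      exact (MeasureTheory.locallyIntegrable_map_homeomorph (Homeomorph.neg ℝ)).1 hx2
    have h2 := h1.neg
    refine h2.congr ?_
    filter_upwards with t
    simp only [neg_smul, Pi.neg_apply, smul_neg]
  · filter_upwards [h.ftc] with x hx
    have hmp : MeasurePreserving (fun t : ℝ => -t) volume volume :=
      Measure.measurePreserving_neg volume
    filter_upwards [hmp.quasiMeasurePreserving.ae hx] with t ht
    have e1 : x + t • -e = x + (-t) • e := by simp only [smul_neg, neg_smul]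
    rw [e1, ht]
    unfold prim
    congr 1
    rw [intervalIntegral.integral_neg]
    have h3 := intervalIntegral.integral_comp_neg (a := 0) (b := t)
      (fun s : ℝ => f' (x + s • e))
    rw [neg_zero] at h3
    have e2 : ∫ s in (0:ℝ)..t, f' (x + s • -e) = ∫ s in (0:ℝ)..t, f' (x + (-s) • e) := by
      congr 1
      funext s
      simp only [smul_neg, neg_smul]
    rw [e2, h3, intervalIntegral.integral_symm]

/-- Weak gradient of a reflected function. -/
lemma H1o_refl {f : R3 → ℝ} {f' : Fin 3 → R3 → ℝ} (h : H1o f f') (k : Fin 3) :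
    H1o (fun x => f (refl k x))
      (fun j x => if j = k then - f' j (refl k x) else f' j (refl k x)) := by
  refine ⟨h.memLp.comp_measurePreserving (mp_refl k), fun j => ?_, fun j => ?_⟩
  · have h1 : MemLp (fun x => f' j (refl k x)) 2 volume :=
      (h.memLp' j).comp_measurePreserving (mp_refl k)
    by_cases hj : j = k
    · simp only [if_pos hj]
      exact h1.neg
    · simp only [if_neg hj]
      exact h1
  · by_cases hj : j = k
    · simp only [if_pos hj]
      have h2 := (acl_neg_dir (h.acl j)).comp_qmp (mp_refl k).quasiMeasurePreserving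
        (e := dir3 j) (fun x t => by rw [refl_line, if_pos hj])
      exact h2
    · simp only [if_neg hj]
      exact (h.acl j).comp_qmp (mp_refl k).quasiMeasurePreserving
        (e := dir3 j) (fun x t => by rw [refl_line, if_neg hj])

/-- Uniqueness of the weak gradient. -/
lemma ACL_unique {e : R3} {f f₁ f₂ : R3 → ℝ} (h1 : ACL volume e f f₁) (h2 : ACL volume e f f₂) :
    f₁ =ᵐ[volume] f₂ := by
  have h3 : ∀ᵐ x : R3, ∀ᵐ t : ℝ, f₁ (x + t • e) = f₂ (x + t • e) := by
    filter_upwards [h1.locInt, h2.locInt, h1.ftc, h2.ftc] with x l1 l2 p1 p2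
    have h4 : ∀ᵐ t : ℝ, prim (f x) (fun s => f₁ (x + s • e)) t =
        prim (f x) (fun s => f₂ (x + s • e)) t := by
      filter_upwards [p1, p2] with t q1 q2
      rw [← q1, ← q2]
    have h5 : prim (f x) (fun s => f₁ (x + s • e)) = prim (f x) (fun s => f₂ (x + s • e)) :=
      Continuous.ae_eq_iff_eq volume (prim_continuous l1) (prim_continuous l2) |>.1 h4
    filter_upwards [prim_hasDerivAt (c := f x) l1, prim_hasDerivAt (c := f x) l2] with t d1 d2
    rw [h5] at d1
    exact d1.unique d2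
  have hm : NullMeasurableSet {p : R3 × ℝ | f₁ (p.1 + p.2 • e) = f₂ (p.1 + p.2 • e)}
      ((volume : Measure R3).prod volume) := by
    apply nullMeasurableSet_eq_fun
    · exact (h1.meas'.comp_quasiMeasurePreserving (qmp_line e)).aemeasurable
    · exact (h2.meas'.comp_quasiMeasurePreserving (qmp_line e)).aemeasurable
  have h6 := swap_ae (ae_prod_of_ae_ae (P := fun p : R3 × ℝ => f₁ (p.1 + p.2 • e) =
    f₂ (p.1 + p.2 • e)) hm h3)
  obtain ⟨t, ht⟩ := h6.exists
  have h7 := shift_ae (μ := (volume : Measure R3)) e ht (-t)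
  filter_upwards [h7] with x hx
  have e1 : x + -t • e + t • e = x := by
    rw [neg_smul, add_assoc, neg_add_cancel, add_zero]
  rwa [e1] at hx

lemma H1o_add {f g : R3 → ℝ} {f' g' : Fin 3 → R3 → ℝ} (h : H1o f f') (h2 : H1o g g') :
    H1o (fun x => f x + g x) (fun k x => f' k x + g' k x) :=
  ⟨h.memLp.add h2.memLp, fun k => (h.memLp' k).add (h2.memLp' k),
    fun k => (h.acl k).add (h2.acl k)⟩

lemma H1o_smul {f : R3 → ℝ} {f' : Fin 3 → R3 → ℝ} (h : H1o f f') (c : ℝ) :
    H1o (fun x => c * f x) (fun k x => c * f' k x) :=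
  ⟨h.memLp.const_mul c, fun k => (h.memLp' k).const_mul c, fun k => (h.acl k).const_mul c⟩

lemma hform_const_mul (v : R3 → ℝ) (f : R3 → ℝ) (f' : Fin 3 → R3 → ℝ) (c : ℝ) :
    hform v (fun x => c * f x) (fun k x => c * f' k x) = c ^ 2 * hform v f f' := by
  unfold hform
  have h1 : ∀ j : Fin 3, ∫ x, (c * f' j x) ^ 2 = c ^ 2 * ∫ x, f' j x ^ 2 := by
    intro j
    simp_rw [mul_pow]
    rw [integral_const_mul]
  have h3 : ∫ x, v x * (c * f x) ^ 2 = c ^ 2 * ∫ x, v x * f x ^ 2 := by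
    rw [← integral_const_mul]
    congr 1
    funext x
    ring
  simp only [h1, h3]
  rw [← Finset.mul_sum]
  ring

end

end Vale.Agent.P363.KD
end
end

section

section

/-! KD12a: elementary changes of a density matrix. -/

namespace Vale.Agent.P363.KD

open MeasureTheory Set Filter Topology
open scoped ENNReal ContDiff

noncomputable section

/-- Adding a member of class `x`. -/
def addF {ι : Type} (f : ι → R3 → ℝ) (s : ℝ) (w : R3 → ℝ) : Option ι → R3 → ℝ
  | none => fun x => s * w x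
  | some i => f i

/-- Gradient of `addF`. -/
def addF' {ι : Type} (f' : ι → Fin 3 → R3 → ℝ) (s : ℝ) (w' : Fin 3 → R3 → ℝ) :
    Option ι → Fin 3 → R3 → ℝ
  | none => fun k x => s * w' k x
  | some i => f' i

private lemma hasSum_opt {ι : Type} {F : Option ι → ℝ} {a : ℝ}
    (h : HasSum (fun i => F (some i)) a) : HasSum F (a + F none) := by
  have h1 : HasSum (F ∘ (Equiv.optionEquivSumPUnit.{0, 0} ι).symm) (a + F none) := by
    refine HasSum.sum ?_ ?_
    · exact h
    · exact hasSum_unique _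
  exact (Equiv.hasSum_iff _).1 h1

private lemma summable_opt {ι : Type} {F : Option ι → ℝ}
    (h : Summable (fun i => F (some i))) : Summable F := (hasSum_opt h.hasSum).summable

private lemma tsum_opt {ι : Type} {F : Option ι → ℝ}
    (h : Summable (fun i => F (some i))) : ∑' i, F i = (∑' i, F (some i)) + F none :=
  (hasSum_opt h.hasSum).tsum_eq

private lemma int_mul2 {f g : R3 → ℝ} (hf : MemLp f 2 volume) (hg : MemLp g 2 volume) :
    Integrable (fun x => f x * g x) := hf.integrable_mul hg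

private lemma cs {f g : R3 → ℝ} (hf : MemLp f 2 volume) (hg : MemLp g 2 volume) :
    (∫ x, f x * g x) ^ 2 ≤ (∫ x, f x ^ 2) * ∫ x, g x ^ 2 := by
  have h : ∀ t : ℝ, 0 ≤ (∫ x, g x ^ 2) * (t * t) + (2 * ∫ x, f x * g x) * t + ∫ x, f x ^ 2 := by
    intro t
    have h1 : 0 ≤ ∫ x, (f x + t * g x) ^ 2 := integral_nonneg fun x => sq_nonneg _
    have e : ∫ x, (f x + t * g x) ^ 2 =
        ∫ x, (f x ^ 2 + (2 * t) * (f x * g x) + (t * t) * g x ^ 2) := by
      congr 1; ext x; ring
    rw [e, integral_add, integral_add, integral_const_mul, integral_const_mul] at h1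
    · linarith only [h1]
    · exact hf.integrable_sq
    · exact (int_mul2 hf hg).const_mul _
    · exact hf.integrable_sq.add ((int_mul2 hf hg).const_mul _)
    · exact hg.integrable_sq.const_mul _
  have h2 := discrim_le_zero h
  rw [discrim] at h2
  linarith

private lemma memLp_refl (k : Fin 3) {u : R3 → ℝ} (hu : MemLp u 2 volume) :
    MemLp (fun x => u (refl k x)) 2 volume := hu.comp_measurePreserving (mp_refl k)

/-- Projection to the odd class. -/
private def pX (u : R3 → ℝ) (x : R3) : ℝ := (u x - u (refl 0 x)) / 2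

private lemma memLp_pX {u : R3 → ℝ} (hu : MemLp u 2 volume) : MemLp (pX u) 2 volume := by
  have h1 := (hu.sub (memLp_refl 0 hu)).const_mul (1 / 2)
  refine (memLp_congr_ae (Eventually.of_forall fun x => ?_)).1 h1
  simp only [Pi.sub_apply, pX]
  ring

private lemma inner_pX {f u : R3 → ℝ} (hf : MemLp f 2 volume) (hu : MemLp u 2 volume)
    {τ : ℝ} (h : ∀ᵐ x, f (refl 0 x) = τ * f x) :
    ∫ x, f x * pX u x = ((1 - τ) / 2) * ∫ x, f x * u x := by
  have e1 : ∫ x, f x * pX u x =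
      ∫ x, ((1 / 2) * (f x * u x) - (1 / 2) * (f x * u (refl 0 x))) := by
    congr 1; ext x; unfold pX; ring
  rw [e1, integral_sub ((int_mul2 hf hu).const_mul _)
    ((int_mul2 hf (memLp_refl 0 hu)).const_mul _), integral_const_mul, integral_const_mul]
  have e2 : ∫ x, f x * u (refl 0 x) = ∫ x, f (refl 0 x) * u x := by
    rw [← integral_refl 0 (fun x => f x * u (refl 0 x))]
    simp only [refl_refl]
  have e3 : ∫ x, f (refl 0 x) * u x = τ * ∫ x, f x * u x := by
    rw [← integral_const_mul]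
    refine integral_congr_ae ?_
    filter_upwards [h] with x hx
    rw [hx]; ring
  rw [e2, e3]; ring

private lemma inner_pX_eq {f u : R3 → ℝ} (hf : MemLp f 2 volume) (hu : MemLp u 2 volume)
    (h : ClsX f) : ∫ x, f x * pX u x = ∫ x, f x * u x := by
  rw [inner_pX hf hu (τ := -1) (by filter_upwards [h] with x hx; rw [hx]; ring)]; ring

private lemma inner_pX_zero {f u : R3 → ℝ} (hf : MemLp f 2 volume) (hu : MemLp u 2 volume)
    (h : ∀ᵐ x, f (refl 0 x) = f x) : ∫ x, f x * pX u x = 0 := by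
  rw [inner_pX hf hu (τ := 1) (by filter_upwards [h] with x hx; rw [hx]; ring)]; ring

private lemma pX_refl (u : R3 → ℝ) (x : R3) : pX u (refl 0 x) = - pX u x := by
  unfold pX
  rw [refl_refl]; ring

private lemma norm_split {u : R3 → ℝ} (hu : MemLp u 2 volume) :
    (∫ x, pX u x ^ 2) + ∫ x, (u x - pX u x) ^ 2 = ∫ x, u x ^ 2 := by
  have hp := memLp_pX hu
  have h1 : ∫ x, pX u x * pX u x = ∫ x, pX u x * u x :=
    inner_pX_eq hp hu (Eventually.of_forall fun x => pX_refl u x)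
  have e : ∫ x, (u x - pX u x) ^ 2 = ∫ x, (u x ^ 2 + (-2) * (pX u x * u x) + pX u x ^ 2) := by
    congr 1; ext x; ring
  have h2 : ∫ x, pX u x * pX u x = ∫ x, pX u x ^ 2 := by
    congr 1; ext x; ring
  rw [e, integral_add, integral_add, integral_const_mul, ← h1, h2]
  · ring
  · exact hu.integrable_sq
  · exact (int_mul2 hp hu).const_mul _
  · exact hu.integrable_sq.add ((int_mul2 hp hu).const_mul _)
  · exact hp.integrable_sq

private lemma pauli_term {ι : Type} {c : ι → Bool} {f : ι → R3 → ℝ} (hc : Adapted c f)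
    (i : ι) (hf : MemLp (f i) 2 volume) {u : R3 → ℝ} (hu : MemLp u 2 volume) :
    (∫ x, f i x * u x) ^ 2 ≤ (if c i then ∫ x, f i x ^ 2 else 0) * (∫ x, pX u x ^ 2) +
      (∫ x, f i x * (u x - pX u x)) ^ 2 := by
  have hp := memLp_pX hu
  have h := hc i
  by_cases hi : c i = true
  · rw [if_pos hi]
    have h1 : ∫ x, f i x * pX u x = ∫ x, f i x * u x := by
      refine inner_pX_eq hf hu ?_
      filter_upwards [h] with x hx
      rw [hx, if_pos hi]
    rw [← h1]
    have h2 := cs hf hp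
    have h3 := sq_nonneg (∫ x, f i x * (u x - pX u x))
    linarith only [h2, h3]
  · rw [if_neg hi, zero_mul, zero_add]
    have h1 : ∫ x, f i x * pX u x = 0 := by
      refine inner_pX_zero hf hu ?_
      filter_upwards [h] with x hx
      rw [hx, if_neg hi]
    have e : ∫ x, f i x * (u x - pX u x) = ∫ x, f i x * u x := by
      have e2 : ∫ x, f i x * (u x - pX u x) = ∫ x, (f i x * u x - f i x * pX u x) := by
        congr 1; ext x; ring
      rw [e2, integral_sub (int_mul2 hf hu) (int_mul2 hf hp), h1, sub_zero]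
    rw [e]

private lemma summable_inner {ι : Type} {f : ι → R3 → ℝ} {f' : ι → Fin 3 → R3 → ℝ}
    (hF : IsFam f f') {u : R3 → ℝ} (hu : MemLp u 2 volume) :
    Summable (fun i => (∫ x, f i x * u x) ^ 2) :=
  Summable.of_nonneg_of_le (fun i => sq_nonneg _) (fun i => cs (hF.h1 i).memLp hu)
    (hF.sum0.mul_right _)

private lemma summable_occ {ι : Type} {f : ι → R3 → ℝ} {f' : ι → Fin 3 → R3 → ℝ}
    (hF : IsFam f f') (c : ι → Bool) :
    Summable (fun i => if c i then ∫ x, f i x ^ 2 else 0) := by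
  refine Summable.of_nonneg_of_le (fun i => ?_) (fun i => ?_) hF.sum0
  · split_ifs
    · exact integral_nonneg fun x => sq_nonneg _
    · exact le_rfl
  · split_ifs
    · exact le_rfl
    · exact integral_nonneg fun x => sq_nonneg _

/-- KD12a. Adding a member of class `x`. -/
theorem add_member {v : R3 → ℝ} (hv : MemV v) {ι : Type} [Countable ι] {f : ι → R3 → ℝ}
    {f' : ι → Fin 3 → R3 → ℝ} {c : ι → Bool} (hF : IsFam f f') (hc : Adapted c f)
    {w : R3 → ℝ} {w' : Fin 3 → R3 → ℝ} (hw : H1o w w') (hwc : ClsX w) {s : ℝ}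
    (hs : s ^ 2 * ∫ x, w x ^ 2 ≤ 2 - occX c f) :
    IsFam (addF f s w) (addF' f' s w') ∧ tr (addF f s w) = tr f + s ^ 2 * ∫ x, w x ^ 2 ∧
      hE v (addF f s w) (addF' f' s w') = hE v f f' + s ^ 2 * hform v w w' := by
  have esq : ∀ g : R3 → ℝ, ∫ x, (s * g x) ^ 2 = s ^ 2 * ∫ x, g x ^ 2 := by
    intro g
    rw [← integral_const_mul]
    congr 1; ext x; ring
  refine ⟨⟨?_, ?_, ?_, ?_⟩, ?_, ?_⟩
  · intro i
    cases i with
    | none => exact H1o_smul hw s
    | some i => exact hF.h1 i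
  · exact summable_opt hF.sum0
  · exact fun k => summable_opt (hF.sum1 k)
  · intro u hu
    have hp := memLp_pX hu
    have hr : MemLp (fun x => u x - pX u x) 2 volume := hu.sub hp
    have hsum := summable_inner hF hu
    have h0 : ∑' i, (∫ x, addF f s w i x * u x) ^ 2 =
        (∑' i, (∫ x, f i x * u x) ^ 2) + (∫ x, s * w x * u x) ^ 2 :=
      tsum_opt (F := fun i => (∫ x, addF f s w i x * u x) ^ 2) hsum
    have h1 : ∑' i, (∫ x, f i x * u x) ^ 2 ≤
        occX c f * (∫ x, pX u x ^ 2) + ∑' i, (∫ x, f i x * (u x - pX u x)) ^ 2 := by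
      have h2 := (summable_occ hF c).mul_right (∫ x, pX u x ^ 2)
      have h3 := summable_inner hF hr
      rw [occX, ← tsum_mul_right, ← h2.tsum_add h3]
      exact hsum.tsum_le_tsum (fun i => pauli_term hc i (hF.h1 i).memLp hu) (h2.add h3)
    have h4 := hF.pauli _ hr
    have h5 : (∫ x, s * w x * u x) ^ 2 ≤ (s ^ 2 * ∫ x, w x ^ 2) * ∫ x, pX u x ^ 2 := by
      have e : ∫ x, s * w x * u x = s * ∫ x, w x * pX u x := by
        rw [inner_pX_eq hw.memLp hu hwc, ← integral_const_mul]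
        congr 1; ext x; ring
      rw [e, mul_pow, mul_assoc]
      exact mul_le_mul_of_nonneg_left (cs hw.memLp hp) (sq_nonneg s)
    have h6 : (s ^ 2 * ∫ x, w x ^ 2) * ∫ x, pX u x ^ 2 ≤ (2 - occX c f) * ∫ x, pX u x ^ 2 :=
      mul_le_mul_of_nonneg_right hs (integral_nonneg fun x => sq_nonneg _)
    have h7 := norm_split hu
    rw [h0]
    linarith only [h1, h4, h5, h6, h7]
  · have h0 : tr (addF f s w) = (∑' i, ∫ x, f i x ^ 2) + ∫ x, (s * w x) ^ 2 :=
      tsum_opt (F := fun i => ∫ x, addF f s w i x ^ 2) hF.sum0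
    rw [h0, esq]; rfl
  · have h0 : hE v (addF f s w) (addF' f' s w') = (∑' i, hform v (f i) (f' i)) +
        hform v (fun x => s * w x) (fun k x => s * w' k x) :=
      tsum_opt (F := fun i => hform v (addF f s w i) (addF' f' s w' i)) (summable_hform hv hF)
    rw [h0, hform_const_mul]; rfl

private lemma tsum_change {ι : Type} [DecidableEq ι] {a : ι → ℝ} (ha : Summable a) (i : ι)
    {b : ι → ℝ} {d : ℝ} (hi : b i = a i - d) (hb : ∀ j, j ≠ i → b j = a j) :
    ∑' j, b j = (∑' j, a j) - d := by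
  have e : b = fun j => a j - if j = i then d else 0 := by
    funext j
    by_cases h : j = i
    · subst h; simp [hi]
    · simp [h, hb j h]
  have hd : HasSum (fun j => if j = i then d else 0) d := hasSum_ite_eq i d
  rw [e]
  exact (ha.hasSum.sub hd).tsum_eq

/-- KD12b. Scaling down one member. -/
theorem scale_member {v : R3 → ℝ} (hv : MemV v) {ι : Type} [Countable ι] [DecidableEq ι]
    {f : ι → R3 → ℝ} {f' : ι → Fin 3 → R3 → ℝ} {c : ι → Bool} (hF : IsFam f f')
    (hc : Adapted c f) (i : ι) {b : ℝ} (hb : b ^ 2 ≤ 1) :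
    IsFam (Function.update f i (fun x => b * f i x)) (Function.update f' i (fun k x => b * f' i k x)) ∧
      Adapted c (Function.update f i (fun x => b * f i x)) ∧
      tr (Function.update f i (fun x => b * f i x)) = tr f - (1 - b ^ 2) * ∫ x, f i x ^ 2 ∧
      hE v (Function.update f i (fun x => b * f i x)) (Function.update f' i (fun k x => b * f' i k x)) =
        hE v f f' - (1 - b ^ 2) * hform v (f i) (f' i) ∧
      (c i = true → occX c (Function.update f i (fun x => b * f i x)) =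
        occX c f - (1 - b ^ 2) * ∫ x, f i x ^ 2) := by
  have esq : ∀ g : R3 → ℝ, ∫ x, (b * g x) ^ 2 = b ^ 2 * ∫ x, g x ^ 2 := by
    intro g
    rw [← integral_const_mul]
    congr 1; ext x; ring
  have hnn : ∀ g : R3 → ℝ, 0 ≤ ∫ x, g x ^ 2 := fun g => integral_nonneg fun x => sq_nonneg _
  have hle : ∀ g : R3 → ℝ, b ^ 2 * ∫ x, g x ^ 2 ≤ ∫ x, g x ^ 2 := fun g => by
    have := mul_le_mul_of_nonneg_right hb (hnn g)
    linarith only [this]
  refine ⟨⟨?_, ?_, ?_, ?_⟩, ?_, ?_, ?_, ?_⟩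
  · intro j
    by_cases h : j = i
    · subst h
      rw [Function.update_self, Function.update_self]
      exact H1o_smul (hF.h1 j) b
    · rw [Function.update_of_ne h, Function.update_of_ne h]
      exact hF.h1 j
  · refine Summable.of_nonneg_of_le (fun j => hnn _) (fun j => ?_) hF.sum0
    by_cases h : j = i
    · subst h
      rw [Function.update_self, esq]
      exact hle _
    · rw [Function.update_of_ne h]
  · intro k
    refine Summable.of_nonneg_of_le (fun j => hnn _) (fun j => ?_) (hF.sum1 k)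
    by_cases h : j = i
    · subst h
      rw [Function.update_self, esq]
      exact hle _
    · rw [Function.update_of_ne h]
  · intro u hu
    have h1 : ∀ j, (∫ x, Function.update f i (fun x => b * f i x) j x * u x) ^ 2 ≤
        (∫ x, f j x * u x) ^ 2 := by
      intro j
      by_cases h : j = i
      · subst h
        rw [Function.update_self]
        have e : ∫ x, b * f j x * u x = b * ∫ x, f j x * u x := by
          rw [← integral_const_mul]
          congr 1; ext x; ring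
        rw [e, mul_pow]
        have := mul_le_mul_of_nonneg_right hb (sq_nonneg (∫ x, f j x * u x))
        linarith only [this]
      · rw [Function.update_of_ne h]
    have h2 := summable_inner hF hu
    have h3 : Summable (fun j => (∫ x, Function.update f i (fun x => b * f i x) j x * u x) ^ 2) :=
      Summable.of_nonneg_of_le (fun j => sq_nonneg _) h1 h2
    exact (h3.tsum_le_tsum h1 h2).trans (hF.pauli u hu)
  · intro j
    by_cases h : j = i
    · subst h
      rw [Function.update_self]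
      filter_upwards [hc j] with x hx
      rw [hx]; split_ifs <;> ring
    · rw [Function.update_of_ne h]
      exact hc j
  · refine tsum_change hF.sum0 i ?_ fun j h => ?_
    · rw [Function.update_self, esq]; ring
    · rw [Function.update_of_ne h]
  · refine tsum_change (summable_hform hv hF) i ?_ fun j h => ?_
    · rw [Function.update_self, Function.update_self, hform_const_mul]; ring
    · rw [Function.update_of_ne h, Function.update_of_ne h]
  · intro hi
    refine tsum_change (summable_occ hF c) i ?_ fun j h => ?_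
    · rw [if_pos hi, if_pos hi, Function.update_self, esq]; ring
    · rw [Function.update_of_ne h]

end

end Vale.Agent.P363.KD
end
end

section

section

/-! KD12: class minimizers. -/

namespace Vale.Agent.P363.KD

open MeasureTheory Set Filter Topology
open scoped ENNReal ContDiff

noncomputable section

/-- A function with zero square integral has zero form. -/
lemma hform_eq_zero {v : R3 → ℝ} {u : R3 → ℝ} {u' : Fin 3 → R3 → ℝ} (hu : H1o u u')
    (h0 : ∫ x, u x ^ 2 = 0) : hform v u u' = 0 := by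
  have hu0 : u =ᵐ[volume] (fun _ => (0:ℝ)) := by
    have h1 := (integral_eq_zero_iff_of_nonneg (fun x => sq_nonneg (u x))
      hu.memLp.integrable_sq).mp h0
    filter_upwards [h1] with x hx
    simpa only [Pi.zero_apply, ne_eq, OfNat.ofNat_ne_zero, not_false_eq_true, pow_eq_zero_iff] using hx
  have hu' : ∀ k, u' k =ᵐ[volume] (fun _ => (0:ℝ)) := by
    intro k
    have h2 : ACL volume (dir3 k) (fun _ : R3 => (0:ℝ)) (fun _ => 0) := ACL.zero
    have h3 : ACL volume (dir3 k) u (fun _ => (0:ℝ)) :=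
      h2.congr (f := fun _ => (0:ℝ)) hu0.symm (Filter.EventuallyEq.refl _ _)
    exact ACL_unique (hu.acl k) h3
  unfold hform
  have h4 : ∀ k, ∫ x, u' k x ^ 2 = 0 := by
    intro k
    rw [integral_congr_ae (g := fun _ => (0:ℝ))]
    · simp
    · filter_upwards [hu' k] with x hx
      rw [hx]; simp
  have h5 : ∫ x, v x * u x ^ 2 = 0 := by
    rw [integral_congr_ae (g := fun _ => (0:ℝ))]
    · simp
    · filter_upwards [hu0] with x hx
      rw [hx]; simp
  rw [h5]
  simp [h4]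

/-- KD12. The members of class `x` minimize in their class. -/
theorem exists_class_min {v : R3 → ℝ} {ι : Type} [Countable ι] {f : ι → R3 → ℝ}
    {f' : ι → Fin 3 → R3 → ℝ} {n : R3 → ℝ} {c : ι → Bool} (h : IsMin v f f' n)
    (hc : Adapted c f) (h0 : 0 < occX c f) (h2 : occX c f < 2) :
    ∃ (e : ℝ) (w : R3 → ℝ) (w' : Fin 3 → R3 → ℝ), H1o w w' ∧ ClsX w ∧ 0 < ∫ x, w x ^ 2 ∧
      (∀ᵐ x, w x ^ 2 ≤ n x) ∧ hform v w w' = e * ∫ x, w x ^ 2 ∧
      ∀ (u : R3 → ℝ) (u' : Fin 3 → R3 → ℝ), H1o u u' → ClsX u → e * ∫ x, u x ^ 2 ≤ hform v u u' := by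
  classical
  obtain ⟨i, hi, hm⟩ : ∃ i, c i = true ∧ 0 < ∫ x, f i x ^ 2 := by
    by_contra hcon
    push Not at hcon
    have h3 : occX c f = 0 := by
      unfold occX
      rw [show (fun i => if c i then ∫ x, f i x ^ 2 else 0) = fun _ => (0:ℝ) from ?_]
      · simp only [tsum_zero]
      · funext i
        split_ifs with hi
        · exact le_antisymm (hcon i hi) (integral_nonneg (fun x => sq_nonneg _))
        · rfl
    linarith
  have hF := h.fam
  refine ⟨hform v (f i) (f' i) / ∫ x, f i x ^ 2, f i, f' i, hF.h1 i, ?_, hm, ?_, ?_, ?_⟩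
  · have := hc i
    rw [hi] at this
    simpa [ClsX] using this
  · filter_upwards [(hE_eq h.memV hF).1, h.rho] with x hx hr
    rw [← hr]
    exact hx.le_tsum i (fun j _ => sq_nonneg _)
  · rw [div_mul_cancel₀ _ hm.ne']
  · intro u u' hu hcu
    have hU0 : 0 ≤ ∫ x, u x ^ 2 := integral_nonneg (fun x => sq_nonneg (u x))
    rcases hU0.eq_or_lt with hU | hU'
    · rw [hform_eq_zero hu hU.symm, ← hU, mul_zero]
    · obtain ⟨s1, s2, s3, s4, s5⟩ := scale_member h.memV hF hc i (b := 0) (by norm_num)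
      have s5' := s5 hi
      set m := ∫ x, f i x ^ 2 with hmdef
      set U := ∫ x, u x ^ 2 with hUdef
      have hs : (√(m / U)) ^ 2 = m / U := Real.sq_sqrt (by (clear * - hm hU'; positivity))
      obtain ⟨a1, a2, a3⟩ := add_member h.memV s1 s2 hu hcu (s := √(m / U)) (by
        rw [s5', hs, ← hUdef, div_mul_cancel₀ _ hU'.ne']
        linarith only [h2])
      have hmin := h.min (Option ι) _ _ a1 (by
        rw [a2, s3, hs, ← hUdef, div_mul_cancel₀ _ hU'.ne', h.tr]; ring)
      rw [a3, s4, hs] at hmin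
      have h6 : hform v (f i) (f' i) ≤ m / U * hform v u u' := by linarith only [hmin]
      rw [div_mul_eq_mul_div, le_div_iff₀ hU'] at h6
      rw [div_mul_eq_mul_div, div_le_iff₀ hm]
      linarith only [h6]

end

end Vale.Agent.P363.KD
end
end

section

section

/-! KD14: weak equation of a class minimizer. -/

namespace Vale.Agent.P363.KD

open MeasureTheory Set Filter Topology
open scoped ENNReal ContDiff

noncomputable section

/-- The bilinear form of `-(1/2)Δ + v - e`. -/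
def BF (v : R3 → ℝ) (e : ℝ) (φ : R3 → ℝ) (φ' : Fin 3 → R3 → ℝ) (ζ : R3 → ℝ)
    (ζ' : Fin 3 → R3 → ℝ) : ℝ :=
  (1 / 2) * (∑ k, ∫ x, φ' k x * ζ' k x) + ∫ x, (v x - e) * (φ x * ζ x)

lemma integrable_vmul {v : R3 → ℝ} (hv : MemV v) {φ : R3 → ℝ} {φ' : Fin 3 → R3 → ℝ}
    (hφ : H1o φ φ') {ζ : R3 → ℝ} {ζ' : Fin 3 → R3 → ℝ} (hζ : H1o ζ ζ') :
    Integrable (fun x => v x * (φ x * ζ x)) := by
  obtain ⟨C, _, hC⟩ := form_bound hv (δ := 1) one_pos
  have h1 := (hC _ _ (H1o_add hφ hζ)).1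
  have h2 := (hC _ _ hφ).1
  have h3 := (hC _ _ hζ).1
  refine (((h1.sub h2).sub h3).const_mul (1 / 2)).congr ?_
  filter_upwards with x
  simp only [Pi.sub_apply]
  ring

lemma integrable_BF {v : R3 → ℝ} (hv : MemV v) (e : ℝ) {φ : R3 → ℝ} {φ' : Fin 3 → R3 → ℝ}
    (hφ : H1o φ φ') {ζ : R3 → ℝ} {ζ' : Fin 3 → R3 → ℝ} (hζ : H1o ζ ζ') :
    Integrable (fun x => (v x - e) * (φ x * ζ x)) := by
  have h1 := integrable_vmul hv hφ hζ
  have h2 : Integrable (fun x => φ x * ζ x) := hφ.memLp.integrable_mul hζ.memLp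
  refine (h1.sub (h2.const_mul e)).congr ?_
  filter_upwards with x
  simp only [Pi.sub_apply]
  ring

lemma int_sq_add {F G : R3 → ℝ} (hF : MemLp F 2 volume) (hG : MemLp G 2 volume) (t : ℝ) :
    ∫ p, (F p + t * G p) ^ 2 = (∫ p, F p ^ 2) + 2 * t * (∫ p, F p * G p) +
      t ^ 2 * ∫ p, G p ^ 2 := by
  have i1 := hF.integrable_sq
  have i2 : Integrable (fun p => F p * G p) := hF.integrable_mul hG
  have i3 := hG.integrable_sq
  have j12 : Integrable (fun p => F p ^ 2 + 2 * t * (F p * G p)) := i1.add (i2.const_mul _)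
  rw [← integral_const_mul, ← integral_const_mul, ← integral_add i1 (i2.const_mul _),
    ← integral_add j12 (i3.const_mul _)]
  congr 1; funext p; ring

lemma hform_add {v : R3 → ℝ} (hv : MemV v) (e : ℝ) {φ : R3 → ℝ} {φ' : Fin 3 → R3 → ℝ}
    (hφ : H1o φ φ') {ζ : R3 → ℝ} {ζ' : Fin 3 → R3 → ℝ} (hζ : H1o ζ ζ') (t : ℝ) :
    hform v (fun x => φ x + t * ζ x) (fun k x => φ' k x + t * ζ' k x) -
      e * ∫ x, (φ x + t * ζ x) ^ 2 =
      (hform v φ φ' - e * ∫ x, φ x ^ 2) + 2 * t * BF v e φ φ' ζ ζ' +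
        t ^ 2 * (hform v ζ ζ' - e * ∫ x, ζ x ^ 2) := by
  unfold hform BF
  have hi2 := integrable_vmul hv hφ hζ
  obtain ⟨C, _, hC⟩ := form_bound hv (δ := 1) one_pos
  have hi1 := (hC _ _ hφ).1
  have hi3 := (hC _ _ hζ).1
  have hm : Integrable (fun x => φ x * ζ x) := hφ.memLp.integrable_mul hζ.memLp
  have e2 : ∫ p, v p * (φ p + t * ζ p) ^ 2 = (∫ p, v p * φ p ^ 2) +
      2 * t * (∫ p, v p * (φ p * ζ p)) + t ^ 2 * ∫ p, v p * ζ p ^ 2 := by
    have j12 : Integrable (fun p => v p * φ p ^ 2 + 2 * t * (v p * (φ p * ζ p))) :=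
      hi1.add (hi2.const_mul _)
    rw [← integral_const_mul, ← integral_const_mul, ← integral_add hi1 (hi2.const_mul _),
      ← integral_add j12 (hi3.const_mul _)]
    congr 1; funext p; ring
  have e3 : ∫ x, (v x - e) * (φ x * ζ x) = (∫ x, v x * (φ x * ζ x)) - e * ∫ x, φ x * ζ x := by
    rw [← integral_const_mul, ← integral_sub hi2 (hm.const_mul _)]
    congr 1; funext p; ring
  rw [e2, e3, int_sq_add hφ.memLp hζ.memLp]
  simp only [int_sq_add (hφ.memLp' _) (hζ.memLp' _)]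
  simp only [Finset.sum_add_distrib, ← Finset.mul_sum]
  ring

lemma zero_of_quad {b A : ℝ} (h : ∀ t : ℝ, 0 ≤ 2 * t * b + t ^ 2 * A) : b = 0 := by
  by_contra hb
  have hA : 0 < |A| + 1 := by positivity
  have h2 := h (-b / (|A| + 1))
  have h3 : (-b / (|A| + 1)) ^ 2 * A ≤ (b ^ 2 / (|A| + 1) ^ 2) * |A| := by
    rw [div_pow, neg_sq]
    apply mul_le_mul_of_nonneg_left (le_abs_self A) (by positivity)
  have h4 : (b ^ 2 / (|A| + 1) ^ 2) * |A| < b ^ 2 / (|A| + 1) := by
    have : 0 < b ^ 2 := by positivity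
    rw [div_mul_eq_mul_div, div_lt_div_iff₀ (by positivity) (by positivity)]
    linarith only [mul_nonneg (le_of_lt (sub_pos.2 this)) (sub_nonneg.2 (abs_nonneg A)), this]
  have h5 : 2 * (-b / (|A| + 1)) * b = - 2 * (b ^ 2 / (|A| + 1)) := by ring
  have h6 : 0 < b ^ 2 / (|A| + 1) := by
    have : 0 < b ^ 2 := by positivity
    positivity
  rw [h5] at h2
  linarith only [h2, h3, h4, h6]

/-- The weak equation for test functions in the class. -/
lemma BF_eq_zero_of_cls {v : R3 → ℝ} (hv : MemV v) {e : ℝ}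
    {φ : R3 → ℝ} {φ' : Fin 3 → R3 → ℝ} (hφ : H1o φ φ') (hc : ClsX φ)
    (he : hform v φ φ' = e * ∫ x, φ x ^ 2)
    (hmin : ∀ (u : R3 → ℝ) (u' : Fin 3 → R3 → ℝ), H1o u u' → ClsX u →
      e * ∫ x, u x ^ 2 ≤ hform v u u')
    {ζ : R3 → ℝ} {ζ' : Fin 3 → R3 → ℝ} (hζ : H1o ζ ζ') (hcζ : ClsX ζ) :
    BF v e φ φ' ζ ζ' = 0 := by
  apply zero_of_quad (A := hform v ζ ζ' - e * ∫ x, ζ x ^ 2)
  intro t
  have h1 := hmin (fun x => φ x + t * ζ x) (fun k x => φ' k x + t * ζ' k x)
    (H1o_add hφ (H1o_smul hζ t)) ?_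
  · have h2 := hform_add hv e hφ hζ t
    linarith only [he, h1, h2]
  · filter_upwards [hc, hcζ] with x h1 h2
    rw [h1, h2]; ring

/-- Reflection of the test function. -/
lemma BF_refl {v : R3 → ℝ} (hsym : ∀ x, v (refl 0 x) = v x) (e : ℝ)
    {φ : R3 → ℝ} {φ' : Fin 3 → R3 → ℝ} (hφ : H1o φ φ') (hc : ClsX φ)
    (ζ : R3 → ℝ) (ζ' : Fin 3 → R3 → ℝ) :
    BF v e φ φ' (fun x => ζ (refl 0 x))
      (fun j x => if j = 0 then - ζ' j (refl 0 x) else ζ' j (refl 0 x)) =
      (-1) * BF v e φ φ' ζ ζ' := by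
  have hφr := H1o_refl hφ 0
  have hs := H1o_smul hφ (-1)
  have hk : ∀ᵐ x, φ (refl 0 x) = (-1) * φ x := by
    filter_upwards [hc] with x h
    rw [h]; ring
  have hd : ∀ j, ∀ᵐ x, (if j = 0 then - φ' j (refl 0 x) else φ' j (refl 0 x)) =
      (-1) * φ' j x := by
    intro j
    have h1 : ACL volume (dir3 j) (fun x => φ (refl 0 x)) (fun x => (-1) * φ' j x) := by
      refine (hs.acl j).congr ?_ ?_
      · filter_upwards [hk] with x hx
        rw [hx]
      · exact Filter.EventuallyEq.rfl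
    exact ACL_unique (hφr.acl j) h1
  unfold BF
  rw [mul_add]
  congr 1
  · rw [mul_left_comm]
    congr 1
    rw [Finset.mul_sum]
    apply Finset.sum_congr rfl
    intro j _
    rw [← integral_refl 0, ← integral_const_mul]
    apply integral_congr_ae
    filter_upwards [hd j] with x hx
    simp only [refl_refl]
    rw [← mul_assoc, ← hx]
    split_ifs <;> ring
  · rw [← integral_refl 0, ← integral_const_mul]
    apply integral_congr_ae
    filter_upwards [hk] with x hx
    simp only [refl_refl]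
    rw [hx, hsym]
    ring

lemma BF_add {v : R3 → ℝ} (hv : MemV v) (e : ℝ) {φ : R3 → ℝ} {φ' : Fin 3 → R3 → ℝ}
    (hφ : H1o φ φ') {ζ : R3 → ℝ} {ζ' : Fin 3 → R3 → ℝ} (hζ : H1o ζ ζ')
    {η : R3 → ℝ} {η' : Fin 3 → R3 → ℝ} (hη : H1o η η') :
    BF v e φ φ' (fun x => ζ x + η x) (fun k x => ζ' k x + η' k x) =
      BF v e φ φ' ζ ζ' + BF v e φ φ' η η' := by
  unfold BF
  have e1 : ∀ k, ∫ x, φ' k x * (ζ' k x + η' k x) = (∫ x, φ' k x * ζ' k x) +
      ∫ x, φ' k x * η' k x := by
    intro k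
    have i1 : Integrable (fun x => φ' k x * ζ' k x) := (hφ.memLp' k).integrable_mul (hζ.memLp' k)
    have i2 : Integrable (fun x => φ' k x * η' k x) := (hφ.memLp' k).integrable_mul (hη.memLp' k)
    rw [← integral_add i1 i2]
    congr 1; funext x
    ring
  have e2 : ∫ x, (v x - e) * (φ x * (ζ x + η x)) = (∫ x, (v x - e) * (φ x * ζ x)) +
      ∫ x, (v x - e) * (φ x * η x) := by
    rw [← integral_add (integrable_BF hv e hφ hζ) (integrable_BF hv e hφ hη)]
    congr 1; funext x; ring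
  rw [e2]
  simp only [e1, Finset.sum_add_distrib]
  ring

lemma BF_smul (v : R3 → ℝ) (e : ℝ) (φ : R3 → ℝ) (φ' : Fin 3 → R3 → ℝ)
    (ζ : R3 → ℝ) (ζ' : Fin 3 → R3 → ℝ) (c : ℝ) :
    BF v e φ φ' (fun x => c * ζ x) (fun k x => c * ζ' k x) = c * BF v e φ φ' ζ ζ' := by
  unfold BF
  have e1 : ∀ k, ∫ x, φ' k x * (c * ζ' k x) = c * ∫ x, φ' k x * ζ' k x := by
    intro k
    rw [← integral_const_mul]
    congr 1; funext x; ring
  have e2 : ∫ x, (v x - e) * (φ x * (c * ζ x)) = c * ∫ x, (v x - e) * (φ x * ζ x) := by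
    rw [← integral_const_mul]
    congr 1; funext x; ring
  rw [e2]
  simp only [e1, ← Finset.mul_sum]
  ring

/-- Projection of the test function to the odd class. -/
lemma exists_proj {v : R3 → ℝ} (hv : MemV v) (hsym : ∀ x, v (refl 0 x) = v x) (e : ℝ)
    {φ : R3 → ℝ} {φ' : Fin 3 → R3 → ℝ} (hφ : H1o φ φ') (hc : ClsX φ)
    (ζ : R3 → ℝ) (ζ' : Fin 3 → R3 → ℝ) (hζ : H1o ζ ζ') :
    ∃ (η : R3 → ℝ) (η' : Fin 3 → R3 → ℝ), H1o η η' ∧
      BF v e φ φ' η η' = BF v e φ φ' ζ ζ' ∧ (∀ x, η (refl 0 x) = - η x) := by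
  have h1 := H1o_refl hζ 0
  have h2 := H1o_smul h1 (-1 / 2)
  have h3 := H1o_smul hζ (1 / 2)
  have h4 := H1o_add h3 h2
  refine ⟨_, _, h4, ?_, ?_⟩
  · rw [BF_add hv e hφ h3 h2, BF_smul, BF_smul, BF_refl hsym e hφ hc]
    ring
  · intro x
    simp only [refl_refl]
    ring

/-- KD14. Weak equation of a class minimizer (for all `H¹` test functions). -/
theorem weak_eq {v : R3 → ℝ} (hv : MemV v) (hsym : ∀ x, v (refl 0 x) = v x) {e : ℝ}
    {φ : R3 → ℝ} {φ' : Fin 3 → R3 → ℝ} (hφ : H1o φ φ') (hc : ClsX φ)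
    (he : hform v φ φ' = e * ∫ x, φ x ^ 2)
    (hmin : ∀ (u : R3 → ℝ) (u' : Fin 3 → R3 → ℝ), H1o u u' → ClsX u →
      e * ∫ x, u x ^ 2 ≤ hform v u u')
    (ζ : R3 → ℝ) (ζ' : Fin 3 → R3 → ℝ) (hζ : H1o ζ ζ') :
    (1 / 2) * (∑ k, ∫ x, φ' k x * ζ' k x) + ∫ x, (v x - e) * (φ x * ζ x) = 0 := by
  obtain ⟨η, η', h1, hB1, h10⟩ := exists_proj hv hsym e hφ hc ζ ζ' hζ
  have hz := BF_eq_zero_of_cls hv hφ hc he hmin h1 (Eventually.of_forall h10)
  change BF v e φ φ' ζ ζ' = 0
  rw [← hB1, hz]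

end

end Vale.Agent.P363.KD
end
end

section

section

/-! KD15a: multiplication of a density matrix, membership. -/

namespace Vale.Agent.P363.KD

open MeasureTheory Set Filter Topology
open scoped ENNReal ContDiff

noncomputable section

/-- Multiplication of a density matrix by `√(1 - t g)`. -/
def mulF {ι : Type} (t : ℝ) (g : R3 → ℝ) (f : ι → R3 → ℝ) (i : ι) (x : R3) : ℝ :=
  √(1 - t * g x) * f i x

/-- Gradient of `mulF`. -/
def mulF' {ι : Type} (t : ℝ) (g : R3 → ℝ) (g' : Fin 3 → R3 → ℝ) (f : ι → R3 → ℝ)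
    (f' : ι → Fin 3 → R3 → ℝ) (i : ι) (k : Fin 3) (x : R3) : ℝ :=
  √(1 - t * g x) * f' i k x - t * g' k x / (2 * √(1 - t * g x)) * f i x

lemma mem_zero : MemV (0 : R3 → ℝ) := ⟨0, 0, MemLp.zero, MemLp.zero, by simp⟩

lemma acl_sqrt {e : R3} {g g' : R3 → ℝ} (hg : ACL volume e g g') {B : ℝ} (hgB : ∀ x, g x ≤ B)
    {t : ℝ} (ht : 0 ≤ t) (htB : t * B ≤ 1 / 2) :
    ACL volume e (fun x => √(1 - t * g x)) (fun x => -t / (2 * √(1 - t * g x)) * g' x) := by
  have hΩ : ∀ y ∈ {y : ℝ | 0 < 1 - t * y}, HasDerivAt (fun y => √(1 - t * y))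
      (-t / (2 * √(1 - t * y))) y := by
    intro y hy
    have hy' : 0 < 1 - t * y := hy
    have h1 : HasDerivAt (fun y => 1 - t * y) (-t) y := by
      simpa only [id_eq, mul_one] using ((hasDerivAt_id y).const_mul t).const_sub 1
    exact h1.sqrt hy'.ne'
  have hc : ContinuousOn (fun y => -t / (2 * √(1 - t * y))) {y : ℝ | 0 < 1 - t * y} := by
    apply ContinuousOn.div continuousOn_const (by fun_prop)
    intro y hy
    have hy' : 0 < 1 - t * y := hy
    have := Real.sqrt_pos.mpr hy'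
    (clear * - hy'; positivity)
  have hm : AEStronglyMeasurable (fun x => √(1 - t * g x)) volume := by
    have h1 : Continuous fun y : ℝ => √(1 - t * y) := by fun_prop
    exact h1.comp_aestronglyMeasurable hg.meas
  have hm' : AEStronglyMeasurable (fun x => -t / (2 * √(1 - t * g x))) volume := by
    have h1 : Measurable fun y : ℝ => -t / (2 * √(1 - t * y)) := by fun_prop
    exact (h1.comp_aemeasurable hg.meas.aemeasurable).aestronglyMeasurable
  refine ACL.comp hg hΩ hc hm hm' ?_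
  have h2 := hg.neg.prim_ge (m := fun _ => -B) continuous_const
    (Eventually.of_forall fun x => neg_le_neg (hgB x))
  filter_upwards [h2] with x hx s
  have h3 := hx s
  have h4 : prim (-g x) (fun s => -g' (x + s • e)) s = - prim (g x) (fun s => g' (x + s • e)) s := by
    unfold prim
    rw [intervalIntegral.integral_neg]
    ring
  rw [h4, neg_le_neg_iff] at h3
  have h5 : t * prim (g x) (fun s => g' (x + s • e)) s ≤ t * B := mul_le_mul_of_nonneg_left h3 ht
  change 0 < 1 - t * prim (g x) (fun s => g' (x + s • e)) s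
  linarith only [htB, h5]

/-- KD15a. The multiplied family. -/
theorem mul_fam {ι : Type} [Countable ι] {f : ι → R3 → ℝ} {f' : ι → Fin 3 → R3 → ℝ}
    (hF : IsFam f f') {g : R3 → ℝ} {g' : Fin 3 → R3 → ℝ}
    (hg : ∀ k, ACL volume (dir3 k) g (g' k)) (hg0 : ∀ x, 0 ≤ g x) {B : ℝ} (hgB : ∀ x, g x ≤ B)
    (hgf : ∀ k, Integrable (fun x => g' k x ^ 2 * rho f x)) {t : ℝ} (ht : 0 ≤ t)
    (htB : t * B ≤ 1 / 2) :
    IsFam (mulF t g f) (mulF' t g g' f f') ∧
      tr (mulF t g f) = tr f - t * ∫ x, g x * rho f x := by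
  obtain ⟨hsum, hrho, -, -⟩ := hE_eq mem_zero hF
  have hgm := (hg 0).meas
  have hB : 0 ≤ B := (hg0 0).trans (hgB 0)
  have htg0 : ∀ x, 0 ≤ t * g x := fun x => mul_nonneg ht (hg0 x)
  have htg : ∀ x, t * g x ≤ 1 / 2 := fun x => (mul_le_mul_of_nonneg_left (hgB x) ht).trans htB
  set w : R3 → ℝ := fun x => √(1 - t * g x) with hw
  have hw2 : ∀ x, w x ^ 2 = 1 - t * g x := fun x =>
    Real.sq_sqrt (by have := htg x; linarith only [this])
  have hw0 : ∀ x, 0 < w x := fun x => Real.sqrt_pos.mpr (by have := htg x; linarith only [this])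
  have hw1 : ∀ x, w x ≤ 1 := fun x => by
    rw [hw]
    exact Real.sqrt_le_one.mpr (by have := htg0 x; linarith only [this])
  have hwm : AEStronglyMeasurable w volume := by
    have h1 : Continuous fun y : ℝ => √(1 - t * y) := by fun_prop
    exact h1.comp_aestronglyMeasurable hgm
  have hsq : ∀ i, Integrable (fun x => f i x ^ 2) := fun i => (hF.h1 i).memLp.integrable_sq
  have hle : ∀ᵐ x, ∀ s : Finset ι, ∑ i ∈ s, f i x ^ 2 ≤ rho f x := by
    filter_upwards [hsum] with x hx s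
    exact hx.sum_le_tsum s (fun i _ => sq_nonneg _)
  have hgfi : ∀ i k, Integrable (fun x => g' k x ^ 2 * f i x ^ 2) := by
    intro i k
    refine (hgf k).mono' (((hg k).meas'.pow 2).mul (((hF.h1 i).memLp.1).pow 2)) ?_
    filter_upwards [hle] with x hx
    have h1 := hx {i}
    rw [Finset.sum_singleton] at h1
    rw [Real.norm_of_nonneg (by (clear * -; positivity))]
    exact mul_le_mul_of_nonneg_left h1 (sq_nonneg _)
  have hgfs : ∀ k, Summable (fun i => ∫ x, g' k x ^ 2 * f i x ^ 2) := by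
    intro k
    refine summable_of_sum_le (c := ∫ x, g' k x ^ 2 * rho f x)
      (fun i => integral_nonneg fun x => by (clear * -; positivity)) fun s => ?_
    rw [← integral_finsetSum _ (fun i _ => hgfi i k)]
    refine integral_mono_ae (integrable_finsetSum _ fun i _ => hgfi i k) (hgf k) ?_
    filter_upwards [hle] with x hx
    rw [← Finset.mul_sum]
    exact mul_le_mul_of_nonneg_left (hx s) (sq_nonneg _)
  -- membership of the multiplied functions
  have hfm : ∀ i, MemLp (mulF t g f i) 2 volume := by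
    intro i
    refine (hF.h1 i).memLp.mono (hwm.mul (hF.h1 i).memLp.1) ?_
    filter_upwards with x
    unfold mulF
    rw [norm_mul, Real.norm_of_nonneg (Real.sqrt_nonneg _)]
    exact mul_le_of_le_one_left (norm_nonneg _) (hw1 x)
  have hacl : ∀ i k, ACL volume (dir3 k) (mulF t g f i) (mulF' t g g' f f' i k) := by
    intro i k
    have h1 := (acl_sqrt (hg k) hgB ht htB).mul ((hF.h1 i).acl k)
    refine h1.congr (Eventually.of_forall fun x => rfl) (Eventually.of_forall fun x => ?_)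
    unfold mulF'
    ring
  have hbd : ∀ i k x, mulF' t g g' f f' i k x ^ 2 ≤
      2 * f' i k x ^ 2 + t ^ 2 * (g' k x ^ 2 * f i x ^ 2) := by
    intro i k x
    unfold mulF'
    have h1 : (√(1 - t * g x) * f' i k x - t * g' k x / (2 * √(1 - t * g x)) * f i x) ^ 2 ≤
        2 * (w x ^ 2 * f' i k x ^ 2) + 2 * (t ^ 2 * g' k x ^ 2 / (4 * w x ^ 2) * f i x ^ 2) := by
      have h2 : t ^ 2 * g' k x ^ 2 / (4 * w x ^ 2) * f i x ^ 2 =
          (t * g' k x / (2 * w x) * f i x) ^ 2 := by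
        field_simp
        ring
      rw [h2]
      have h3 : (√(1 - t * g x) * f' i k x - t * g' k x / (2 * √(1 - t * g x)) * f i x) =
        w x * f' i k x - t * g' k x / (2 * w x) * f i x := rfl
      rw [h3]
      linarith only [sq_nonneg (w x * f' i k x + t * g' k x / (2 * w x) * f i x)]
    refine h1.trans ?_
    have h4 : w x ^ 2 ≤ 1 := by rw [hw2]; linarith only [htg0 x]
    have h5 : 1 / 2 ≤ w x ^ 2 := by rw [hw2]; linarith only [htg x]
    have h6 : t ^ 2 * g' k x ^ 2 / (4 * w x ^ 2) ≤ t ^ 2 * g' k x ^ 2 / 2 := by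
      apply div_le_div_of_nonneg_left (by (clear * -; positivity)) (by norm_num) (by linarith only [h5])
    have h7 : w x ^ 2 * f' i k x ^ 2 ≤ f' i k x ^ 2 := mul_le_of_le_one_left (sq_nonneg _) h4
    have h8 : t ^ 2 * g' k x ^ 2 / (4 * w x ^ 2) * f i x ^ 2 ≤ t ^ 2 * g' k x ^ 2 / 2 * f i x ^ 2 :=
      mul_le_mul_of_nonneg_right h6 (sq_nonneg _)
    linarith only [h7, h8]
  have hint' : ∀ i k, Integrable fun x => 2 * f' i k x ^ 2 + t ^ 2 * (g' k x ^ 2 * f i x ^ 2) :=
    fun i k => (((hF.h1 i).memLp' k).integrable_sq.const_mul 2).add ((hgfi i k).const_mul _)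
  have hsqi' : ∀ i k, Integrable fun x => mulF' t g g' f f' i k x ^ 2 := by
    intro i k
    refine (hint' i k).mono' ((hacl i k).meas'.pow 2) (Eventually.of_forall fun x => ?_)
    rw [Real.norm_of_nonneg (sq_nonneg _)]
    exact hbd i k x
  have hfm' : ∀ i k, MemLp (mulF' t g g' f f' i k) 2 volume := by
    intro i k
    rw [memLp_two_iff_integrable_sq (hacl i k).meas']
    exact hsqi' i k
  have hbd0 : ∀ i x, mulF t g f i x ^ 2 ≤ f i x ^ 2 := by
    intro i x
    unfold mulF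
    rw [mul_pow]
    have : √(1 - t * g x) ^ 2 ≤ 1 := by
      have := hw2 x
      rw [hw] at this
      simp only at this
      rw [this]
      linarith only [htg0 x]
    exact mul_le_of_le_one_left (sq_nonneg _) this
  refine ⟨⟨fun i => ⟨hfm i, hfm' i, hacl i⟩, ?_, ?_, ?_⟩, ?_⟩
  · refine Summable.of_nonneg_of_le (fun i => integral_nonneg fun x => sq_nonneg _) (fun i => ?_)
      hF.sum0
    exact integral_mono (hfm i).integrable_sq (hsq i) (hbd0 i)
  · intro k
    refine Summable.of_nonneg_of_le (fun i => integral_nonneg fun x => sq_nonneg _) (fun i => ?_)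
      (((hF.sum1 k).mul_left 2).add ((hgfs k).mul_left (t ^ 2)))
    rw [← integral_const_mul, ← integral_const_mul, ← integral_add
      (((hF.h1 i).memLp' k).integrable_sq.const_mul 2) ((hgfi i k).const_mul _)]
    exact integral_mono (hsqi' i k) (hint' i k) (hbd i k)
  · intro u hu
    have hwu : MemLp (fun x => w x * u x) 2 volume := by
      refine hu.mono (hwm.mul hu.1) (Eventually.of_forall fun x => ?_)
      rw [norm_mul, Real.norm_of_nonneg (hw0 x).le]
      exact mul_le_of_le_one_left (norm_nonneg _) (hw1 x)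
    have h1 := hF.pauli _ hwu
    have h2 : ∀ i, ∫ x, mulF t g f i x * u x = ∫ x, f i x * (w x * u x) := by
      intro i
      congr 1
      funext x
      unfold mulF
      ring
    simp only [h2]
    refine h1.trans (mul_le_mul_of_nonneg_left ?_ (by norm_num))
    refine integral_mono hwu.integrable_sq hu.integrable_sq fun x => ?_
    simp only
    rw [mul_pow]
    exact mul_le_of_le_one_left (sq_nonneg _) (by rw [hw2]; linarith only [htg0 x])
  · have hgi : ∀ i, Integrable fun x => g x * f i x ^ 2 := by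
      intro i
      refine ((hsq i).const_mul B).mono' (hgm.mul ((hF.h1 i).memLp.1.pow 2))
        (Eventually.of_forall fun x => ?_)
      rw [Real.norm_of_nonneg (mul_nonneg (hg0 x) (sq_nonneg _))]
      exact mul_le_mul_of_nonneg_right (hgB x) (sq_nonneg _)
    have hgs : Summable fun i => ∫ x, g x * f i x ^ 2 := by
      refine Summable.of_nonneg_of_le
        (fun i => integral_nonneg fun x => mul_nonneg (hg0 x) (sq_nonneg _)) (fun i => ?_)
        (hF.sum0.mul_left B)
      rw [← integral_const_mul]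
      exact integral_mono (hgi i) ((hsq i).const_mul B) fun x =>
        mul_le_mul_of_nonneg_right (hgB x) (sq_nonneg _)
    have h1 : ∀ i, ∫ x, mulF t g f i x ^ 2 = (∫ x, f i x ^ 2) - t * ∫ x, g x * f i x ^ 2 := by
      intro i
      rw [← integral_const_mul, ← integral_sub (hsq i) ((hgi i).const_mul t)]
      congr 1
      funext x
      unfold mulF
      have := hw2 x
      rw [hw] at this
      simp only at this
      rw [mul_pow, this]
      ring
    have h2 : ∑' i, ∫ x, g x * f i x ^ 2 = ∫ x, g x * rho f x := by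
      rw [integral_tsum_of_summable_integral_norm hgi]
      · congr 1
        funext x
        unfold rho
        rw [tsum_mul_left]
      · refine hgs.congr fun i => ?_
        congr 1
        funext x
        rw [Real.norm_of_nonneg (mul_nonneg (hg0 x) (sq_nonneg _))]
    unfold tr
    simp only [h1]
    rw [hF.sum0.tsum_sub (hgs.mul_left t), tsum_mul_left, h2]

end

end Vale.Agent.P363.KD
end
end

section

section

/-!
# P363: density of smooth compactly supported functions in `H¹(ℝ³)` and limit lemmas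
-/

namespace Vale.Agent.P363.D

open MeasureTheory Set Filter Topology
open scoped ENNReal ContDiff

noncomputable section

/-- Riesz: almost everywhere convergence and norm bound give convergence in `L²`. -/
theorem riesz_l2 {g : R3 → ℝ} {gn : ℕ → R3 → ℝ} (hg : MemLp g 2 volume)
    (hm : ∀ n, AEStronglyMeasurable (gn n) volume)
    (hle : ∀ n, ∫⁻ x, ‖gn n x‖ₑ ^ 2 ≤ ∫⁻ x, ‖g x‖ₑ ^ 2)
    (hlim : ∀ᵐ x, Tendsto (fun n => gn n x) atTop (𝓝 (g x))) :
    (∀ n, MemLp (gn n) 2 volume) ∧ Tendsto (fun n => ∫ x, (g x - gn n x) ^ 2) atTop (𝓝 0) := by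
  have hfin : ∫⁻ x, ‖g x‖ₑ ^ 2 ≠ ⊤ := by
    have h1 := hg.2
    rw [eLpNorm_lt_top_iff_lintegral_rpow_enorm_lt_top (by norm_num) (by (clear * -; norm_num))] at h1
    simpa only [ne_eq, ENNReal.toReal_ofNat, ENNReal.rpow_ofNat] using h1.ne
  have hmem : ∀ n, MemLp (gn n) 2 volume := by
    intro n
    refine ⟨hm n, ?_⟩
    rw [eLpNorm_lt_top_iff_lintegral_rpow_enorm_lt_top (by norm_num) (by norm_num)]
    have h2 := (hle n).trans_lt hfin.lt_top
    simpa only [ENNReal.toReal_ofNat, ENNReal.rpow_ofNat, gt_iff_lt] using h2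
  refine ⟨hmem, ?_⟩
  -- real integrals
  have hsq : ∀ {f : R3 → ℝ}, MemLp f 2 volume → ∫ x, f x ^ 2 = (∫⁻ x, ‖f x‖ₑ ^ 2).toReal := by
    intro f hf
    rw [integral_eq_lintegral_of_nonneg_ae (f := fun x => f x ^ 2)
      (Eventually.of_forall fun x => sq_nonneg _) (hf.1.pow 2)]
    congr 1
    refine lintegral_congr fun x => ?_
    rw [← sq_abs, ENNReal.ofReal_pow (abs_nonneg _), ← Real.norm_eq_abs, ofReal_norm]
  have hle' : ∀ n, ∫ x, gn n x ^ 2 ≤ ∫ x, g x ^ 2 := by
    intro n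
    rw [hsq (hmem n), hsq hg]
    exact ENNReal.toReal_mono hfin (hle n)
  -- Fatou for `2 gn² + 2 g² - (g - gn)² = (g + gn)² ≥ 0`
  have hF : ∫⁻ x, liminf (fun n => ENNReal.ofReal ((g x + gn n x) ^ 2)) atTop
      ≤ liminf (fun n => ∫⁻ x, ENNReal.ofReal ((g x + gn n x) ^ 2)) atTop :=
    lintegral_liminf_le' (μ := (volume : Measure R3))
      (f := fun n x => ENNReal.ofReal ((g x + gn n x) ^ 2))
      (fun n => ((hg.1.add (hm n)).pow 2).aemeasurable.ennreal_ofReal)
  have hlim2 : ∫⁻ x, liminf (fun n => ENNReal.ofReal ((g x + gn n x) ^ 2)) atTop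
      = ∫⁻ x, ENNReal.ofReal (4 * g x ^ 2) := by
    refine lintegral_congr_ae ?_
    filter_upwards [hlim] with x hx
    have h1 : Tendsto (fun n => ENNReal.ofReal ((g x + gn n x) ^ 2)) atTop
        (𝓝 (ENNReal.ofReal ((g x + g x) ^ 2))) :=
      ENNReal.tendsto_ofReal ((tendsto_const_nhds.add hx).pow 2)
    rw [h1.liminf_eq]
    congr 1
    ring
  rw [hlim2] at hF
  set G := ∫ x, g x ^ 2 with hG
  have hG4 : ∫⁻ x, ENNReal.ofReal (4 * g x ^ 2) = ENNReal.ofReal (4 * G) := by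
    rw [hG, ← integral_const_mul, ofReal_integral_eq_lintegral_ofReal
      (hg.integrable_sq.const_mul 4) (by filter_upwards with x; (clear * -; positivity))]
  have hn4 : ∀ n, ∫⁻ x, ENNReal.ofReal ((g x + gn n x) ^ 2)
      = ENNReal.ofReal (∫ x, (g x + gn n x) ^ 2) := by
    intro n
    rw [ofReal_integral_eq_lintegral_ofReal (f := fun x => (g x + gn n x) ^ 2)
      ((hg.add (hmem n)).integrable_sq) (Eventually.of_forall fun x => sq_nonneg _)]
  simp_rw [hn4] at hF
  rw [hG4] at hF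
  have hid : ∀ n, ∫ x, (g x + gn n x) ^ 2 = 2 * (∫ x, g x ^ 2) + 2 * (∫ x, gn n x ^ 2)
      - ∫ x, (g x - gn n x) ^ 2 := by
    intro n
    have i1 := hg.integrable_sq
    have i2 := (hmem n).integrable_sq
    have i3 : Integrable (fun x => (g x - gn n x) ^ 2) := (hg.sub (hmem n)).integrable_sq
    have i4 : Integrable (fun x => 2 * g x ^ 2 + 2 * gn n x ^ 2) :=
      (i1.const_mul 2).add (i2.const_mul 2)
    rw [← integral_const_mul, ← integral_const_mul, ← integral_add (i1.const_mul 2)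
      (i2.const_mul 2), ← integral_sub i4 i3]
    congr 1
    funext x
    ring
  -- conclusion
  rw [Metric.tendsto_atTop]
  intro ε hε
  have hev : ∀ᶠ n in atTop, ENNReal.ofReal (4 * G - ε) < ENNReal.ofReal
      (∫ x, (g x + gn n x) ^ 2) ∨ 4 * G = 0 := by
    by_cases hG0 : 4 * G = 0
    · exact Eventually.of_forall fun n => Or.inr hG0
    have hGpos : 0 < 4 * G := lt_of_le_of_ne
      (by have : 0 ≤ G := integral_nonneg fun x => sq_nonneg _
          linarith only [this]) (Ne.symm hG0)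
    have h1 : ENNReal.ofReal (4 * G - ε) < ENNReal.ofReal (4 * G) :=
      (ENNReal.ofReal_lt_ofReal_iff hGpos).2 (by linarith only [hε])
    filter_upwards [eventually_lt_of_lt_liminf (lt_of_lt_of_le h1 hF)] with n hn
    exact Or.inl hn
  obtain ⟨N, hN⟩ := eventually_atTop.1 hev
  refine ⟨N, fun n hn => ?_⟩
  have h0 : 0 ≤ ∫ x, (g x - gn n x) ^ 2 := integral_nonneg fun x => sq_nonneg _
  rw [Real.dist_eq, sub_zero, abs_of_nonneg h0]
  rcases hN n hn with h | h
  · have h1 : 4 * G - ε < ∫ x, (g x + gn n x) ^ 2 := by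
      by_contra hc
      push Not at hc
      exact absurd h (not_lt.2 (ENNReal.ofReal_le_ofReal hc))
    rw [hid n] at h1
    have := hle' n
    linarith only [h1, this]
  · have h1 : 0 ≤ ∫ x, (g x + gn n x) ^ 2 := integral_nonneg fun x => sq_nonneg _
    rw [hid n] at h1
    have := hle' n
    linarith only [hε, h, h1, this]

/-- cut-off function at scale `n + 1` -/
def cutn (n : ℕ) (x : R3) : ℝ := (KD.K1.cut : R3 → ℝ) ((((n : ℝ) + 1)⁻¹) • x)

theorem cutn_contDiff (n : ℕ) : ContDiff ℝ ∞ (cutn n) := by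
  have h2 : ContDiff ℝ ∞ (KD.K1.cut : R3 → ℝ) := KD.K1.cut.contDiff
  exact h2.comp (contDiff_const_smul _)

theorem cutn_abs_le (n : ℕ) (x : R3) : |cutn n x| ≤ 1 := by
  unfold cutn
  rw [abs_of_nonneg KD.K1.cut.nonneg]
  exact KD.K1.cut.le_one

theorem cutn_tendsto (x : R3) : Tendsto (fun n => cutn n x) atTop (𝓝 1) := by
  have h2 : Tendsto (fun n : ℕ => (((n : ℝ) + 1)⁻¹) • x) atTop (𝓝 ((0 : ℝ) • x)) := by
    have h3 : Tendsto (fun n : ℕ => ((n : ℝ) + 1)⁻¹) atTop (𝓝 0) := by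
      simpa only [one_div] using tendsto_one_div_add_atTop_nhds_zero_nat (𝕜 := ℝ)
    exact h3.smul_const x
  have h4 := (KD.K1.cut.continuous.tendsto ((0 : ℝ) • x)).comp h2
  have h5 : (KD.K1.cut : R3 → ℝ) ((0 : ℝ) • x) = 1 := by
    rw [zero_smul]
    exact KD.K1.cut.one_of_mem_closedBall (by simp only [KD.K1.cut, Metric.mem_closedBall, dist_self, zero_le_one])
  rw [h5] at h4
  exact h4

theorem cutn_fderiv {M : ℝ} (hM : ∀ x, ‖fderiv ℝ (KD.K1.cut : R3 → ℝ) x‖ ≤ M) (n : ℕ) (x : R3)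
    (k : Fin 3) : |fderiv ℝ (cutn n) x (dir3 k)| ≤ M * ((n : ℝ) + 1)⁻¹ := by
  have hn : (0 : ℝ) < (n : ℝ) + 1 := by positivity
  have h2 : HasFDerivAt (fun x : R3 => ((((n : ℝ) + 1)⁻¹) • x))
      ((((n : ℝ) + 1)⁻¹) • ContinuousLinearMap.id ℝ R3) x :=
    ((((n : ℝ) + 1)⁻¹) • ContinuousLinearMap.id ℝ R3).hasFDerivAt
  have hc : ContDiff ℝ 1 (KD.K1.cut : R3 → ℝ) := KD.K1.cut.contDiff
  have h3 : HasFDerivAt (KD.K1.cut : R3 → ℝ)
      (fderiv ℝ (KD.K1.cut : R3 → ℝ) ((((n : ℝ) + 1)⁻¹) • x))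
      ((((n : ℝ) + 1)⁻¹) • x) := (hc.differentiable (by norm_num) _).hasFDerivAt
  have h4 := h3.comp x h2
  have h5 : fderiv ℝ (cutn n) x = _ := h4.fderiv
  rw [h5]
  simp only [ContinuousLinearMap.comp_apply, smul_apply,
    ContinuousLinearMap.id_apply, map_smul, smul_eq_mul]
  rw [abs_mul, abs_of_pos (inv_pos.2 hn), mul_comm]
  refine mul_le_mul_of_nonneg_right ?_ (by (clear * -; positivity))
  have h6 := (fderiv ℝ (KD.K1.cut : R3 → ℝ) ((((n : ℝ) + 1)⁻¹) • x)).le_opNorm (dir3 k)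
  have h7 : ‖dir3 k‖ = 1 := by simp [dir3]
  rw [h7, mul_one] at h6
  exact h6.trans (hM _)

/-- Smooth compactly supported functions are `H1o`. -/
theorem H1o_test {φ : R3 → ℝ} (h : ContDiff ℝ ∞ φ) (hc : HasCompactSupport φ) :
    H1o φ (fun k x => fderiv ℝ φ x (dir3 k)) := by
  have h1 : ContDiff ℝ 1 φ := h.of_le (by norm_cast)
  refine ⟨h1.continuous.memLp_of_hasCompactSupport hc, fun k => ?_, fun k => ACL.of_contDiff h1⟩
  have hd : Continuous fun x => fderiv ℝ φ x (dir3 k) :=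
    (h1.continuous_fderiv one_ne_zero).clm_apply continuous_const
  refine hd.memLp_of_hasCompactSupport ?_
  refine (hc.fderiv (𝕜 := ℝ)).mono fun x hx => ?_
  rw [Function.mem_support] at hx ⊢
  intro h0
  exact hx (by rw [h0]; simp)

/-- `L²` triangle inequality in squared form. -/
theorem l2_add {a b c : R3 → ℝ} (ha : MemLp a 2 volume) (hb : MemLp b 2 volume)
    (h : ∀ x, |c x| ≤ |a x| + |b x|) :
    ∫ x, c x ^ 2 ≤ 2 * (∫ x, a x ^ 2) + 2 * ∫ x, b x ^ 2 := by
  rw [← integral_const_mul, ← integral_const_mul, ← integral_add (ha.integrable_sq.const_mul 2)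
    (hb.integrable_sq.const_mul 2)]
  refine integral_mono_of_nonneg (Eventually.of_forall fun x => sq_nonneg _)
    ((ha.integrable_sq.const_mul 2).add (hb.integrable_sq.const_mul 2))
    (Eventually.of_forall fun x => ?_)
  have h1 := h x
  have h2 : c x ^ 2 ≤ (|a x| + |b x|) ^ 2 := by
    rw [← sq_abs (c x)]
    exact pow_le_pow_left₀ (abs_nonneg _) h1 2
  have h3 : (|a x| + |b x|) ^ 2 ≤ 2 * a x ^ 2 + 2 * b x ^ 2 := by
    linarith only [sq_abs (b x), sq_abs (a x), sq_nonneg (|a x| - |b x|)]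
  exact h2.trans h3

/-- Density of smooth compactly supported functions in `H¹(ℝ³)`. -/
theorem H1o_approx {f : R3 → ℝ} {f' : Fin 3 → R3 → ℝ} (h : H1o f f') :
    ∃ φ : ℕ → R3 → ℝ, (∀ n, ContDiff ℝ ∞ (φ n)) ∧ (∀ n, HasCompactSupport (φ n)) ∧
      Tendsto (fun n => ∫ x, (f x - φ n x) ^ 2) atTop (𝓝 0) ∧
      ∀ k, Tendsto (fun n => ∫ x, (f' k x - fderiv ℝ (φ n) x (dir3 k)) ^ 2) atTop (𝓝 0) := by
  have hfl : LocallyIntegrable f := h.memLp.locallyIntegrable (by norm_num)
  have hfl' : ∀ k, LocallyIntegrable (f' k) := fun k => (h.memLp' k).locallyIntegrable (by norm_num)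
  obtain ⟨M, hM0, hM⟩ := KD.K1.cut_bound
  have key : ∀ {g : R3 → ℝ}, MemLp g 2 volume → LocallyIntegrable g →
      (∀ n, MemLp (fun x => cutn n x * KD.K1.moll n g x) 2 volume) ∧
      Tendsto (fun n => ∫ x, (g x - cutn n x * KD.K1.moll n g x) ^ 2) atTop (𝓝 0) := by
    intro g hg hgl
    refine riesz_l2 hg (fun n => ((cutn_contDiff n).continuous.mul
      (KD.K1.moll_contDiff n hgl).continuous).aestronglyMeasurable) (fun n => ?_) ?_
    · refine le_trans (lintegral_mono fun x => ?_) (KD.K1.moll_lint_le n hg.1)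
      rw [enorm_mul, mul_pow]
      have h1 : ‖cutn n x‖ₑ ≤ 1 := by
        rw [← ofReal_norm, Real.norm_eq_abs]
        exact ENNReal.ofReal_le_one.2 (cutn_abs_le n x)
      calc ‖cutn n x‖ₑ ^ 2 * ‖KD.K1.moll n g x‖ₑ ^ 2 ≤ 1 ^ 2 * ‖KD.K1.moll n g x‖ₑ ^ 2 := by
            (clear * - h1; gcongr)
        _ = _ := by rw [one_pow, one_mul]
    · filter_upwards [KD.K1.moll_ae_tendsto hgl] with x hx
      have := (cutn_tendsto x).mul hx
      rwa [one_mul] at this
  refine ⟨fun n x => cutn n x * KD.K1.moll n f x, fun n => (cutn_contDiff n).mul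
    (KD.K1.moll_contDiff n hfl), fun n => KD.K1.vn_cs f n, (key h.memLp hfl).2, fun k => ?_⟩
  obtain ⟨hm1, hm2⟩ := key (h.memLp' k) (hfl' k)
  have hder : ∀ n x, fderiv ℝ (fun x => cutn n x * KD.K1.moll n f x) x (dir3 k)
      = cutn n x * KD.K1.moll n (f' k) x + fderiv ℝ (cutn n) x (dir3 k) * KD.K1.moll n f x := by
    intro n x
    have e1 : HasFDerivAt (cutn n) (fderiv ℝ (cutn n) x) x :=
      ((cutn_contDiff n).differentiable (by simp) x).hasFDerivAt
    have e2 : HasFDerivAt (KD.K1.moll n f) (fderiv ℝ (KD.K1.moll n f) x) x :=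
      ((KD.K1.moll_contDiff n hfl).differentiable (by simp) x).hasFDerivAt
    have e3 : fderiv ℝ (fun x => cutn n x * KD.K1.moll n f x) x = _ := (e1.mul e2).fderiv
    rw [e3, ← KD.K1.moll_deriv n hfl (hfl' k) (h.acl k) x]
    simp only [add_apply, smul_apply, smul_eq_mul]
    ring
  have hmoll : ∀ n, MemLp (KD.K1.moll n f) 2 volume ∧
      ∫ x, KD.K1.moll n f x ^ 2 ≤ ∫ x, f x ^ 2 := by
    intro n
    have hmm : AEStronglyMeasurable (KD.K1.moll n f) volume :=
      (KD.K1.moll_contDiff n hfl).continuous.aestronglyMeasurable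
    have h1 : MemLp (KD.K1.moll n f) 2 volume :=
      ⟨hmm, (KD.K1.moll_eLpNorm_le n h.memLp.1).trans_lt h.memLp.2⟩
    refine ⟨h1, ?_⟩
    have hsq : ∀ {f : R3 → ℝ}, MemLp f 2 volume →
        ∫ x, f x ^ 2 = (∫⁻ x, ‖f x‖ₑ ^ 2).toReal := by
      intro f hf
      rw [integral_eq_lintegral_of_nonneg_ae (f := fun x => f x ^ 2)
        (Eventually.of_forall fun x => sq_nonneg _) (hf.1.pow 2)]
      congr 1
      refine lintegral_congr fun x => ?_
      rw [← sq_abs, ENNReal.ofReal_pow (abs_nonneg _), ← Real.norm_eq_abs, ofReal_norm]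
    rw [hsq h1, hsq h.memLp]
    refine ENNReal.toReal_mono ?_ (KD.K1.moll_lint_le n h.memLp.1)
    have h1 := h.memLp.2
    rw [eLpNorm_lt_top_iff_lintegral_rpow_enorm_lt_top (by norm_num) (by norm_num)] at h1
    simpa using h1.ne
  -- squeeze
  have hup : ∀ n : ℕ, ∫ x, (f' k x - fderiv ℝ (fun x => cutn n x * KD.K1.moll n f x) x (dir3 k)) ^ 2
      ≤ 2 * (∫ x, (f' k x - cutn n x * KD.K1.moll n (f' k) x) ^ 2)
        + 2 * ((M * ((n : ℝ) + 1)⁻¹) ^ 2 * ∫ x, f x ^ 2) := by
    intro n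
    have hn : (0 : ℝ) < (n : ℝ) + 1 := by (clear * -; positivity)
    have h1 : MemLp (fun x => (M * ((n : ℝ) + 1)⁻¹) * KD.K1.moll n f x) 2 volume :=
      (hmoll n).1.const_mul _
    have h2 := l2_add (a := fun x => f' k x - cutn n x * KD.K1.moll n (f' k) x)
      (b := fun x => (M * ((n : ℝ) + 1)⁻¹) * KD.K1.moll n f x)
      (c := fun x => f' k x - fderiv ℝ (fun x => cutn n x * KD.K1.moll n f x) x (dir3 k))
      ((h.memLp' k).sub (hm1 n)) h1 (fun x => by
        rw [hder n x, ← sub_sub]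
        refine (abs_sub _ _).trans ?_
        refine add_le_add le_rfl ?_
        rw [abs_mul, abs_mul, abs_of_nonneg (by (clear * - hM0; positivity) : 0 ≤ M * ((n : ℝ) + 1)⁻¹)]
        exact mul_le_mul_of_nonneg_right (cutn_fderiv hM n x k) (abs_nonneg _))
    refine h2.trans (add_le_add le_rfl ?_)
    have h3 : ∫ x, ((M * ((n : ℝ) + 1)⁻¹) * KD.K1.moll n f x) ^ 2
        = (M * ((n : ℝ) + 1)⁻¹) ^ 2 * ∫ x, KD.K1.moll n f x ^ 2 := by
      rw [← integral_const_mul]
      congr 1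
      funext x
      ring
    rw [h3]
    have := (hmoll n).2
    (clear * - this; gcongr)
  have hlim : Tendsto (fun n : ℕ => 2 * (∫ x, (f' k x - cutn n x * KD.K1.moll n (f' k) x) ^ 2)
        + 2 * ((M * ((n : ℝ) + 1)⁻¹) ^ 2 * ∫ x, f x ^ 2)) atTop (𝓝 0) := by
    have h3 : Tendsto (fun n : ℕ => ((n : ℝ) + 1)⁻¹) atTop (𝓝 0) := by
      simpa only [one_div] using tendsto_one_div_add_atTop_nhds_zero_nat (𝕜 := ℝ)
    have h4 := ((((h3.const_mul M).pow 2).mul_const (∫ x, f x ^ 2)).const_mul 2)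
    have h5 := (hm2.const_mul 2).add h4
    simpa only [mul_zero, ne_eq, OfNat.ofNat_ne_zero, not_false_eq_true, zero_pow, zero_mul, add_zero] using h5
  exact tendsto_of_tendsto_of_tendsto_of_le_of_le tendsto_const_nhds hlim
    (fun n => integral_nonneg fun x => sq_nonneg _) hup

/-- `L²` limits: pairings. -/
theorem tendsto_pair {f g : R3 → ℝ} {φ : ℕ → R3 → ℝ} (hf : MemLp f 2 volume)
    (hg : MemLp g 2 volume) (hφ : ∀ n, MemLp (φ n) 2 volume)
    (h : Tendsto (fun n => ∫ x, (f x - φ n x) ^ 2) atTop (𝓝 0)) :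
    Tendsto (fun n => ∫ x, g x * φ n x) atTop (𝓝 (∫ x, g x * f x)) := by
  have hcs : ∀ n, |(∫ x, g x * f x) - ∫ x, g x * φ n x| ≤
      √(∫ x, g x ^ 2) * √(∫ x, (f x - φ n x) ^ 2) := by
    intro n
    have i1 : Integrable (fun x => g x * f x) := hg.integrable_mul hf
    have i2 : Integrable (fun x => g x * φ n x) := hg.integrable_mul (hφ n)
    have hd : MemLp (fun x => f x - φ n x) 2 volume := hf.sub (hφ n)
    rw [← integral_sub i1 i2]
    have e : (fun x => g x * f x - g x * φ n x) = fun x => g x * (f x - φ n x) := by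
      funext x; ring
    rw [e]
    set A := ∫ x, g x ^ 2
    set B := ∫ x, (f x - φ n x) ^ 2
    set X := ∫ x, g x * (f x - φ n x)
    have hA : 0 ≤ A := integral_nonneg fun x => sq_nonneg _
    have hB : 0 ≤ B := integral_nonneg fun x => sq_nonneg _
    have hq : ∀ s : ℝ, 0 ≤ A * (s * s) + 2 * X * s + B := by
      intro s
      have i3 : Integrable (fun x => g x * (f x - φ n x)) := hg.integrable_mul hd
      have : ∫ x, (s * g x + (f x - φ n x)) ^ 2 = A * (s * s) + 2 * X * s + B := by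
        have e2 : (fun x => (s * g x + (f x - φ n x)) ^ 2) = fun x =>
            (s * s) * g x ^ 2 + (2 * s) * (g x * (f x - φ n x)) + (f x - φ n x) ^ 2 := by
          funext x; ring
        have i4 : Integrable (fun x => (s * s) * g x ^ 2 + (2 * s) * (g x * (f x - φ n x))) :=
          (hg.integrable_sq.const_mul _).add (i3.const_mul _)
        rw [e2, integral_add i4 hd.integrable_sq,
          integral_add (hg.integrable_sq.const_mul _) (i3.const_mul _), integral_const_mul,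
          integral_const_mul]
        ring
      rw [← this]
      exact integral_nonneg fun x => sq_nonneg _
    have hd := discrim_le_zero hq
    rw [discrim] at hd
    have hX : X ^ 2 ≤ A * B := by linarith
    rw [← Real.sqrt_mul hA, ← Real.sqrt_sq_eq_abs]
    exact Real.sqrt_le_sqrt hX
  rw [tendsto_iff_dist_tendsto_zero]
  have h2 : Tendsto (fun n => √(∫ x, g x ^ 2) * √(∫ x, (f x - φ n x) ^ 2)) atTop (𝓝 0) := by
    have := ((Real.continuous_sqrt.tendsto 0).comp h).const_mul (√(∫ x, g x ^ 2))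
    simpa only [Function.comp_apply, Real.sqrt_zero, mul_zero] using this
  refine squeeze_zero (fun n => dist_nonneg) (fun n => ?_) h2
  rw [dist_comm, Real.dist_eq]
  exact hcs n

/-- `L²` limits: squares. -/
theorem tendsto_sq {f : R3 → ℝ} {φ : ℕ → R3 → ℝ} (hf : MemLp f 2 volume)
    (hφ : ∀ n, MemLp (φ n) 2 volume)
    (h : Tendsto (fun n => ∫ x, (f x - φ n x) ^ 2) atTop (𝓝 0)) :
    Tendsto (fun n => ∫ x, φ n x ^ 2) atTop (𝓝 (∫ x, f x ^ 2)) := by
  have h1 := tendsto_pair hf hf hφ h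
  have h2 : ∀ n, ∫ x, φ n x ^ 2 = (∫ x, (f x - φ n x) ^ 2) + 2 * (∫ x, f x * φ n x)
      - ∫ x, f x ^ 2 := by
    intro n
    have i1 : Integrable (fun x => f x * φ n x) := hf.integrable_mul (hφ n)
    have i2 : Integrable (fun x => (f x - φ n x) ^ 2) := (hf.sub (hφ n)).integrable_sq
    have i3 : Integrable (fun x => (f x - φ n x) ^ 2 + 2 * (f x * φ n x)) :=
      i2.add (i1.const_mul 2)
    rw [← integral_const_mul, ← integral_add i2 (i1.const_mul 2),
      ← integral_sub i3 hf.integrable_sq]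
    congr 1
    funext x
    ring
  have h3 := (h.add (h1.const_mul 2)).sub_const (∫ x, f x ^ 2)
  have e : (∫ x, f x * f x) = ∫ x, f x ^ 2 := by
    congr 1; funext x; ring
  rw [e] at h3
  refine (h3.congr fun n => (h2 n).symm).trans (le_of_eq ?_)
  congr 1
  ring

end

end Vale.Agent.P363.D
end
end

section

section

/-!
# P363, block X: calculus of the weights
-/

namespace Vale.Agent.P363.D

open MeasureTheory Set Filter Topology
open scoped ENNReal ContDiff

noncomputable section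

theorem rad_sq (x : R3) : rad x ^ 2 = 1 + ‖x‖ ^ 2 := by
  rw [rad, Real.sq_sqrt (by (clear * -; positivity))]

theorem one_le_rad (x : R3) : 1 ≤ rad x := by
  rw [rad, Real.one_le_sqrt]
  linarith only [sq_nonneg ‖x‖]

theorem norm_le_rad (x : R3) : ‖x‖ ≤ rad x := by
  rw [rad]
  apply Real.le_sqrt_of_sq_le
  linarith only []

theorem rad_le (x : R3) : rad x ≤ 1 + ‖x‖ := by
  rw [rad]
  apply Real.sqrt_le_iff.mpr
  have := norm_nonneg x
  constructor
  · linarith only [this]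
  · linarith

theorem xwt_rad_pos (x : R3) : 0 < rad x := lt_of_lt_of_le one_pos (one_le_rad x)

theorem wt_pos (γ κ : ℝ) (x : R3) : 0 < wt γ κ x := by
  rw [wt]
  exact mul_pos (Real.rpow_pos_of_pos (xwt_rad_pos x) _) (Real.exp_pos _)

theorem wt_eq (γ γ' κ : ℝ) (x : R3) : wt γ κ x = rad x ^ (γ - γ') * wt γ' κ x := by
  rw [wt, wt, ← mul_assoc, ← Real.rpow_add (xwt_rad_pos x), sub_add_cancel]

theorem contDiff_rad : ContDiff ℝ ∞ rad := by
  have h : ContDiff ℝ ∞ (fun x : R3 => 1 + ‖x‖ ^ 2) := contDiff_const.add (contDiff_norm_sq ℝ)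
  exact h.sqrt (fun x => by positivity)

theorem contDiff_wt (γ κ : ℝ) : ContDiff ℝ ∞ (wt γ κ) := by
  have h1 : ContDiff ℝ ∞ (fun x : R3 => rad x ^ γ) :=
    contDiff_rad.rpow_const_of_ne (fun x => (xwt_rad_pos x).ne')
  have h2 : ContDiff ℝ ∞ (fun x : R3 => Real.exp (-(κ * rad x))) :=
    (contDiff_const.mul contDiff_rad).neg.exp
  exact h1.mul h2

/-- `f` is differentiable with `k`-th partial derivative `f'`. -/
def XwtPd (k : Fin 3) (f f' : R3 → ℝ) : Prop :=
  ∀ x, DifferentiableAt ℝ f x ∧ pdv k f x = f' x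

theorem XwtPd.eq {k : Fin 3} {f f' : R3 → ℝ} (h : XwtPd k f f') : pdv k f = f' :=
  funext fun x => (h x).2

theorem XwtPd.congr {k : Fin 3} {f f' f'' : R3 → ℝ} (h : XwtPd k f f') (he : ∀ x, f' x = f'' x) :
    XwtPd k f f'' := fun x => ⟨(h x).1, (h x).2.trans (he x)⟩

theorem XwtPd.add {k : Fin 3} {f f' g g' : R3 → ℝ} (h : XwtPd k f f') (h' : XwtPd k g g') :
    XwtPd k (fun x => f x + g x) (fun x => f' x + g' x) := fun x => by
  refine ⟨(h x).1.add (h' x).1, ?_⟩
  have e := fderiv_fun_add (h x).1 (h' x).1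
  have h2 := (h x).2
  have h2' := (h' x).2
  unfold pdv at h2 h2' ⊢
  rw [e, add_apply, h2, h2']

theorem XwtPd.mul {k : Fin 3} {f f' g g' : R3 → ℝ} (h : XwtPd k f f') (h' : XwtPd k g g') :
    XwtPd k (fun x => f x * g x) (fun x => f' x * g x + f x * g' x) := fun x => by
  refine ⟨(h x).1.mul (h' x).1, ?_⟩
  have e := fderiv_fun_mul (h x).1 (h' x).1
  have h2 := (h x).2
  have h2' := (h' x).2
  unfold pdv at h2 h2' ⊢
  rw [e, add_apply, smul_apply,
    smul_apply, h2, h2', smul_eq_mul, smul_eq_mul]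
  ring

theorem XwtPd.const_mul {k : Fin 3} {f f' : R3 → ℝ} (c : ℝ) (h : XwtPd k f f') :
    XwtPd k (fun x => c * f x) (fun x => c * f' x) := fun x => by
  refine ⟨(h x).1.const_mul c, ?_⟩
  have e := fderiv_const_mul (h x).1 c
  have h2 := (h x).2
  unfold pdv at h2 ⊢
  rw [e, smul_apply, h2, smul_eq_mul]

theorem XwtPd.comp {k : Fin 3} {f f' : R3 → ℝ} {φ : ℝ → ℝ} {φ' : ℝ → ℝ}
    (hφ : ∀ x, HasDerivAt φ (φ' (f x)) (f x)) (h : XwtPd k f f') :
    XwtPd k (fun x => φ (f x)) (fun x => φ' (f x) * f' x) := fun x => by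
  have hd := (hφ x).comp_hasFDerivAt x (h x).1.hasFDerivAt
  refine ⟨hd.differentiableAt, ?_⟩
  have h2 := (h x).2
  have e : fderiv ℝ (fun x => φ (f x)) x = φ' (f x) • fderiv ℝ f x := hd.fderiv
  unfold pdv at h2 ⊢
  rw [e, smul_apply, h2, smul_eq_mul]

theorem xwt_coord (k j : Fin 3) :
    XwtPd k (fun x : R3 => x j) (fun _ => if j = k then 1 else 0) := fun x => by
  have h : HasFDerivAt (fun x : R3 => x j) (EuclideanSpace.proj j : R3 →L[ℝ] ℝ) x :=
    (EuclideanSpace.proj j : R3 →L[ℝ] ℝ).hasFDerivAt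
  refine ⟨h.differentiableAt, ?_⟩
  unfold pdv
  rw [h.fderiv]
  simp [dir3]

theorem xwt_rad (k : Fin 3) : XwtPd k rad (fun x => x k / rad x) := fun x => by
  have h0 : HasFDerivAt (fun x : R3 => 1 + ‖x‖ ^ 2) (2 • (innerSL ℝ x)) x := by
    have := (hasStrictFDerivAt_norm_sq x).hasFDerivAt
    exact this.const_add 1
  have h : HasFDerivAt rad ((1 / (2 * √(1 + ‖x‖ ^ 2))) • (2 • (innerSL ℝ x))) x :=
    h0.sqrt (by positivity)
  refine ⟨h.differentiableAt, ?_⟩
  unfold pdv
  rw [h.fderiv]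
  have hi : inner ℝ x (dir3 k) = x k := by
    simp [dir3, EuclideanSpace.inner_single_right]
  simp only [smul_apply, innerSL_apply_apply, hi, rad]
  have h3 : √(1 + ‖x‖ ^ 2) ≠ 0 := by (clear * -; positivity)
  simp only [nsmul_eq_mul, smul_eq_mul]
  field_simp
  norm_num

theorem xwt_wt (γ κ : ℝ) (k : Fin 3) :
    XwtPd k (wt γ κ) (fun x => x k * (γ * wt (γ - 2) κ x - κ * wt (γ - 1) κ x)) := by
  have h := XwtPd.comp (k := k) (f := rad) (f' := fun x => x k / rad x)
    (φ := fun r => r ^ γ * Real.exp (-(κ * r)))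
    (φ' := fun r => γ * r ^ (γ - 1) * Real.exp (-(κ * r)) +
      r ^ γ * (Real.exp (-(κ * r)) * -(κ * 1))) (fun x => by
      have h1 : HasDerivAt (fun r : ℝ => r ^ γ) (γ * rad x ^ (γ - 1)) (rad x) :=
        Real.hasDerivAt_rpow_const (Or.inl (xwt_rad_pos x).ne')
      have h2 : HasDerivAt (fun r : ℝ => Real.exp (-(κ * r)))
          (Real.exp (-(κ * rad x)) * -(κ * 1)) (rad x) :=
        (((hasDerivAt_id (rad x)).const_mul κ).neg).exp
      exact h1.mul h2) (xwt_rad k)
  refine XwtPd.congr h (fun x => ?_)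
  have hr := xwt_rad_pos x
  rw [wt_eq (γ - 1) (γ - 2) κ x, wt]
  have e1 : γ - 1 - (γ - 2) = 1 := by ring
  have e2 : rad x ^ (γ - 1) = rad x ^ (γ - 2) * rad x := by
    conv_lhs => rw [show γ - 1 = (γ - 2) + 1 by ring, Real.rpow_add hr, Real.rpow_one]
  have e3 : rad x ^ γ = rad x ^ (γ - 2) * rad x ^ 2 := by
    conv_lhs => rw [show γ = (γ - 2) + 2 by ring, Real.rpow_add hr]
    norm_num
  rw [e1, Real.rpow_one, e2, e3]
  field_simp
  ring

theorem pdv_wt (γ κ : ℝ) (k : Fin 3) (x : R3) :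
    pdv k (wt γ κ) x = x k * (γ * wt (γ - 2) κ x - κ * wt (γ - 1) κ x) :=
  (xwt_wt γ κ k x).2

/-- the powers of the radius between the weights -/
theorem xwt_shift (γ κ : ℝ) (x : R3) :
    wt (γ - 3) κ x = rad x * wt (γ - 4) κ x ∧ wt (γ - 2) κ x = rad x ^ 2 * wt (γ - 4) κ x ∧
      wt (γ - 1) κ x = rad x ^ 3 * wt (γ - 4) κ x ∧ wt γ κ x = rad x ^ 4 * wt (γ - 4) κ x := by
  refine ⟨?_, ?_, ?_, ?_⟩
  · rw [wt_eq (γ - 3) (γ - 4) κ x, show γ - 3 - (γ - 4) = 1 by ring, Real.rpow_one]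
  · rw [wt_eq (γ - 2) (γ - 4) κ x, show γ - 2 - (γ - 4) = (2 : ℕ) by push_cast; ring,
      Real.rpow_natCast]
  · rw [wt_eq (γ - 1) (γ - 4) κ x, show γ - 1 - (γ - 4) = (3 : ℕ) by push_cast; ring,
      Real.rpow_natCast]
  · rw [wt_eq γ (γ - 4) κ x, show γ - (γ - 4) = (4 : ℕ) by push_cast; ring,
      Real.rpow_natCast]

theorem xwt_coords_sq (x : R3) : x 0 ^ 2 + x 1 ^ 2 + x 2 ^ 2 = rad x ^ 2 - 1 := by
  rw [rad_sq, EuclideanSpace.real_norm_sq_eq, Fin.sum_univ_three]
  ring

/-- XWt. Laplacian of a weight times a function of the third coordinate. -/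
theorem lap_wt_mul (γ κ : ℝ) {φ φ' φ'' : ℝ → ℝ} (h1 : ∀ z, HasDerivAt φ (φ' z) z)
    (h2 : ∀ z, HasDerivAt φ' (φ'' z) z) (x : R3) :
    lap (fun x => wt γ κ x * φ (x 2)) x =
      φ (x 2) * (κ ^ 2 * wt γ κ x - 2 * κ * (γ + 1) * wt (γ - 1) κ x +
        (γ ^ 2 + γ - κ ^ 2) * wt (γ - 2) κ x + κ * (2 * γ - 1) * wt (γ - 3) κ x -
        γ * (γ - 2) * wt (γ - 4) κ x) +
      2 * φ' (x 2) * x 2 * (γ * wt (γ - 2) κ x - κ * wt (γ - 1) κ x) + φ'' (x 2) * wt γ κ x := by
  have hφ : ∀ k, XwtPd k (fun x : R3 => φ (x 2)) (fun x => φ' (x 2) * if (2 : Fin 3) = k then 1 else 0) :=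
    fun k => XwtPd.comp (fun x => h1 (x 2)) (xwt_coord k 2)
  have hφ' : ∀ k, XwtPd k (fun x : R3 => φ' (x 2))
      (fun x => φ'' (x 2) * if (2 : Fin 3) = k then 1 else 0) :=
    fun k => XwtPd.comp (fun x => h2 (x 2)) (xwt_coord k 2)
  have hsub : ∀ k, XwtPd k (fun x => γ * wt (γ - 2) κ x - κ * wt (γ - 1) κ x)
      (fun x => γ * (x k * ((γ - 2) * wt (γ - 4) κ x - κ * wt (γ - 3) κ x)) +
        (-κ) * (x k * ((γ - 1) * wt (γ - 3) κ x - κ * wt (γ - 2) κ x))) := by
    intro k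
    have a1 := (xwt_wt (γ - 2) κ k).const_mul γ
    have a2 := (xwt_wt (γ - 1) κ k).const_mul (-κ)
    have a3 := a1.add a2
    have e : (fun x => γ * wt (γ - 2) κ x - κ * wt (γ - 1) κ x) =
        (fun x => γ * wt (γ - 2) κ x + (-κ) * wt (γ - 1) κ x) := by
      funext x; ring
    rw [e]
    refine a3.congr (fun x => ?_)
    rw [show γ - 2 - 2 = γ - 4 by ring, show γ - 2 - 1 = γ - 3 by ring,
      show γ - 1 - 2 = γ - 3 by ring, show γ - 1 - 1 = γ - 2 by ring]
  have hk : ∀ k : Fin 3, pdv k (pdv k (fun x => wt γ κ x * φ (x 2))) x =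
      ((γ * wt (γ - 2) κ x - κ * wt (γ - 1) κ x) +
        x k * (γ * (x k * ((γ - 2) * wt (γ - 4) κ x - κ * wt (γ - 3) κ x)) +
        (-κ) * (x k * ((γ - 1) * wt (γ - 3) κ x - κ * wt (γ - 2) κ x)))) * φ (x 2) +
      2 * (x k * (γ * wt (γ - 2) κ x - κ * wt (γ - 1) κ x)) *
        (φ' (x 2) * if (2 : Fin 3) = k then 1 else 0) +
      wt γ κ x * (φ'' (x 2) * (if (2 : Fin 3) = k then 1 else 0) *
        if (2 : Fin 3) = k then 1 else 0) := by
    intro k
    have f1 := (xwt_wt γ κ k).mul (hφ k)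
    rw [f1.eq]
    have f2 := (((xwt_coord k k).mul (hsub k)).mul (hφ k)).add
      ((xwt_wt γ κ k).mul ((hφ' k).mul
        (g := fun _ => if (2 : Fin 3) = k then 1 else 0) (g' := fun _ => 0) (fun x => by
          refine ⟨differentiableAt_const _, ?_⟩
          simp only [pdv, Fin.isValue, fderiv_fun_const, Pi.zero_apply, zero_apply])))
    rw [(f2 x).2]
    simp only [if_true]
    ring
  have e0 : ((2 : Fin 3) = 0) = False := by decide
  have e1 : ((2 : Fin 3) = 1) = False := by decide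
  rw [lap, Fin.sum_univ_three, hk 0, hk 1, hk 2]
  simp only [e0, e1, if_true, if_false, mul_zero, mul_one, add_zero]
  have hx := xwt_coords_sq x
  obtain ⟨g3, g2, g1, g0⟩ := xwt_shift γ κ x
  rw [g0, g1, g2, g3]
  linear_combination (φ (x 2) * wt (γ - 4) κ x * (γ * (γ - 2) - κ * (2 * γ - 1) * rad x +
    κ ^ 2 * rad x ^ 2)) * hx

/-- XWt. The same in terms of `R = rad x`. -/
theorem lap_wt_mul' (γ κ : ℝ) {φ φ' φ'' : ℝ → ℝ} (h1 : ∀ z, HasDerivAt φ (φ' z) z)
    (h2 : ∀ z, HasDerivAt φ' (φ'' z) z) (x : R3) :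
    lap (fun x => wt γ κ x * φ (x 2)) x =
      (φ (x 2) * (κ ^ 2 - 2 * κ * (γ + 1) / rad x + (γ ^ 2 + γ - κ ^ 2) / rad x ^ 2 +
        κ * (2 * γ - 1) / rad x ^ 3 - γ * (γ - 2) / rad x ^ 4) +
      2 * φ' (x 2) * x 2 * (γ / rad x ^ 2 - κ / rad x) + φ'' (x 2)) * wt γ κ x := by
  rw [lap_wt_mul γ κ h1 h2 x]
  obtain ⟨g3, g2, g1, g0⟩ := xwt_shift γ κ x
  have hr := (xwt_rad_pos x).ne'
  rw [g0, g1, g2, g3]
  field_simp

theorem lap_wt (γ κ : ℝ) (x : R3) :
    lap (wt γ κ) x = (κ ^ 2 - 2 * κ * (γ + 1) / rad x + (γ ^ 2 + γ - κ ^ 2) / rad x ^ 2 +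
        κ * (2 * γ - 1) / rad x ^ 3 - γ * (γ - 2) / rad x ^ 4) * wt γ κ x := by
  have h := lap_wt_mul' γ κ (φ := fun _ => 1) (φ' := fun _ => 0) (φ'' := fun _ => 0)
    (fun z => hasDerivAt_const z 1) (fun z => hasDerivAt_const z 0) x
  have e : (fun x => wt γ κ x * (1 : ℝ)) = wt γ κ := by funext x; ring
  simp only [e] at h
  rw [h]
  ring

end

end Vale.Agent.P363.D
end
end

section

section

/-!
# P363, block X: the weights are barriers; bounds
-/

namespace Vale.Agent.P363.D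

open MeasureTheory Set Filter Topology
open scoped ENNReal ContDiff

noncomputable section

theorem XWtB_rad_pos (x : R3) : 0 < rad x := xwt_rad_pos x

/-- functions bounded by a weight -/
def XWtB_Bd (κ : ℝ) (f : R3 → ℝ) : Prop := ∃ C m : ℝ, 0 ≤ C ∧ ∀ x, |f x| ≤ C * wt m κ x

theorem XWtB_wt_mono {κ m m' : ℝ} (h : m ≤ m') (x : R3) : wt m κ x ≤ wt m' κ x := by
  unfold wt
  exact mul_le_mul_of_nonneg_right (Real.rpow_le_rpow_of_exponent_le (one_le_rad x) h)
    (Real.exp_pos _).le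

theorem XWtB_Bd.add {κ : ℝ} {f g : R3 → ℝ} (hf : XWtB_Bd κ f) (hg : XWtB_Bd κ g) :
    XWtB_Bd κ (fun x => f x + g x) := by
  obtain ⟨C, m, hC, h1⟩ := hf
  obtain ⟨D, l, hD, h2⟩ := hg
  refine ⟨C + D, max m l, add_nonneg hC hD, fun x => ?_⟩
  calc |f x + g x| ≤ |f x| + |g x| := abs_add_le _ _
    _ ≤ C * wt m κ x + D * wt l κ x := add_le_add (h1 x) (h2 x)
    _ ≤ C * wt (max m l) κ x + D * wt (max m l) κ x :=
      add_le_add (mul_le_mul_of_nonneg_left (XWtB_wt_mono (le_max_left _ _) x) hC)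
        (mul_le_mul_of_nonneg_left (XWtB_wt_mono (le_max_right _ _) x) hD)
    _ = _ := by ring

theorem XWtB_Bd.const_mul {κ : ℝ} {f : R3 → ℝ} (hf : XWtB_Bd κ f) (c : ℝ) :
    XWtB_Bd κ (fun x => c * f x) := by
  obtain ⟨C, m, hC, h1⟩ := hf
  refine ⟨|c| * C, m, mul_nonneg (abs_nonneg c) hC, fun x => ?_⟩
  rw [abs_mul, mul_assoc]
  exact mul_le_mul_of_nonneg_left (h1 x) (abs_nonneg c)

theorem XWtB_wt_succ (m κ : ℝ) (x : R3) : rad x * wt m κ x = wt (m + 1) κ x := by
  rw [wt_eq (m + 1) m κ x, show m + 1 - m = 1 by ring, Real.rpow_one]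

theorem XWtB_abs_coord (k : Fin 3) (x : R3) : |x k| ≤ rad x := by
  have h : ‖x k‖ ≤ ‖x‖ := PiLp.norm_apply_le x k
  rw [Real.norm_eq_abs] at h
  exact h.trans (norm_le_rad x)

theorem XWtB_Bd.coord_mul {κ : ℝ} {f : R3 → ℝ} (hf : XWtB_Bd κ f) (k : Fin 3) :
    XWtB_Bd κ (fun x => x k * f x) := by
  obtain ⟨C, m, hC, h1⟩ := hf
  refine ⟨C, m + 1, hC, fun x => ?_⟩
  rw [abs_mul, ← XWtB_wt_succ]
  calc |x k| * |f x| ≤ rad x * (C * wt m κ x) :=
        mul_le_mul (XWtB_abs_coord k x) (h1 x) (abs_nonneg _) (XWtB_rad_pos x).le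
    _ = _ := by ring

theorem XWtB_exp_bound {κ : ℝ} (hκ : 0 < κ) (m : ℝ) :
    ∃ K : ℝ, 0 ≤ K ∧ ∀ x : R3, wt m κ x ≤ K * (1 + ‖x‖) ^ (-2 : ℝ) := by
  obtain ⟨N, hN⟩ := exists_nat_ge (m + 2)
  refine ⟨(N.factorial : ℝ) / κ ^ N * 4, by positivity, fun x => ?_⟩
  have hr := XWtB_rad_pos x
  have hr1 := one_le_rad x
  have h1 : (κ * rad x) ^ N / (N.factorial : ℝ) ≤ Real.exp (κ * rad x) :=
    Real.pow_div_factorial_le_exp _ (by positivity) N
  have h2 : rad x ^ (m + 2) ≤ rad x ^ N := by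
    rw [← Real.rpow_natCast]
    exact Real.rpow_le_rpow_of_exponent_le hr1 hN
  have h3 : rad x ^ m = rad x ^ (m + 2) * rad x ^ (-2 : ℝ) := by
    rw [← Real.rpow_add hr]; congr 1; ring
  have h4 : rad x ^ (m + 2) * Real.exp (-(κ * rad x)) ≤ (N.factorial : ℝ) / κ ^ N := by
    have hf : (0 : ℝ) < N.factorial := by positivity
    rw [div_le_iff₀ hf, mul_pow] at h1
    rw [le_div_iff₀ (by positivity), Real.exp_neg]
    have he := Real.exp_pos (κ * rad x)
    calc rad x ^ (m + 2) * (Real.exp (κ * rad x))⁻¹ * κ ^ N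
        ≤ rad x ^ N * (Real.exp (κ * rad x))⁻¹ * κ ^ N := by gcongr
      _ = (κ ^ N * rad x ^ N) / Real.exp (κ * rad x) := by ring
      _ ≤ (N.factorial : ℝ) := by rw [div_le_iff₀ he]; linarith only [h1]
  have h5 : rad x ^ (-2 : ℝ) ≤ 4 * (1 + ‖x‖) ^ (-2 : ℝ) := by
    have hn := norm_nonneg x
    have hnr := norm_le_rad x
    rw [Real.rpow_neg hr.le, Real.rpow_neg (by (clear * -; positivity))]
    have e1 : rad x ^ (2 : ℝ) = rad x ^ 2 := by norm_cast
    have e2 : (1 + ‖x‖) ^ (2 : ℝ) = (1 + ‖x‖) ^ 2 := by norm_cast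
    rw [e1, e2, ← div_eq_mul_inv, inv_eq_one_div, div_le_div_iff₀ (by positivity) (by (clear * -; positivity))]
    linarith only [mul_nonneg (sub_nonneg.2 hnr) (sub_nonneg.2 hn), mul_nonneg (sub_nonneg.2 hnr) (sub_nonneg.2 hnr), mul_nonneg (sub_nonneg.2 hr1) (sub_nonneg.2 hn), mul_nonneg (sub_nonneg.2 hr1) (sub_nonneg.2 hnr), hr1]
  unfold wt
  calc rad x ^ m * Real.exp (-(κ * rad x))
      = (rad x ^ (m + 2) * Real.exp (-(κ * rad x))) * rad x ^ (-2 : ℝ) := by rw [h3]; ring
    _ ≤ ((N.factorial : ℝ) / κ ^ N) * (4 * (1 + ‖x‖) ^ (-2 : ℝ)) :=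
        mul_le_mul h4 h5 (by positivity) (by positivity)
    _ = _ := by ring

theorem XWtB_Bd.memLp {κ : ℝ} {f : R3 → ℝ} (hf : XWtB_Bd κ f) (hκ : 0 < κ) (hc : Continuous f) :
    MemLp f 2 volume := by
  obtain ⟨C, m, hC, h1⟩ := hf
  obtain ⟨K, hK, h2⟩ := XWtB_exp_bound hκ m
  rw [memLp_two_iff_integrable_sq hc.aestronglyMeasurable]
  have h3 : Integrable (fun x : R3 => (C * K) ^ 2 * (1 + ‖x‖) ^ (-4 : ℝ)) volume := by
    refine Integrable.const_mul (integrable_one_add_norm ?_) _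
    rw [finrank_euclideanSpace]
    norm_num
  refine h3.mono' (by (clear * - hc; exact Continuous.aestronglyMeasurable (by fun_prop))) (Eventually.of_forall fun x => ?_)
  have hp : 0 < 1 + ‖x‖ := by positivity
  have h4 : |f x| ≤ C * K * (1 + ‖x‖) ^ (-2 : ℝ) := by
    calc |f x| ≤ C * wt m κ x := h1 x
      _ ≤ C * (K * (1 + ‖x‖) ^ (-2 : ℝ)) := mul_le_mul_of_nonneg_left (h2 x) hC
      _ = _ := by ring
  have h5 : (1 + ‖x‖) ^ (-4 : ℝ) = ((1 + ‖x‖) ^ (-2 : ℝ)) ^ 2 := by
    rw [← Real.rpow_natCast, ← Real.rpow_mul hp.le]; norm_num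
  rw [Real.norm_eq_abs, abs_pow, h5, ← mul_pow]
  exact pow_le_pow_left₀ (abs_nonneg _) h4 2

/-- a weight times a function of the third coordinate -/
def XWtB_T (κ β : ℝ) (ψ : ℝ → ℝ) : R3 → ℝ := fun y => wt β κ y * ψ (y 2)

theorem XWtB_Bd_T {κ : ℝ} (β : ℝ) {ψ : ℝ → ℝ} {A : ℝ} (hA : 0 ≤ A)
    (hψ : ∀ z, |ψ z| ≤ A * (1 + |z|)) : XWtB_Bd κ (XWtB_T κ β ψ) := by
  refine ⟨2 * A, β + 1, by positivity, fun x => ?_⟩
  have hw := (wt_pos β κ x).le
  have h1 : |ψ (x 2)| ≤ 2 * A * rad x := by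
    have h2 := XWtB_abs_coord 2 x
    have h3 := one_le_rad x
    calc |ψ (x 2)| ≤ A * (1 + |x 2|) := hψ _
      _ ≤ A * (rad x + rad x) := mul_le_mul_of_nonneg_left (add_le_add h3 h2) hA
      _ = _ := by ring
  unfold XWtB_T
  rw [abs_mul, abs_of_nonneg hw, ← XWtB_wt_succ]
  calc wt β κ x * |ψ (x 2)| ≤ wt β κ x * (2 * A * rad x) := mul_le_mul_of_nonneg_left h1 hw
    _ = _ := by ring

theorem XWtB_T_diff {κ : ℝ} (β : ℝ) {ψ ψ' : ℝ → ℝ} (h1 : ∀ z, HasDerivAt ψ (ψ' z) z) (x : R3) :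
    DifferentiableAt ℝ (XWtB_T κ β ψ) x := by
  have a1 : DifferentiableAt ℝ (wt β κ) x := (contDiff_wt β κ).differentiable (by simp) x
  have a2 : DifferentiableAt ℝ (fun y : R3 => y 2) x :=
    (contDiff_coord (n := 1) 2).differentiable (by norm_num) x
  have a3 : DifferentiableAt ℝ (fun y : R3 => ψ (y 2)) x :=
    DifferentiableAt.comp x (h1 (x 2)).differentiableAt a2
  exact a1.mul a3

theorem XWtB_pdv_T {κ : ℝ} (β : ℝ) {ψ ψ' : ℝ → ℝ} (h1 : ∀ z, HasDerivAt ψ (ψ' z) z)
    (k : Fin 3) (x : R3) :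
    pdv k (XWtB_T κ β ψ) x =
      x k * (β * XWtB_T κ (β - 2) ψ x + -κ * XWtB_T κ (β - 1) ψ x) +
        (if k = 2 then (1 : ℝ) else 0) * XWtB_T κ β ψ' x := by
  have a1 : DifferentiableAt ℝ (wt β κ) x := (contDiff_wt β κ).differentiable (by simp) x
  have a2 : DifferentiableAt ℝ (fun y : R3 => y 2) x :=
    (contDiff_coord (n := 1) 2).differentiable (by norm_num) x
  have a3 : DifferentiableAt ℝ (fun y : R3 => ψ (y 2)) x :=
    DifferentiableAt.comp x (h1 (x 2)).differentiableAt a2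
  have e : XWtB_T κ β ψ = fun y => wt β κ y * ψ (y 2) := rfl
  rw [e, pdv_mul a1 a3, pdv_wt, pdv_comp (f := fun y : R3 => y 2) (h1 (x 2)).differentiableAt a2,
    pdv_coord, (h1 (x 2)).deriv]
  unfold XWtB_T
  ring

theorem XWtB_Bd_pdv_T {κ : ℝ} (β : ℝ) {ψ ψ' : ℝ → ℝ} (h1 : ∀ z, HasDerivAt ψ (ψ' z) z)
    {A : ℝ} (hA : 0 ≤ A) (hψ : ∀ z, |ψ z| ≤ A * (1 + |z|)) (hψ' : ∀ z, |ψ' z| ≤ A * (1 + |z|))
    (k : Fin 3) : XWtB_Bd κ (pdv k (XWtB_T κ β ψ)) := by
  have e : pdv k (XWtB_T κ β ψ) = fun x =>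
      x k * (β * XWtB_T κ (β - 2) ψ x + -κ * XWtB_T κ (β - 1) ψ x) +
        (if k = 2 then (1 : ℝ) else 0) * XWtB_T κ β ψ' x := by
    funext x
    exact XWtB_pdv_T β h1 k x
  rw [e]
  exact ((((XWtB_Bd_T (β - 2) hA hψ).const_mul β).add
    ((XWtB_Bd_T (β - 1) hA hψ).const_mul (-κ))).coord_mul k).add
    ((XWtB_Bd_T β hA hψ').const_mul _)

theorem XWtB_Bd_pdv2_T {κ : ℝ} (β : ℝ) {ψ ψ' ψ'' : ℝ → ℝ} (h1 : ∀ z, HasDerivAt ψ (ψ' z) z)
    (h2 : ∀ z, HasDerivAt ψ' (ψ'' z) z)
    {A : ℝ} (hA : 0 ≤ A) (hψ : ∀ z, |ψ z| ≤ A * (1 + |z|)) (hψ' : ∀ z, |ψ' z| ≤ A * (1 + |z|))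
    (hψ'' : ∀ z, |ψ'' z| ≤ A * (1 + |z|)) (k : Fin 3) :
    XWtB_Bd κ (pdv k (pdv k (XWtB_T κ β ψ))) := by
  have e : pdv k (XWtB_T κ β ψ) = fun x =>
      x k * (β * XWtB_T κ (β - 2) ψ x + -κ * XWtB_T κ (β - 1) ψ x) +
        (if k = 2 then (1 : ℝ) else 0) * XWtB_T κ β ψ' x := by
    funext x
    exact XWtB_pdv_T β h1 k x
  have e2 : pdv k (pdv k (XWtB_T κ β ψ)) = fun x =>
      ((β * XWtB_T κ (β - 2) ψ x + -κ * XWtB_T κ (β - 1) ψ x) +
        x k * (β * pdv k (XWtB_T κ (β - 2) ψ) x + -κ * pdv k (XWtB_T κ (β - 1) ψ) x)) +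
        (if k = 2 then (1 : ℝ) else 0) * pdv k (XWtB_T κ β ψ') x := by
    rw [e]
    funext x
    have b1 := XWtB_T_diff (κ := κ) (β - 2) h1 x
    have b2 := XWtB_T_diff (κ := κ) (β - 1) h1 x
    have b3 := XWtB_T_diff (κ := κ) β h2 x
    have b4 : DifferentiableAt ℝ (fun y : R3 => y k) x :=
      (contDiff_coord (n := 1) k).differentiable (by norm_num) x
    have b5 : DifferentiableAt ℝ
        (fun y => β * XWtB_T κ (β - 2) ψ y + -κ * XWtB_T κ (β - 1) ψ y) x :=
      (b1.const_mul β).add (b2.const_mul (-κ))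
    have b6 : DifferentiableAt ℝ (fun y : R3 =>
        y k * (β * XWtB_T κ (β - 2) ψ y + -κ * XWtB_T κ (β - 1) ψ y)) x := b4.mul b5
    have b7 : DifferentiableAt ℝ (fun y : R3 =>
        (if k = 2 then (1 : ℝ) else 0) * XWtB_T κ β ψ' y) x := b3.const_mul _
    rw [pdv_add b6 b7, pdv_mul b4 b5,
      pdv_add (b1.const_mul β) (b2.const_mul (-κ)), pdv_const_mul _ b1, pdv_const_mul _ b2,
      pdv_const_mul _ b3, pdv_coord, if_pos rfl, one_mul]
  rw [e2]
  have c1 := XWtB_Bd_T (κ := κ) (β - 2) hA hψ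
  have c2 := XWtB_Bd_T (κ := κ) (β - 1) hA hψ
  have c3 := XWtB_Bd_pdv_T (κ := κ) (β - 2) h1 hA hψ hψ' k
  have c4 := XWtB_Bd_pdv_T (κ := κ) (β - 1) h1 hA hψ hψ' k
  have c5 := XWtB_Bd_pdv_T (κ := κ) β h2 hA hψ' hψ'' k
  exact (((c1.const_mul β).add (c2.const_mul (-κ))).add
    (((c3.const_mul β).add (c4.const_mul (-κ))).coord_mul k)).add (c5.const_mul _)

theorem XWtB_barr_T {κ : ℝ} (hκ : 0 < κ) (β : ℝ) {ψ ψ' ψ'' : ℝ → ℝ} (hs : ContDiff ℝ ∞ ψ)
    (h1 : ∀ z, HasDerivAt ψ (ψ' z) z) (h2 : ∀ z, HasDerivAt ψ' (ψ'' z) z)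
    {A : ℝ} (hA : 0 ≤ A) (hψ : ∀ z, |ψ z| ≤ A * (1 + |z|)) (hψ' : ∀ z, |ψ' z| ≤ A * (1 + |z|))
    (hψ'' : ∀ z, |ψ'' z| ≤ A * (1 + |z|)) : Barr (XWtB_T κ β ψ) := by
  have hsm : ContDiff ℝ ∞ (XWtB_T κ β ψ) :=
    (contDiff_wt β κ).mul (hs.comp (contDiff_coord 2))
  have hsm1 : ∀ k, ContDiff ℝ 1 (pdv k (XWtB_T κ β ψ)) := fun k =>
    (hsm.of_le (m := 2) (WithTop.coe_le_coe.mpr le_top)).pdv (by norm_num) k
  have hsm2 : ∀ k, ContDiff ℝ 0 (pdv k (pdv k (XWtB_T κ β ψ))) := fun k =>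
    (hsm1 k).pdv (by norm_num) k
  exact ⟨hsm, (XWtB_Bd_T β hA hψ).memLp hκ hsm.continuous,
    fun k => (XWtB_Bd_pdv_T β h1 hA hψ hψ' k).memLp hκ (hsm1 k).continuous,
    fun k => (XWtB_Bd_pdv2_T β h1 h2 hA hψ hψ' hψ'' k).memLp hκ (hsm2 k).continuous⟩

/-- XWtB. Weights are barriers. -/
theorem barr_wt {κ : ℝ} (hκ : 0 < κ) (γ : ℝ) : Barr (wt γ κ) := by
  have h : Barr (XWtB_T κ γ (fun _ => 1)) :=
    XWtB_barr_T hκ γ (ψ := fun _ => 1) (ψ' := fun _ => 0) (ψ'' := fun _ => 0) contDiff_const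
      (fun z => hasDerivAt_const z 1) (fun z => hasDerivAt_const z 0) (A := 1) zero_le_one
      (fun z => by rw [abs_one, one_mul]; linarith only [abs_nonneg z])
      (fun z => by rw [abs_zero, one_mul]; positivity)
      (fun z => by rw [abs_zero, one_mul]; positivity)
  have e : XWtB_T κ γ (fun _ => 1) = wt γ κ := by
    funext x; unfold XWtB_T; exact mul_one _
  rwa [e] at h

theorem contDiff_kk : ContDiff ℝ ∞ kk := by
  unfold kk
  have h : ContDiff ℝ ∞ (fun z : ℝ => 1 + (1 + z) ^ 2) := by fun_prop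
  have h2 : ContDiff ℝ ∞ (fun z : ℝ => 1 / (1 + (1 + z) ^ 2)) :=
    contDiff_const.div h fun z => by positivity
  exact (contDiff_id.sub contDiff_const).add h2

theorem XWtB_sq_deriv (z : ℝ) :
    HasDerivAt (fun z : ℝ => 1 + (1 + z) ^ 2) (2 * (1 + z)) z := by
  have := (((hasDerivAt_id z).const_add 1).pow 2).const_add 1
  refine this.congr_deriv ?_
  simp only [Nat.cast_ofNat, id_eq, Nat.add_one_sub_one, pow_one, mul_one]

theorem XWtB_kk_deriv (z : ℝ) :
    HasDerivAt kk (1 - 2 * (1 + z) / (1 + (1 + z) ^ 2) ^ 2) z := by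
  have h1 := XWtB_sq_deriv z
  have h2 := (hasDerivAt_const z (1 : ℝ)).div h1 (by positivity)
  have h3 := ((hasDerivAt_id z).sub_const 2).add h2
  refine h3.congr_deriv ?_
  ring

theorem XWtB_kk_deriv2 (z : ℝ) :
    HasDerivAt (fun z : ℝ => 1 - 2 * (1 + z) / (1 + (1 + z) ^ 2) ^ 2)
      ((6 * (1 + z) ^ 2 - 2) / (1 + (1 + z) ^ 2) ^ 3) z := by
  have h1 := XWtB_sq_deriv z
  have h2 : HasDerivAt (fun z : ℝ => 2 * (1 + z)) 2 z := by
    have := ((hasDerivAt_id z).const_add 1).const_mul 2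
    exact this.congr_deriv (by norm_num)
  have hp : (1 + (1 + z) ^ 2) ≠ 0 := by (clear * -; positivity)
  have h3 := (h2.div (h1.pow 2) (pow_ne_zero 2 hp)).const_sub 1
  refine h3.congr_deriv ?_
  simp only [Pi.pow_apply]
  field_simp
  ring

/-- XWtB. The lower barrier. -/
theorem barr_wt_kk {κ : ℝ} (hκ : 0 < κ) (γ : ℝ) : Barr (fun x => wt γ κ x * kk (x 2)) := by
  refine XWtB_barr_T hκ γ contDiff_kk XWtB_kk_deriv XWtB_kk_deriv2 (A := 8) (by norm_num) ?_ ?_ ?_
  · intro z
    unfold kk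
    have h1 : 0 ≤ 1 / (1 + (1 + z) ^ 2) := by (clear * -; positivity)
    have h2 : 1 / (1 + (1 + z) ^ 2) ≤ 1 := by
      rw [div_le_one (by positivity)]; nlinarith only []
    have h3 := abs_nonneg z
    rw [abs_le]
    constructor <;> nlinarith only [h1, h3, neg_abs_le z, h2, le_abs_self z]
  · intro z
    have hp : 1 ≤ 1 + (1 + z) ^ 2 := by nlinarith only []
    have h1 : |2 * (1 + z) / (1 + (1 + z) ^ 2) ^ 2| ≤ 1 := by
      rw [abs_div, abs_of_pos (a := (1 + (1 + z) ^ 2) ^ 2) (by positivity),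
        div_le_one (by positivity)]
      have : |2 * (1 + z)| ≤ 1 + (1 + z) ^ 2 := by
        rw [abs_le]; constructor <;> nlinarith only [sq_nonneg (1 + z + 1), sq_nonneg (1 + z - 1)]
      calc |2 * (1 + z)| ≤ 1 + (1 + z) ^ 2 := this
        _ ≤ (1 + (1 + z) ^ 2) ^ 2 := by nlinarith only []
    have h3 := abs_nonneg z
    have h4 := abs_le.mp h1
    rw [abs_le]
    constructor <;> linarith only [h3, h4]
  · intro z
    have hp : 1 ≤ 1 + (1 + z) ^ 2 := by nlinarith only []
    have h3 := abs_nonneg z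
    have hq : (1 + (1 + z) ^ 2) ≤ (1 + (1 + z) ^ 2) ^ 3 := by
      calc (1 + (1 + z) ^ 2) = (1 + (1 + z) ^ 2) ^ 1 := (pow_one _).symm
        _ ≤ (1 + (1 + z) ^ 2) ^ 3 := pow_le_pow_right₀ hp (by norm_num)
    have h1 : |(6 * (1 + z) ^ 2 - 2) / (1 + (1 + z) ^ 2) ^ 3| ≤ 6 := by
      rw [abs_div, abs_of_pos (a := (1 + (1 + z) ^ 2) ^ 3) (by positivity),
        div_le_iff₀ (by (clear * -; positivity))]
      rw [abs_le]
      constructor <;> linarith
    linarith only [h3, h1]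

theorem Barr.const_mul {b : R3 → ℝ} (hb : Barr b) (c : ℝ) : Barr (fun x => c * b x) ∧
    ∀ x, lap (fun x => c * b x) x = c * lap b x := by
  have hd : ∀ x, DifferentiableAt ℝ b x := fun x => hb.smooth.differentiable (by simp) x
  have h2 : ContDiff ℝ 2 b := hb.smooth.of_le (WithTop.coe_le_coe.mpr le_top)
  have e1 : ∀ k, pdv k (fun x => c * b x) = fun x => c * pdv k b x := fun k => by
    funext x; exact pdv_const_mul c (hd x)
  have e2 : ∀ k, pdv k (pdv k (fun x => c * b x)) = fun x => c * pdv k (pdv k b) x := fun k => by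
    rw [e1 k]
    funext x
    exact pdv_const_mul c (ContDiffAt.pdv_diff h2.contDiffAt k)
  refine ⟨⟨contDiff_const.mul hb.smooth, hb.memLp.const_mul c, fun k => ?_, fun k => ?_⟩,
    fun x => lap_const_mul c h2.contDiffAt⟩
  · rw [e1 k]; exact (hb.memLp1 k).const_mul c
  · rw [e2 k]; exact (hb.memLp2 k).const_mul c

theorem XWtB_rad_lip (x y : R3) : rad x ≤ rad y + ‖x - y‖ := by
  have h0 : 0 ≤ rad y + ‖x - y‖ := add_nonneg (XWtB_rad_pos y).le (norm_nonneg _)
  refine le_of_sq_le_sq ?_ h0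
  have h1 : ‖x‖ ≤ ‖y‖ + ‖x - y‖ := by
    have := norm_add_le y (x - y)
    simpa only [ge_iff_le, add_sub_cancel] using this
  have h2 := norm_le_rad y
  have h3 := norm_nonneg (x - y)
  have h4 := norm_nonneg x
  have h5 := norm_nonneg y
  have h6 : ‖x‖ ^ 2 ≤ (‖y‖ + ‖x - y‖) ^ 2 := pow_le_pow_left₀ h4 h1 2
  have h7 := mul_le_mul_of_nonneg_right h2 h3
  rw [rad_sq, add_sq, rad_sq]
  linarith

/-- XWtB. Comparison of the values of a weight at bounded distance. -/
theorem wt_ball (γ : ℝ) {κ : ℝ} (hκ : 0 < κ) {t : ℝ} (ht : 0 ≤ t) :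
    ∃ K : ℝ, 0 < K ∧ ∀ x y : R3, ‖x - y‖ ≤ t → wt γ κ x ≤ K * wt γ κ y := by
  have h1t : 0 < 1 + t := by linarith
  refine ⟨(1 + t) ^ |γ| * Real.exp (κ * t), by positivity, fun x y hxy => ?_⟩
  have hx := XWtB_rad_pos x
  have hy := XWtB_rad_pos y
  have hx1 := one_le_rad x
  have hy1 := one_le_rad y
  have l1 : rad x ≤ rad y + t := (XWtB_rad_lip x y).trans (by linarith only [hxy])
  have l2 : rad y ≤ rad x + t := (XWtB_rad_lip y x).trans (by rw [norm_sub_rev]; linarith only [hxy])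
  have p1 : rad x ^ γ ≤ (1 + t) ^ |γ| * rad y ^ γ := by
    rcases le_or_gt 0 γ with hγ | hγ
    · rw [abs_of_nonneg hγ, ← Real.mul_rpow h1t.le hy.le]
      apply Real.rpow_le_rpow hx.le _ hγ
      nlinarith only [l1, ht, hy1]
    · rw [abs_of_neg hγ, Real.rpow_neg h1t.le, inv_mul_eq_div, ← Real.div_rpow hy.le h1t.le]
      apply Real.rpow_le_rpow_of_nonpos (by (clear * - hy ht; positivity)) _ hγ.le
      rw [div_le_iff₀ h1t]
      nlinarith only [l2, ht, hx1]
  have p2 : Real.exp (-(κ * rad x)) ≤ Real.exp (κ * t) * Real.exp (-(κ * rad y)) := by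
    rw [← Real.exp_add]
    apply Real.exp_le_exp.mpr
    nlinarith only [hκ, l2]
  unfold wt
  calc rad x ^ γ * Real.exp (-(κ * rad x))
      ≤ ((1 + t) ^ |γ| * rad y ^ γ) * (Real.exp (κ * t) * Real.exp (-(κ * rad y))) :=
        mul_le_mul p1 p2 (Real.exp_pos _).le (by (clear * - ht hy; positivity))
    _ = _ := by ring

/-- XWtB. Uniform bounds on balls. -/
theorem wt_bounds {R : ℝ} (hR : 0 ≤ R) : ∃ m M : ℝ, 0 < m ∧ 0 < M ∧ ∀ (κ γ : ℝ) (x : R3),
    2 / 5 ≤ κ → κ ≤ 3 / 5 → |γ| ≤ 10 → ‖x‖ ≤ R → m ≤ wt γ κ x ∧ wt γ κ x ≤ M := by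
  have h1R : 0 < 1 + R := by linarith only [hR]
  refine ⟨(1 + R) ^ (-10 : ℝ) * Real.exp (-(1 + R)), (1 + R) ^ (10 : ℝ), by positivity,
    by positivity, fun κ γ x hκ1 hκ2 hγ hx => ?_⟩
  have hr := XWtB_rad_pos x
  have hr1 := one_le_rad x
  have hr2 : rad x ≤ 1 + R := (rad_le x).trans (by linarith only [hx])
  obtain ⟨g1, g2⟩ := abs_le.mp hγ
  have a1 : (1 + R) ^ (-10 : ℝ) ≤ rad x ^ γ :=
    (Real.rpow_le_rpow_of_nonpos hr hr2 (by norm_num)).trans
      (Real.rpow_le_rpow_of_exponent_le hr1 g1)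
  have a2 : rad x ^ γ ≤ (1 + R) ^ (10 : ℝ) :=
    (Real.rpow_le_rpow_of_exponent_le hr1 g2).trans (Real.rpow_le_rpow hr.le hr2 (by norm_num))
  have a3 : Real.exp (-(1 + R)) ≤ Real.exp (-(κ * rad x)) :=
    Real.exp_le_exp.mpr (by nlinarith only [hR, hκ2, hr2, hκ1])
  have a4 : Real.exp (-(κ * rad x)) ≤ 1 := by
    rw [Real.exp_le_one_iff]; nlinarith only [hr, hκ1]
  unfold wt
  exact ⟨mul_le_mul a1 a3 (Real.exp_pos _).le (by positivity), by
    calc rad x ^ γ * Real.exp (-(κ * rad x)) ≤ (1 + R) ^ (10 : ℝ) * 1 :=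
          mul_le_mul a2 a4 (Real.exp_pos _).le (by positivity)
      _ = _ := mul_one _⟩

end

end Vale.Agent.P363.D
end
end

section

section

/-!
# P363, block X: barrier inequality 3
-/

namespace Vale.Agent.P363.D

open MeasureTheory Set Filter Topology
open scoped ENNReal ContDiff

noncomputable section

theorem kk_le {z : ℝ} (hz : 0 ≤ z) : kk z ≤ z - 3 / 2 := by
  unfold kk
  have h1 : (2 : ℝ) ≤ 1 + (1 + z) ^ 2 := by (by_contra nlg; linarith [mul_nonneg (sub_nonneg.2 hz) (sub_nonneg.2 hz), mul_nonneg (le_of_lt (sub_pos.2 (not_le.1 nlg))) (sub_nonneg.2 hz), mul_pos (sub_pos.2 (not_le.1 nlg)) (sub_pos.2 (not_le.1 nlg)), mul_nonneg (sq_nonneg (1 + z : ℝ)) (sub_nonneg.2 hz), mul_nonneg (sq_nonneg (1 + z : ℝ)) (le_of_lt (sub_pos.2 (not_le.1 nlg)))])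
  have h2 : 1 / (1 + (1 + z) ^ 2) ≤ 1 / 2 := one_div_le_one_div_of_le (by norm_num) h1
  linarith only [h2]

theorem le_kk (z : ℝ) : z - 2 ≤ kk z := by
  unfold kk
  have h2 : 0 ≤ 1 / (1 + (1 + z) ^ 2) := by positivity
  linarith only [h2]

/-- First derivative of `kk`. -/
def xb3_k1 (z : ℝ) : ℝ := 1 - 2 * (1 + z) / (1 + (1 + z) ^ 2) ^ 2

/-- Second derivative of `kk`. -/
def xb3_k2 (z : ℝ) : ℝ := (6 * (1 + z) ^ 2 - 2) / (1 + (1 + z) ^ 2) ^ 3

theorem xb3_base (z : ℝ) : HasDerivAt (fun z : ℝ => 1 + (1 + z) ^ 2) (2 * (1 + z)) z := by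
  have h1 : HasDerivAt (fun z : ℝ => 1 + z) 1 z := (hasDerivAt_id z).const_add 1
  have h2 := (h1.pow 2).const_add 1
  refine h2.congr_deriv ?_
  norm_num

theorem xb3_d1 (z : ℝ) : HasDerivAt kk (xb3_k1 z) z := by
  have hne : (1 + (1 + z) ^ 2 : ℝ) ≠ 0 := by positivity
  have h1 : HasDerivAt (fun z : ℝ => z - 2) 1 z := (hasDerivAt_id z).sub_const 2
  have h2 := (xb3_base z).inv hne
  have h3 := h1.add h2
  have e : kk = (fun z : ℝ => z - 2) + (fun z : ℝ => 1 + (1 + z) ^ 2)⁻¹ := by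
    funext z
    simp only [kk, Pi.add_apply, Pi.inv_apply, one_div]
  rw [e]
  refine h3.congr_deriv ?_
  unfold xb3_k1
  ring

theorem xb3_d2 (z : ℝ) : HasDerivAt xb3_k1 (xb3_k2 z) z := by
  have hne : (1 + (1 + z) ^ 2 : ℝ) ≠ 0 := by positivity
  have h1 : HasDerivAt (fun z : ℝ => 2 * (1 + z)) 2 z := by
    have := ((hasDerivAt_id z).const_add 1).const_mul 2
    refine this.congr_deriv ?_
    norm_num
  have h2 := (xb3_base z).pow 2
  have h3 := (h1.div h2 (pow_ne_zero 2 hne)).const_sub 1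
  refine h3.congr_deriv ?_
  unfold xb3_k2
  simp only [Pi.pow_apply]
  field_simp
  ring

theorem xb3_k1_nonneg {z : ℝ} (hz : 0 ≤ z) : 0 ≤ xb3_k1 z := by
  unfold xb3_k1
  have h1 : (1 : ℝ) ≤ 1 + (1 + z) ^ 2 := by nlinarith only []
  have h2 : 2 * (1 + z) / (1 + (1 + z) ^ 2) ^ 2 ≤ 1 := by
    rw [div_le_one (by positivity)]
    (by_contra nlg; linarith only [nlg, mul_pos (sub_pos.2 (not_le.1 nlg)) (sub_pos.2 (not_le.1 nlg)), mul_nonneg (sq_nonneg (1 + (1 + z) ^ 2 : ℝ)) (sub_nonneg.2 hz), mul_nonneg (sq_nonneg (1 + (1 + z) ^ 2 : ℝ)) (le_of_lt (sub_pos.2 (not_le.1 nlg))), mul_nonneg (sq_nonneg (1 + z : ℝ)) (sq_nonneg (1 + z : ℝ))])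
  linarith

theorem xb3_k1_le {z : ℝ} (hz : 0 ≤ z) : xb3_k1 z ≤ 1 := by
  unfold xb3_k1
  have h2 : 0 ≤ 2 * (1 + z) / (1 + (1 + z) ^ 2) ^ 2 := by positivity
  linarith only [h2]

theorem xb3_k2_ge {z : ℝ} (hz : 0 ≤ z) : 1 / (2 * (1 + z) ^ 4) ≤ xb3_k2 z := by
  unfold xb3_k2
  set t := 1 + z with ht
  have ht1 : 1 ≤ t := by linarith only [hz]
  have h1 : 1 ≤ t ^ 2 := one_le_pow₀ ht1
  have h2 : (1 + t ^ 2) ^ 3 ≤ (2 * t ^ 2) ^ 3 :=
    pow_le_pow_left₀ (by positivity) (by linarith) 3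
  have h3 : 1 / (2 * t ^ 4) = (4 * t ^ 2) / (2 * t ^ 2) ^ 3 := by
    field_simp
    ring
  rw [h3]
  exact div_le_div₀ (by linarith only [h1]) (by linarith only [h1]) (by positivity) h2

theorem xb3_g1 {γ κ : ℝ} (hκ : 2 / 5 ≤ κ) (hκ' : κ ≤ 3 / 5) (hγ0 : -2 ≤ γ) (hγ1 : γ ≤ 2) :
    |(γ ^ 2 + γ - κ ^ 2) / 2| ≤ 4 := by
  have h1 : γ ^ 2 ≤ 4 := by linarith only [mul_nonneg (sub_nonneg.2 hγ0) (sub_nonneg.2 hγ1)]
  have h2 : κ ^ 2 ≤ 1 := by nlinarith only [hκ, hκ']
  rw [abs_le]
  constructor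
  · linarith only [hγ0, h2, sq_nonneg γ]
  · linarith only [hγ1, h1, sq_nonneg κ]

theorem xb3_g2 {γ κ : ℝ} (hκ : 2 / 5 ≤ κ) (hκ' : κ ≤ 3 / 5) (hγ0 : -2 ≤ γ) (hγ1 : γ ≤ 2) :
    |κ * (2 * γ - 1) / 2| ≤ 3 / 2 := by
  have h1 : |2 * γ - 1| ≤ 5 := by
    rw [abs_le]
    constructor <;> linarith only [hγ0, hγ1]
  have h2 : |κ| ≤ 3 / 5 := by
    rw [abs_le]
    constructor <;> linarith only [hκ', hκ]
  have h3 : |κ| * |2 * γ - 1| ≤ 3 / 5 * 5 := mul_le_mul h2 h1 (abs_nonneg _) (by norm_num)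
  rw [abs_div, abs_mul, abs_two]
  linarith only [h3]

theorem xb3_g3 {γ : ℝ} (hγ0 : -2 ≤ γ) (hγ1 : γ ≤ 2) : |γ * (γ - 2) / 2| ≤ 4 := by
  have h1 : |γ - 2| ≤ 4 := by
    rw [abs_le]
    constructor <;> linarith
  have h2 : |γ| ≤ 2 := abs_le.2 ⟨hγ0, hγ1⟩
  have h3 : |γ| * |γ - 2| ≤ 2 * 4 := mul_le_mul h2 h1 (abs_nonneg _) (by norm_num)
  rw [abs_div, abs_mul, abs_two]
  linarith only [h3]

theorem xb3_inv {r R : ℝ} (hr : 1 ≤ r) (hR : R ^ 2 = 1 + r ^ 2) (hrR : r ≤ R) :
    1 / r - 1 / R ≤ 1 / R ^ 2 := by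
  have hr0 : 0 < r := by linarith only [hr]
  have hR0 : 0 < R := by linarith
  have h3 : 1 / r - 1 / R = (R - r) / (r * R) := by
    field_simp
  rw [h3, div_le_div_iff₀ (by positivity) (by positivity)]
  have h4 : (R - r) * (R + r) = 1 := by linarith only [hR]
  have h5 : 0 ≤ R - r := by linarith only [hrR]
  have h6 : (R - r) * R ≤ 1 := by
    have : 0 ≤ (R - r) * r := mul_nonneg h5 hr0.le
    linarith only [hR, this]
  calc (R - r) * R ^ 2 = (R - r) * R * R := by ring
    _ ≤ 1 * R := mul_le_mul_of_nonneg_right h6 hR0.le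
    _ ≤ 1 * (r * R) := by nlinarith only [hr, hR0]

/-- The bracket. -/
theorem xb3_bracket {η K κ q v γ r R : ℝ}
    (hκ : 2 / 5 ≤ κ) (hκ' : κ ≤ 3 / 5) (hq : 1 / 2 ≤ q) (hq' : q ≤ 3 / 2)
    (hγκ : κ * (γ + 1) = q - κ * (1 + η)) (hγ0 : -2 ≤ γ) (hγ1 : γ ≤ 2)
    (hr : 1 ≤ r) (hR : R ^ 2 = 1 + r ^ 2) (hrR : r ≤ R)
    (hv : |v - (κ ^ 2 / 2 - q / r)| ≤ K / r ^ 2) :
    |κ ^ 2 / 2 - κ * (γ + 1) / R + (γ ^ 2 + γ - κ ^ 2) / 2 / R ^ 2 +
        κ * (2 * γ - 1) / 2 / R ^ 3 - γ * (γ - 2) / 2 / R ^ 4 - v - κ * (1 + η) / R| ≤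
      (2 * |K| + 11) / R ^ 2 := by
  have hr0 : 0 < r := by linarith only [hr]
  have hR0 : 0 < R := by linarith only [hr, hrR]
  have hR1 : 1 ≤ R := hr.trans hrR
  have hR2 : 0 < R ^ 2 := by positivity
  have hBeq : κ ^ 2 / 2 - κ * (γ + 1) / R + (γ ^ 2 + γ - κ ^ 2) / 2 / R ^ 2 +
        κ * (2 * γ - 1) / 2 / R ^ 3 - γ * (γ - 2) / 2 / R ^ 4 - v - κ * (1 + η) / R =
      q * (1 / r - 1 / R) - (v - (κ ^ 2 / 2 - q / r)) +
      (γ ^ 2 + γ - κ ^ 2) / 2 / R ^ 2 + κ * (2 * γ - 1) / 2 / R ^ 3 -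
        γ * (γ - 2) / 2 / R ^ 4 := by
    have h1 : κ * (γ + 1) / R = q / R - κ * (1 + η) / R := by
      rw [hγκ, sub_div]
    rw [h1]
    ring
  rw [hBeq]
  have e1 : |q * (1 / r - 1 / R)| ≤ 3 / 2 / R ^ 2 := by
    have h1 : 0 ≤ 1 / r - 1 / R := by
      have := one_div_le_one_div_of_le hr0 hrR
      linarith only [this]
    rw [abs_of_nonneg (mul_nonneg (by linarith only [hq]) h1)]
    calc q * (1 / r - 1 / R) ≤ 3 / 2 * (1 / R ^ 2) :=
          mul_le_mul hq' (xb3_inv hr hR hrR) h1 (by norm_num)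
      _ = _ := by ring
  have e2 : |v - (κ ^ 2 / 2 - q / r)| ≤ 2 * |K| / R ^ 2 := by
    refine hv.trans ?_
    rw [div_le_div_iff₀ (by positivity) hR2]
    have h1 : R ^ 2 ≤ 2 * r ^ 2 := by
      have : 1 ≤ r ^ 2 := one_le_pow₀ hr
      linarith only [hR, this]
    calc K * R ^ 2 ≤ |K| * R ^ 2 := mul_le_mul_of_nonneg_right (le_abs_self K) hR2.le
      _ ≤ |K| * (2 * r ^ 2) := mul_le_mul_of_nonneg_left h1 (abs_nonneg K)
      _ = _ := by ring
  have e3 : |(γ ^ 2 + γ - κ ^ 2) / 2 / R ^ 2| ≤ 4 / R ^ 2 := by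
    rw [abs_div, abs_of_pos hR2]
    exact div_le_div_of_nonneg_right (xb3_g1 hκ hκ' hγ0 hγ1) hR2.le
  have hR3 : R ^ 2 ≤ R ^ 3 := pow_le_pow_right₀ hR1 (by norm_num)
  have hR4 : R ^ 2 ≤ R ^ 4 := pow_le_pow_right₀ hR1 (by norm_num)
  have e4 : |κ * (2 * γ - 1) / 2 / R ^ 3| ≤ 3 / 2 / R ^ 2 := by
    rw [abs_div, abs_of_pos (by positivity : 0 < R ^ 3)]
    exact div_le_div₀ (by norm_num) (xb3_g2 hκ hκ' hγ0 hγ1) hR2 hR3
  have e5 : |γ * (γ - 2) / 2 / R ^ 4| ≤ 4 / R ^ 2 := by
    rw [abs_div, abs_of_pos (by positivity : 0 < R ^ 4)]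
    exact div_le_div₀ (by norm_num) (xb3_g3 hγ0 hγ1) hR2 hR4
  have s : (2 * |K| + 11) / R ^ 2 =
      3 / 2 / R ^ 2 + 2 * |K| / R ^ 2 + 4 / R ^ 2 + 3 / 2 / R ^ 2 + 4 / R ^ 2 := by ring
  rw [s]
  rw [abs_le] at e1 e2 e3 e4 e5 ⊢
  constructor
  · linarith only [e1.1, e2.2, e3.1, e4.1, e5.2]
  · linarith only [e1.2, e2.1, e3.2, e4.2, e5.1]

/-- Assembly of the lower bound. -/
theorem xb3_asm {η K2 κ γ R z k k1 B : ℝ} (hη : 0 < η) (hη1 : η ≤ 1 / 32)
    (hκ : 2 / 5 ≤ κ) (hκ' : κ ≤ 3 / 5) (hγ0 : -2 ≤ γ) (hR0 : 0 < R)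
    (hz : 0 ≤ z) (hk : k ≤ z - 3 / 2) (hk' : z - 2 ≤ k) (h10 : 0 ≤ k1) (h11 : k1 ≤ 1)
    (hE : |B - κ * (1 + η) / R| ≤ K2 / R ^ 2) :
    κ * η * z / R - 2 / R - (K2 + 2) * (z + 2) / R ^ 2 ≤
      k * B + k1 * z * (γ / R ^ 2) - k1 * z * (κ / R) := by
  have hκ0 : 0 < κ := by linarith only [hκ]
  have hR2 : 0 < R ^ 2 := by positivity
  have hkabs : |k| ≤ z + 2 := by
    rw [abs_le]
    constructor <;> linarith only [hk, hz, hk']
  have f1 : (z - 2) * (κ * (1 + η) / R) - K2 * (z + 2) / R ^ 2 ≤ k * B := by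
    have h1 : k * B = k * (κ * (1 + η) / R) + k * (B - κ * (1 + η) / R) := by ring
    have h2 : (z - 2) * (κ * (1 + η) / R) ≤ k * (κ * (1 + η) / R) :=
      mul_le_mul_of_nonneg_right hk' (by positivity)
    have h3 : |k * (B - κ * (1 + η) / R)| ≤ (z + 2) * (K2 / R ^ 2) := by
      rw [abs_mul]
      exact mul_le_mul hkabs hE (abs_nonneg _) (by linarith only [hz])
    have h4 := (abs_le.1 h3).1
    have h5 : (z + 2) * (K2 / R ^ 2) = K2 * (z + 2) / R ^ 2 := by ring
    rw [h5] at h4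
    linarith only [h2, h4]
  have f2 : -(κ * z / R) ≤ -(k1 * z * (κ / R)) := by
    have h1 : k1 * (z * (κ / R)) ≤ 1 * (z * (κ / R)) :=
      mul_le_mul_of_nonneg_right h11 (by (clear * - hz hκ hR0; positivity))
    have h2 : κ * z / R = 1 * (z * (κ / R)) := by ring
    rw [h2]
    linarith only [h1]
  have f3 : -(2 * (z + 2) / R ^ 2) ≤ k1 * z * (γ / R ^ 2) := by
    have h1 : -(2 * z) ≤ k1 * z * γ := by
      have h2 : 0 ≤ k1 * z := mul_nonneg h10 hz
      have h3 : k1 * z ≤ 1 * z := mul_le_mul_of_nonneg_right h11 hz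
      have h4 : k1 * z * (-2) ≤ k1 * z * γ := mul_le_mul_of_nonneg_left hγ0 h2
      linarith only [h3, h4]
    have h4 : -(2 * (z + 2)) ≤ k1 * z * γ := by linarith only [h1]
    have h5 := div_le_div_of_nonneg_right h4 hR2.le
    have h6 : k1 * z * (γ / R ^ 2) = k1 * z * γ / R ^ 2 := by ring
    rw [h6, ← neg_div]
    exact h5
  have f4 : 2 * (κ * (1 + η) / R) ≤ 2 / R := by
    have h1 : κ * (1 + η) ≤ 1 := by nlinarith only [hκ', hη, hη1]
    have h2 := div_le_div_of_nonneg_right h1 hR0.le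
    have h3 : 2 / R = 2 * (1 / R) := by ring
    rw [h3]
    linarith only [h2]
  have g2 : (z - 2) * (κ * (1 + η) / R) =
      κ * z / R + κ * η * z / R - 2 * (κ * (1 + η) / R) := by ring
  have g3 : (K2 + 2) * (z + 2) / R ^ 2 =
      K2 * (z + 2) / R ^ 2 + 2 * (z + 2) / R ^ 2 := by ring
  rw [g2] at f1
  rw [g3]
  linarith only [f1, f2, f3, f4]

/-- The algebraic lower bound. -/
theorem xb3_lower {η K κ q v γ r R z k k1 k2 : ℝ} (hη : 0 < η) (hη1 : η ≤ 1 / 32)
    (hκ : 2 / 5 ≤ κ) (hκ' : κ ≤ 3 / 5) (hq : 1 / 2 ≤ q) (hq' : q ≤ 3 / 2)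
    (hγ : γ = q / κ - 2 - η) (hr : 1 ≤ r) (hR : R ^ 2 = 1 + r ^ 2) (hrR : r ≤ R)
    (hz : 0 ≤ z) (hk : k ≤ z - 3 / 2) (hk' : z - 2 ≤ k) (h10 : 0 ≤ k1) (h11 : k1 ≤ 1)
    (hv : |v - (κ ^ 2 / 2 - q / r)| ≤ K / r ^ 2) :
    κ * η * z / R - 2 / R - (2 * |K| + 13) * (z + 2) / R ^ 2 + k2 / 2 ≤
      1 / 2 * (k * (κ ^ 2 - 2 * κ * (γ + 1) / R + (γ ^ 2 + γ - κ ^ 2) / R ^ 2 +
        κ * (2 * γ - 1) / R ^ 3 - γ * (γ - 2) / R ^ 4) +
      2 * k1 * z * (γ / R ^ 2 - κ / R) + k2) - v * k := by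
  have hκ0 : 0 < κ := by linarith only [hκ]
  have hγκ : κ * (γ + 1) = q - κ * (1 + η) := by
    rw [hγ]
    field_simp
    ring
  have hqκ1 : q / κ ≤ 15 / 4 := by
    rw [div_le_iff₀ hκ0]
    linarith only [hκ, hq']
  have hqκ0 : 5 / 6 ≤ q / κ := by
    rw [le_div_iff₀ hκ0]
    linarith only [hκ', hq]
  have hγ1 : γ ≤ 2 := by rw [hγ]; linarith only [hη, hqκ1]
  have hγ0 : -2 ≤ γ := by rw [hγ]; linarith only [hη1, hqκ0]
  have hR0 : 0 < R := by linarith only [hr, hrR]
  have h1 := xb3_bracket hκ hκ' hq hq' hγκ hγ0 hγ1 hr hR hrR hv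
  have h2 := xb3_asm hη hη1 hκ hκ' hγ0 hR0 hz hk hk' h10 h11 h1
  have h3 : 2 * |K| + 11 + 2 = 2 * |K| + 13 := by ring
  rw [h3] at h2
  have g : 1 / 2 * (k * (κ ^ 2 - 2 * κ * (γ + 1) / R + (γ ^ 2 + γ - κ ^ 2) / R ^ 2 +
        κ * (2 * γ - 1) / R ^ 3 - γ * (γ - 2) / R ^ 4) +
      2 * k1 * z * (γ / R ^ 2 - κ / R) + k2) - v * k =
      k * (κ ^ 2 / 2 - κ * (γ + 1) / R + (γ ^ 2 + γ - κ ^ 2) / 2 / R ^ 2 +
        κ * (2 * γ - 1) / 2 / R ^ 3 - γ * (γ - 2) / 2 / R ^ 4 - v) +
        k1 * z * (γ / R ^ 2) - k1 * z * (κ / R) + k2 / 2 := by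
    ring
  rw [g]
  linarith only [h2]

/-- The numerical part in terms of `ρ = R ^ (1/16)`. -/
theorem xb3_num {η K3 κ ρ z k2 : ℝ} (hη : 0 < η) (hκ : 2 / 5 ≤ κ) (hK : 1 ≤ K3)
    (hρ1 : 30 / η ≤ ρ) (hρ2 : K3 ≤ ρ) (hρ3 : 2 ≤ ρ) (hz : 0 ≤ z)
    (hk2 : 1 / (2 * (1 + z) ^ 4) ≤ k2) :
    ρ / ρ ^ 16 ≤ κ * η * z / ρ ^ 16 - 2 / ρ ^ 16 - K3 * (z + 2) / (ρ ^ 16) ^ 2 + k2 / 2 := by
  have hρ0 : 0 < ρ := by linarith only [hρ3]
  have hρ16 : 0 < ρ ^ 16 := pow_pos hρ0 16
  have hρ17 : 1 ≤ ρ := by linarith only [hρ3]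
  have hρsq : 4 ≤ ρ ^ 2 := by nlinarith only [hρ3]
  rcases le_total (1 + z) (ρ ^ 2) with h | h
  · -- small `z`
    have h1 : 1 / (4 * ρ ^ 8) ≤ k2 / 2 := by
      have h2 : (1 + z) ^ 4 ≤ (ρ ^ 2) ^ 4 := pow_le_pow_left₀ (by linarith only [hz]) h 4
      have h3 : 1 / (2 * ρ ^ 8) ≤ 1 / (2 * (1 + z) ^ 4) := by
        apply one_div_le_one_div_of_le (by positivity)
        have : (ρ ^ 2) ^ 4 = ρ ^ 8 := by ring
        linarith only [h2]
      have h4 : 1 / (4 * ρ ^ 8) = 1 / (2 * ρ ^ 8) / 2 := by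
        field_simp
        norm_num
      linarith only [hk2, h3, h4]
    have h5 : 0 ≤ κ * η * z / ρ ^ 16 := by positivity
    have h6 : K3 * (z + 2) / (ρ ^ 16) ^ 2 ≤ 2 * ρ ^ 3 / (ρ ^ 16) ^ 2 := by
      apply div_le_div_of_nonneg_right _ (by positivity)
      have h7 : z + 2 ≤ 2 * ρ ^ 2 := by linarith only [h, hρsq]
      calc K3 * (z + 2) ≤ ρ * (2 * ρ ^ 2) := mul_le_mul hρ2 h7 (by linarith only [hz]) hρ0.le
        _ = _ := by ring
    have h8 : ρ / ρ ^ 16 + 2 / ρ ^ 16 + 2 * ρ ^ 3 / (ρ ^ 16) ^ 2 ≤ 1 / (4 * ρ ^ 8) := by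
      have e1 : (128 : ℝ) ≤ ρ ^ 7 := by
        calc (128 : ℝ) = 2 ^ 7 := by norm_num
          _ ≤ ρ ^ 7 := pow_le_pow_left₀ (by norm_num) hρ3 7
      have a1 : ρ / ρ ^ 16 ≤ 1 / (16 * ρ ^ 8) := by
        rw [div_le_div_iff₀ hρ16 (by positivity)]
        calc ρ * (16 * ρ ^ 8) = 16 * ρ ^ 9 := by ring
          _ ≤ ρ ^ 7 * ρ ^ 9 :=
            mul_le_mul_of_nonneg_right (by linarith only [e1]) (pow_nonneg hρ0.le 9)
          _ = 1 * ρ ^ 16 := by ring
      have a2 : 2 / ρ ^ 16 ≤ 1 / (16 * ρ ^ 8) := by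
        rw [div_le_div_iff₀ hρ16 (by positivity)]
        have h81 : (32 : ℝ) ≤ ρ ^ 8 := by
          calc (32 : ℝ) ≤ 2 ^ 8 := by norm_num
            _ ≤ ρ ^ 8 := pow_le_pow_left₀ (by norm_num) hρ3 8
        calc 2 * (16 * ρ ^ 8) = 32 * ρ ^ 8 := by ring
          _ ≤ ρ ^ 8 * ρ ^ 8 := mul_le_mul_of_nonneg_right h81 (pow_nonneg hρ0.le 8)
          _ = 1 * ρ ^ 16 := by ring
      have a3 : 2 * ρ ^ 3 / (ρ ^ 16) ^ 2 ≤ 1 / (16 * ρ ^ 8) := by
        rw [div_le_div_iff₀ (by positivity) (by positivity)]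
        have e3 : (32 : ℝ) ≤ ρ ^ 21 := by
          calc (32 : ℝ) ≤ 2 ^ 21 := by norm_num
            _ ≤ ρ ^ 21 := pow_le_pow_left₀ (by norm_num) hρ3 21
        calc 2 * ρ ^ 3 * (16 * ρ ^ 8) = 32 * ρ ^ 11 := by ring
          _ ≤ ρ ^ 21 * ρ ^ 11 := mul_le_mul_of_nonneg_right e3 (pow_nonneg hρ0.le 11)
          _ = 1 * (ρ ^ 16) ^ 2 := by ring
      have a4 : 1 / (4 * ρ ^ 8) = 4 * (1 / (16 * ρ ^ 8)) := by
        field_simp
        norm_num
      have a5 : 0 ≤ 1 / (16 * ρ ^ 8) := by positivity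
      rw [a4]
      linarith only [a1, a2, a3, a5]
    linarith only [h8, h6, h5, h1]
  · -- large `z`
    have hz1 : ρ ^ 2 / 2 ≤ z := by linarith only [h, hρsq]
    have hz2 : 1 ≤ z := by linarith only [h, hρsq]
    have h1 : 0 ≤ k2 / 2 := by
      have : 0 ≤ 1 / (2 * (1 + z) ^ 4) := by positivity
      linarith only [hk2, this]
    have hηρ : 30 ≤ η * ρ := by
      have := (div_le_iff₀ hη).1 hρ1
      linarith only [this]
    have h2 : K3 * (z + 2) / (ρ ^ 16) ^ 2 ≤ (3 * z / ρ) / ρ ^ 16 := by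
      rw [div_div, div_le_div_iff₀ (by positivity) (by positivity)]
      have h3 : K3 * (z + 2) ≤ ρ * (3 * z) := mul_le_mul hρ2 (by linarith only [hρsq, h]) (by linarith only [hρsq, h]) hρ0.le
      have h4 : ρ * (ρ * ρ ^ 16) ≤ (ρ ^ 16) ^ 2 := by
        calc ρ * (ρ * ρ ^ 16) = ρ ^ 18 := by ring
          _ ≤ ρ ^ 32 := pow_le_pow_right₀ hρ17 (by norm_num)
          _ = (ρ ^ 16) ^ 2 := by ring
      calc K3 * (z + 2) * (ρ * ρ ^ 16) ≤ ρ * (3 * z) * (ρ * ρ ^ 16) :=
            mul_le_mul_of_nonneg_right h3 (by positivity)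
        _ = 3 * z * (ρ * (ρ * ρ ^ 16)) := by ring
        _ ≤ 3 * z * (ρ ^ 16) ^ 2 := mul_le_mul_of_nonneg_left h4 (by linarith only [hρsq, h])
    have h5 : ρ + 2 + 3 * z / ρ ≤ κ * η * z := by
      have h6 : 3 * z / ρ ≤ η * z / 10 := by
        rw [div_le_iff₀ hρ0]
        have h11 : 30 * z ≤ η * ρ * z := mul_le_mul_of_nonneg_right hηρ hz
        linarith only [h11]
      have h7 : ρ + 2 ≤ 3 / 10 * (η * z) := by
        have h8 : η * (ρ ^ 2 / 2) ≤ η * z := mul_le_mul_of_nonneg_left hz1 hη.le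
        have h9 : 30 * ρ ≤ η * ρ * ρ := mul_le_mul_of_nonneg_right hηρ hρ0.le
        linarith only [h8, h9, hρ3]
      have h8 : 2 / 5 * (η * z) ≤ κ * (η * z) :=
        mul_le_mul_of_nonneg_right hκ (by positivity)
      have h9 : κ * η * z = κ * (η * z) := by ring
      rw [h9]
      linarith only [h8, h7, h6]
    have h10 : ρ / ρ ^ 16 + 2 / ρ ^ 16 + (3 * z / ρ) / ρ ^ 16 ≤ κ * η * z / ρ ^ 16 := by
      rw [← add_div, ← add_div]
      exact div_le_div_of_nonneg_right h5 hρ16.le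
    linarith only [h10, h2, h1]

/-- XB3. Subsolution for (E3), uniform in the parameters. -/
theorem barrier3 {η : ℝ} (hη : 0 < η) (hη1 : η ≤ 1 / 32) (K : ℝ) : ∃ R3' : ℝ, 1 ≤ R3' ∧
    ∀ (κ q v : ℝ) (x : R3), 2 / 5 ≤ κ → κ ≤ 3 / 5 → 1 / 2 ≤ q → q ≤ 3 / 2 → R3' ≤ ‖x‖ →
      0 ≤ x 2 → |v - (κ ^ 2 / 2 - q / ‖x‖)| ≤ K / ‖x‖ ^ 2 →
      rad x ^ (-1 + 2 * η) * wt (q / κ - 2 - η) κ x ≤
        (1 / 2) * lap (fun x => wt (q / κ - 2 - η) κ x * kk (x 2)) x -
          v * (wt (q / κ - 2 - η) κ x * kk (x 2)) := by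
  set ρ₀ : ℝ := 30 / η + (2 * |K| + 13) + 2 with hρ₀
  have hK0 : 0 ≤ |K| := abs_nonneg K
  have hdiv : 0 < 30 / η := by positivity
  have hρ1 : 1 ≤ ρ₀ := by rw [hρ₀]; linarith only [hK0, hdiv]
  refine ⟨ρ₀ ^ 16, one_le_pow₀ hρ1, fun κ q v x hκ hκ' hq hq' hx hz hv => ?_⟩
  have hr1 : 1 ≤ ‖x‖ := (one_le_pow₀ hρ1).trans hx
  set R := rad x with hR
  have hR1 : 1 ≤ R := one_le_rad x
  have hR0 : 0 < R := by linarith only [hR1]
  have hxR : ‖x‖ ≤ R := norm_le_rad x
  set ρ : ℝ := R ^ (1 / 16 : ℝ) with hρ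
  have hρ16 : ρ ^ 16 = R := by
    rw [hρ, ← Real.rpow_natCast, ← Real.rpow_mul hR0.le]
    norm_num
  have hρpos : 0 ≤ ρ := Real.rpow_nonneg hR0.le _
  have hρge : ρ₀ ≤ ρ := by
    by_contra hcon
    push Not at hcon
    have h1 : ρ ^ 16 < ρ₀ ^ 16 := pow_lt_pow_left₀ hcon hρpos (by norm_num)
    rw [hρ16] at h1
    (clear * - hx hxR h1; linarith)
  have hpow : R ^ (-1 + 2 * η) ≤ ρ / ρ ^ 16 := by
    have h1 : R ^ (-1 + 2 * η) ≤ R ^ (1 / 16 - 1 : ℝ) :=
      Real.rpow_le_rpow_of_exponent_le hR1 (by linarith only [hη1])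
    rw [Real.rpow_sub hR0, Real.rpow_one] at h1
    rw [hρ16]
    exact h1
  have hz' : 0 ≤ x 2 := hz
  have hlow := xb3_lower (γ := q / κ - 2 - η) (k := kk (x 2)) (k1 := xb3_k1 (x 2))
    (k2 := xb3_k2 (x 2)) hη hη1 hκ hκ' hq hq' rfl hr1 (rad_sq x) hxR hz (kk_le hz)
    (le_kk _) (xb3_k1_nonneg hz) (xb3_k1_le hz) hv
  have hnum := xb3_num (K3 := 2 * |K| + 13) (κ := κ) (ρ := ρ) (z := x 2) hη hκ (by linarith only [hK0])
    (by linarith only [hK0, hρge]) (by linarith only [hdiv, hρge]) (by linarith only [hK0, hdiv, hρge]) hz (xb3_k2_ge hz)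
  rw [hρ16] at hnum hpow
  rw [lap_wt_mul' (q / κ - 2 - η) κ xb3_d1 xb3_d2 x]
  have hw := (wt_pos (q / κ - 2 - η) κ x).le
  have key := mul_le_mul_of_nonneg_right ((hpow.trans hnum).trans hlow) hw
  refine key.trans (le_of_eq ?_)
  rw [← hR]
  ring

end

end Vale.Agent.P363.D
end
end

section

section

/-!
# P363, disproof: local sup bounds for weak subsolutions
-/

namespace Vale.Agent.P363.D

open MeasureTheory Set Filter Topology
open scoped ENNReal ContDiff Pointwise

noncomputable section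

/-- Cauchy-Schwarz for nonnegative functions. -/
theorem cs_real {α : Type*} [MeasurableSpace α] {μ : Measure α} {f g : α → ℝ}
    (hf0 : 0 ≤ᵐ[μ] f) (hg0 : 0 ≤ᵐ[μ] g) (hf : MemLp f 2 μ) (hg : MemLp g 2 μ) :
    ∫ a, f a * g a ∂μ ≤ √(∫ a, f a ^ 2 ∂μ) * √(∫ a, g a ^ 2 ∂μ) := by
  have h := integral_mul_le_Lp_mul_Lq_of_nonneg (μ := μ) Real.HolderConjugate.two_two hf0 hg0
    (by simpa only [ENNReal.ofReal_ofNat] using hf) (by simpa using hg)
  rw [Real.sqrt_eq_rpow, Real.sqrt_eq_rpow]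
  convert h using 3
  · congr 1
    funext a
    exact (Real.rpow_natCast _ 2).symm
  · congr 1
    funext a
    exact (Real.rpow_natCast _ 2).symm

theorem pdv_smul {f : R3 → ℝ} (hf : Differentiable ℝ f) (s : ℝ) (k : Fin 3) (x : R3) :
    pdv k (fun y => f (s • y)) x = s * pdv k f (s • x) := by
  unfold pdv
  have h2 : HasFDerivAt (fun y : R3 => s • y) (s • ContinuousLinearMap.id ℝ R3) x :=
    (hasFDerivAt_id x).const_smul s
  have h3 := ((hf (s • x)).hasFDerivAt.comp x h2).fderiv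
  have h4 : (fun y => f (s • y)) = f ∘ fun y : R3 => s • y := rfl
  rw [h4, h3]
  simp

theorem lap_smul {f : R3 → ℝ} (hf : ContDiff ℝ 2 f) (s : ℝ) (x : R3) :
    lap (fun y => f (s • y)) x = s ^ 2 * lap f (s • x) := by
  unfold lap
  rw [Finset.mul_sum]
  apply Finset.sum_congr rfl
  intro k _
  have h1 : pdv k (fun y => f (s • y)) = fun y => s * pdv k f (s • y) := by
    funext y
    exact pdv_smul (hf.differentiable (by norm_num)) s k y
  have hd : Differentiable ℝ (pdv k f) :=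
    (hf.pdv (m := 1) (by norm_num) k).differentiable (by norm_num)
  have hd2 : DifferentiableAt ℝ (fun y => pdv k f (s • y)) x :=
    DifferentiableAt.comp (g := pdv k f) x (hd _) (by fun_prop)
  rw [h1, pdv_const_mul s hd2, pdv_smul hd]
  ring

theorem setIntegral_scale (F : R3 → ℝ) (x : R3) {s : ℝ} (hs : 0 < s) :
    ∫ y in Metric.ball (s⁻¹ • x) 1, F (s • y) = (s ^ 3)⁻¹ * ∫ y in Metric.ball x s, F y := by
  rw [Measure.setIntegral_comp_smul_of_pos volume F _ hs, finrank_R3, smul_ball hs.ne',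
    smul_inv_smul₀ hs.ne', Real.norm_of_nonneg hs.le, mul_one, smul_eq_mul]

/-- Sub-mean-value inequality, kernel form, on balls of radius `s`. -/
theorem submean_kernel_s : ∃ C : ℝ, 0 ≤ C ∧ ∀ (f G : R3 → ℝ) (x : R3) (s : ℝ), 0 < s →
    ContDiff ℝ 2 f → Continuous G → (∀ y, 0 ≤ G y) → (∀ y ∈ Metric.ball x s, -(G y) ≤ lap f y) →
    f x ≤ C * ((s ^ 3)⁻¹ * (∫ y in Metric.ball x s, |f y|) +
      ∫ y in Metric.ball x s, G y / ‖y - x‖) := by
  obtain ⟨C, hC, H⟩ := submean_kernel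
  refine ⟨C, hC, ?_⟩
  intro f G x s hs hf hG h0 hlap
  have h1 := H (fun y => f (s • y)) (fun y => s ^ 2 * G (s • y)) (s⁻¹ • x)
    (hf.comp (contDiff_const_smul s)) (by fun_prop)
    (fun y => mul_nonneg (by positivity) (h0 _))
    (fun y hy => by
      rw [lap_smul hf, ← mul_neg]
      apply mul_le_mul_of_nonneg_left _ (by positivity)
      apply hlap
      have : s • y ∈ s • Metric.ball (s⁻¹ • x) 1 := smul_mem_smul_set hy
      rwa [smul_ball hs.ne', smul_inv_smul₀ hs.ne', Real.norm_of_nonneg hs.le, mul_one] at this)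
  rw [smul_inv_smul₀ hs.ne', setIntegral_scale (fun y => |f y|) x hs] at h1
  have h2 : ∫ y in Metric.ball (s⁻¹ • x) 1, s ^ 2 * G (s • y) / ‖y - s⁻¹ • x‖ =
      ∫ y in Metric.ball x s, G y / ‖y - x‖ := by
    have h3 := setIntegral_scale (fun z => s ^ 3 * (G z / ‖z - x‖)) x hs
    have h4 : ∫ y in Metric.ball x s, s ^ 3 * (G y / ‖y - x‖) =
        s ^ 3 * ∫ y in Metric.ball x s, G y / ‖y - x‖ := integral_const_mul _ _
    rw [h4, inv_mul_cancel_left₀ (by positivity)] at h3
    rw [← h3]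
    congr 1
    funext y
    have h5 : s • y - x = s • (y - s⁻¹ • x) := by
      rw [smul_sub, smul_inv_smul₀ hs.ne']
    rw [h5, norm_smul, Real.norm_of_nonneg hs.le]
    rcases eq_or_ne ‖y - s⁻¹ • x‖ 0 with h | h
    · rw [h]
      simp
    · (clear * - hs; field_simp)
  rw [h2] at h1
  exact h1

/-! ### mollified weak inequalities -/

open KD.K1 in
theorem ker_sub_fderiv (n : ℕ) (x y e : R3) :
    fderiv ℝ (fun y => ker n (x - y)) y e = - fderiv ℝ (ker n) (x - y) e := by
  have hd : HasFDerivAt (ker n) (fderiv ℝ (ker n) (x - y)) (x - y) :=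
    (((ker_contDiff n).differentiable (by simp)) (x - y)).hasFDerivAt
  have hs : HasFDerivAt (fun y : R3 => x - y) (-ContinuousLinearMap.id ℝ R3) y :=
    (hasFDerivAt_id y).const_sub x
  have := hd.comp y hs
  have e : (fun y => ker n (x - y)) = ker n ∘ (fun y => x - y) := rfl
  rw [e, this.fderiv]
  simp only [ContinuousLinearMap.comp_neg, ContinuousLinearMap.comp_id, neg_apply]

open KD.K1 in
/-- Derivative of a mollification, the derivative on the kernel. -/
theorem moll_fderiv (n : ℕ) {e : R3} {f : R3 → ℝ} (hf : LocallyIntegrable f) (x : R3) :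
    fderiv ℝ (KD.K1.moll n f) x e = - ∫ y, f y * fderiv ℝ (fun y => ker n (x - y)) y e := by
  have h1 := (ker_cs n).hasFDerivAt_convolution_right (ContinuousLinearMap.mul ℝ ℝ) hf
    ((ker_contDiff n).of_le (by norm_cast)) x (μ := volume)
  rw [← moll_eq_conv'] at h1
  rw [h1.fderiv, convolution_precompR_apply _ hf ((ker_cs n).fderiv ℝ)
    (((ker_contDiff n).of_le (by norm_cast) : ContDiff ℝ 1 (ker n)).continuous_fderiv (by norm_num)),
    convolution_def, ← integral_neg]
  congr 1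
  funext y
  rw [ker_sub_fderiv]
  simp only [ContinuousLinearMap.mul_apply', mul_neg, neg_neg]

open KD.K1 in
/-- Laplacian of a mollification. -/
theorem lap_moll (n : ℕ) {u : R3 → ℝ} {ug : Fin 3 → R3 → ℝ} (hu : LocallyIntegrable u)
    (hug : ∀ k, LocallyIntegrable (ug k)) (h : ∀ k, ACL volume (dir3 k) u (ug k)) (x : R3) :
    lap (KD.K1.moll n u) x = - ∑ k, ∫ y, ug k y * fderiv ℝ (fun y => ker n (x - y)) y (dir3 k) := by
  unfold lap
  rw [← Finset.sum_neg_distrib]
  apply Finset.sum_congr rfl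
  intro k _
  have h1 : pdv k (KD.K1.moll n u) = KD.K1.moll n (ug k) := by
    funext y
    exact moll_deriv n hu (hug k) (h k) y
  rw [h1]
  exact moll_fderiv n (hug k) x

open KD.K1 in
theorem moll_congr_ball {n : ℕ} {f g : R3 → ℝ} {x : R3}
    (h : ∀ y ∈ Metric.closedBall x (1 / ((n : ℝ) + 1)), f y = g y) : KD.K1.moll n f x = KD.K1.moll n g x := by
  unfold KD.K1.moll
  congr 1
  funext y
  by_cases hy : y ∈ Metric.closedBall x (1 / ((n : ℝ) + 1))
  · rw [h y hy]
  · rw [Metric.mem_closedBall, dist_eq_norm, not_le, norm_sub_rev] at hy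
    rw [ker_zero hy]
    simp

open KD.K1 in
theorem ker_mul_integrable (n : ℕ) {f : R3 → ℝ} (hf : LocallyIntegrable f) (x : R3) :
    Integrable (fun y => ker n (x - y) * f y) volume := by
  have h := hf.integrable_smul_left_of_hasCompactSupport (ker_sub_contDiff n x).continuous
    (ker_sub_cs n x)
  simpa only [smul_eq_mul] using h

open KD.K1 in
theorem moll_nonneg {n : ℕ} {f : R3 → ℝ} {x : R3} (h : ∀ᵐ y, 0 ≤ f y) : 0 ≤ KD.K1.moll n f x := by
  unfold KD.K1.moll
  apply integral_nonneg_of_ae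
  filter_upwards [h] with y hy
  exact mul_nonneg (ker_nonneg _ _) hy

open KD.K1 in
theorem moll_memLp (n : ℕ) {f : R3 → ℝ} (hf : MemLp f 2 volume) : MemLp (KD.K1.moll n f) 2 volume := by
  refine ⟨?_, (moll_eLpNorm_le n hf.1).trans_lt hf.2⟩
  exact (moll_contDiff n (hf.locallyIntegrable (by norm_num))).continuous.aestronglyMeasurable

open KD.K1 in
theorem moll_sq_le (n : ℕ) {f : R3 → ℝ} (hf : MemLp f 2 volume) :
    ∫ x, KD.K1.moll n f x ^ 2 ≤ ∫ x, f x ^ 2 := by
  have h1 := moll_lint_le n hf.1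
  have e : ∀ {g : R3 → ℝ}, MemLp g 2 volume → ∫⁻ x, ‖g x‖ₑ ^ 2 = ENNReal.ofReal (∫ x, g x ^ 2) := by
    intro g hg
    rw [ofReal_integral_eq_lintegral_ofReal hg.integrable_sq (Eventually.of_forall fun x =>
      sq_nonneg _)]
    congr 1
    funext x
    rw [← enorm_pow, Real.enorm_eq_ofReal (sq_nonneg _)]
  rw [e (moll_memLp n hf), e hf] at h1
  exact (ENNReal.ofReal_le_ofReal_iff (integral_nonneg fun x => sq_nonneg _)).mp h1

open KD.K1 in
/-- LOCAL SUP BOUND for weak subsolutions `-(1/2) Δ u ≤ g`, `g ∈ L²`. -/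
theorem weak_sup : ∃ K : ℝ, 0 ≤ K ∧ ∀ (u : R3 → ℝ) (ug : Fin 3 → R3 → ℝ) (g : R3 → ℝ) (x0 : R3),
    H1o u ug → MemLp g 2 (volume.restrict (Metric.ball x0 1)) →
    (∀ h : R3 → ℝ, ContDiff ℝ ∞ h → HasCompactSupport h → (∀ x, 0 ≤ h x) →
      tsupport h ⊆ Metric.ball x0 1 →
      (1 / 2) * (∑ k, ∫ x, ug k x * pdv k h x) ≤ ∫ x, g x * h x) →
    ∀ᵐ x : R3, x ∈ Metric.ball x0 (1 / 2) →
      u x ≤ K * (√(∫ x in Metric.ball x0 1, u x ^ 2) + √(∫ x in Metric.ball x0 1, g x ^ 2)) := by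
  obtain ⟨C, hC, H⟩ := submean_kernel_s
  -- constants
  set V : ℝ := √(volume.real (Metric.ball (0 : R3) (1 / 4))) with hV
  set N : ℝ := √(∫ y in Metric.ball (0 : R3) (1 / 4), (1 / ‖y‖) ^ 2) with hN
  refine ⟨C * (64 * V + 2 * N), by (clear * - hC; positivity), ?_⟩
  intro u ug g x0 hu hg hw
  set B := Metric.ball x0 1 with hB
  have hBm : MeasurableSet B := measurableSet_ball
  set uB : R3 → ℝ := B.indicator u with huB
  set gB : R3 → ℝ := B.indicator (fun y => |g y|) with hgB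
  have huBm : MemLp uB 2 volume := hu.memLp.indicator hBm
  have hgBm : MemLp gB 2 volume := by
    have h1 : MemLp (fun y => |g y|) 2 (volume.restrict B) := hg.norm
    rwa [memLp_indicator_iff_restrict hBm]
  have huBs : ∫ x, uB x ^ 2 = ∫ x in B, u x ^ 2 := by
    rw [← integral_indicator hBm]
    congr 1
    funext y
    by_cases hy : y ∈ B
    · simp only [huB, indicator_of_mem hy]
    · simp only [huB, indicator_of_notMem hy]
      norm_num
  have hgBs : ∫ x, gB x ^ 2 = ∫ x in B, g x ^ 2 := by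
    rw [← integral_indicator hBm]
    congr 1
    funext y
    by_cases hy : y ∈ B
    · simp only [hgB, indicator_of_mem hy, sq_abs]
    · simp only [hgB, indicator_of_notMem hy]
      norm_num
  have hgl : LocallyIntegrable gB := hgBm.locallyIntegrable (by norm_num)
  have hul : LocallyIntegrable u := hu.memLp.locallyIntegrable (by norm_num)
  have hugl : ∀ k, LocallyIntegrable (ug k) := fun k =>
    (hu.memLp' k).locallyIntegrable (by norm_num)
  have hgB0 : ∀ y, 0 ≤ gB y := fun y => indicator_nonneg (fun y _ => abs_nonneg _) y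
  -- the estimate for the mollifications
  have key : ∀ n : ℕ, 4 ≤ n → ∀ x ∈ Metric.ball x0 (1 / 2),
      KD.K1.moll n u x ≤ C * (64 * V + 2 * N) * (√(∫ x in B, u x ^ 2) + √(∫ x in B, g x ^ 2)) := by
    intro n hn x hx
    have hn' : 1 / ((n : ℝ) + 1) < 1 / 4 := by
      have : (4 : ℝ) ≤ n := by exact_mod_cast hn
      rw [div_lt_div_iff₀ (by (clear * - hn; positivity)) (by norm_num)]
      linarith only [this]
    have hUc : ContDiff ℝ ∞ (KD.K1.moll n u) := moll_contDiff n hul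
    have hGc : ContDiff ℝ ∞ (KD.K1.moll n gB) := moll_contDiff n hgl
    have hlap : ∀ y ∈ Metric.ball x0 (3 / 4), -(2 * KD.K1.moll n gB y) ≤ lap (KD.K1.moll n u) y := by
      intro y hy
      have hsub : Metric.closedBall y (1 / ((n : ℝ) + 1)) ⊆ B := by
        intro z hz
        rw [Metric.mem_closedBall] at hz
        rw [Metric.mem_ball] at hy
        rw [hB, Metric.mem_ball]
        calc dist z x0 ≤ dist z y + dist y x0 := dist_triangle _ _ _
          _ < 1 := by linarith only [hn', hy, hz]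
      have h1 := hw (fun z => ker n (y - z)) (ker_sub_contDiff n y) (ker_sub_cs n y)
        (fun z => ker_nonneg n _) (by
          apply subset_trans _ hsub
          apply closure_minimal _ Metric.isClosed_closedBall
          intro z hz
          by_contra hz'
          rw [Metric.mem_closedBall, dist_eq_norm, not_le, norm_sub_rev] at hz'
          exact hz (ker_zero hz'))
      have h2 := lap_moll n hul hugl hu.acl y
      unfold pdv at h1
      have h3 : ∫ z, g z * ker n (y - z) ≤ KD.K1.moll n gB y := by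
        have e1 : ∫ z, g z * ker n (y - z) = ∫ z, ker n (y - z) * B.indicator g z := by
          congr 1
          funext z
          by_cases hz : z ∈ B
          · rw [indicator_of_mem hz]
            ring
          · have hz' : z ∉ Metric.closedBall y (1 / ((n : ℝ) + 1)) := fun h => hz (hsub h)
            rw [Metric.mem_closedBall, dist_eq_norm, not_le, norm_sub_rev] at hz'
            rw [ker_zero hz']
            ring
        rw [e1]
        have hgi : LocallyIntegrable (B.indicator g) := by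
          have : MemLp (B.indicator g) 2 volume := by
            rwa [memLp_indicator_iff_restrict hBm]
          exact this.locallyIntegrable (by norm_num)
        apply integral_mono (ker_mul_integrable n hgi y) (ker_mul_integrable n hgl y)
        intro z
        apply mul_le_mul_of_nonneg_left _ (ker_nonneg _ _)
        by_cases hz : z ∈ B
        · simp only [hgB, indicator_of_mem hz]
          exact le_abs_self _
        · simp only [hgB, indicator_of_notMem hz]
          exact le_rfl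
      rw [h2]
      linarith only [h1, h3]
    have hxs : Metric.ball x (1 / 4) ⊆ Metric.ball x0 (3 / 4) := by
      intro y hy
      rw [Metric.mem_ball] at hy hx ⊢
      calc dist y x0 ≤ dist y x + dist x x0 := dist_triangle _ _ _
        _ < 3 / 4 := by linarith only [hx, hy]
    have h1 := H (KD.K1.moll n u) (fun y => 2 * KD.K1.moll n gB y) x (1 / 4) (by norm_num)
      (hUc.of_le (by norm_cast)) (by
        have := hGc.continuous
        fun_prop)
      (fun y => mul_nonneg (by norm_num) (moll_nonneg (Eventually.of_forall hgB0)))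
      (fun y hy => hlap y (hxs hy))
    -- first term
    have hfin : volume (Metric.ball x (1 / 4)) ≠ ⊤ := measure_ball_lt_top.ne
    have hVx : √(∫ _y in Metric.ball x (1 / 4), (1 : ℝ) ^ 2) = V := by
      rw [hV]
      congr 1
      simp only [one_pow, integral_const, smul_eq_mul, mul_one, Measure.real,
        Measure.restrict_apply_univ]
      rw [Measure.addHaar_ball_center]
    have h2 : ∫ y in Metric.ball x (1 / 4), |KD.K1.moll n u y| ≤ V * √(∫ x in B, u x ^ 2) := by
      have e1 : ∀ y ∈ Metric.ball x (1 / 4), |KD.K1.moll n u y| = 1 * |KD.K1.moll n uB y| := by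
        intro y hy
        rw [one_mul, moll_congr_ball (g := uB)]
        intro z hz
        have hzB : z ∈ B := by
          have hy' := hxs hy
          rw [Metric.mem_closedBall] at hz
          rw [Metric.mem_ball] at hy'
          rw [hB, Metric.mem_ball]
          calc dist z x0 ≤ dist z y + dist y x0 := dist_triangle _ _ _
            _ < 1 := by linarith only [hn', hz, hy']
        simp only [huB, indicator_of_mem hzB]
      rw [setIntegral_congr_fun measurableSet_ball e1]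
      have hm1 : MemLp (fun y => |KD.K1.moll n uB y|) 2 (volume.restrict (Metric.ball x (1 / 4))) :=
        ((moll_memLp n huBm).restrict _).norm
      have hm2 : MemLp (fun _ : R3 => (1 : ℝ)) 2 (volume.restrict (Metric.ball x (1 / 4))) := by
        have : IsFiniteMeasure (volume.restrict (Metric.ball x (1 / 4))) :=
          ⟨by rw [Measure.restrict_apply_univ]; exact hfin.lt_top⟩
        exact memLp_const 1
      refine (cs_real (Eventually.of_forall fun _ => zero_le_one)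
        (Eventually.of_forall fun _ => abs_nonneg _) hm2 hm1).trans ?_
      rw [hVx]
      apply mul_le_mul_of_nonneg_left _ (Real.sqrt_nonneg _)
      apply Real.sqrt_le_sqrt
      rw [← huBs]
      simp only [sq_abs]
      exact (setIntegral_le_integral (moll_memLp n huBm).integrable_sq
        (Eventually.of_forall fun _ => sq_nonneg _)).trans (moll_sq_le n huBm)
    -- second term
    have hNx : ∫ y in Metric.ball x (1 / 4), (1 / ‖y - x‖) ^ 2 =
        ∫ y in Metric.ball (0 : R3) (1 / 4), (1 / ‖y‖) ^ 2 := by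
      have h3 := (measurePreserving_add_left (volume : Measure R3) x).setIntegral_preimage_emb
        (measurableEmbedding_addLeft x) (fun y => (1 / ‖y - x‖) ^ 2) (Metric.ball x (1 / 4))
      have h4 : (fun z => x + z) ⁻¹' Metric.ball x (1 / 4) = Metric.ball (0 : R3) (1 / 4) := by
        ext z
        simp only [one_div, preimage_add_ball, sub_self, Metric.mem_ball, dist_eq_norm, sub_zero]
      rw [h4] at h3
      rw [← h3]
      simp only [one_div, add_sub_cancel_left, inv_pow]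
    have hNi : IntegrableOn (fun y => (1 / ‖y - x‖) ^ 2) (Metric.ball x (1 / 4)) := by
      have h3 := (measurePreserving_add_left (volume : Measure R3) x).integrableOn_comp_preimage
        (measurableEmbedding_addLeft x) (f := fun y => (1 / ‖y - x‖) ^ 2)
        (s := Metric.ball x (1 / 4))
      have h4 : (fun z => x + z) ⁻¹' Metric.ball x (1 / 4) = Metric.ball (0 : R3) (1 / 4) := by
        ext z
        simp only [one_div, preimage_add_ball, sub_self, Metric.mem_ball, dist_eq_norm, sub_zero]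
      rw [h4] at h3
      rw [← h3]
      have h5 := integrableOn_inv_norm_sq (1 / 4)
      refine h5.congr_fun ?_ measurableSet_ball
      intro z _
      simp
    have h3 : ∫ y in Metric.ball x (1 / 4), 2 * KD.K1.moll n gB y / ‖y - x‖ ≤
        2 * (N * √(∫ x in B, g x ^ 2)) := by
      have e1 : ∀ y, 2 * KD.K1.moll n gB y / ‖y - x‖ = 2 * ((1 / ‖y - x‖) * KD.K1.moll n gB y) := by
        intro y
        ring
      simp only [e1]
      rw [integral_const_mul]
      apply mul_le_mul_of_nonneg_left _ (by norm_num)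
      have hm1 : MemLp (KD.K1.moll n gB) 2 (volume.restrict (Metric.ball x (1 / 4))) :=
        (moll_memLp n hgBm).restrict _
      have hm2 : MemLp (fun y : R3 => 1 / ‖y - x‖) 2 (volume.restrict (Metric.ball x (1 / 4))) := by
        rw [memLp_two_iff_integrable_sq]
        · exact hNi
        · apply Measurable.aestronglyMeasurable
          (clear * -; fun_prop)
      refine (cs_real (Eventually.of_forall fun _ => by (clear * -; positivity))
        (Eventually.of_forall fun _ => moll_nonneg (Eventually.of_forall hgB0)) hm2 hm1).trans ?_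
      rw [hNx]
      apply mul_le_mul_of_nonneg_left _ (Real.sqrt_nonneg _)
      apply Real.sqrt_le_sqrt
      rw [← hgBs]
      exact (setIntegral_le_integral (moll_memLp n hgBm).integrable_sq
        (Eventually.of_forall fun _ => sq_nonneg _)).trans (moll_sq_le n hgBm)
    calc KD.K1.moll n u x ≤ C * (((1 / 4 : ℝ) ^ 3)⁻¹ * (∫ y in Metric.ball x (1 / 4), |KD.K1.moll n u y|) +
          ∫ y in Metric.ball x (1 / 4), 2 * KD.K1.moll n gB y / ‖y - x‖) := h1
      _ ≤ C * (64 * (V * √(∫ x in B, u x ^ 2)) + 2 * (N * √(∫ x in B, g x ^ 2))) := by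
          apply mul_le_mul_of_nonneg_left _ hC
          apply add_le_add _ h3
          have : ((1 / 4 : ℝ) ^ 3)⁻¹ = 64 := by norm_num
          rw [this]
          exact mul_le_mul_of_nonneg_left h2 (by norm_num)
      _ ≤ _ := by
          have a1 : 0 ≤ √(∫ x in B, u x ^ 2) := Real.sqrt_nonneg _
          have a2 : 0 ≤ √(∫ x in B, g x ^ 2) := Real.sqrt_nonneg _
          have a3 : 0 ≤ V := Real.sqrt_nonneg _
          have a4 : 0 ≤ N := Real.sqrt_nonneg _
          rw [mul_assoc]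
          apply mul_le_mul_of_nonneg_left _ hC
          linarith only [mul_nonneg (sub_nonneg.2 a4) (sub_nonneg.2 a1), mul_nonneg (sub_nonneg.2 a3) (sub_nonneg.2 a2)]
  filter_upwards [moll_ae_tendsto hul] with x hx hxB
  apply le_of_tendsto hx
  filter_upwards [eventually_ge_atTop 4] with n hn using key n hn x hxB

end

end Vale.Agent.P363.D
end
end

section

section

/-!
# P363, block X: consequences of (E3)
-/

namespace Vale.Agent.P363.D

open MeasureTheory Set Filter Topology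
open scoped ENNReal ContDiff

noncomputable section

/-- XLow. Pointwise lower bound of `d` off the plane, in balls. -/
theorem d_lower {δ C ρ η R3' c3 : ℝ} (hc3 : 0 < c3) {X : SD} (hX : X.Ok δ C ρ)
    (h3 : X.E3 η R3' c3) : ∃ c4 R4 : ℝ, 0 < c4 ∧ 1 ≤ R4 ∧ ∀ x : R3, R4 ≤ ‖x‖ → 7 ≤ x 2 →
      ∀ᵐ y : R3, y ∈ Metric.ball x 2 → c4 * wt (X.q / X.κ - 2 - η) X.κ x ≤ X.d y := by
  have hκ : 0 < X.κ := lt_of_lt_of_le (by norm_num) hX.par.κl
  obtain ⟨K, hK, hwt⟩ := wt_ball (X.q / X.κ - 2 - η) hκ (t := 2) (by norm_num)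
  refine ⟨c3 / K, |R3'| + 3, div_pos hc3 hK, by linarith only [abs_nonneg R3'], ?_⟩
  intro x hx hx2
  unfold SD.E3 at h3
  filter_upwards [h3] with y hy hyb
  have hxy : ‖x - y‖ < 2 := by
    rw [← dist_eq_norm, dist_comm]
    exact Metric.mem_ball.1 hyb
  have h1 : |x 2 - y 2| ≤ ‖x - y‖ := by
    have h := PiLp.norm_apply_le (x - y) 2
    simpa only [Fin.isValue, ge_iff_le, PiLp.sub_apply, Real.norm_eq_abs] using h
  have h2 : 5 ≤ y 2 := by
    have h := (abs_le.1 h1).2
    linarith only [h, hxy, hx2]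
  have h4 : R3' < ‖y‖ := by
    have h5 : ‖x‖ ≤ ‖x - y‖ + ‖y‖ := by
      simpa only [sub_add_cancel] using norm_add_le (x - y) y
    linarith only [h5, hxy, hx, le_abs_self R3']
  have h6 := hy h4 (by linarith only [h2])
  have h7 : 1 ≤ kk (y 2) := by
    have h := le_kk (y 2)
    linarith only [h, h2]
  have h8 := hwt x y hxy.le
  have h9 := wt_pos (X.q / X.κ - 2 - η) X.κ y
  calc c3 / K * wt (X.q / X.κ - 2 - η) X.κ x
      ≤ c3 / K * (K * wt (X.q / X.κ - 2 - η) X.κ y) :=
        mul_le_mul_of_nonneg_left h8 (div_pos hc3 hK).le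
    _ = c3 * wt (X.q / X.κ - 2 - η) X.κ y := by
        (clear * - hκ hK hc3; field_simp)
    _ ≤ c3 * wt (X.q / X.κ - 2 - η) X.κ y * kk (y 2) :=
        le_mul_of_one_le_right (mul_pos hc3 h9).le h7
    _ ≤ X.d y := h6

/-- XLow. Pointwise upper bounds of `s`, `p` in balls. -/
theorem sp_upper {δ C ρ η R1 C1 R2 C2 : ℝ} (hC1 : 0 < C1) (hC2 : 0 < C2) {X : SD}
    (hX : X.Ok δ C ρ) (h1 : X.E1 η R1 C1) (h2 : X.E2 η R2 C2) :
    ∃ K R4 : ℝ, 0 < K ∧ 1 ≤ R4 ∧ ∀ x : R3, R4 ≤ ‖x‖ → ∀ᵐ y : R3, y ∈ Metric.ball x 6 →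
      X.s y ≤ K * wt (X.q / X.κ - 1 + η) X.κ x ∧ X.p y ≤ K * wt (X.q / X.κ - 3 + η) X.κ x := by
  have hκ : 0 < X.κ := lt_of_lt_of_le (by norm_num) hX.par.κl
  obtain ⟨K1, hK1, hwt1⟩ := wt_ball (X.q / X.κ - 1 + η) hκ (t := 6) (by norm_num)
  obtain ⟨K2, hK2, hwt2⟩ := wt_ball (X.q / X.κ - 3 + η) hκ (t := 6) (by norm_num)
  refine ⟨max (C1 * K1) (C2 * K2), |R1| + |R2| + 7, lt_max_of_lt_left (mul_pos hC1 hK1),
    by linarith only [abs_nonneg R1, abs_nonneg R2], ?_⟩
  intro x hx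
  unfold SD.E1 at h1
  unfold SD.E2 at h2
  filter_upwards [h1, h2] with y hy1 hy2 hyb
  have hxy : ‖y - x‖ < 6 := by
    rw [← dist_eq_norm]
    exact Metric.mem_ball.1 hyb
  have h5 : ‖x‖ ≤ ‖y - x‖ + ‖y‖ := by
    have h := norm_sub_le y (y - x)
    simp only [sub_sub_cancel] at h
    linarith only [h]
  have hr1 : R1 < ‖y‖ := by
    linarith only [h5, hxy, hx, le_abs_self R1, abs_nonneg R2]
  have hr2 : R2 < ‖y‖ := by
    linarith only [h5, hxy, hx, le_abs_self R2, abs_nonneg R1]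
  constructor
  · calc X.s y ≤ C1 * wt (X.q / X.κ - 1 + η) X.κ y := hy1 hr1
      _ ≤ C1 * (K1 * wt (X.q / X.κ - 1 + η) X.κ x) :=
        mul_le_mul_of_nonneg_left (hwt1 y x hxy.le) hC1.le
      _ = C1 * K1 * wt (X.q / X.κ - 1 + η) X.κ x := by ring
      _ ≤ _ := mul_le_mul_of_nonneg_right (le_max_left _ _) (wt_pos _ _ _).le
  · calc X.p y ≤ C2 * wt (X.q / X.κ - 3 + η) X.κ y := hy2 hr2
      _ ≤ C2 * (K2 * wt (X.q / X.κ - 3 + η) X.κ x) :=
        mul_le_mul_of_nonneg_left (hwt2 y x hxy.le) hC2.le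
      _ = C2 * K2 * wt (X.q / X.κ - 3 + η) X.κ x := by ring
      _ ≤ _ := mul_le_mul_of_nonneg_right (le_max_right _ _) (wt_pos _ _ _).le

theorem xlow_pdv_sub (f : R3 → ℝ) (x : R3) (k : Fin 3) (y : R3) :
    pdv k (fun z => f (z - x)) y = pdv k f (y - x) := by
  unfold pdv
  rw [fderiv_comp_sub]

/-- XLow. Smooth cutoff functions. -/
theorem exists_cutoff {r : ℝ} (hr : 0 < r) : ∃ K : ℝ, 0 ≤ K ∧ ∀ x : R3, ∃ χ : R3 → ℝ,
    ContDiff ℝ ∞ χ ∧ HasCompactSupport χ ∧ (∀ y, 0 ≤ χ y ∧ χ y ≤ 1) ∧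
    (∀ y ∈ Metric.ball x r, χ y = 1) ∧ (∀ y, χ y ≠ 0 → y ∈ Metric.ball x (2 * r)) ∧
    (∀ y, pdv 0 χ y ^ 2 + pdv 1 χ y ^ 2 + pdv 2 χ y ^ 2 ≤ K) ∧
    (∀ k y, pdv k χ y ≠ 0 → y ∈ Metric.ball x (2 * r)) := by
  let b : ContDiffBump (0 : R3) := ⟨r, 3 * r / 2, hr, by linarith only [hr]⟩
  have hb : ContDiff ℝ ∞ b := b.contDiff
  have hcs : HasCompactSupport b := b.hasCompactSupport
  have hpc : ∀ k, Continuous (pdv k b) := fun k =>
    (hb.continuous_fderiv (by simp)).clm_apply continuous_const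
  have hps : ∀ k, tsupport (pdv k b) ⊆ tsupport b := by
    intro k
    have h1 : Function.support (pdv k b) ⊆ Function.support (fderiv ℝ b) := by
      intro y hy h0
      apply hy
      show pdv k b y = 0
      unfold pdv
      rw [h0]
      rfl
    exact (closure_mono h1).trans (tsupport_fderiv_subset ℝ)
  have hpcs : ∀ k, HasCompactSupport (pdv k b) := fun k =>
    hcs.mono' ((subset_tsupport _).trans (hps k))
  have hbd : ∀ k, ∃ M : ℝ, ∀ y, ‖pdv k b y‖ ≤ M := fun k =>
    (hpc k).bounded_above_of_compact_support (hpcs k)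
  choose M hM using hbd
  have hsq : ∀ k y, pdv k b y ^ 2 ≤ M k ^ 2 := by
    intro k y
    have h := hM k y
    rw [Real.norm_eq_abs] at h
    exact sq_le_sq' (by linarith only [(abs_le.1 h).1]) (abs_le.1 h).2
  have hball : ∀ y : R3, y ∈ Metric.closedBall (0 : R3) (3 * r / 2) →
      y ∈ Metric.ball (0 : R3) (2 * r) := by
    intro y hy
    rw [Metric.mem_closedBall] at hy
    rw [Metric.mem_ball]
    linarith only [hy, hr]
  have htr : ∀ x y : R3, y - x ∈ Metric.ball (0 : R3) (2 * r) → y ∈ Metric.ball x (2 * r) := by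
    intro x y h
    rw [mem_ball_zero_iff] at h
    rwa [Metric.mem_ball, dist_eq_norm]
  have hts : tsupport b = Metric.closedBall (0 : R3) (3 * r / 2) := b.tsupport_eq
  refine ⟨M 0 ^ 2 + M 1 ^ 2 + M 2 ^ 2, by (clear * -; positivity), fun x => ⟨fun y => b (y - x), ?_, ?_, ?_, ?_, ?_, ?_, ?_⟩⟩
  · exact hb.comp (contDiff_id.sub contDiff_const)
  · exact hcs.comp_homeomorph (Homeomorph.subRight x)
  · intro y
    exact ⟨b.nonneg, b.le_one⟩
  · intro y hy
    apply b.one_of_mem_closedBall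
    rw [mem_closedBall_zero_iff, ← dist_eq_norm]
    exact (Metric.mem_ball.1 hy).le
  · intro y hy
    apply htr
    apply hball
    rw [← hts]
    exact subset_tsupport _ hy
  · intro y
    simp only [xlow_pdv_sub]
    exact add_le_add (add_le_add (hsq 0 _) (hsq 1 _)) (hsq 2 _)
  · intro k y hy
    rw [xlow_pdv_sub] at hy
    apply htr
    apply hball
    rw [← hts]
    exact hps k (subset_tsupport _ hy)

end

end Vale.Agent.P363.D
end
end

section

section

/-!
# P363, block X: log-Caccioppoli inequality for d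
-/

namespace Vale.Agent.P363.D

open MeasureTheory Set Filter Topology
open scoped ENNReal ContDiff

noncomputable section

/-- XLog. `C¹` extension of `1/t`, `t ≥ m`, to the real line. -/
def xlogF (m t : ℝ) : ℝ := 1 / max t m + (m - min t m) / m ^ 2

/-- XLog. Derivative of `xlogF`. -/
def xlogG (m t : ℝ) : ℝ := -(1 / (max t m) ^ 2)

lemma xlogG_cont {m : ℝ} (hm : 0 < m) : Continuous (xlogG m) := by
  unfold xlogG
  refine (continuous_const.div ((continuous_id.max continuous_const).pow 2) ?_).neg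
  intro t
  have : 0 < max t m := lt_max_of_lt_right hm
  exact (pow_pos this 2).ne'

lemma xlogF_of_le {m t : ℝ} (h : m ≤ t) : xlogF m t = 1 / t := by
  simp only [xlogF, max_eq_left h, one_div, min_eq_right h, sub_self, zero_div, add_zero]

lemma xlogG_of_le {m t : ℝ} (h : m ≤ t) : xlogG m t = -(1 / t ^ 2) := by
  simp only [xlogG, max_eq_left h, one_div]

lemma xlogF_of_ge {m t : ℝ} (hm : 0 < m) (h : t ≤ m) : xlogF m t = 2 / m - t / m ^ 2 := by
  rw [xlogF, max_eq_right h, min_eq_left h]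
  field_simp
  ring

lemma xlogG_abs {m : ℝ} (hm : 0 < m) (t : ℝ) : |xlogG m t| ≤ 1 / m ^ 2 := by
  have h1 : m ≤ max t m := le_max_right _ _
  rw [xlogG, abs_neg, abs_of_nonneg (by (clear * - hm; positivity))]
  exact one_div_le_one_div_of_le (by positivity) (by gcongr)

lemma xlog_deriv {m : ℝ} (hm : 0 < m) (t : ℝ) : HasDerivAt (xlogF m) (xlogG m t) t := by
  have h1 : ∀ t : ℝ, m ≤ t → HasDerivAt (fun s : ℝ => 1 / s) (-(1 / t ^ 2)) t := by
    intro t ht
    have := hasDerivAt_inv (by linarith : t ≠ 0)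
    simpa [one_div] using this
  have h2 : ∀ t : ℝ, HasDerivAt (fun s : ℝ => 2 / m - s / m ^ 2) (-(1 / m ^ 2)) t := by
    intro t
    exact ((hasDerivAt_id t).div_const (m ^ 2)).const_sub (2 / m)
  rcases lt_trichotomy t m with h | h | h
  · rw [xlogG, max_eq_right h.le]
    refine (h2 t).congr_of_eventuallyEq ?_
    filter_upwards [Iio_mem_nhds h] with s hs
    exact xlogF_of_ge hm (le_of_lt hs)
  · subst h
    rw [xlogG, max_self]
    have a : HasDerivWithinAt (xlogF t) (-(1 / t ^ 2)) (Iic t) t :=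
      (h2 t).hasDerivWithinAt.congr (fun s hs => xlogF_of_ge hm hs) (xlogF_of_ge hm le_rfl)
    have b : HasDerivWithinAt (xlogF t) (-(1 / t ^ 2)) (Ici t) t :=
      (h1 t le_rfl).hasDerivWithinAt.congr (fun s hs => xlogF_of_le hs) (xlogF_of_le le_rfl)
    have := a.union b
    rwa [Iic_union_Ici, hasDerivWithinAt_univ] at this
  · rw [xlogG, max_eq_left h.le]
    refine (h1 t h.le).congr_of_eventuallyEq ?_
    filter_upwards [Ioi_mem_nhds h] with s hs
    exact xlogF_of_le (le_of_lt hs)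

lemma xlogF_cont {m : ℝ} (hm : 0 < m) : Continuous (xlogF m) :=
  continuous_iff_continuousAt.mpr fun t => (xlog_deriv hm t).continuousAt

/-- XLog. The test function `χ² / d`. -/
lemma xlog_test {ρ m : ℝ} (hm : 0 < m) {d : R3 → ℝ} {dg : Fin 3 → R3 → ℝ} (hd : H1o d dg)
    {x : R3} {χ : R3 → ℝ} (c1 : ContDiff ℝ ∞ χ) (c2 : HasCompactSupport χ)
    (c3 : ∀ y, 0 ≤ χ y ∧ χ y ≤ 1) (c5 : ∀ y, χ y ≠ 0 → y ∈ Metric.ball x 2)
    (hdm : ∀ᵐ y : R3, y ∈ Metric.ball x 2 → m ≤ d y) (hx : ρ + 3 ≤ ‖x‖) :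
    Test ρ (fun y => χ y * χ y * xlogF m (d y))
      (fun k y => (pdv k χ y * χ y + χ y * pdv k χ y) * xlogF m (d y) +
        χ y * χ y * (xlogG m (d y) * dg k y)) := by
  have c1' : ContDiff ℝ 1 χ := c1.of_le (by exact_mod_cast le_top)
  have hA : ∀ k, ACL volume (dir3 k) (fun y => χ y * χ y * xlogF m (d y))
      (fun y => (pdv k χ y * χ y + χ y * pdv k χ y) * xlogF m (d y) +
        χ y * χ y * (xlogG m (d y) * dg k y)) := by
    intro k
    have h1 : ACL volume (dir3 k) χ (pdv k χ) := ACL.of_contDiff c1'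
    refine (h1.mul h1).mul ((hd.acl k).comp (Ω := univ) (fun y _ => xlog_deriv hm y)
      (xlogG_cont hm).continuousOn ?_ ?_ ?_)
    · exact (xlogF_cont hm).comp_aestronglyMeasurable (hd.acl k).meas
    · exact (xlogG_cont hm).comp_aestronglyMeasurable (hd.acl k).meas
    · filter_upwards with y t
      exact mem_univ _
  have hF : ∀ᵐ y : R3, χ y ≠ 0 → |xlogF m (d y)| ≤ 1 / m := by
    filter_upwards [hdm] with y hy h0
    have h1 := hy (c5 y h0)
    rw [xlogF_of_le h1, abs_of_nonneg (one_div_nonneg.mpr (hm.le.trans h1))]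
    exact one_div_le_one_div_of_le hm h1
  have hpc : ∀ k, Continuous (pdv k χ) := fun k =>
    (c1'.continuous_fderiv (by norm_num)).clm_apply continuous_const
  have hps : ∀ k, HasCompactSupport (pdv k χ) := fun k => c2.fderiv_apply ℝ (dir3 k)
  refine ⟨⟨?_, ?_, hA⟩, ⟨1 / m, ?_⟩, ?_⟩
  · have h1 : MemLp (fun y => 1 / m * χ y) 2 volume :=
      (c1.continuous.memLp_of_hasCompactSupport c2).const_mul (1 / m)
    refine h1.mono' (hA 0).meas ?_
    filter_upwards [hF] with y hy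
    rw [Real.norm_eq_abs, abs_mul, abs_mul]
    obtain ⟨h2, h3⟩ := c3 y
    rw [abs_of_nonneg h2]
    rcases eq_or_ne (χ y) 0 with h0 | h0
    · simp [h0]
    · have h4 := hy h0
      have h5 : χ y * χ y ≤ χ y := by linarith only [mul_nonneg (sub_nonneg.2 h2) (sub_nonneg.2 h3)]
      calc χ y * χ y * |xlogF m (d y)| ≤ χ y * (1 / m) := by
            apply mul_le_mul h5 h4 (abs_nonneg _) h2
        _ = 1 / m * χ y := by ring
  · intro k
    have h1 : MemLp (fun y => 2 / m * |pdv k χ y| + 1 / m ^ 2 * |dg k y|) 2 volume := by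
      refine MemLp.add ?_ ?_
      · exact (((hpc k).memLp_of_hasCompactSupport (hps k)).abs).const_mul (2 / m)
      · exact ((hd.memLp' k).abs).const_mul (1 / m ^ 2)
    refine h1.mono' (hA k).meas' ?_
    filter_upwards [hF] with y hy
    obtain ⟨h2, h3⟩ := c3 y
    rw [Real.norm_eq_abs]
    refine (abs_add_le _ _).trans (add_le_add ?_ ?_)
    · rcases eq_or_ne (χ y) 0 with h0 | h0
      · simp only [h0, mul_zero, zero_mul, add_zero, abs_zero]
        (clear * - hm; positivity)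
      · have h4 := hy h0
        have h5 : |pdv k χ y * χ y + χ y * pdv k χ y| ≤ 2 * |pdv k χ y| := by
          rw [show pdv k χ y * χ y + χ y * pdv k χ y = 2 * (χ y * pdv k χ y) by ring, abs_mul,
            abs_mul, abs_two, abs_of_nonneg h2]
          linarith only [mul_nonneg (sub_nonneg.2 h3) (sub_nonneg.2 (abs_nonneg (pdv k χ y)))]
        rw [abs_mul]
        calc _ ≤ 2 * |pdv k χ y| * (1 / m) := mul_le_mul h5 h4 (abs_nonneg _) (by (clear * -; positivity))
          _ = _ := by ring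
    · rw [abs_mul, abs_mul, abs_mul, abs_of_nonneg h2]
      have h5 : χ y * χ y ≤ 1 := by nlinarith only [h3, h2]
      have h6 := xlogG_abs hm (d y)
      have h7 : |xlogG m (d y)| * |dg k y| ≤ 1 / m ^ 2 * |dg k y| :=
        mul_le_mul_of_nonneg_right h6 (abs_nonneg _)
      calc _ ≤ 1 * (1 / m ^ 2 * |dg k y|) :=
            mul_le_mul h5 h7 (by (clear * -; positivity)) zero_le_one
        _ = _ := one_mul _
  · filter_upwards [hF] with y hy
    obtain ⟨h2, h3⟩ := c3 y
    rcases eq_or_ne (χ y) 0 with h0 | h0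
    · simp only [h0, mul_zero, zero_mul, abs_zero]
      positivity
    · rw [abs_mul, abs_mul, abs_of_nonneg h2]
      have h5 : χ y * χ y ≤ 1 := by nlinarith only [h3, h2]
      calc _ ≤ 1 * (1 / m) := mul_le_mul h5 (hy h0) (abs_nonneg _) zero_le_one
        _ = _ := one_mul _
  · filter_upwards with y hy
    have h0 : χ y = 0 := by
      by_contra h0
      have h1 := c5 y h0
      rw [Metric.mem_ball, dist_eq_norm] at h1
      have h2 : ‖x‖ ≤ ‖y - x‖ + ‖y‖ := by
        have := norm_sub_norm_le x y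
        rw [norm_sub_rev] at this
        linarith only [this]
      linarith
    simp [h0]

/-- XLog. Pointwise form of the energy estimate. -/
lemma xlog_alg {c d : ℝ} {a b : Fin 3 → ℝ} (hd : 0 < d) :
    (1 / 4) * (c ^ 2 * (∑ k, a k ^ 2) * (1 / d ^ 2)) +
      (1 / 2) * (∑ k, a k * ((b k * c + c * b k) * (1 / d) + c * c * (-(1 / d ^ 2) * a k))) ≤
      b 0 ^ 2 + b 1 ^ 2 + b 2 ^ 2 := by
  have key : ∀ k, (1 / 4) * (c ^ 2 * a k ^ 2 * (1 / d ^ 2)) +
      (1 / 2) * (a k * ((b k * c + c * b k) * (1 / d) + c * c * (-(1 / d ^ 2) * a k))) ≤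
      b k ^ 2 := by
    intro k
    have h : 0 ≤ (b k - c * a k * (1 / d) / 2) ^ 2 := sq_nonneg _
    have e : (1 / 4) * (c ^ 2 * a k ^ 2 * (1 / d ^ 2)) +
      (1 / 2) * (a k * ((b k * c + c * b k) * (1 / d) + c * c * (-(1 / d ^ 2) * a k))) =
      b k ^ 2 - (b k - c * a k * (1 / d) / 2) ^ 2 := by
      field_simp
      ring
    linarith
  have h0 := key 0
  have h1 := key 1
  have h2 := key 2
  simp only [Fin.sum_univ_three]
  linarith

/-- XLog. Bound of the potential. -/
lemma xlog_V {δ C ρ : ℝ} (hC : 0 ≤ C) (hρ : 1 ≤ ρ) {X : SD} (hX : X.Ok δ C ρ) {y : R3}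
    (hy : ρ < ‖y‖) : |X.V y| ≤ 2 + C := by
  have hS : Scal X.κ X.q X.ε δ C ρ X.C' X.n X.D X.d X.dg X.s X.sg X.p X.pg X.V X.S X.TP := hX
  obtain ⟨h1, h2, h3, h4, h5, h6⟩ := hS.par
  have hV := hS.V_le y hy
  have hy1 : 1 ≤ ‖y‖ := hρ.trans hy.le
  have hy2 : (1:ℝ) ≤ ‖y‖ ^ 2 := one_le_pow₀ hy1
  have a1 : X.ε * C / ‖y‖ ^ 2 ≤ C := by
    rw [div_le_iff₀ (by linarith only [hy2])]
    linarith only [mul_nonneg (sub_nonneg.2 hC) (sub_nonneg.2 hy2), mul_nonneg (sub_nonneg.2 hC) (sub_nonneg.2 h6)]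
  have a2 : X.q / ‖y‖ ≤ 3 / 2 := by
    rw [div_le_iff₀ (by linarith only [hρ, hy])]
    linarith only [h4, hy, hρ]
  have a3 : 0 ≤ X.q / ‖y‖ := div_nonneg (by linarith only [h3]) (norm_nonneg _)
  have a4 : X.κ ^ 2 / 2 ≤ 1 / 2 := by nlinarith only [h2, h1]
  have a5 : 0 ≤ X.κ ^ 2 / 2 := by positivity
  rw [abs_le] at hV ⊢
  constructor <;> linarith only [hV, a1, a2, a5, a3, a4]

/-- XLog. Bound of the source. -/
lemma xlog_S {δ C ρ η K c4 : ℝ} (hC : 0 ≤ C) (hρ : 1 ≤ ρ) (hη : η ≤ 1 / 32) (hc4 : 0 < c4)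
    {X : SD} (hX : X.Ok δ C ρ) {x y : R3} (hy : ρ < ‖y‖)
    (hSy : |X.S y| ≤ X.ε * C / ‖y‖ ^ 2 * X.p y)
    (hK : X.p y ≤ K * wt (X.q / X.κ - 3 + η) X.κ x) :
    |X.S y| ≤ C * |K| / c4 * (c4 * wt (X.q / X.κ - 2 - η) X.κ x) := by
  have hS : Scal X.κ X.q X.ε δ C ρ X.C' X.n X.D X.d X.dg X.s X.sg X.p X.pg X.V X.S X.TP := hX
  obtain ⟨h1, h2, h3, h4, h5, h6⟩ := hS.par
  have hp := hS.p_nonneg y
  have hy1 : 1 ≤ ‖y‖ := hρ.trans hy.le
  have hy2 : (1:ℝ) ≤ ‖y‖ ^ 2 := one_le_pow₀ hy1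
  have a1 : X.ε * C / ‖y‖ ^ 2 ≤ C := by
    rw [div_le_iff₀ (by linarith only [hy2])]
    linarith only [mul_nonneg (sub_nonneg.2 hC) (sub_nonneg.2 hy2), mul_nonneg (sub_nonneg.2 hC) (sub_nonneg.2 h6)]
  have w1 := wt_pos (X.q / X.κ - 3 + η) X.κ x
  have w2 := wt_pos (X.q / X.κ - 2 - η) X.κ x
  have w3 : wt (X.q / X.κ - 3 + η) X.κ x ≤ wt (X.q / X.κ - 2 - η) X.κ x := by
    unfold wt
    apply mul_le_mul_of_nonneg_right _ (Real.exp_pos _).le
    exact Real.rpow_le_rpow_of_exponent_le (one_le_rad x) (by linarith only [hη])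
  have a2 : X.p y ≤ |K| * wt (X.q / X.κ - 2 - η) X.κ x :=
    hK.trans (mul_le_mul (le_abs_self K) w3 w1.le (abs_nonneg K))
  calc |X.S y| ≤ X.ε * C / ‖y‖ ^ 2 * X.p y := hSy
    _ ≤ C * (|K| * wt (X.q / X.κ - 2 - η) X.κ x) := mul_le_mul a1 a2 hp hC
    _ = _ := by (clear * - h1 hc4; field_simp)

/-- XLog. `∫ |∇ log d|²` over unit balls is bounded. -/
theorem log_ball {δ C ρ η K R4 c4 : ℝ} (hC : 0 ≤ C) (hρ : 1 ≤ ρ) (hη : η ≤ 1 / 32) (hc4 : 0 < c4)
    {X : SD} (hX : X.Ok δ C ρ)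
    (hK : ∀ x : R3, R4 ≤ ‖x‖ → ∀ᵐ y : R3, y ∈ Metric.ball x 6 →
      X.s y ≤ K * wt (X.q / X.κ - 1 + η) X.κ x ∧ X.p y ≤ K * wt (X.q / X.κ - 3 + η) X.κ x)
    (hc : ∀ x : R3, R4 ≤ ‖x‖ → 7 ≤ x 2 →
      ∀ᵐ y : R3, y ∈ Metric.ball x 2 → c4 * wt (X.q / X.κ - 2 - η) X.κ x ≤ X.d y) :
    ∃ K' R5 : ℝ, 0 < K' ∧ 1 ≤ R5 ∧ ∀ x : R3, R5 ≤ ‖x‖ → 7 ≤ x 2 →
      IntegrableOn (fun y => (∑ k, X.dg k y ^ 2) / X.d y ^ 2) (Metric.ball x 1) volume ∧
      ∫ y in Metric.ball x 1, (∑ k, X.dg k y ^ 2) / X.d y ^ 2 ≤ K' := by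
  obtain ⟨Kc, hKc, hcut⟩ := exists_cutoff (r := 1) one_pos
  have hS : Scal X.κ X.q X.ε δ C ρ X.C' X.n X.D X.d X.dg X.s X.sg X.p X.pg X.V X.S X.TP := hX
  have hpar := hS.par
  obtain ⟨vb, hvb, hvol⟩ : ∃ vb : ℝ, 0 ≤ vb ∧
      ∀ x : R3, ∀ c : ℝ, ∫ y, (Metric.ball x 2).indicator (fun _ => c) y = c * vb := by
    refine ⟨volume.real (Metric.ball (0 : R3) 2), measureReal_nonneg, ?_⟩
    intro x c
    rw [integral_indicator_const _ Metric.isOpen_ball.measurableSet, smul_eq_mul, mul_comm]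
    congr 1
    unfold Measure.real
    rw [Measure.addHaar_ball_center]
  have hint : ∀ x : R3, ∀ c : ℝ, Integrable ((Metric.ball x 2).indicator (fun _ : R3 => c)) := by
    intro x c
    rw [integrable_indicator_iff Metric.isOpen_ball.measurableSet]
    exact integrableOn_const (measure_ball_lt_top.ne)
  refine ⟨4 * ((Kc + (2 + C) + C * |K| / c4) * vb) + 1, max R4 (ρ + 3), by (clear * - hKc hC hc4 hvb; positivity), ?_, ?_⟩
  · exact le_max_of_le_right (by linarith only [hρ])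
  intro x hx hx2
  have hx4 : R4 ≤ ‖x‖ := (le_max_left _ _).trans hx
  have hxρ : ρ + 3 ≤ ‖x‖ := (le_max_right _ _).trans hx
  obtain ⟨χ, c1, c2, c3, c4', c5, c6, c7⟩ := hcut x
  simp only [mul_one] at c5 c7
  obtain ⟨m, hm⟩ : ∃ m, m = c4 * wt (X.q / X.κ - 2 - η) X.κ x := ⟨_, rfl⟩
  have hm0 : 0 < m := hm ▸ mul_pos hc4 (wt_pos _ _ _)
  have hdm := hc x hx4 hx2
  rw [← hm] at hdm
  have ht := xlog_test (ρ := ρ) hm0 hS.d_H1 c1 c2 c3 c5 hdm hxρ
  have hdeq := hS.d_eq _ _ ht
  -- points of the ball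
  have hball : ∀ y ∈ Metric.ball x 2, ρ < ‖y‖ := by
    intro y hy
    rw [Metric.mem_ball, dist_eq_norm] at hy
    have := norm_sub_norm_le x y
    rw [norm_sub_rev] at this
    linarith only [hxρ, hy, this]
  have hχ0 : ∀ y, y ∉ Metric.ball x 2 → χ y = 0 := fun y hy => by
    by_contra h
    exact hy (c5 y h)
  have hpχ0 : ∀ k y, y ∉ Metric.ball x 2 → pdv k χ y = 0 := fun k y hy => by
    by_contra h
    exact hy (c7 k y h)
  -- the potential term
  have b1 : ‖∫ y, X.V y * X.d y * (χ y * χ y * xlogF m (X.d y))‖ ≤ (2 + C) * vb := by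
    rw [← hvol x]
    refine norm_integral_le_of_norm_le (hint x _) ?_
    filter_upwards [hdm] with y hy
    by_cases hyb : y ∈ Metric.ball x 2
    · rw [indicator_of_mem hyb, xlogF_of_le (hy hyb)]
      have hd0 : X.d y ≠ 0 := (hm0.trans_le (hy hyb)).ne'
      rw [show X.V y * X.d y * (χ y * χ y * (1 / X.d y)) = X.V y * (χ y * χ y) by (clear * - hd0; field_simp),
        Real.norm_eq_abs, abs_mul, abs_of_nonneg (mul_nonneg (c3 y).1 (c3 y).1)]
      have h1 := xlog_V hC hρ hX (hball y hyb)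
      have h2 : χ y * χ y ≤ 1 := by linarith only [mul_nonneg (sub_nonneg.2 ((c3 y).1)) (sub_nonneg.2 ((c3 y).2)), mul_nonneg (sub_nonneg.2 ((c3 y).2)) (sub_nonneg.2 ((c3 y).2))]
      calc _ ≤ (2 + C) * 1 := mul_le_mul h1 h2 (mul_nonneg (c3 y).1 (c3 y).1) (by linarith only [hC])
        _ = _ := mul_one _
    · rw [indicator_of_notMem hyb, hχ0 y hyb]
      simp
  -- the source term
  have b2 : ‖∫ y, X.S y * (χ y * χ y * xlogF m (X.d y))‖ ≤ C * |K| / c4 * vb := by
    rw [← hvol x]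
    refine norm_integral_le_of_norm_le (hint x _) ?_
    filter_upwards [hdm, hS.S_le, hK x hx4] with y hy hSy hKy
    by_cases hyb : y ∈ Metric.ball x 2
    · rw [indicator_of_mem hyb, xlogF_of_le (hy hyb)]
      have hd0 : 0 < X.d y := hm0.trans_le (hy hyb)
      have h1 := xlog_S hC hρ hη hc4 hX (hball y hyb) (hSy (hball y hyb))
        (hKy (Metric.ball_subset_ball (by norm_num) hyb)).2
      rw [← hm] at h1
      have hn : 0 ≤ χ y * χ y * (1 / X.d y) :=
        mul_nonneg (mul_nonneg (c3 y).1 (c3 y).1) (one_div_nonneg.mpr hd0.le)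
      rw [Real.norm_eq_abs, abs_mul, abs_of_nonneg hn]
      have h2 : χ y * χ y ≤ 1 := by nlinarith only [(c3 y).1, (c3 y).2]
      have h3 : χ y * χ y * (1 / X.d y) ≤ 1 * (1 / m) :=
        mul_le_mul h2 (one_div_le_one_div_of_le hm0 (hy hyb)) (one_div_nonneg.mpr hd0.le)
          zero_le_one
      calc _ ≤ C * |K| / c4 * m * (1 * (1 / m)) := mul_le_mul h1 h3 hn (by (clear * - hC hc4 hm0; positivity))
        _ = _ := by (clear * - hm0 hc4; field_simp)
    · rw [indicator_of_notMem hyb, hχ0 y hyb]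
      simp
  -- integrability
  have i1 : ∀ k, Integrable (fun y => X.dg k y * ((pdv k χ y * χ y + χ y * pdv k χ y) *
      xlogF m (X.d y) + χ y * χ y * (xlogG m (X.d y) * X.dg k y))) := fun k =>
    (hS.d_H1.memLp' k).integrable_mul (ht.H1.memLp' k)
  have i2 : Integrable (fun y => χ y ^ 2 * (∑ k, X.dg k y ^ 2) * (-(xlogG m (X.d y)))) := by
    have h1 : Integrable (fun y => (∑ k, X.dg k y ^ 2) * (1 / m ^ 2)) :=
      (integrable_finsetSum _ fun k _ => (hS.d_H1.memLp' k).integrable_sq).mul_const _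
    refine h1.mono' ?_ ?_
    · refine AEStronglyMeasurable.mul (AEStronglyMeasurable.mul ?_ ?_) ?_
      · exact (c1.continuous.pow 2).aestronglyMeasurable
      · exact (integrable_finsetSum _ fun k _ => (hS.d_H1.memLp' k).integrable_sq).1
      · exact ((xlogG_cont hm0).comp_aestronglyMeasurable hS.d_H1.memLp.1).neg
    · filter_upwards with y
      have h2 : 0 ≤ ∑ k, X.dg k y ^ 2 := Finset.sum_nonneg fun k _ => sq_nonneg _
      rw [Real.norm_eq_abs, abs_mul, abs_mul, abs_neg, abs_of_nonneg h2, abs_of_nonneg (sq_nonneg _)]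
      have h3 : χ y ^ 2 * (∑ k, X.dg k y ^ 2) ≤ ∑ k, X.dg k y ^ 2 := by
        have : χ y ^ 2 ≤ 1 := pow_le_one₀ (c3 y).1 (c3 y).2
        linarith only [mul_nonneg (sub_nonneg.2 h2) (sub_nonneg.2 this)]
      exact mul_le_mul h3 (xlogG_abs hm0 _) (abs_nonneg _) h2
  -- the energy estimate
  have b3 : (1 / 4) * (∫ y, χ y ^ 2 * (∑ k, X.dg k y ^ 2) * (-(xlogG m (X.d y)))) +
      (1 / 2) * (∑ k, ∫ y, X.dg k y * ((pdv k χ y * χ y + χ y * pdv k χ y) *
      xlogF m (X.d y) + χ y * χ y * (xlogG m (X.d y) * X.dg k y))) ≤ Kc * vb := by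
    rw [← hvol x, ← integral_finsetSum _ (fun k _ => i1 k), ← integral_const_mul,
      ← integral_const_mul, ← integral_add (i2.const_mul _)
      ((integrable_finsetSum _ (fun k _ => i1 k)).const_mul _)]
    refine integral_mono_ae ((i2.const_mul _).add
      ((integrable_finsetSum _ (fun k _ => i1 k)).const_mul _)) (hint x _) ?_
    filter_upwards [hdm] with y hy
    by_cases hyb : y ∈ Metric.ball x 2
    · simp only [indicator_of_mem hyb, xlogF_of_le (hy hyb), xlogG_of_le (hy hyb), neg_neg]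
      exact (xlog_alg (hm0.trans_le (hy hyb))).trans (c6 y)
    · simp [indicator_of_notMem hyb, hχ0 y hyb]
  -- conclusion
  have b4 : ∫ y, χ y ^ 2 * (∑ k, X.dg k y ^ 2) * (-(xlogG m (X.d y))) ≤
      4 * ((Kc + (2 + C) + C * |K| / c4) * vb) := by
    rw [Real.norm_eq_abs] at b1 b2
    have h1 := abs_le.mp b1
    have h2 := abs_le.mp b2
    linarith only [h1, h2, b3, hdeq]
  have e1 : (fun y => (∑ k, X.dg k y ^ 2) / X.d y ^ 2) =ᵐ[volume.restrict (Metric.ball x 1)]
      (fun y => χ y ^ 2 * (∑ k, X.dg k y ^ 2) * (-(xlogG m (X.d y)))) := by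
    filter_upwards [ae_restrict_mem Metric.isOpen_ball.measurableSet, ae_restrict_of_ae hdm]
      with y hy1 hy2
    rw [c4' y hy1, xlogG_of_le (hy2 (Metric.ball_subset_ball (by norm_num) hy1))]
    ring
  refine ⟨(i2.integrableOn (s := Metric.ball x 1)).congr e1.symm, ?_⟩
  rw [integral_congr_ae e1]
  refine (setIntegral_le_integral i2 ?_).trans (b4.trans (by linarith only []))
  filter_upwards with y
  have h2 : 0 ≤ ∑ k, X.dg k y ^ 2 := Finset.sum_nonneg fun k _ => sq_nonneg _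
  have h3 : 0 ≤ -(xlogG m (X.d y)) := by
    rw [xlogG, neg_neg]
    (clear * - hm0; positivity)
  exact mul_nonneg (mul_nonneg (sq_nonneg _) h2) h3

end

end Vale.Agent.P363.D
end
end

section

section

/-! # Lower bound for all four-electron states from the sector bounds -/

namespace Vale.Agent.P363.D

open MeasureTheory Set Filter Topology
open scoped ENNReal ContDiff

noncomputable section

/-- real and imaginary parts of an amplitude are `H¹` functions -/
theorem amp_HN {N : ℕ} (Ψ : ElectronState N) (s : Fin N → Fin 2) :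
    HN (fun x => (Ψ.amp s x).re) (fun i k x => (Ψ.grad s i k x).re) ∧
      HN (fun x => (Ψ.amp s x).im) (fun i k x => (Ψ.grad s i k x).im) :=
  ⟨⟨(Ψ.amp_memLp s).re, fun i k => (Ψ.grad_memLp s i k).re,
      fun i k => (Ψ.grad_weak s i k).re_acl (Ψ.amp_memLp s) (Ψ.grad_memLp s i k)⟩,
    ⟨(Ψ.amp_memLp s).im, fun i k => (Ψ.grad_memLp s i k).im,
      fun i k => (Ψ.grad_weak s i k).im_acl (Ψ.amp_memLp s) (Ψ.grad_memLp s i k)⟩⟩

/-- antisymmetry of a real function with respect to the spin configuration `s` -/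
def SpAnti {N : ℕ} (s : Fin N → Fin 2) (f : Conf N → ℝ) : Prop :=
  ∀ i j, i ≠ j → s i = s j → AntiSw i j f

theorem sp_anti_amp {N : ℕ} (Ψ : ElectronState N) (s : Fin N → Fin 2) :
    SpAnti s (fun x => (Ψ.amp s x).re) ∧ SpAnti s (fun x => (Ψ.amp s x).im) := by
  have key : ∀ i j, i ≠ j → s i = s j →
      ∀ᵐ x : Conf N, Ψ.amp s (x ∘ Equiv.swap i j) = - Ψ.amp s x := by
    intro i j hij hs
    have h := Ψ.antisymm (Equiv.swap i j) s
    have hs2 : s ∘ Equiv.swap i j = s := by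
      funext a
      rcases eq_or_ne a i with rfl | hai
      · simp [hs]
      rcases eq_or_ne a j with rfl | haj
      · simp [hs]
      simp [Equiv.swap_apply_of_ne_of_ne hai haj]
    rw [hs2, Equiv.Perm.sign_swap hij] at h
    filter_upwards [h] with x hx
    rw [hx]
    simp only [Units.val_neg, Units.val_one, Int.reduceNeg, Int.cast_neg, Int.cast_one, neg_mul, one_mul]
  refine ⟨fun i j hij hs => ?_, fun i j hij hs => ?_⟩
  · filter_upwards [key i j hij hs] with x hx
    rw [hx, Complex.neg_re]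
  · filter_upwards [key i j hij hs] with x hx
    rw [hx, Complex.neg_im]

theorem SpAnti.perm {N : ℕ} {s : Fin N → Fin 2} {f : Conf N → ℝ} (h : SpAnti s f)
    (τ : Equiv.Perm (Fin N)) : SpAnti (s ∘ τ) (fun x => f (x ∘ τ.symm)) := by
  intro i j hij hs
  have h1 := h (τ i) (τ j) (fun h => hij (τ.injective h)) hs
  have h2 := (mp_perm (N := N) τ.symm).quasiMeasurePreserving.ae h1
  filter_upwards [h2] with x hx
  have h3 : (x ∘ Equiv.swap i j) ∘ τ.symm = (x ∘ τ.symm) ∘ Equiv.swap (τ i) (τ j) := by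
    funext a
    simp only [Function.comp_apply]
    congr 1
    have h4 : Equiv.swap (τ i) (τ j) a = τ (Equiv.swap i j (τ.symm a)) := by
      rw [Equiv.swap_apply_apply]; rfl
    rw [h4, Equiv.symm_apply_apply]
  rw [h3]
  exact hx

theorem sp_cases : ∀ s : Fin 4 → Fin 2, ∃ a b : Fin 4,
    (s (Equiv.swap a b 0) = s (Equiv.swap a b 1) ∧ s (Equiv.swap a b 1) = s (Equiv.swap a b 2)) ∨
    (s (Equiv.swap a b 0) = s (Equiv.swap a b 1) ∧
      s (Equiv.swap a b 2) = s (Equiv.swap a b 3)) := by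
  decide

/-- lower bound for real functions with the symmetry of any spin configuration -/
theorem sp_bound {w : Conf 4 → ℝ}
    (hsym : ∀ (σ : Equiv.Perm (Fin 4)) x, w (x ∘ σ) = w x) {E : ℝ}
    (h2 : ∀ f g, HN f g → Sec4 f → E * ∫ x, f x ^ 2 ≤ qN w f g)
    (h3 : ∀ f g, HN f g → AntiSw 0 1 f → AntiSw 1 2 f → E * ∫ x, f x ^ 2 ≤ qN w f g)
    (s : Fin 4 → Fin 2) {f : Conf 4 → ℝ} {g : Fin 4 → Fin 3 → Conf 4 → ℝ} (h : HN f g)
    (hs : SpAnti s f) : E * ∫ x, f x ^ 2 ≤ qN w f g := by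
  obtain ⟨a, b, hab⟩ := sp_cases s
  set τ : Equiv.Perm (Fin 4) := Equiv.swap a b with hτ
  have h4 := hs.perm τ
  have h5 := h.perm τ.symm
  have h6 := qN_perm (w := w) τ.symm (hsym τ.symm) f g
  have h7 : ∫ x : Conf 4, f (x ∘ τ.symm) ^ 2 = ∫ x, f x ^ 2 :=
    integral_perm τ.symm (fun x => f x ^ 2)
  have h8 : E * ∫ x : Conf 4, f (x ∘ τ.symm) ^ 2 ≤ qN w (fun x => f (x ∘ τ.symm))
      (fun i k x => g (τ.symm.symm i) k (x ∘ τ.symm)) := by
    rcases hab with ⟨e1, e2⟩ | ⟨e1, e2⟩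
    · exact h3 _ _ h5 (h4 0 1 (by decide) e1) (h4 1 2 (by decide) e2)
    · exact h2 _ _ h5 ⟨h4 0 1 (by decide) e1, h4 2 3 (by decide) e2⟩
  rw [h6, h7] at h8
  exact h8

theorem sp_normSq {N : ℕ} (Ψ : ElectronState N) :
    normSq Ψ = ∑ s, ((∫ x, (Ψ.amp s x).re ^ 2) + ∫ x, (Ψ.amp s x).im ^ 2) := by
  unfold normSq
  apply Finset.sum_congr rfl
  intro s _
  rw [← integral_add ((amp_HN Ψ s).1.memLp.integrable_sq) ((amp_HN Ψ s).2.memLp.integrable_sq)]
  congr 1
  funext x
  rw [← Complex.normSq_eq_norm_sq, Complex.normSq_apply]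
  ring

theorem sp_energy {N : ℕ} {w : Conf N → ℝ} (hw : FBd w) (Ψ : ElectronState N) :
    energy w Ψ = ∑ s, (qN w (fun x => (Ψ.amp s x).re) (fun i k x => (Ψ.grad s i k x).re) +
      qN w (fun x => (Ψ.amp s x).im) (fun i k x => (Ψ.grad s i k x).im)) := by
  obtain ⟨-, C, -, hC⟩ := hw
  unfold energy
  rw [Finset.mul_sum, ← Finset.sum_add_distrib]
  apply Finset.sum_congr rfl
  intro s _
  unfold qN
  have h1 : ∀ i k, ∫ x, ‖Ψ.grad s i k x‖ ^ 2 =
      (∫ x, (Ψ.grad s i k x).re ^ 2) + ∫ x, (Ψ.grad s i k x).im ^ 2 := by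
    intro i k
    rw [← integral_add ((amp_HN Ψ s).1.memLp' i k).integrable_sq
      ((amp_HN Ψ s).2.memLp' i k).integrable_sq]
    congr 1
    funext x
    rw [← Complex.normSq_eq_norm_sq, Complex.normSq_apply]
    ring
  have h2 : ∫ x, w x * ‖Ψ.amp s x‖ ^ 2 =
      (∫ x, w x * (Ψ.amp s x).re ^ 2) + ∫ x, w x * (Ψ.amp s x).im ^ 2 := by
    rw [← integral_add (hC _ _ (amp_HN Ψ s).1).1 (hC _ _ (amp_HN Ψ s).2).1]
    congr 1
    funext x
    rw [← Complex.normSq_eq_norm_sq, Complex.normSq_apply]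
    ring
  rw [h2]
  simp only [h1, Finset.sum_add_distrib]
  ring

/-- lower bound for all electron states -/
theorem all_spins_of {w : Conf 4 → ℝ} (hw : FBd w)
    (hsym : ∀ (σ : Equiv.Perm (Fin 4)) x, w (x ∘ σ) = w x) {E : ℝ}
    (h2 : ∀ f g, HN f g → Sec4 f → E * ∫ x, f x ^ 2 ≤ qN w f g)
    (h3 : ∀ f g, HN f g → AntiSw 0 1 f → AntiSw 1 2 f → E * ∫ x, f x ^ 2 ≤ qN w f g)
    (Ψ : ElectronState 4) :
    E * normSq Ψ ≤ energy w Ψ := by
  rw [sp_normSq, sp_energy hw, Finset.mul_sum]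
  apply Finset.sum_le_sum
  intro s _
  rw [mul_add]
  exact add_le_add (sp_bound hsym h2 h3 s (amp_HN Ψ s).1 (sp_anti_amp Ψ s).1)
    (sp_bound hsym h2 h3 s (amp_HN Ψ s).2 (sp_anti_amp Ψ s).2)

end

end Vale.Agent.P363.D
end
end
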