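import Vale.Agent.P363.MathlibUsed
import Vale.Agent.P370.Core
attribute [-instance] ProperSMul.toContinuousSMul IsTopologicalTorsor.toContinuousSMul IdemSemiring.toCanonicallyOrderedAdd IdemSemiring.toMulLeftMono IdemSemiring.toMulRightMono AddQuantale.instAddLeftMono AddQuantale.instAddRightMono Quantale.instMulLeftMono Quantale.instMulRightMono FiniteDimensional.rclike_to_real IsScalarTower.complexToReal FiniteDimensional.complexToReal

set_option linter.all false

section

section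

/-! # Ground vectors of `A D + C` for large `A` -/

namespace Vale.Agent.P363.D

open Finset

variable {ι : Type*} [Fintype ι] [DecidableEq ι]

/-- A symmetric form attains its minimum on the unit sphere at an eigenvector. -/
theorem lin_min (M : ι → ι → ℝ) (hM : ∀ i j, M i j = M j i) (z : ι) :
    ∃ (w : ι → ℝ) (l : ℝ), ∑ i, w i ^ 2 = 1 ∧ (∀ i, ∑ j, M i j * w j = l * w i) ∧
      ∀ b : ι → ℝ, l * (∑ i, b i ^ 2) ≤ ∑ i, ∑ j, M i j * (b i * b j) := by
  set Q : (ι → ℝ) → ℝ := fun b => ∑ i, ∑ j, M i j * (b i * b j) with hQ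
  have hQc : Continuous Q := by
    rw [hQ]
    fun_prop
  set S : Set (ι → ℝ) := {b | ∑ i, b i ^ 2 = 1} with hS
  have hSc : IsClosed S := isClosed_eq (by fun_prop) continuous_const
  have hSb : S ⊆ Metric.closedBall 0 1 := by
    intro b hb
    rw [mem_closedBall_zero_iff, pi_norm_le_iff_of_nonneg zero_le_one]
    intro i
    have h1 : b i ^ 2 ≤ ∑ i, b i ^ 2 :=
      Finset.single_le_sum (f := fun i => b i ^ 2) (fun i _ => sq_nonneg _) (Finset.mem_univ i)
    have h2 : b i ^ 2 ≤ 1 := h1.trans (le_of_eq hb)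
    rw [Real.norm_eq_abs]
    exact abs_le_one_iff_mul_self_le_one.2 (by linarith)
  have hSk : IsCompact S := (isCompact_closedBall (0 : ι → ℝ) 1).of_isClosed_subset hSc hSb
  have hSn : S.Nonempty := by
    refine ⟨Pi.single z 1, ?_⟩
    change ∑ i, (Pi.single z (1 : ℝ) : ι → ℝ) i ^ 2 = 1
    rw [Finset.sum_eq_single z]
    · simp
    · intro i _ hi
      simp [Pi.single_eq_of_ne hi]
    · intro h
      exact absurd (Finset.mem_univ z) h
  obtain ⟨w, hwS, hmin⟩ := hSk.exists_isMinOn hSn hQc.continuousOn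
  have hw1 : ∑ i, w i ^ 2 = 1 := hwS
  have hhom : ∀ (t : ℝ) (b : ι → ℝ), Q (fun i => t * b i) = t ^ 2 * Q b := by
    intro t b
    simp only [hQ, Finset.mul_sum]
    refine Finset.sum_congr rfl fun i _ => Finset.sum_congr rfl fun j _ => ?_
    ring
  have hlow : ∀ b : ι → ℝ, Q w * (∑ i, b i ^ 2) ≤ Q b := by
    intro b
    have h0 : 0 ≤ ∑ i, b i ^ 2 := Finset.sum_nonneg fun i _ => sq_nonneg _
    rcases h0.eq_or_lt with h | h
    · have hb : ∀ i, b i = 0 := by
        intro i
        have h2 := (Finset.sum_eq_zero_iff_of_nonneg (fun i _ => sq_nonneg (b i))).1 h.symm i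
          (Finset.mem_univ i)
        exact pow_eq_zero_iff (two_ne_zero) |>.1 h2
      have h3 : Q b = 0 := by
        simp only [hQ]
        refine Finset.sum_eq_zero fun i _ => Finset.sum_eq_zero fun j _ => ?_
        rw [hb i]
        ring
      rw [← h, h3, mul_zero]
    · set s : ℝ := ∑ i, b i ^ 2 with hs
      have hsq : 0 < Real.sqrt s := Real.sqrt_pos.2 h
      have hmem : (fun i => (Real.sqrt s)⁻¹ * b i) ∈ S := by
        change ∑ i, ((Real.sqrt s)⁻¹ * b i) ^ 2 = 1
        simp only [mul_pow]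
        rw [← Finset.mul_sum, ← hs, inv_pow, Real.sq_sqrt h0, inv_mul_cancel₀ h.ne']
      have h4 : Q w ≤ Q (fun i => (Real.sqrt s)⁻¹ * b i) := hmin hmem
      rw [hhom, inv_pow, Real.sq_sqrt h0] at h4
      have h5 := mul_le_mul_of_nonneg_right h4 h0
      calc Q w * s ≤ s⁻¹ * Q b * s := h5
        _ = Q b := by (clear * - h; field_simp)
  refine ⟨w, Q w, hw1, ?_, hlow⟩
  intro i0
  -- first order condition
  set a : ℝ := ∑ j, M i0 j * w j with ha
  set c : ℝ := M i0 i0 with hc
  have hexp : ∀ t : ℝ, Q (fun i => w i + t * (if i = i0 then 1 else 0))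
      = Q w + 2 * t * a + t ^ 2 * c := by
    intro t
    have e1 : ∀ i j : ι, M i j * ((w i + t * (if i = i0 then (1 : ℝ) else 0))
        * (w j + t * (if j = i0 then (1 : ℝ) else 0)))
        = M i j * (w i * w j) + (if j = i0 then t * (M i i0 * w i) else 0)
          + (if i = i0 then t * (M i0 j * w j) else 0)
          + (if i = i0 then (if j = i0 then t ^ 2 * c else 0) else 0) := by
      intro i j
      by_cases hi : i = i0 <;> by_cases hj : j = i0
      · subst hi; subst hj; simp only [↓reduceIte, mul_one]; ring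
      · subst hi; simp only [↓reduceIte, mul_one, hj, mul_zero, add_zero]; ring
      · subst hj; simp [hi]; ring
      · simp [hi, hj]
    simp only [hQ]
    simp only [e1, Finset.sum_add_distrib]
    have e2 : ∑ i, ∑ j, (if j = i0 then t * (M i i0 * w i) else 0) = t * a := by
      simp only [Finset.sum_ite_eq', Finset.mem_univ, if_true]
      rw [ha, Finset.mul_sum]
      exact Finset.sum_congr rfl fun i _ => by rw [hM i i0]
    have e3 : ∑ i, ∑ j, (if i = i0 then t * (M i0 j * w j) else 0) = t * a := by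
      rw [Finset.sum_comm]
      simp only [Finset.sum_ite_eq', Finset.mem_univ, if_true]
      rw [ha, Finset.mul_sum]
    have e4 : ∑ i, ∑ j, (if i = i0 then (if j = i0 then t ^ 2 * c else 0) else 0) = t ^ 2 * c := by
      rw [Finset.sum_comm]
      simp only [Finset.sum_ite_eq', Finset.mem_univ, if_true]
    rw [e2, e3, e4]
    ring
  have hexp2 : ∀ t : ℝ, ∑ i, (w i + t * (if i = i0 then (1 : ℝ) else 0)) ^ 2
      = 1 + 2 * t * w i0 + t ^ 2 := by
    intro t
    have e1 : ∀ i : ι, (w i + t * (if i = i0 then (1 : ℝ) else 0)) ^ 2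
        = w i ^ 2 + (if i = i0 then 2 * t * w i0 else 0) + (if i = i0 then t ^ 2 else 0) := by
      intro i
      by_cases hi : i = i0
      · subst hi; simp; ring
      · simp [hi]
    simp only [e1, sum_add_distrib, hw1, sum_ite_eq', mem_univ, if_true]
  have hall : ∀ t : ℝ, 0 ≤ 2 * t * (a - Q w * w i0) + t ^ 2 * (c - Q w) := by
    intro t
    have h1 := hlow (fun i => w i + t * (if i = i0 then 1 else 0))
    rw [hexp, hexp2] at h1
    linarith only [h1]
  by_contra hne
  have hne' : a - Q w * w i0 ≠ 0 := sub_ne_zero.2 hne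
  set u : ℝ := a - Q w * w i0 with hu
  set v : ℝ := c - Q w with hv
  have hpos : 0 < 1 + |v| := by (clear * -; positivity)
  have h1 := hall (-(u / (1 + |v|)))
  have h2 : 2 * -(u / (1 + |v|)) * u + (-(u / (1 + |v|))) ^ 2 * v
      = (u ^ 2 / (1 + |v|) ^ 2) * (v - 2 * (1 + |v|)) := by
    field_simp
    ring
  rw [h2] at h1
  have h3 : v - 2 * (1 + |v|) < 0 := by
    have := le_abs_self v
    have := abs_nonneg v
    (clear hM z hQ hQc hS hSb hSk hSn hwS hmin hw1 hhom hlow a ha hc hexp hexp2 hne u hne' hu hall hv h1 h2 this; linarith)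
  have h4 : 0 < u ^ 2 / (1 + |v|) ^ 2 := by (clear * - hne; positivity)
  have h5 := mul_neg_of_pos_of_neg h4 h3
  linarith only [h1, h5]

/-- `A D + C`, with `D` diagonal with a strict minimum at `z`, has for all large `A` a simple
ground vector `w`, with a gap, close to `e_z`; and `w x ≠ 0` when `C x z ≠ 0`. -/
theorem lin_core (D : ι → ℝ) (C : ι → ι → ℝ) (hC : ∀ i j, C i j = C j i) (z : ι)
    (hD : ∀ i, i ≠ z → D z < D i) :
    ∃ A0 : ℝ, ∀ A : ℝ, A0 ≤ A → ∃ (w : ι → ℝ) (l δ : ℝ), 0 < δ ∧ ∑ i, w i ^ 2 = 1 ∧ 0 < w z ∧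
      (∀ i, A * D i * w i + ∑ j, C i j * w j = l * w i) ∧
      (∀ b : ι → ℝ, l * (∑ i, b i ^ 2) + δ * ((∑ i, b i ^ 2) - (∑ i, w i * b i) ^ 2) ≤
        ∑ i, A * D i * b i ^ 2 + ∑ i, ∑ j, C i j * (b i * b j)) ∧
      ∀ x, x ≠ z → C x z ≠ 0 → w x ≠ 0 := by
  -- the constants
  obtain ⟨g, hg0, hg⟩ : ∃ g : ℝ, 0 < g ∧ ∀ i, i ≠ z → D z + g ≤ D i := by
    rcases (Finset.univ.erase z).eq_empty_or_nonempty with h | h
    · refine ⟨1, one_pos, fun i hi => ?_⟩
      have : i ∈ Finset.univ.erase z := Finset.mem_erase.2 ⟨hi, Finset.mem_univ i⟩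
      rw [h] at this
      exact absurd this (Finset.notMem_empty i)
    · obtain ⟨i0, hi0, hmin⟩ := Finset.exists_min_image _ (fun i => D i - D z) h
      refine ⟨D i0 - D z, sub_pos.2 (hD i0 (Finset.ne_of_mem_erase hi0)), fun i hi => ?_⟩
      have := hmin i (Finset.mem_erase.2 ⟨hi, Finset.mem_univ i⟩)
      linarith
  obtain ⟨m, hm0, hm⟩ : ∃ m : ℝ, 0 < m ∧ ∀ x, C x z ≠ 0 → m ≤ |C x z| := by
    rcases (Finset.univ.filter (fun x => C x z ≠ 0)).eq_empty_or_nonempty with h | h
    · refine ⟨1, one_pos, fun i hi => ?_⟩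
      have : i ∈ Finset.univ.filter (fun x => C x z ≠ 0) := by simp only [ne_eq, mem_filter, mem_univ, hi, not_false_eq_true, and_self]
      rw [h] at this
      exact absurd this (Finset.notMem_empty i)
    · obtain ⟨i0, hi0, hmin⟩ := Finset.exists_min_image _ (fun i => |C i z|) h
      refine ⟨|C i0 z|, abs_pos.2 (Finset.mem_filter.1 hi0).2, fun i hi => ?_⟩
      exact hmin i (by simp only [ne_eq, mem_filter, mem_univ, hi, not_false_eq_true, and_self])
  set K : ℝ := ∑ i, ∑ j, |C i j| with hK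
  have hK0 : 0 ≤ K := Finset.sum_nonneg fun i _ => Finset.sum_nonneg fun j _ => abs_nonneg _
  have hrow : ∀ i, ∑ j, |C i j| ≤ K := fun i =>
    Finset.single_le_sum (f := fun i => ∑ j, |C i j|)
      (fun i _ => Finset.sum_nonneg fun j _ => abs_nonneg _) (Finset.mem_univ i)
  have hKb : ∀ b : ι → ℝ, |∑ i, ∑ j, C i j * (b i * b j)| ≤ K * ∑ i, b i ^ 2 := by
    intro b
    calc |∑ i, ∑ j, C i j * (b i * b j)| ≤ ∑ i, |∑ j, C i j * (b i * b j)| :=
          Finset.abs_sum_le_sum_abs _ _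
      _ ≤ ∑ i, ∑ j, |C i j * (b i * b j)| :=
          Finset.sum_le_sum fun i _ => Finset.abs_sum_le_sum_abs _ _
      _ ≤ ∑ i, ∑ j, |C i j| * ∑ l, b l ^ 2 := by
          refine Finset.sum_le_sum fun i _ => Finset.sum_le_sum fun j _ => ?_
          rw [abs_mul]
          refine mul_le_mul_of_nonneg_left ?_ (abs_nonneg _)
          have h1 : b i ^ 2 ≤ ∑ l, b l ^ 2 :=
            Finset.single_le_sum (f := fun l => b l ^ 2) (fun l _ => sq_nonneg _)
              (Finset.mem_univ i)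
          have h2 : b j ^ 2 ≤ ∑ l, b l ^ 2 :=
            Finset.single_le_sum (f := fun l => b l ^ 2) (fun l _ => sq_nonneg _)
              (Finset.mem_univ j)
          rw [abs_le]
          constructor
          · nlinarith only [h1, h2]
          · nlinarith only [h1, h2]
      _ = K * ∑ i, b i ^ 2 := by
          rw [hK, Finset.sum_mul]
          exact Finset.sum_congr rfl fun i _ => by rw [Finset.sum_mul]
  set θ : ℝ := m / (2 * (K + 1)) with hθ
  have hθ0 : 0 < θ := by (clear * - hm0; positivity)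
  refine ⟨8 * K / g + 1 + 2 * K / (g * θ ^ 2), fun A hA => ?_⟩
  have hA1 : 8 * K / g + 1 ≤ A := by
    have : 0 ≤ 2 * K / (g * θ ^ 2) := by (clear * - hg0 hm0; positivity)
    linarith
  have hA2 : 2 * K / (g * θ ^ 2) ≤ A := by
    have : 0 ≤ 8 * K / g := by (clear * - hg0; positivity)
    linarith only [hA, this]
  have hA0 : 0 < A := by
    have : 0 ≤ 8 * K / g := by (clear * - hg0; positivity)
    linarith only [hA1, this]
  have hAg : 8 * K + g ≤ A * g := by
    have h1 := mul_le_mul_of_nonneg_right hA1 hg0.le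
    have h2 : (8 * K / g + 1) * g = 8 * K + g := by (clear * - hg0 hK0; field_simp)
    linarith only [h1, h2]
  have hAθ : 2 * K ≤ A * g * θ ^ 2 := by
    rw [div_le_iff₀ (by (clear * - hg0 hm0; positivity))] at hA2
    linarith only [hA2]
  -- the minimiser
  obtain ⟨w0, l, hw01, hw02, hlow0⟩ := lin_min
    (fun i j => (if i = j then A * D i else 0) + C i j) (by
      intro i j
      by_cases h : i = j
      · subst h; rfl
      · simp only [h, Ne.symm h, if_false]
        rw [hC i j]) z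
  have hQ : ∀ b : ι → ℝ, ∑ i, ∑ j, ((if i = j then A * D i else 0) + C i j) * (b i * b j)
      = ∑ i, A * D i * b i ^ 2 + ∑ i, ∑ j, C i j * (b i * b j) := by
    intro b
    rw [← Finset.sum_add_distrib]
    refine Finset.sum_congr rfl fun i _ => ?_
    simp only [add_mul, ite_mul, zero_mul, sum_add_distrib, sum_ite_eq, mem_univ, if_true]
    ring
  have hE : ∀ (w : ι → ℝ) (i : ι), ∑ j, ((if i = j then A * D i else 0) + C i j) * w j
      = A * D i * w i + ∑ j, C i j * w j := by
    intro w i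
    simp only [add_mul, Finset.sum_add_distrib, ite_mul, zero_mul, Finset.sum_ite_eq,
      Finset.mem_univ, if_true]
  simp only [hQ] at hlow0
  simp only [hE] at hw02
  -- choose the sign
  obtain ⟨w, hw1, hw2, hwz0⟩ : ∃ w : ι → ℝ, ∑ i, w i ^ 2 = 1 ∧
      (∀ i, A * D i * w i + ∑ j, C i j * w j = l * w i) ∧ 0 ≤ w z := by
    rcases le_total 0 (w0 z) with h | h
    · exact ⟨w0, hw01, hw02, h⟩
    · refine ⟨fun i => -w0 i, by simpa only [even_two, Even.neg_pow] using hw01, fun i => ?_, by simpa only [Left.nonneg_neg_iff] using h⟩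
      have h1 := hw02 i
      simp only [mul_neg, Finset.sum_neg_distrib]
      linarith only [h1]
  -- bounds for the form
  have hlb : ∀ b : ι → ℝ, A * D z * (∑ i, b i ^ 2) + A * g * ((∑ i, b i ^ 2) - b z ^ 2)
      - K * ∑ i, b i ^ 2 ≤ ∑ i, A * D i * b i ^ 2 + ∑ i, ∑ j, C i j * (b i * b j) := by
    intro b
    have h1 := (abs_le.1 (hKb b)).1
    have h2 : A * D z * (∑ i, b i ^ 2) + A * g * ((∑ i, b i ^ 2) - b z ^ 2)
        ≤ ∑ i, A * D i * b i ^ 2 := by
      have e1 : ∑ i, b i ^ 2 = b z ^ 2 + ∑ i ∈ Finset.univ.erase z, b i ^ 2 :=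
        (Finset.add_sum_erase _ _ (Finset.mem_univ z)).symm
      have e2 : ∑ i, A * D i * b i ^ 2
          = A * D z * b z ^ 2 + ∑ i ∈ Finset.univ.erase z, A * D i * b i ^ 2 :=
        (Finset.add_sum_erase _ (fun i => A * D i * b i ^ 2) (Finset.mem_univ z)).symm
      rw [e1, e2]
      have h3 : (A * D z + A * g) * ∑ i ∈ Finset.univ.erase z, b i ^ 2
          ≤ ∑ i ∈ Finset.univ.erase z, A * D i * b i ^ 2 := by
        rw [Finset.mul_sum]
        refine Finset.sum_le_sum fun i hi => mul_le_mul_of_nonneg_right ?_ (sq_nonneg _)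
        have := mul_le_mul_of_nonneg_left (hg i (Finset.ne_of_mem_erase hi)) hA0.le
        linarith only [this]
      linarith only [h3]
    linarith only [h1, h2]
  -- the value at `w`
  have hform : ∀ v : ι → ℝ, ∑ i, (A * D i * w i + ∑ j, C i j * w j) * v i
      = l * ∑ i, w i * v i := by
    intro v
    rw [Finset.mul_sum]
    exact Finset.sum_congr rfl fun i _ => by rw [hw2 i, mul_assoc]
  have hQw : ∑ i, A * D i * w i ^ 2 + ∑ i, ∑ j, C i j * (w i * w j) = l := by
    have h1 := hform w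
    have h2 : ∑ i, w i * w i = 1 := by rw [← hw1]; exact Finset.sum_congr rfl fun i _ => by ring
    rw [h2, mul_one] at h1
    rw [← h1, ← Finset.sum_add_distrib]
    refine Finset.sum_congr rfl fun i _ => ?_
    rw [add_mul, Finset.sum_mul]
    congr 1
    · ring
    · exact Finset.sum_congr rfl fun j _ => by ring
  have hl : l ≤ A * D z + K := by
    have h1 := hlow0 (fun i => if i = z then 1 else 0)
    have h2 : ∑ i, (if i = z then (1 : ℝ) else 0) ^ 2 = 1 := by simp only [ite_pow, one_pow, ne_eq, OfNat.ofNat_ne_zero, not_false_eq_true, zero_pow, sum_ite_eq', mem_univ, ↓reduceIte]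
    have h3 : ∑ i, A * D i * (if i = z then (1 : ℝ) else 0) ^ 2 = A * D z := by simp only [ite_pow, one_pow, ne_eq, OfNat.ofNat_ne_zero, not_false_eq_true, zero_pow, mul_ite, mul_one, mul_zero, sum_ite_eq', mem_univ, ↓reduceIte]
    have h4 := (abs_le.1 (hKb (fun i => if i = z then 1 else 0))).2
    rw [h2, mul_one] at h4
    rw [h2, h3, mul_one] at h1
    linarith only [h1, h4]
  have hη : A * g * (1 - w z ^ 2) ≤ 2 * K := by
    have h1 := hlb w
    rw [hQw, hw1] at h1
    linarith only [hl, h1]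
  have hAg0 : 0 < A * g := mul_pos hA0 hg0
  have hwz2 : 3 / 4 ≤ w z ^ 2 := by
    by_contra hcon
    have h1 : 1 / 4 < 1 - w z ^ 2 := by linarith only [hcon]
    have h2 : A * g * (1 / 4) < A * g * (1 - w z ^ 2) := mul_lt_mul_of_pos_left h1 hAg0
    linarith only [hg0, hAg, hη, h2]
  have hwzh : 1 / 2 ≤ w z := by nlinarith only [hwz2, hwz0]
  have hwz1 : w z ^ 2 ≤ 1 := by
    rw [← hw1]
    exact Finset.single_le_sum (f := fun i => w i ^ 2) (fun i _ => sq_nonneg _)
      (Finset.mem_univ z)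
  -- orthogonal vectors
  have horth : ∀ v : ι → ℝ, ∑ i, w i * v i = 0 → v z ^ 2 ≤ (1 - w z ^ 2) * ∑ i, v i ^ 2 := by
    intro v hv
    have h1 := Finset.sum_mul_sq_le_sq_mul_sq Finset.univ
      (fun i => (if i = z then (1 : ℝ) else 0) - w z * w i) v
    have h2 : ∑ i, ((if i = z then (1 : ℝ) else 0) - w z * w i) * v i = v z := by
      simp only [sub_mul, ite_mul, one_mul, zero_mul, sum_sub_distrib, sum_ite_eq', mem_univ, if_true]
      have : ∑ i, w z * w i * v i = w z * ∑ i, w i * v i := by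
        rw [Finset.mul_sum]
        exact Finset.sum_congr rfl fun i _ => by ring
      rw [this, hv, mul_zero, sub_zero]
    have h3 : ∑ i, ((if i = z then (1 : ℝ) else 0) - w z * w i) ^ 2 = 1 - w z ^ 2 := by
      have e : ∀ i, ((if i = z then (1 : ℝ) else 0) - w z * w i) ^ 2
          = (if i = z then 1 - 2 * w z * w z else 0) + w z ^ 2 * w i ^ 2 := by
        intro i
        by_cases hi : i = z
        · subst hi; simp; ring
        · simp only [hi, ↓reduceIte, zero_sub, even_two, Even.neg_pow, zero_add]; ring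
      simp only [e, Finset.sum_add_distrib, Finset.sum_ite_eq', Finset.mem_univ, if_true]
      rw [← Finset.mul_sum, hw1]
      ring
    rw [h2, h3] at h1
    exact h1
  refine ⟨w, l, 3 / 4 * (A * g) - 2 * K, by linarith only [hg0, hK0, hAg], hw1, by linarith only [hwzh], hw2, ?_, ?_⟩
  · intro b
    set s : ℝ := ∑ i, w i * b i with hs
    set v : ι → ℝ := fun i => b i - s * w i with hv
    have hv0 : ∑ i, w i * v i = 0 := by
      have : ∑ i, w i * v i = ∑ i, w i * b i - s * ∑ i, w i ^ 2 := by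
        rw [Finset.mul_sum, ← Finset.sum_sub_distrib]
        exact Finset.sum_congr rfl fun i _ => by simp only [hv]; ring
      rw [this, hw1, ← hs]
      ring
    have hv2 : ∑ i, v i ^ 2 = (∑ i, b i ^ 2) - s ^ 2 := by
      have e : ∀ i, v i ^ 2 = b i ^ 2 - (2 * s) * (w i * b i) + s ^ 2 * w i ^ 2 := fun i => by
        simp only [hv]; ring
      rw [Finset.sum_congr rfl fun i _ => e i, Finset.sum_add_distrib, Finset.sum_sub_distrib,
        ← Finset.mul_sum, ← Finset.mul_sum, hw1, ← hs]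
      ring
    have hQb : ∑ i, A * D i * b i ^ 2 + ∑ i, ∑ j, C i j * (b i * b j)
        = l * s ^ 2 + (∑ i, A * D i * v i ^ 2 + ∑ i, ∑ j, C i j * (v i * v j)) := by
      have hb : ∀ i, b i = s * w i + v i := fun i => by simp only [hv]; ring
      have h1 := hform v
      rw [hv0, mul_zero] at h1
      have e1 : ∑ i, A * D i * b i ^ 2 = s ^ 2 * ∑ i, A * D i * w i ^ 2
          + 2 * s * ∑ i, A * D i * w i * v i + ∑ i, A * D i * v i ^ 2 := by
        rw [Finset.mul_sum, Finset.mul_sum, ← Finset.sum_add_distrib, ← Finset.sum_add_distrib]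
        exact Finset.sum_congr rfl fun i _ => by rw [hb i]; ring
      have e2 : ∑ i, ∑ j, C i j * (b i * b j) = s ^ 2 * ∑ i, ∑ j, C i j * (w i * w j)
          + s * ∑ i, ∑ j, C i j * (w i * v j) + s * ∑ i, ∑ j, C i j * (v i * w j)
          + ∑ i, ∑ j, C i j * (v i * v j) := by
        simp only [mul_sum]
        simp only [← sum_add_distrib]
        exact Finset.sum_congr rfl fun i _ => Finset.sum_congr rfl fun j _ => by
          rw [hb i, hb j]; ring
      have e3 : ∑ i, ∑ j, C i j * (w i * v j) = ∑ i, ∑ j, C i j * (v i * w j) := by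
        rw [Finset.sum_comm]
        exact Finset.sum_congr rfl fun i _ => Finset.sum_congr rfl fun j _ => by
          rw [hC j i]; ring
      have e4 : ∑ i, A * D i * w i * v i + ∑ i, ∑ j, C i j * (v i * w j) = 0 := by
        rw [← h1, ← Finset.sum_add_distrib]
        refine Finset.sum_congr rfl fun i _ => ?_
        rw [add_mul, Finset.sum_mul]
        congr 1
        exact Finset.sum_congr rfl fun j _ => by ring
      rw [e1, e2, e3, ← hQw]
      linear_combination (2 * s) * e4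
    have h1 := hlb v
    have h2 := horth v hv0
    have hvn : 0 ≤ ∑ i, v i ^ 2 := Finset.sum_nonneg fun i _ => sq_nonneg _
    have h3 : v z ^ 2 ≤ 1 / 4 * ∑ i, v i ^ 2 :=
      h2.trans (mul_le_mul_of_nonneg_right (by linarith only [hwz2]) hvn)
    have h4 : A * g * (3 / 4 * ∑ i, v i ^ 2) ≤ A * g * ((∑ i, v i ^ 2) - v z ^ 2) :=
      mul_le_mul_of_nonneg_left (by linarith only [h3]) hAg0.le
    have h5 : l * ∑ i, v i ^ 2 ≤ (A * D z + K) * ∑ i, v i ^ 2 :=
      mul_le_mul_of_nonneg_right hl hvn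
    rw [hQb, ← hv2]
    have h6 : ∑ i, b i ^ 2 = (∑ i, v i ^ 2) + s ^ 2 := by linarith only [hv2]
    rw [h6]
    linarith only [h1, h4, h5]
  · intro x hx hCx hwx
    have h1 := hw2 x
    rw [hwx, mul_zero, mul_zero, zero_add] at h1
    have hsm : ∀ j, j ≠ z → |w j| ≤ θ := by
      intro j hj
      have h2 : w j ^ 2 + w z ^ 2 ≤ 1 := by
        rw [← hw1]
        have h3 := Finset.sum_le_sum_of_subset_of_nonneg (s := {j, z}) (t := Finset.univ)
          (f := fun i => w i ^ 2) (Finset.subset_univ _) (fun i _ _ => sq_nonneg _)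
        rw [Finset.sum_pair hj] at h3
        exact h3
      have h3 : w j ^ 2 ≤ θ ^ 2 := by
        by_contra hcon
        have h4 : θ ^ 2 < 1 - w z ^ 2 := by linarith only [h2, hcon]
        have h5 : A * g * θ ^ 2 < A * g * (1 - w z ^ 2) := mul_lt_mul_of_pos_left h4 hAg0
        linarith only [hAθ, hη, h5]
      exact abs_le_of_sq_le_sq h3 hθ0.le
    rw [← Finset.add_sum_erase _ _ (Finset.mem_univ z)] at h1
    have h2 : |∑ j ∈ Finset.univ.erase z, C x j * w j| ≤ K * θ := by
      calc |∑ j ∈ Finset.univ.erase z, C x j * w j|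
          ≤ ∑ j ∈ Finset.univ.erase z, |C x j * w j| := Finset.abs_sum_le_sum_abs _ _
        _ ≤ ∑ j ∈ Finset.univ.erase z, |C x j| * θ := by
            refine Finset.sum_le_sum fun j hj => ?_
            rw [abs_mul]
            exact mul_le_mul_of_nonneg_left (hsm j (Finset.ne_of_mem_erase hj)) (abs_nonneg _)
        _ ≤ ∑ j, |C x j| * θ :=
            Finset.sum_le_sum_of_subset_of_nonneg (Finset.erase_subset _ _)
              fun j _ _ => mul_nonneg (abs_nonneg _) hθ0.le
        _ = (∑ j, |C x j|) * θ := by rw [Finset.sum_mul]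
        _ ≤ K * θ := mul_le_mul_of_nonneg_right (hrow x) hθ0.le
    have h3 : |C x z * w z| ≤ K * θ := by
      have e : C x z * w z = -∑ j ∈ Finset.univ.erase z, C x j * w j := by linarith only [h1]
      rw [e, abs_neg]
      exact h2
    rw [abs_mul, abs_of_nonneg hwz0] at h3
    have h4 : m * (1 / 2) ≤ |C x z| * w z :=
      mul_le_mul (hm x hCx) hwzh (by norm_num) (abs_nonneg _)
    have h5 : K * θ < m * (1 / 2) := by
      rw [hθ, mul_div_assoc', div_lt_iff₀ (by (clear * -; positivity))]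
      nlinarith only [hm0]
    linarith only [h3, h4, h5]

end Vale.Agent.P363.D
end
end

section

/-!
Working versions of the energy functional (with `fderiv`), and the bridge to the statement-level
definitions.
-/

namespace Vale.Agent.P370

open MeasureTheory

noncomputable def normSq {N : ℕ} (ψ : Wave N) : ℝ := ∑ s, ∫ x, ‖ψ x s‖ ^ 2

noncomputable def kinetic {N : ℕ} (ψ : Wave N) : ℝ :=
  (1 / 2) * ∑ s, ∑ i, ∑ k : Fin 3,
    ∫ x, ‖fderiv ℝ (fun y => ψ y s) x (Pi.single i (EuclideanSpace.single k 1))‖ ^ 2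

end Vale.Agent.P370
end

section

/-!
P370, QMA-hardness: all definitions of the construction (no proofs of substance here).
-/

namespace Vale.Agent.P370.Q

open MeasureTheory Finset ComplexConjugate

/-! ### finite antisymmetric tensors -/

/-! ### hydrogenic shells -/

abbrev Poly3 : Type := MvPolynomial (Fin 3) ℝ

/-- value of a polynomial at a point of space -/
noncomputable def pe (P : Poly3) (x : R3) : ℝ := MvPolynomial.eval (fun i => x i) P

noncomputable def expPoly (κ : ℝ) (P Q : Poly3) : R3 → ℝ :=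
  fun x => (pe P x + ‖x‖ * pe Q x) * Real.exp (-(κ * ‖x‖))

/-- Laplacian of a polynomial -/
noncomputable def lap (P : Poly3) : Poly3 :=
  ∑ i, MvPolynomial.pderiv i (MvPolynomial.pderiv i P)

/-- Euler operator `∑ x_i ∂_i` -/
noncomputable def eul (P : Poly3) : Poly3 :=
  ∑ i, MvPolynomial.X i * MvPolynomial.pderiv i P

noncomputable def rsq : Poly3 := ∑ i, MvPolynomial.X i ^ 2

/-- `T (P + r Q) = r (-Δ/2 + κ²/2) ((P + r Q) exp (-κ r)) exp (κ r)`: polynomial part -/
noncomputable def TP (κ : ℝ) (P Q : Poly3) : Poly3 :=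
  MvPolynomial.C κ * (eul P + P) - (eul Q + Q) - MvPolynomial.C (1 / 2) * rsq * lap Q

/-- `T (P + r Q)`: coefficient of `r` -/
noncomputable def TQ (κ : ℝ) (P Q : Poly3) : Poly3 :=
  MvPolynomial.C κ * (eul Q + 2 * Q) - MvPolynomial.C (1 / 2) * lap P

/-- degree bounds of the space `E_n` -/
def DegLe (n : ℕ) (P Q : Poly3) : Prop :=
  P.totalDegree + 1 ≤ n ∧ (Q = 0 ∨ Q.totalDegree + 2 ≤ n)

/-- `φ` belongs to the `n`-th hydrogenic shell -/
def IsShell (n : ℕ) (φ : R3 → ℝ) : Prop :=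
  ∃ P Q : Poly3, DegLe n P Q ∧ TP (1 / n) P Q = P ∧ TQ (1 / n) P Q = Q ∧
    φ = expPoly (1 / n) P Q

noncomputable def ov (f g : R3 → ℝ) : ℝ := ∫ x, f x * g x

/-- orthonormal bases of the shells `1, ..., n` -/
structure ShellBasis (n : ℕ) (A : Type) [Fintype A] [DecidableEq A] where
  χ : A → R3 → ℝ
  lev : A → ℕ
  lev_pos : ∀ a, 1 ≤ lev a
  lev_le : ∀ a, lev a ≤ n
  mem : ∀ a, IsShell (lev a) (χ a)
  ortho : ∀ a b, ov (χ a) (χ b) = if a = b then 1 else 0
  card : ∀ k, 1 ≤ k → k ≤ n → (univ.filter (fun a => lev a = k)).card = k ^ 2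

/-- Class of functions in which integration by parts is free: `C¹` off the origin, the value
and the gradient decay exponentially. -/
structure Nice (f : R3 → ℝ) : Prop where
  cont : Continuous f
  smooth : ContDiffOn ℝ 1 f {0}ᶜ
  bound : ∃ C c : ℝ, 0 < c ∧ ∀ x, x ≠ 0 → |f x| ≤ C * Real.exp (-(c * ‖x‖)) ∧
    ‖fderiv ℝ f x‖ ≤ C * Real.exp (-(c * ‖x‖))

/-- partial derivative -/
noncomputable def pd (k : Fin 3) (f : R3 → ℝ) (x : R3) : ℝ :=
  fderiv ℝ f x (EuclideanSpace.single k 1)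

/-- Dirichlet form -/
noncomputable def dir (f g : R3 → ℝ) : ℝ := ∫ x, ∑ k, pd k f x * pd k g x

/-- form of `1/r` -/
noncomputable def rinv (f g : R3 → ℝ) : ℝ := ∫ x, f x * g x / ‖x‖

/-! ### N-body -/

/-! ### sphere averages and null vectors -/

/-- point of the unit sphere with spherical coordinates `θ`, `φ` -/
noncomputable def sp (θ φ : ℝ) : R3 :=
  WithLp.toLp 2 ![Real.sin θ * Real.cos φ, Real.sin θ * Real.sin φ, Real.cos θ]

/-- average over the unit sphere -/
noncomputable def sph {E : Type} [NormedAddCommGroup E] [NormedSpace ℝ E] (f : R3 → E) : E :=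
  (1 / (4 * Real.pi)) • ∫ θ in (0 : ℝ)..Real.pi, ∫ φ in (0 : ℝ)..(2 * Real.pi),
    Real.sin θ • f (sp θ φ)

/-! ### the top subspace and the devices -/

/-! ### parameters -/

end Vale.Agent.P370.Q
end

section

/-!
Functions `(P + ‖x‖ Q) exp (-κ ‖x‖)` on `ℝ³` with polynomials `P`, `Q`, and the operator
`‖x‖ (-Δ/2 + κ²/2)` on them.
-/

namespace Vale.Agent.P370.Hyd

open MeasureTheory Filter Topology MvPolynomial

abbrev R3 : Type := EuclideanSpace ℝ (Fin 3)

/-- polynomials in three variables -/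
abbrev Pl : Type := MvPolynomial (Fin 3) ℝ

/-- evaluation -/
noncomputable def ev (P : Pl) (x : R3) : ℝ := MvPolynomial.eval (fun i => x i) P

/-- the coordinate vector -/
noncomputable def ei (i : Fin 3) : R3 := EuclideanSpace.single i 1

theorem ei_apply (i j : Fin 3) : ei i j = if j = i then 1 else 0 := by
  simp [ei]

theorem ev_add (P Q : Pl) (x : R3) : ev (P + Q) x = ev P x + ev Q x := by simp [ev]

theorem ev_mul (P Q : Pl) (x : R3) : ev (P * Q) x = ev P x * ev Q x := by simp [ev]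

theorem ev_C (a : ℝ) (x : R3) : ev (C a) x = a := by simp [ev]

theorem ev_X (i : Fin 3) (x : R3) : ev (X i) x = x i := by simp [ev]

theorem continuous_ev (P : Pl) : Continuous (ev P) := by
  unfold ev
  exact (MvPolynomial.continuous_eval P).comp (by fun_prop)

theorem hasDerivAt_ev (P : Pl) (i : Fin 3) (x : R3) :
    HasDerivAt (fun t : ℝ => ev P (x + t • ei i)) (ev (pderiv i P) x) 0 := by
  induction P using MvPolynomial.induction_on with
  | C a =>
    simp only [ev_C, pderiv_C]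
    simpa [ev] using hasDerivAt_const (0 : ℝ) a
  | add P Q hP hQ =>
    simp only [ev_add, map_add]
    exact hP.add hQ
  | mul_X P j hP =>
    have h2 : ∀ t : ℝ, ev (P * X j) (x + t • ei i)
        = ev P (x + t • ei i) * (x j + t * (if j = i then 1 else 0)) := by
      intro t
      rw [ev_mul, ev_X, PiLp.add_apply, PiLp.smul_apply, ei_apply, smul_eq_mul]
    have h1 : HasDerivAt (fun t : ℝ => x j + t * (if j = i then (1 : ℝ) else 0))
        (if j = i then (1 : ℝ) else 0) 0 := by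
      have h3 := ((hasDerivAt_id (0 : ℝ)).mul_const (if j = i then (1 : ℝ) else 0)).const_add (x j)
      exact h3.congr_deriv (one_mul _)
    have h4 := hP.mul h1
    have h5 : HasDerivAt (fun t : ℝ => ev (P * X j) (x + t • ei i))
        (ev (pderiv i P) x * (x j + 0 * (if j = i then (1 : ℝ) else 0))
          + ev P (x + (0 : ℝ) • ei i) * (if j = i then (1 : ℝ) else 0)) 0 :=
      h4.congr_of_eventuallyEq (Eventually.of_forall h2)
    refine h5.congr_deriv ?_
    rw [zero_smul, add_zero, zero_mul, add_zero, Derivation.leibniz, pderiv_X, Pi.single_apply,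
      ev_add, smul_eq_mul, smul_eq_mul, ev_mul, ev_mul, ev_X]
    by_cases h : j = i
    · subst h
      simp [ev]
      ring
    · rw [if_neg h, if_neg h]
      simp [ev]
      ring

theorem norm_add_smul_sq (i : Fin 3) (x : R3) (t : ℝ) :
    ‖x + t • ei i‖ ^ 2 = ‖x‖ ^ 2 + 2 * t * x i + t ^ 2 := by
  have h := norm_add_sq_real x (t • ei i)
  rw [h, real_inner_smul_right, norm_smul]
  have h1 : inner ℝ x (ei i) = x i := by
    simp [ei, PiLp.inner_apply]
  have h2 : ‖ei i‖ = 1 := by simp [ei]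
  rw [h1, h2, mul_one, Real.norm_eq_abs, sq_abs]
  ring

theorem hasDerivAt_norm (i : Fin 3) (x : R3) (hx : x ≠ 0) :
    HasDerivAt (fun t : ℝ => ‖x + t • ei i‖) (x i / ‖x‖) 0 := by
  have hx0 : 0 < ‖x‖ := norm_pos_iff.2 hx
  have e : (fun t : ℝ => ‖x + t • ei i‖)
      = fun t : ℝ => Real.sqrt (‖x‖ ^ 2 + 2 * t * x i + t ^ 2) := by
    funext t
    rw [← norm_add_smul_sq, Real.sqrt_sq (norm_nonneg _)]
  rw [e]
  have h1 : HasDerivAt (fun t : ℝ => ‖x‖ ^ 2 + 2 * t * x i + t ^ 2) (2 * x i) 0 := by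
    have h2 := (((hasDerivAt_id (0 : ℝ)).const_mul 2).mul_const (x i)).const_add (‖x‖ ^ 2)
    have h3 := (hasDerivAt_pow 2 (0 : ℝ))
    exact (h2.add h3).congr_deriv (by simp)
  have h5 := h1.sqrt (by simp; exact hx)
  refine h5.congr_deriv ?_
  have e2 : Real.sqrt (‖x‖ ^ 2 + 2 * 0 * x i + 0 ^ 2) = ‖x‖ := by
    rw [mul_zero, zero_mul, add_zero, zero_pow two_ne_zero, add_zero, Real.sqrt_sq hx0.le]
  rw [e2]
  field_simp

/-- the function `(P + ‖x‖ Q) exp (-κ ‖x‖)` -/
noncomputable def xp (κ : ℝ) (P Q : Pl) (x : R3) : ℝ :=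
  (ev P x + ‖x‖ * ev Q x) * Real.exp (-κ * ‖x‖)

/-- its partial derivatives (away from the origin) -/
noncomputable def xpd (κ : ℝ) (P Q : Pl) (i : Fin 3) (x : R3) : ℝ :=
  (ev (pderiv i P) x + (x i / ‖x‖) * ev Q x + ‖x‖ * ev (pderiv i Q) x
    - κ * (x i / ‖x‖) * (ev P x + ‖x‖ * ev Q x)) * Real.exp (-κ * ‖x‖)

/-- its second partial derivatives (away from the origin) -/
noncomputable def xpdd (κ : ℝ) (P Q : Pl) (i : Fin 3) (x : R3) : ℝ :=
  (ev (pderiv i (pderiv i P)) x + ((1 - (x i / ‖x‖) ^ 2) / ‖x‖) * ev Q x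
    + 2 * (x i / ‖x‖) * ev (pderiv i Q) x + ‖x‖ * ev (pderiv i (pderiv i Q)) x
    - κ * ((1 - (x i / ‖x‖) ^ 2) / ‖x‖) * (ev P x + ‖x‖ * ev Q x)
    - 2 * κ * (x i / ‖x‖) * (ev (pderiv i P) x + (x i / ‖x‖) * ev Q x + ‖x‖ * ev (pderiv i Q) x)
    + κ ^ 2 * (x i / ‖x‖) ^ 2 * (ev P x + ‖x‖ * ev Q x)) * Real.exp (-κ * ‖x‖)

theorem hasDerivAt_xp (κ : ℝ) (P Q : Pl) (i : Fin 3) (x : R3) (hx : x ≠ 0) :
    HasDerivAt (fun t : ℝ => xp κ P Q (x + t • ei i)) (xpd κ P Q i x) 0 := by
  have hr := hasDerivAt_norm i x hx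
  have hP := hasDerivAt_ev P i x
  have hQ := hasDerivAt_ev Q i x
  have hE := (hr.const_mul (-κ)).exp
  have h := (hP.add (hr.mul hQ)).mul hE
  refine h.congr_deriv ?_
  simp only [Pi.add_apply, Pi.mul_apply, zero_smul, add_zero]
  have hx0 : ‖x‖ ≠ 0 := norm_ne_zero_iff.2 hx
  unfold xpd
  ring

theorem hasDerivAt_xpd (κ : ℝ) (P Q : Pl) (i : Fin 3) (x : R3) (hx : x ≠ 0) :
    HasDerivAt (fun t : ℝ => xpd κ P Q i (x + t • ei i)) (xpdd κ P Q i x) 0 := by
  have hx0 : ‖x‖ ≠ 0 := norm_ne_zero_iff.2 hx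
  have hr := hasDerivAt_norm i x hx
  have hP := hasDerivAt_ev P i x
  have hQ := hasDerivAt_ev Q i x
  have hP' := hasDerivAt_ev (pderiv i P) i x
  have hQ' := hasDerivAt_ev (pderiv i Q) i x
  have hE := (hr.const_mul (-κ)).exp
  have hc : HasDerivAt (fun t : ℝ => (x + t • ei i) i) 1 0 := by
    have h1 := hasDerivAt_ev (X i) i x
    simp only [ev_X, pderiv_X_self] at h1
    simpa [ev] using h1
  have hs : HasDerivAt (fun t : ℝ => (x + t • ei i) i / ‖x + t • ei i‖)
      ((1 - (x i / ‖x‖) ^ 2) / ‖x‖) 0 := by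
    have h1 := hc.div hr (by simpa using hx)
    simp only [zero_smul, add_zero] at h1
    refine h1.congr_deriv ?_
    field_simp
  have h := (((hP'.add (hs.mul hQ)).add (hr.mul hQ')).sub
    ((hs.const_mul κ).mul (hP.add (hr.mul hQ)))).mul hE
  refine h.congr_deriv ?_
  simp only [Pi.add_apply, Pi.mul_apply, Pi.sub_apply, zero_smul, add_zero]
  unfold xpdd
  ring

/-- Laplacian of a polynomial -/
noncomputable def lapP (P : Pl) : Pl := ∑ i, pderiv i (pderiv i P)

/-- Euler operator -/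
noncomputable def eul (P : Pl) : Pl := ∑ i, X i * pderiv i P

/-- `|x|²` -/
noncomputable def nsq : Pl := ∑ i : Fin 3, X i ^ 2

theorem ev_nsq (x : R3) : ev nsq x = ‖x‖ ^ 2 := by
  unfold nsq ev
  rw [EuclideanSpace.norm_sq_eq, map_sum]
  simp

/-- the polynomial part of `‖x‖ (-Δ/2 + κ²/2)` -/
noncomputable def TP (κ : ℝ) (P Q : Pl) : Pl :=
  C κ * (eul P + P) - (eul Q + Q) - C (1 / 2) * (nsq * lapP Q)

/-- the `‖x‖`-part of `‖x‖ (-Δ/2 + κ²/2)` -/
noncomputable def TQ (κ : ℝ) (P Q : Pl) : Pl :=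
  C κ * (eul Q + C 2 * Q) - C (1 / 2) * lapP P

theorem lap_xp (κ : ℝ) (P Q : Pl) (x : R3) (hx : x ≠ 0) :
    ‖x‖ * (-(1 / 2) * ∑ i, xpdd κ P Q i x + κ ^ 2 / 2 * xp κ P Q x)
      = xp κ (TP κ P Q) (TQ κ P Q) x := by
  have hr : ‖x‖ ≠ 0 := norm_ne_zero_iff.2 hx
  have hsum : x 0 ^ 2 + x 1 ^ 2 + x 2 ^ 2 = ‖x‖ ^ 2 := by
    rw [EuclideanSpace.norm_sq_eq, Fin.sum_univ_three]
    simp
  have h3 : (x 0 / ‖x‖) ^ 2 + (x 1 / ‖x‖) ^ 2 + (x 2 / ‖x‖) ^ 2 = 1 := by
    rw [div_pow, div_pow, div_pow, ← add_div, ← add_div, hsum]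
    exact div_self (pow_ne_zero 2 hr)
  obtain ⟨a, ha⟩ : ∃ a, a = x 0 / ‖x‖ := ⟨_, rfl⟩
  obtain ⟨b, hb⟩ : ∃ b, b = x 1 / ‖x‖ := ⟨_, rfl⟩
  obtain ⟨c, hc⟩ : ∃ c, c = x 2 / ‖x‖ := ⟨_, rfl⟩
  have hx0 : x 0 = a * ‖x‖ := by rw [ha]; field_simp
  have hx1 : x 1 = b * ‖x‖ := by rw [hb]; field_simp
  have hx2 : x 2 = c * ‖x‖ := by rw [hc]; field_simp
  have e1 : ev (TP κ P Q) x = κ * (x 0 * ev (pderiv 0 P) x + x 1 * ev (pderiv 1 P) x
      + x 2 * ev (pderiv 2 P) x + ev P x) - (x 0 * ev (pderiv 0 Q) x + x 1 * ev (pderiv 1 Q) x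
      + x 2 * ev (pderiv 2 Q) x + ev Q x) - (1 / 2) * (‖x‖ ^ 2 * (ev (pderiv 0 (pderiv 0 Q)) x
      + ev (pderiv 1 (pderiv 1 Q)) x + ev (pderiv 2 (pderiv 2 Q)) x)) := by
    have := ev_nsq x
    unfold TP eul lapP
    simp only [Fin.sum_univ_three]
    unfold ev at this ⊢
    simp only [map_sub, map_add, map_mul, MvPolynomial.eval_C, MvPolynomial.eval_X, this]
  have e2 : ev (TQ κ P Q) x = κ * (x 0 * ev (pderiv 0 Q) x + x 1 * ev (pderiv 1 Q) x
      + x 2 * ev (pderiv 2 Q) x + 2 * ev Q x) - (1 / 2) * (ev (pderiv 0 (pderiv 0 P)) x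
      + ev (pderiv 1 (pderiv 1 P)) x + ev (pderiv 2 (pderiv 2 P)) x) := by
    unfold TQ eul lapP
    simp only [Fin.sum_univ_three]
    unfold ev
    simp only [map_sub, map_add, map_mul, MvPolynomial.eval_C, MvPolynomial.eval_X]
  unfold xp
  rw [e1, e2]
  simp only [Fin.sum_univ_three]
  unfold xpdd
  rw [← ha, ← hb, ← hc, hx0, hx1, hx2]
  have habc : a ^ 2 + b ^ 2 + c ^ 2 = 1 := by
    rw [ha, hb, hc]
    exact h3
  have hc2 : c ^ 2 = 1 - a ^ 2 - b ^ 2 := by linarith
  generalize ‖x‖ = r at hr ⊢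
  field_simp
  ring_nf
  simp only [hc2]
  ring

end Vale.Agent.P370.Hyd
end

section

/-!
Degree filtration and the operator `‖x‖ (-Δ/2 + κ²/2)` on pairs of polynomials.
-/

namespace Vale.Agent.P370.Hyd

open MvPolynomial

/-- polynomials of degree `< N` -/
noncomputable def lt (N : ℕ) : Submodule ℝ Pl where
  carrier := {P | ∀ d : Fin 3 →₀ ℕ, N ≤ d.degree → coeff d P = 0}
  add_mem' hP hQ d hd := by rw [coeff_add, hP d hd, hQ d hd, add_zero]
  zero_mem' d _ := coeff_zero d
  smul_mem' c P hP d hd := by rw [coeff_smul, hP d hd, smul_zero]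

theorem lt_mono {N M : ℕ} (h : N ≤ M) : lt N ≤ lt M := fun _ hP d hd => hP d (h.trans hd)

theorem monomial_mem_lt {N : ℕ} {d : Fin 3 →₀ ℕ} (h : d.degree < N) (c : ℝ) :
    (monomial d c : Pl) ∈ lt N := by
  intro e he
  rw [coeff_monomial, if_neg]
  rintro rfl
  omega

/-- linear conditions on `lt N` may be checked on monomials -/
theorem lt_induction {N : ℕ} {S : Submodule ℝ Pl} (f : Pl →ₗ[ℝ] Pl)
    (h : ∀ (d : Fin 3 →₀ ℕ) (c : ℝ), d.degree < N → f (monomial d c) ∈ S) {P : Pl}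
    (hP : P ∈ lt N) : f P ∈ S := by
  rw [P.as_sum, map_sum]
  refine Submodule.sum_mem _ fun d hd => h d _ ?_
  by_contra hcon
  exact (mem_support_iff.1 hd) (hP d (by omega))

theorem degree_sub_single {d : Fin 3 →₀ ℕ} {i : Fin 3} (h : d i ≠ 0) :
    (d - Finsupp.single i 1).degree + 1 = d.degree := by
  have h1 : Finsupp.single i 1 ≤ d := by
    rw [Finsupp.single_le_iff]
    omega
  conv_rhs => rw [← tsub_add_cancel_of_le h1]
  rw [map_add, Finsupp.degree_single]

theorem pderiv_mem_lt {N : ℕ} (i : Fin 3) {P : Pl} (hP : P ∈ lt (N + 1)) :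
    pderiv i P ∈ lt N := by
  refine lt_induction ((pderiv i : Derivation ℝ Pl Pl) : Pl →ₗ[ℝ] Pl) (fun d c hd => ?_) hP
  show pderiv i (monomial d c) ∈ lt N
  rw [pderiv_monomial]
  by_cases h : d i = 0
  · rw [h, Nat.cast_zero, mul_zero, monomial_zero]
    exact Submodule.zero_mem _
  · refine monomial_mem_lt ?_ _
    have := degree_sub_single h
    omega

theorem lt_zero {P : Pl} (hP : P ∈ lt 0) : P = 0 := by
  ext d
  rw [hP d (Nat.zero_le _), coeff_zero]

theorem pderiv_lt_zero (i : Fin 3) {P : Pl} (hP : P ∈ lt 1) : pderiv i P = 0 :=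
  lt_zero (pderiv_mem_lt i hP)

theorem X_mul_mem_lt {N : ℕ} (i : Fin 3) {P : Pl} (hP : P ∈ lt N) : X i * P ∈ lt (N + 1) := by
  refine lt_induction (LinearMap.mulLeft ℝ (X i : Pl)) (fun d c hd => ?_) hP
  show X i * monomial d c ∈ lt (N + 1)
  rw [X, monomial_mul]
  refine monomial_mem_lt ?_ _
  rw [map_add, Finsupp.degree_single]
  omega

theorem C_mul_mem_lt {N : ℕ} (a : ℝ) {P : Pl} (hP : P ∈ lt N) : C a * P ∈ lt N := by
  rw [← smul_eq_C_mul]
  exact Submodule.smul_mem _ _ hP

theorem nsq_mul_mem_lt {N : ℕ} {P : Pl} (hP : P ∈ lt N) : nsq * P ∈ lt (N + 2) := by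
  unfold nsq
  rw [Finset.sum_mul]
  refine Submodule.sum_mem _ fun i _ => ?_
  rw [pow_two, mul_assoc]
  exact X_mul_mem_lt i (X_mul_mem_lt i hP)

theorem lapP_mem_lt {N : ℕ} {P : Pl} (hP : P ∈ lt (N + 2)) : lapP P ∈ lt N :=
  Submodule.sum_mem _ fun i _ => pderiv_mem_lt i (pderiv_mem_lt i hP)

theorem lapP_lt_one {P : Pl} (hP : P ∈ lt 1) : lapP P = 0 := by
  unfold lapP
  refine Finset.sum_eq_zero fun i _ => ?_
  rw [pderiv_lt_zero i hP, map_zero]

theorem eul_monomial (d : Fin 3 →₀ ℕ) (c : ℝ) :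
    eul (monomial d c) = (d.degree : ℝ) • (monomial d c : Pl) := by
  have h := (isHomogeneous_monomial (σ := Fin 3) c (n := d.degree) rfl).sum_X_mul_pderiv
  unfold eul
  rw [h, Nat.cast_smul_eq_nsmul]

/-- linear version of the Euler operator -/
noncomputable def eulL : Pl →ₗ[ℝ] Pl :=
  ∑ i, (LinearMap.mulLeft ℝ (X i : Pl)).comp ((pderiv i : Derivation ℝ Pl Pl) : Pl →ₗ[ℝ] Pl)

theorem eulL_apply (P : Pl) : eulL P = eul P := by
  unfold eulL eul
  rw [LinearMap.sum_apply]
  rfl

/-- linear version of the Laplacian -/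
noncomputable def lapL : Pl →ₗ[ℝ] Pl :=
  ∑ i, ((pderiv i : Derivation ℝ Pl Pl) : Pl →ₗ[ℝ] Pl).comp
    ((pderiv i : Derivation ℝ Pl Pl) : Pl →ₗ[ℝ] Pl)

theorem lapL_apply (P : Pl) : lapL P = lapP P := by
  unfold lapL lapP
  rw [LinearMap.sum_apply]
  rfl

theorem eul_sub_mem_lt {N : ℕ} {P : Pl} (hP : P ∈ lt (N + 1)) :
    eul P - (N : ℝ) • P ∈ lt N := by
  have h := lt_induction (S := lt N) (eulL - (N : ℝ) • LinearMap.id) (fun d c hd => ?_) hP
  · rwa [LinearMap.sub_apply, eulL_apply] at h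
  · rw [LinearMap.sub_apply, eulL_apply, eul_monomial, LinearMap.smul_apply, LinearMap.id_apply,
      ← sub_smul]
    rcases Nat.lt_succ_iff_lt_or_eq.1 hd with h | h
    · exact Submodule.smul_mem _ _ (monomial_mem_lt h c)
    · rw [h, sub_self, zero_smul]
      exact Submodule.zero_mem _

/-- the operator on pairs -/
noncomputable def TL (κ : ℝ) : Pl × Pl →ₗ[ℝ] Pl × Pl :=
  LinearMap.prod
    (κ • (eulL + LinearMap.id).comp (LinearMap.fst ℝ Pl Pl)
      - (eulL + LinearMap.id).comp (LinearMap.snd ℝ Pl Pl)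
      - (1 / 2 : ℝ) • ((LinearMap.mulLeft ℝ nsq).comp lapL).comp (LinearMap.snd ℝ Pl Pl))
    (κ • (eulL + (2 : ℝ) • LinearMap.id).comp (LinearMap.snd ℝ Pl Pl)
      - (1 / 2 : ℝ) • lapL.comp (LinearMap.fst ℝ Pl Pl))

theorem TL_apply (κ : ℝ) (z : Pl × Pl) : TL κ z = (TP κ z.1 z.2, TQ κ z.1 z.2) := by
  refine Prod.ext ?_ ?_
  · show κ • (eulL z.1 + z.1) - (eulL z.2 + z.2) - (1 / 2 : ℝ) • (nsq * lapL z.2) = _
    rw [eulL_apply, eulL_apply, lapL_apply, smul_eq_C_mul, smul_eq_C_mul]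
    rfl
  · show κ • (eulL z.2 + (2 : ℝ) • z.2) - (1 / 2 : ℝ) • lapL z.1 = _
    rw [eulL_apply, lapL_apply, smul_eq_C_mul, smul_eq_C_mul, smul_eq_C_mul]
    rfl

/-- the filtration -/
noncomputable def E (N : ℕ) : Submodule ℝ (Pl × Pl) := (lt N).prod (lt (N - 1))

theorem E_mono {N M : ℕ} (h : N ≤ M) : E N ≤ E M := by
  intro z hz
  exact ⟨lt_mono h hz.1, lt_mono (by omega) hz.2⟩

theorem TL_sub_mem (κ : ℝ) {N : ℕ} {z : Pl × Pl} (hz : z ∈ E (N + 1)) :
    TL κ z - (κ * (N + 1)) • z ∈ E N := by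
  obtain ⟨h1, h2⟩ := hz
  rw [Nat.add_sub_cancel] at h2
  rw [TL_apply]
  refine ⟨?_, ?_⟩
  · show TP κ z.1 z.2 - (κ * (N + 1)) • z.1 ∈ lt N
    have e : TP κ z.1 z.2 - (κ * (N + 1)) • z.1
        = C κ * (eul z.1 - (N : ℝ) • z.1) - (eul z.2 + z.2) - C (1 / 2) * (nsq * lapP z.2) := by
      unfold TP
      rw [smul_eq_C_mul, smul_eq_C_mul, C_mul, C_add, C_1]
      ring
    rw [e]
    refine Submodule.sub_mem _ (Submodule.sub_mem _ (C_mul_mem_lt _ (eul_sub_mem_lt h1)) ?_) ?_
    · refine Submodule.add_mem _ ?_ h2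
      rcases Nat.eq_zero_or_pos N with hN | hN
      · subst hN
        rw [lt_zero h2]
        unfold eul
        simp
      · obtain ⟨M, rfl⟩ : ∃ M, N = M + 1 := ⟨N - 1, by omega⟩
        have := eul_sub_mem_lt h2
        have h3 := Submodule.add_mem _ (lt_mono (Nat.le_succ M) this)
          (Submodule.smul_mem _ (M : ℝ) h2)
        rwa [sub_add_cancel] at h3
    · refine C_mul_mem_lt _ ?_
      rcases Nat.lt_or_ge N 2 with hN | hN
      · rw [lapP_lt_one (lt_mono (by omega) h2), mul_zero]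
        exact Submodule.zero_mem _
      · obtain ⟨M, rfl⟩ : ∃ M, N = M + 2 := ⟨N - 2, by omega⟩
        exact nsq_mul_mem_lt (lapP_mem_lt h2)
  · show TQ κ z.1 z.2 - (κ * (N + 1)) • z.2 ∈ lt (N - 1)
    rcases Nat.eq_zero_or_pos N with hN | hN
    · subst hN
      rw [lt_zero h2]
      have : lapP z.1 = 0 := lapP_lt_one h1
      unfold TQ eul
      rw [this]
      simp
    · obtain ⟨M, rfl⟩ : ∃ M, N = M + 1 := ⟨N - 1, by omega⟩
      have e : TQ κ z.1 z.2 - (κ * ((M + 1 : ℕ) + 1)) • z.2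
          = C κ * (eul z.2 - (M : ℝ) • z.2) - C (1 / 2) * lapP z.1 := by
        unfold TQ
        rw [smul_eq_C_mul, smul_eq_C_mul, C_mul, C_add, C_1]
        push_cast
        rw [C_add, C_1]
        have h2 : (C 2 : Pl) = 1 + 1 := by
          rw [← C_1, ← C_add]
          norm_num
        rw [h2]
        ring
      rw [e, Nat.add_sub_cancel]
      exact Submodule.sub_mem _ (C_mul_mem_lt _ (eul_sub_mem_lt h2))
        (C_mul_mem_lt _ (lapP_mem_lt h1))

theorem TL_mem (κ : ℝ) {N : ℕ} {z : Pl × Pl} (hz : z ∈ E N) : TL κ z ∈ E N := by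
  rcases Nat.eq_zero_or_pos N with hN | hN
  · subst hN
    have h1 : z = 0 := Prod.ext (lt_zero hz.1) (lt_zero hz.2)
    rw [h1, map_zero]
    exact Submodule.zero_mem _
  · obtain ⟨M, rfl⟩ : ∃ M, N = M + 1 := ⟨N - 1, by omega⟩
    have h1 := TL_sub_mem κ hz
    have h2 := Submodule.add_mem _ (E_mono (Nat.le_succ M) h1)
      (Submodule.smul_mem _ (κ * (M + 1)) hz)
    rwa [sub_add_cancel] at h2

end Vale.Agent.P370.Hyd
end

section

/-!
Green's identity on `ℝ³` for functions with a cusp at the origin.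
-/

namespace Vale.Agent.P370.Hyd

open MeasureTheory Filter Topology MvPolynomial

/-- exponential decay -/
def Dec (f : R3 → ℝ) : Prop := ∃ C c : ℝ, 0 < c ∧ ∀ x, |f x| ≤ C * Real.exp (-c * ‖x‖)

theorem Dec.nonneg {f : R3 → ℝ} (hf : Dec f) :
    ∃ C c : ℝ, 0 ≤ C ∧ 0 < c ∧ ∀ x, |f x| ≤ C * Real.exp (-c * ‖x‖) := by
  obtain ⟨C, c, hc, h⟩ := hf
  refine ⟨|C|, c, abs_nonneg _, hc, fun x => (h x).trans ?_⟩
  exact mul_le_mul_of_nonneg_right (le_abs_self C) (Real.exp_pos _).le

theorem Dec.add {f g : R3 → ℝ} (hf : Dec f) (hg : Dec g) : Dec fun x => f x + g x := by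
  obtain ⟨C, c, hC, hc, h⟩ := hf.nonneg
  obtain ⟨D, d, hD, hd, k⟩ := hg.nonneg
  refine ⟨C + D, min c d, lt_min hc hd, fun x => ?_⟩
  have h1 : Real.exp (-c * ‖x‖) ≤ Real.exp (-(min c d) * ‖x‖) := by
    apply Real.exp_le_exp.2
    have := min_le_left c d
    linarith only [mul_nonneg_of_nonpos_of_nonpos (Mathlib.Tactic.Linarith.sub_nonpos_of_le this) (Mathlib.Tactic.Linarith.sub_nonpos_of_le (norm_nonneg x))]
  have h2 : Real.exp (-d * ‖x‖) ≤ Real.exp (-(min c d) * ‖x‖) := by
    apply Real.exp_le_exp.2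
    have := min_le_right c d
    nlinarith only [this, norm_nonneg x]
  calc |f x + g x| ≤ |f x| + |g x| := abs_add_le _ _
    _ ≤ C * Real.exp (-(min c d) * ‖x‖) + D * Real.exp (-(min c d) * ‖x‖) :=
      add_le_add ((h x).trans (mul_le_mul_of_nonneg_left h1 hC))
        ((k x).trans (mul_le_mul_of_nonneg_left h2 hD))
    _ = _ := by ring

theorem Dec.bdd_mul {f g : R3 → ℝ} (hf : Dec f) {B : ℝ} (hg : ∀ x, |g x| ≤ B) :
    Dec fun x => g x * f x := by
  obtain ⟨C, c, hC, hc, h⟩ := hf.nonneg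
  refine ⟨B * C, c, hc, fun x => ?_⟩
  rw [abs_mul, mul_assoc]
  exact mul_le_mul (hg x) (h x) (abs_nonneg _) ((abs_nonneg _).trans (hg x))

theorem Dec.const_mul {f : R3 → ℝ} (hf : Dec f) (a : ℝ) : Dec fun x => a * f x :=
  hf.bdd_mul (g := fun _ => a) (B := |a|) fun _ => le_rfl

theorem Dec.bound {f : R3 → ℝ} (hf : Dec f) : ∃ B, ∀ x, |f x| ≤ B := by
  obtain ⟨C, c, hC, hc, h⟩ := hf.nonneg
  refine ⟨C, fun x => (h x).trans ?_⟩
  refine mul_le_of_le_one_right hC (Real.exp_le_one_iff.2 ?_)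
  linarith only [mul_nonneg_of_nonpos_of_nonpos (le_of_lt (Mathlib.Tactic.Linarith.sub_neg_of_lt hc)) (Mathlib.Tactic.Linarith.sub_nonpos_of_le (norm_nonneg x))]

theorem Dec.mul {f g : R3 → ℝ} (hf : Dec f) (hg : Dec g) : Dec fun x => f x * g x := by
  obtain ⟨B, hB⟩ := hf.bound
  exact hg.bdd_mul hB

theorem integrable_exp {c : ℝ} (hc : 0 < c) :
    Integrable (fun x : R3 => Real.exp (-c * ‖x‖)) := by
  have h := (integrable_fun_norm_addHaar (μ := (volume : Measure R3)) (F := ℝ)
    (f := fun r => Real.exp (-c * r))).2 ?_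
  · exact h
  · have h1 := integrableOn_rpow_mul_exp_neg_mul_rpow (s := 2) (p := 1) (b := c) (by norm_num)
      one_pos hc
    refine h1.congr_fun (fun r hr => ?_) measurableSet_Ioi
    simp [finrank_euclideanSpace]

theorem integrable_exp_div {c : ℝ} (hc : 0 < c) :
    Integrable (fun x : R3 => Real.exp (-c * ‖x‖) / ‖x‖) := by
  have h := (integrable_fun_norm_addHaar (μ := (volume : Measure R3)) (F := ℝ)
    (f := fun r => Real.exp (-c * r) / r)).2 ?_
  · exact h
  · have h1 := integrableOn_rpow_mul_exp_neg_mul_rpow (s := 1) (p := 1) (b := c) (by norm_num)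
      one_pos hc
    refine h1.congr_fun (fun r hr => ?_) measurableSet_Ioi
    have hr0 : r ≠ 0 := ne_of_gt hr
    simp [finrank_euclideanSpace]
    field_simp

theorem Dec.integrable {f : R3 → ℝ} (hf : Dec f) (hm : AEStronglyMeasurable f volume) :
    Integrable f := by
  obtain ⟨C, c, hc, h⟩ := hf
  exact ((integrable_exp hc).const_mul C).mono' hm (Eventually.of_forall h)

theorem Dec.integrable_div {f : R3 → ℝ} (hf : Dec f) (hm : AEStronglyMeasurable f volume) :
    Integrable (fun x => f x / ‖x‖) := by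
  obtain ⟨C, c, hc, h⟩ := hf
  refine ((integrable_exp_div hc).const_mul C).mono' ?_ (Eventually.of_forall fun x => ?_)
  · simp only [div_eq_mul_inv]
    exact hm.mul (measurable_norm.inv.aestronglyMeasurable)
  · rw [norm_div, norm_norm, Real.norm_eq_abs, ← mul_div_assoc]
    exact div_le_div_of_nonneg_right (h x) (norm_nonneg _)

/-- one dimensional integration by parts along a coordinate direction -/
theorem integral_dir_deriv (i : Fin 3) (G G' : R3 → ℝ) (hG : Integrable G) (hG' : Integrable G')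
    (hd : ∀ x, x ≠ 0 → HasDerivAt (fun t : ℝ => G (x + t • ei i)) (G' x) 0)
    (hc : ContinuousOn G' {0}ᶜ) : ∫ x, G' x = 0 := by
  have hmeas : Measurable G' := measurable_of_continuousOn_compl_singleton 0 hc
  -- the line through the origin is null
  have hnull : ∀ᵐ x : R3, ∀ s : ℝ, x + s • ei i ≠ 0 := by
    have h1 : volume ((Submodule.span ℝ {ei i} : Submodule ℝ R3) : Set R3) = 0 := by
      apply Measure.addHaar_submodule
      intro h
      have h2 := congrArg (fun S : Submodule ℝ R3 => Module.finrank ℝ S) h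
      simp only [finrank_top, finrank_euclideanSpace, Fintype.card_fin] at h2
      have h3 := finrank_span_le_card (R := ℝ) ({ei i} : Set R3)
      simp at h3
      omega
    rw [ae_iff]
    refine measure_mono_null (fun x hx => ?_) h1
    simp only [ne_eq, not_forall, not_not, Set.mem_ofPred_eq] at hx
    obtain ⟨s, hs⟩ := hx
    rw [SetLike.mem_coe, Submodule.mem_span_singleton]
    exact ⟨-s, by rw [neg_smul]; exact (eq_neg_of_add_eq_zero_left hs).symm⟩
  have hftc : ∀ᵐ x : R3, ∫ s in (0 : ℝ)..1, G' (x + s • ei i) = G (x + ei i) - G x := by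
    filter_upwards [hnull] with x hx
    have h1 : ∀ s ∈ Set.uIcc (0 : ℝ) 1,
        HasDerivAt (fun s : ℝ => G (x + s • ei i)) (G' (x + s • ei i)) s := by
      intro s _
      have h2 := hd (x + s • ei i) (hx s)
      have h3 := HasDerivAt.comp_sub_const (f := fun t : ℝ => G (x + s • ei i + t • ei i))
        s s (by simpa using h2)
      refine h3.congr_of_eventuallyEq (Eventually.of_forall fun t => ?_)
      simp only
      congr 1
      rw [add_assoc, ← add_smul]
      congr 2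
      ring
    have h4 : Continuous fun s : ℝ => G' (x + s • ei i) := by
      refine continuous_iff_continuousAt.2 fun s => ?_
      have h5 : ContinuousAt G' (x + s • ei i) :=
        hc.continuousAt (isOpen_compl_singleton.mem_nhds (hx s))
      exact ContinuousAt.comp (f := fun s : ℝ => x + s • ei i) h5 (by fun_prop)
    have h6 := intervalIntegral.integral_eq_sub_of_hasDerivAt h1 (h4.intervalIntegrable 0 1)
    rw [h6]
    simp
  -- Fubini
  have hint : Integrable (fun z : R3 × ℝ => G' (z.1 + z.2 • ei i))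
      (volume.prod (volume.restrict (Set.Ioc 0 1))) := by
    rw [integrable_prod_iff']
    · refine ⟨Eventually.of_forall fun s => ?_, ?_⟩
      · exact hG'.comp_add_right (s • ei i)
      · have : ∀ s : ℝ, ∫ x : R3, ‖G' (x + s • ei i)‖ = ∫ x : R3, ‖G' x‖ := fun s =>
          integral_add_right_eq_self (fun x => ‖G' x‖) (s • ei i)
        simp only [this]
        exact integrable_const _
    · refine Measurable.aestronglyMeasurable ?_
      exact hmeas.comp (by fun_prop)
  have e1 : ∫ x : R3, ∫ s in (0 : ℝ)..1, G' (x + s • ei i) = ∫ x, G' x := by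
    simp only [intervalIntegral.integral_of_le zero_le_one]
    rw [integral_integral_swap hint]
    have : ∀ s : ℝ, ∫ x : R3, G' (x + s • ei i) = ∫ x : R3, G' x := fun s =>
      integral_add_right_eq_self G' (s • ei i)
    simp only [this]
    simp
  rw [← e1, integral_congr_ae hftc, integral_sub (hG.comp_add_right (ei i)) hG,
    integral_add_right_eq_self G (ei i), sub_self]

/-- admissible functions with their partial derivatives away from the origin -/
structure Adm (w : R3 → ℝ) (dw : Fin 3 → R3 → ℝ) : Prop where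
  cont : Continuous w
  deriv : ∀ i x, x ≠ 0 → HasDerivAt (fun t : ℝ => w (x + t • ei i)) (dw i x) 0
  dcont : ∀ i, ContinuousOn (dw i) {0}ᶜ
  dec : Dec w
  ddec : ∀ i, Dec (dw i)

theorem Adm.meas {w : R3 → ℝ} {dw : Fin 3 → R3 → ℝ} (h : Adm w dw) (i : Fin 3) :
    Measurable (dw i) := measurable_of_continuousOn_compl_singleton 0 (h.dcont i)

theorem Adm.add {v w : R3 → ℝ} {dv dw : Fin 3 → R3 → ℝ} (hv : Adm v dv) (hw : Adm w dw) :
    Adm (fun x => v x + w x) (fun i x => dv i x + dw i x) :=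
  ⟨hv.cont.add hw.cont, fun i x hx => (hv.deriv i x hx).add (hw.deriv i x hx),
    fun i => (hv.dcont i).add (hw.dcont i), hv.dec.add hw.dec, fun i => (hv.ddec i).add (hw.ddec i)⟩

theorem Adm.const_mul {v : R3 → ℝ} {dv : Fin 3 → R3 → ℝ} (hv : Adm v dv) (a : ℝ) :
    Adm (fun x => a * v x) (fun i x => a * dv i x) :=
  ⟨continuous_const.mul hv.cont, fun i x hx => (hv.deriv i x hx).const_mul a,
    fun i => continuousOn_const.mul (hv.dcont i), hv.dec.const_mul a,
    fun i => (hv.ddec i).const_mul a⟩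

theorem Adm.zero : Adm (fun _ => 0) (fun _ _ => 0) :=
  ⟨continuous_const, fun _ _ _ => hasDerivAt_const _ _, fun _ => continuousOn_const,
    ⟨0, 1, one_pos, fun _ => by simp⟩, fun _ => ⟨0, 1, one_pos, fun _ => by simp⟩⟩

/-! ### Growth of polynomials -/

theorem le_exp_div {η : ℝ} (hη : 0 < η) {r : ℝ} (_hr : 0 ≤ r) : r ≤ η⁻¹ * Real.exp (η * r) := by
  have h := Real.add_one_le_exp (η * r)
  rw [← div_eq_inv_mul, le_div_iff₀ hη]
  linarith

theorem ev_growth (P : Pl) : ∀ η : ℝ, 0 < η → ∃ C : ℝ, 0 ≤ C ∧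
    ∀ x, |ev P x| ≤ C * Real.exp (η * ‖x‖) := by
  induction P using MvPolynomial.induction_on with
  | C a =>
    intro η hη
    refine ⟨|a|, abs_nonneg _, fun x => ?_⟩
    rw [ev_C]
    exact le_mul_of_one_le_right (abs_nonneg _) (Real.one_le_exp (by positivity))
  | add P Q hP hQ =>
    intro η hη
    obtain ⟨C, hC, h⟩ := hP η hη
    obtain ⟨D, hD, k⟩ := hQ η hη
    refine ⟨C + D, add_nonneg hC hD, fun x => ?_⟩
    rw [ev_add, add_mul]
    exact (abs_add_le _ _).trans (add_le_add (h x) (k x))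
  | mul_X P j hP =>
    intro η hη
    obtain ⟨C, hC, h⟩ := hP (η / 2) (by positivity)
    refine ⟨C * (η / 2)⁻¹, by positivity, fun x => ?_⟩
    rw [ev_mul, ev_X, abs_mul]
    have h1 : |x j| ≤ ‖x‖ := by
      rw [← Real.norm_eq_abs]
      exact PiLp.norm_apply_le x j
    have h2 := h1.trans (le_exp_div (half_pos hη) (norm_nonneg x))
    calc |ev P x| * |x j| ≤ (C * Real.exp (η / 2 * ‖x‖)) *
          ((η / 2)⁻¹ * Real.exp (η / 2 * ‖x‖)) :=
          mul_le_mul (h x) h2 (abs_nonneg _) (by positivity)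
      _ = C * (η / 2)⁻¹ * (Real.exp (η / 2 * ‖x‖) * Real.exp (η / 2 * ‖x‖)) := by ring
      _ = _ := by
        rw [← Real.exp_add]
        congr 2
        ring

theorem dec_ev {κ : ℝ} (hκ : 0 < κ) (P : Pl) : Dec fun x => ev P x * Real.exp (-κ * ‖x‖) := by
  obtain ⟨C, hC, h⟩ := ev_growth P (κ / 2) (half_pos hκ)
  refine ⟨C, κ / 2, half_pos hκ, fun x => ?_⟩
  rw [abs_mul, abs_of_pos (Real.exp_pos _)]
  calc |ev P x| * Real.exp (-κ * ‖x‖) ≤ (C * Real.exp (κ / 2 * ‖x‖)) * Real.exp (-κ * ‖x‖) := by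
        gcongr
        exact h x
    _ = C * (Real.exp (κ / 2 * ‖x‖) * Real.exp (-κ * ‖x‖)) := by ring
    _ = _ := by
      rw [← Real.exp_add]
      congr 2
      ring

theorem dec_norm_ev {κ : ℝ} (hκ : 0 < κ) (P : Pl) :
    Dec fun x => ‖x‖ * ev P x * Real.exp (-κ * ‖x‖) := by
  obtain ⟨C, hC, h⟩ := ev_growth P (κ / 4) (by positivity)
  refine ⟨C * (κ / 4)⁻¹, κ / 2, half_pos hκ, fun x => ?_⟩
  rw [abs_mul, abs_of_pos (Real.exp_pos _), abs_mul, abs_norm]
  calc ‖x‖ * |ev P x| * Real.exp (-κ * ‖x‖)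
      ≤ ((κ / 4)⁻¹ * Real.exp (κ / 4 * ‖x‖)) * (C * Real.exp (κ / 4 * ‖x‖))
        * Real.exp (-κ * ‖x‖) := by
        gcongr
        · exact le_exp_div (by positivity) (norm_nonneg x)
        · exact h x
    _ = C * (κ / 4)⁻¹ * (Real.exp (κ / 4 * ‖x‖) * Real.exp (κ / 4 * ‖x‖)
        * Real.exp (-κ * ‖x‖)) := by ring
    _ = _ := by
      rw [← Real.exp_add, ← Real.exp_add]
      congr 2
      ring

theorem abs_unit_le (i : Fin 3) (x : R3) : |x i / ‖x‖| ≤ 1 := by
  rw [abs_div, abs_norm]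
  refine div_le_one_of_le₀ ?_ (norm_nonneg _)
  rw [← Real.norm_eq_abs]
  exact PiLp.norm_apply_le x i

theorem dec_xp {κ : ℝ} (hκ : 0 < κ) (P Q : Pl) : Dec (xp κ P Q) := by
  have h := (dec_ev hκ P).add (dec_norm_ev hκ Q)
  obtain ⟨C, c, hc, h⟩ := h
  refine ⟨C, c, hc, fun x => ?_⟩
  have := h x
  unfold xp
  rwa [add_mul]

theorem continuous_xp (κ : ℝ) (P Q : Pl) : Continuous (xp κ P Q) := by
  unfold xp
  have h1 := continuous_ev P
  have h2 := continuous_ev Q
  fun_prop

theorem continuousOn_unit (i : Fin 3) : ContinuousOn (fun x : R3 => x i / ‖x‖) {0}ᶜ := by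
  refine ContinuousOn.div (Continuous.continuousOn (by fun_prop)) continuous_norm.continuousOn
    fun x hx => ?_
  exact norm_ne_zero_iff.2 hx

theorem continuousOn_xpd (κ : ℝ) (P Q : Pl) (i : Fin 3) : ContinuousOn (xpd κ P Q i) {0}ᶜ := by
  unfold xpd
  have h0 := continuousOn_unit i
  have h1 := (continuous_ev P).continuousOn (s := {0}ᶜ)
  have h2 := (continuous_ev Q).continuousOn (s := {0}ᶜ)
  have h3 := (continuous_ev (pderiv i P)).continuousOn (s := {0}ᶜ)
  have h4 := (continuous_ev (pderiv i Q)).continuousOn (s := {0}ᶜ)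
  have h5 := (continuous_norm (E := R3)).continuousOn (s := {0}ᶜ)
  have h6 : ContinuousOn (fun x : R3 => Real.exp (-κ * ‖x‖)) {0}ᶜ :=
    Continuous.continuousOn (by fun_prop)
  exact (((h3.add (h0.mul h2)).add (h5.mul h4)).sub
    ((continuousOn_const.mul h0).mul (h1.add (h5.mul h2)))).mul h6

theorem continuousOn_xpdd (κ : ℝ) (P Q : Pl) (i : Fin 3) : ContinuousOn (xpdd κ P Q i) {0}ᶜ := by
  unfold xpdd
  have h0 := continuousOn_unit i
  have h1 := (continuous_ev P).continuousOn (s := {0}ᶜ)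
  have h2 := (continuous_ev Q).continuousOn (s := {0}ᶜ)
  have h3 := (continuous_ev (pderiv i P)).continuousOn (s := {0}ᶜ)
  have h4 := (continuous_ev (pderiv i Q)).continuousOn (s := {0}ᶜ)
  have h3' := (continuous_ev (pderiv i (pderiv i P))).continuousOn (s := {0}ᶜ)
  have h4' := (continuous_ev (pderiv i (pderiv i Q))).continuousOn (s := {0}ᶜ)
  have h5 := (continuous_norm (E := R3)).continuousOn (s := {0}ᶜ)
  have h6 : ContinuousOn (fun x : R3 => Real.exp (-κ * ‖x‖)) {0}ᶜ :=
    Continuous.continuousOn (by fun_prop)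
  have h7 : ContinuousOn (fun x : R3 => (1 - (x i / ‖x‖) ^ 2) / ‖x‖) {0}ᶜ :=
    (continuousOn_const.sub (h0.pow 2)).div h5 fun x hx => norm_ne_zero_iff.2 hx
  exact (((((h3'.add (h7.mul h2)).add ((continuousOn_const.mul h0).mul h4)).add
    (h5.mul h4')).sub ((continuousOn_const.mul h7).mul (h1.add (h5.mul h2)))).sub
    ((continuousOn_const.mul h0).mul ((h3.add (h0.mul h2)).add (h5.mul h4)))).add
    ((continuousOn_const.mul (h0.pow 2)).mul (h1.add (h5.mul h2))) |>.mul h6

theorem dec_xpd {κ : ℝ} (hκ : 0 < κ) (P Q : Pl) (i : Fin 3) : Dec (xpd κ P Q i) := by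
  have h := (((dec_ev hκ (pderiv i P)).add ((dec_ev hκ Q).bdd_mul (abs_unit_le i))).add
    (dec_norm_ev hκ (pderiv i Q))).add
    (((dec_xp hκ P Q).bdd_mul (abs_unit_le i)).const_mul (-κ))
  obtain ⟨C, c, hc, h⟩ := h
  refine ⟨C, c, hc, fun x => ?_⟩
  have := h x
  unfold xpd
  unfold xp at this
  refine le_trans (le_of_eq ?_) this
  congr 1
  ring

theorem adm_xp {κ : ℝ} (hκ : 0 < κ) (P Q : Pl) : Adm (xp κ P Q) (xpd κ P Q) :=
  ⟨continuous_xp κ P Q, fun i x hx => hasDerivAt_xp κ P Q i x hx,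
    fun i => continuousOn_xpd κ P Q i, dec_xp hκ P Q, fun i => dec_xpd hκ P Q i⟩

/-- the second derivatives are `Dec + Dec / ‖x‖` -/
theorem xpdd_split {κ : ℝ} (hκ : 0 < κ) (P Q : Pl) (i : Fin 3) :
    ∃ A B : R3 → ℝ, Dec A ∧ Dec B ∧ ∀ x, x ≠ 0 → |xpdd κ P Q i x| ≤ |A x| + |B x / ‖x‖| := by
  refine ⟨fun x => ev (pderiv i (pderiv i P)) x * Real.exp (-κ * ‖x‖)
      + 2 * ((x i / ‖x‖) * (ev (pderiv i Q) x * Real.exp (-κ * ‖x‖)))
      + ‖x‖ * ev (pderiv i (pderiv i Q)) x * Real.exp (-κ * ‖x‖)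
      + (-(2 * κ)) * ((x i / ‖x‖) * (ev (pderiv i P) x * Real.exp (-κ * ‖x‖)
        + (x i / ‖x‖) * (ev Q x * Real.exp (-κ * ‖x‖))
        + ‖x‖ * ev (pderiv i Q) x * Real.exp (-κ * ‖x‖)))
      + κ ^ 2 * ((x i / ‖x‖) * ((x i / ‖x‖) * xp κ P Q x)),
    fun x => (1 - (x i / ‖x‖) ^ 2) * (ev Q x * Real.exp (-κ * ‖x‖) + (-κ) * xp κ P Q x),
    ?_, ?_, ?_⟩
  · exact (((((dec_ev hκ _).add (((dec_ev hκ _).bdd_mul (abs_unit_le i)).const_mul 2)).add
      (dec_norm_ev hκ _)).add
      (((((dec_ev hκ _).add ((dec_ev hκ _).bdd_mul (abs_unit_le i))).add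
        (dec_norm_ev hκ _)).bdd_mul (abs_unit_le i)).const_mul (-(2 * κ)))).add
      ((((dec_xp hκ P Q).bdd_mul (abs_unit_le i)).bdd_mul (abs_unit_le i)).const_mul (κ ^ 2)))
  · refine ((dec_ev hκ Q).add ((dec_xp hκ P Q).const_mul (-κ))).bdd_mul (B := 1) fun x => ?_
    have h1 : (x i / ‖x‖) ^ 2 ≤ 1 := by
      rw [← sq_abs]
      have := abs_unit_le i x
      linarith only [mul_nonneg_of_nonpos_of_nonpos (Mathlib.Tactic.Linarith.sub_nonpos_of_le this) (Mathlib.Tactic.Linarith.sub_nonpos_of_le (abs_nonneg (x.ofLp i / ‖x‖))), this]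
    rw [abs_of_nonneg (by linarith only [h1])]
    linarith only [sq_nonneg (x i / ‖x‖)]
  · intro x hx
    refine le_trans (le_of_eq ?_) (abs_add_le _ _)
    congr 1
    unfold xpdd xp
    have hr : ‖x‖ ≠ 0 := norm_ne_zero_iff.2 hx
    field_simp
    ring

/-- kinetic form -/
noncomputable def kin (dv dw : Fin 3 → R3 → ℝ) : ℝ := (1 / 2) * ∑ i, ∫ x, dv i x * dw i x

/-- L² inner product -/
noncomputable def ip (v w : R3 → ℝ) : ℝ := ∫ x, v x * w x

/-- weighted inner product -/
noncomputable def ipr (v w : R3 → ℝ) : ℝ := ∫ x, v x * w x / ‖x‖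

/-- Green's identity -/
theorem green {κ : ℝ} (hκ : 0 < κ) (P Q : Pl) {w : R3 → ℝ} {dw : Fin 3 → R3 → ℝ} (hw : Adm w dw) :
    kin (xpd κ P Q) dw + κ ^ 2 / 2 * ip (xp κ P Q) w
      = ipr (xp κ (TP κ P Q) (TQ κ P Q)) w := by
  have hm1 : ∀ i, Measurable (xpd κ P Q i) := fun i =>
    measurable_of_continuousOn_compl_singleton 0 (continuousOn_xpd κ P Q i)
  have hm2 : ∀ i, Measurable (xpdd κ P Q i) := fun i =>
    measurable_of_continuousOn_compl_singleton 0 (continuousOn_xpdd κ P Q i)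
  have hmw : Measurable w := hw.cont.measurable
  have hne : ∀ᵐ x : R3, x ≠ 0 := by
    rw [ae_iff]
    simp
  have i1 : ∀ i, Integrable fun x => xpd κ P Q i x * dw i x := fun i =>
    ((dec_xpd hκ P Q i).mul (hw.ddec i)).integrable ((hm1 i).mul (hw.meas i)).aestronglyMeasurable
  have i2 : ∀ i, Integrable fun x => xpdd κ P Q i x * w x := by
    intro i
    obtain ⟨A, B, hA, hB, hAB⟩ := xpdd_split hκ P Q i
    obtain ⟨C, c, hc, h⟩ := hA.mul hw.dec
    obtain ⟨D, d, hd, k⟩ := hB.mul hw.dec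
    refine (((integrable_exp hc).const_mul C).add ((integrable_exp_div hd).const_mul D)).mono'
      ((hm2 i).mul hmw).aestronglyMeasurable ?_
    filter_upwards [hne] with x hx
    rw [Real.norm_eq_abs, abs_mul]
    calc |xpdd κ P Q i x| * |w x| ≤ (|A x| + |B x / ‖x‖|) * |w x| := by
          gcongr
          exact hAB x hx
      _ = |A x * w x| + |B x * w x| / ‖x‖ := by
          rw [abs_mul, abs_mul, abs_div, abs_norm]
          ring
      _ ≤ _ := by
          refine add_le_add (h x) ?_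
          show |B x * w x| / ‖x‖ ≤ D * (Real.exp (-d * ‖x‖) / ‖x‖)
          rw [← mul_div_assoc]
          exact div_le_div_of_nonneg_right (k x) (norm_nonneg _)
  have key : ∀ i, ∫ x, (xpdd κ P Q i x * w x + xpd κ P Q i x * dw i x) = 0 := by
    intro i
    refine integral_dir_deriv i (fun x => xpd κ P Q i x * w x) _ ?_ ((i2 i).add (i1 i)) ?_ ?_
    · exact ((dec_xpd hκ P Q i).mul hw.dec).integrable ((hm1 i).mul hmw).aestronglyMeasurable
    · intro x hx
      have h := (hasDerivAt_xpd κ P Q i x hx).mul (hw.deriv i x hx)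
      refine h.congr_deriv ?_
      simp only [zero_smul, add_zero]
    · exact ((continuousOn_xpdd κ P Q i).mul hw.cont.continuousOn).add
        ((continuousOn_xpd κ P Q i).mul (hw.dcont i))
  have key2 : ∀ i, ∫ x, xpd κ P Q i x * dw i x = -∫ x, xpdd κ P Q i x * w x := by
    intro i
    have := key i
    rw [integral_add (i2 i) (i1 i)] at this
    linarith
  have i3 : Integrable fun x => xp κ P Q x * w x :=
    ((dec_xp hκ P Q).mul hw.dec).integrable
      ((continuous_xp κ P Q).mul hw.cont).aestronglyMeasurable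
  unfold kin ip ipr
  simp only [key2]
  rw [Finset.sum_neg_distrib, ← integral_finsetSum _ fun i _ => i2 i]
  have e : (1 / 2 : ℝ) * -∫ x, ∑ i, xpdd κ P Q i x * w x
      = ∫ x, (-(1 / 2)) * ∑ i, xpdd κ P Q i x * w x := by
    rw [integral_const_mul]
    ring
  rw [e, ← integral_const_mul, ← integral_add
    ((integrable_finsetSum _ fun i _ => i2 i).const_mul _) (i3.const_mul _)]
  refine integral_congr_ae ?_
  filter_upwards [hne] with x hx
  rw [← lap_xp κ P Q x hx, ← Finset.sum_mul]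
  have hr : ‖x‖ ≠ 0 := norm_ne_zero_iff.2 hx
  field_simp

end Vale.Agent.P370.Hyd
end

section

/-!
Density of polynomials times exponentials: an integrable function with an exponential moment all
of whose polynomial moments vanish is zero.
-/

namespace Vale.Agent.P370

open MeasureTheory Filter Topology
open scoped RealInnerProductSpace

section

variable {E : Type*} [NormedAddCommGroup E] [InnerProductSpace ℝ E] [MeasurableSpace E]
  [BorelSpace E] [CompleteSpace E] [SecondCountableTopology E] {μ : Measure E}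

/-- directional moments of `f x * exp (i y ⟪t, x⟫)` -/
noncomputable def dmom (μ : Measure E) (f : E → ℝ) (t : E) (y : ℝ) (m : ℕ) : ℂ :=
  ∫ x, (f x : ℂ) * (((⟪t, x⟫ : ℝ) : ℂ) ^ m * Complex.exp ((y * ⟪t, x⟫ : ℝ) * Complex.I)) ∂μ

theorem pow_le_factorial_mul_exp {a : ℝ} (ha : 0 ≤ a) (m : ℕ) :
    a ^ m ≤ m.factorial * Real.exp a := by
  have h := Real.pow_div_factorial_le_exp a ha m
  rwa [div_le_iff₀ (by positivity), mul_comm] at h

omit [CompleteSpace E] [SecondCountableTopology E] in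
theorem integrable_dmom {f : E → ℝ} (hfm : AEStronglyMeasurable f μ) {c : ℝ}
    (hf : Integrable (fun x => f x * Real.exp (c * ‖x‖)) μ) (t : E) {h : ℝ} (hh : 0 ≤ h)
    (hth : h * ‖t‖ < c) (m : ℕ) :
    Integrable (fun x => |f x| * (|⟪t, x⟫| ^ m * Real.exp (h * |⟪t, x⟫|))) μ := by
  obtain ⟨d, hd⟩ : ∃ d : ℝ, d = c - h * ‖t‖ := ⟨_, rfl⟩
  have hd0 : 0 < d := by linarith
  -- |⟪t,x⟫|^m ≤ (‖t‖/d)^m * m! * exp (d ‖x‖)
  have key : ∀ x : E, |⟪t, x⟫| ^ m * Real.exp (h * |⟪t, x⟫|)
      ≤ ((‖t‖ / d) ^ m * m.factorial) * Real.exp (c * ‖x‖) := by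
    intro x
    have h1 : |⟪t, x⟫| ≤ ‖t‖ * ‖x‖ := abs_real_inner_le_norm t x
    have h2 : |⟪t, x⟫| ^ m ≤ (‖t‖ / d) ^ m * (m.factorial * Real.exp (d * ‖x‖)) := by
      calc |⟪t, x⟫| ^ m ≤ (‖t‖ * ‖x‖) ^ m := pow_le_pow_left₀ (abs_nonneg _) h1 m
        _ = (‖t‖ / d) ^ m * (d * ‖x‖) ^ m := by
          rw [← mul_pow]
          congr 1
          field_simp
        _ ≤ _ := by
          gcongr
          exact pow_le_factorial_mul_exp (by positivity) m
    have h3 : Real.exp (h * |⟪t, x⟫|) ≤ Real.exp (h * ‖t‖ * ‖x‖) := by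
      apply Real.exp_le_exp.2
      calc h * |⟪t, x⟫| ≤ h * (‖t‖ * ‖x‖) := by gcongr
        _ = _ := by ring
    calc |⟪t, x⟫| ^ m * Real.exp (h * |⟪t, x⟫|)
        ≤ ((‖t‖ / d) ^ m * (m.factorial * Real.exp (d * ‖x‖))) * Real.exp (h * ‖t‖ * ‖x‖) := by
          gcongr
      _ = ((‖t‖ / d) ^ m * m.factorial) * (Real.exp (d * ‖x‖) * Real.exp (h * ‖t‖ * ‖x‖)) := by
          ring
      _ = _ := by
          rw [← Real.exp_add, hd]
          congr 2
          ring
  refine ((hf.abs.const_mul ((‖t‖ / d) ^ m * m.factorial)).mono' ?_ ?_)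
  · refine (hfm.norm.congr ?_).mul ?_
    · exact Eventually.of_forall fun x => Real.norm_eq_abs _
    · refine Continuous.aestronglyMeasurable ?_
      fun_prop
  · refine Eventually.of_forall fun x => ?_
    rw [Real.norm_of_nonneg (by positivity), abs_mul, abs_of_pos (Real.exp_pos _)]
    calc |f x| * (|⟪t, x⟫| ^ m * Real.exp (h * |⟪t, x⟫|))
        ≤ |f x| * (((‖t‖ / d) ^ m * m.factorial) * Real.exp (c * ‖x‖)) :=
          mul_le_mul_of_nonneg_left (key x) (abs_nonneg _)
      _ = _ := by ring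

theorem dmom_step {f : E → ℝ} (hfm : AEStronglyMeasurable f μ) {c : ℝ} (hc : 0 < c)
    (hf : Integrable (fun x => f x * Real.exp (c * ‖x‖)) μ) (t : E) {y h : ℝ}
    (hth : |h| * ‖t‖ < c) (hy : ∀ m, dmom μ f t y m = 0) (m : ℕ) :
    dmom μ f t (y + h) m = 0 := by
  let F : ℕ → E → ℂ := fun j x => ((h : ℂ) * Complex.I) ^ j / (j.factorial : ℂ) *
    ((f x : ℂ) * (((⟪t, x⟫ : ℝ) : ℂ) ^ (m + j) * Complex.exp ((y * ⟪t, x⟫ : ℝ) * Complex.I)))
  have hF : ∀ j, ∫ x, F j x ∂μ = 0 := by
    intro j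
    have := hy (m + j)
    unfold dmom at this
    show ∫ x, ((h : ℂ) * Complex.I) ^ j / (j.factorial : ℂ) *
      ((f x : ℂ) * (((⟪t, x⟫ : ℝ) : ℂ) ^ (m + j) *
        Complex.exp ((y * ⟪t, x⟫ : ℝ) * Complex.I))) ∂μ = 0
    rw [integral_const_mul, this, mul_zero]
  have hsum := hasSum_integral_of_dominated_convergence (F := F) (μ := μ)
    (f := fun x => (f x : ℂ) * (((⟪t, x⟫ : ℝ) : ℂ) ^ m *
      Complex.exp (((y + h) * ⟪t, x⟫ : ℝ) * Complex.I)))
    (fun j x => |f x| * (|⟪t, x⟫| ^ m * ((|h| * |⟪t, x⟫|) ^ j / j.factorial)))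
    ?_ ?_ ?_ ?_ ?_
  · simp only [hF] at hsum
    exact (hsum.unique hasSum_zero)
  · intro j
    refine AEStronglyMeasurable.const_mul ?_ _
    refine (Complex.continuous_ofReal.comp_aestronglyMeasurable hfm).mul ?_
    refine Continuous.aestronglyMeasurable ?_
    fun_prop
  · intro j
    refine Eventually.of_forall fun x => le_of_eq ?_
    show ‖((h : ℂ) * Complex.I) ^ j / (j.factorial : ℂ) *
      ((f x : ℂ) * (((⟪t, x⟫ : ℝ) : ℂ) ^ (m + j) *
        Complex.exp ((y * ⟪t, x⟫ : ℝ) * Complex.I)))‖ = _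
    rw [norm_mul, norm_mul, norm_mul, Complex.norm_exp_ofReal_mul_I, norm_div, norm_pow, norm_mul,
      norm_pow, Complex.norm_real, Complex.norm_real, Complex.norm_real, Complex.norm_I,
      Complex.norm_natCast, Real.norm_eq_abs, Real.norm_eq_abs, Real.norm_eq_abs]
    ring
  · refine Eventually.of_forall fun x => ?_
    refine Summable.mul_left _ (Summable.mul_left _ ?_)
    exact Real.summable_pow_div_factorial _
  · have e : ∀ x, ∑' j : ℕ, |f x| * (|⟪t, x⟫| ^ m * ((|h| * |⟪t, x⟫|) ^ j / j.factorial))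
        = |f x| * (|⟪t, x⟫| ^ m * Real.exp (|h| * |⟪t, x⟫|)) := by
      intro x
      rw [tsum_mul_left, tsum_mul_left, Real.exp_eq_exp_ℝ, NormedSpace.exp_eq_tsum_div]
    simp only [e]
    exact integrable_dmom hfm hf t (abs_nonneg h) hth m
  · refine Eventually.of_forall fun x => ?_
    have h1 := NormedSpace.expSeries_div_hasSum_exp (𝔸 := ℂ) (((h * ⟪t, x⟫ : ℝ) : ℂ) * Complex.I)
    rw [← Complex.exp_eq_exp_ℂ] at h1
    have h2 := h1.mul_left ((f x : ℂ) * (((⟪t, x⟫ : ℝ) : ℂ) ^ m *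
      Complex.exp ((y * ⟪t, x⟫ : ℝ) * Complex.I)))
    have e1 : ∀ j, F j x = (f x : ℂ) * (((⟪t, x⟫ : ℝ) : ℂ) ^ m *
        Complex.exp ((y * ⟪t, x⟫ : ℝ) * Complex.I)) *
        ((((h * ⟪t, x⟫ : ℝ) : ℂ) * Complex.I) ^ j / j.factorial) := by
      intro j
      show ((h : ℂ) * Complex.I) ^ j / (j.factorial : ℂ) *
        ((f x : ℂ) * (((⟪t, x⟫ : ℝ) : ℂ) ^ (m + j) *
          Complex.exp ((y * ⟪t, x⟫ : ℝ) * Complex.I))) = _
      push_cast
      ring
    have e2 : (f x : ℂ) * (((⟪t, x⟫ : ℝ) : ℂ) ^ m *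
        Complex.exp (((y + h) * ⟪t, x⟫ : ℝ) * Complex.I))
        = (f x : ℂ) * (((⟪t, x⟫ : ℝ) : ℂ) ^ m * Complex.exp ((y * ⟪t, x⟫ : ℝ) * Complex.I)) *
          Complex.exp (((h * ⟪t, x⟫ : ℝ) : ℂ) * Complex.I) := by
      rw [mul_assoc, mul_assoc, ← Complex.exp_add]
      congr 3
      push_cast
      ring
    have e3 : (fun j => F j x) = fun j => (f x : ℂ) * (((⟪t, x⟫ : ℝ) : ℂ) ^ m *
        Complex.exp ((y * ⟪t, x⟫ : ℝ) * Complex.I)) *
        ((((h * ⟪t, x⟫ : ℝ) : ℂ) * Complex.I) ^ j / j.factorial) := funext e1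
    rw [e2, e3]
    exact h2

theorem dmom_zero {f : E → ℝ} (hfm : AEStronglyMeasurable f μ) {c : ℝ} (hc : 0 < c)
    (hf : Integrable (fun x => f x * Real.exp (c * ‖x‖)) μ) (t : E)
    (h0 : ∀ m : ℕ, ∫ x, f x * ⟪t, x⟫ ^ m ∂μ = 0) (y : ℝ) (m : ℕ) : dmom μ f t y m = 0 := by
  -- a step size
  obtain ⟨n, hn⟩ := exists_nat_gt (|y| * ‖t‖ / c)
  have hn0 : 0 < (n : ℝ) := lt_of_le_of_lt (by positivity) hn
  have hstep : ∀ k : ℕ, ∀ m, dmom μ f t (k * (y / n)) m = 0 := by
    intro k
    induction k with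
    | zero =>
      intro m
      unfold dmom
      simp only [Nat.cast_zero, zero_mul, Complex.ofReal_zero, Complex.exp_zero, mul_one]
      have := h0 m
      have h2 : ∫ x, (((f x * ⟪t, x⟫ ^ m : ℝ)) : ℂ) ∂μ = 0 := by
        rw [integral_complex_ofReal, this, Complex.ofReal_zero]
      rw [← h2]
      refine integral_congr_ae (Eventually.of_forall fun x => ?_)
      push_cast
      rfl
    | succ k ih =>
      intro m
      have e : ((k + 1 : ℕ) : ℝ) * (y / n) = k * (y / n) + y / n := by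
        push_cast
        ring
      rw [e]
      refine dmom_step hfm hc hf t ?_ ih m
      rw [abs_div, abs_of_pos hn0, div_mul_eq_mul_div, div_lt_iff₀ hn0]
      rw [div_lt_iff₀ hc] at hn
      linarith
  have := hstep n m
  rwa [mul_div_cancel₀ _ hn0.ne'] at this

/-- An integrable function with an exponential moment and vanishing directional moments is
zero. -/
theorem ae_zero_of_moments [FiniteDimensional ℝ E] {f : E → ℝ}
    (hfm : AEStronglyMeasurable f μ) {c : ℝ} (hc : 0 < c)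
    (hf : Integrable (fun x => f x * Real.exp (c * ‖x‖)) μ)
    (h0 : ∀ (t : E) (m : ℕ), ∫ x, f x * ⟪t, x⟫ ^ m ∂μ = 0) : f =ᵐ[μ] 0 := by
  have hfi : Integrable f μ := by
    refine hf.mono hfm (Eventually.of_forall fun x => ?_)
    rw [norm_mul, Real.norm_of_nonneg (Real.exp_pos _).le]
    exact le_mul_of_one_le_right (norm_nonneg _) (Real.one_le_exp (by positivity))
  let μp : Measure E := μ.withDensity fun x => ENNReal.ofReal (f x)
  let μm : Measure E := μ.withDensity fun x => ENNReal.ofReal (-f x)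
  have hpf : IsFiniteMeasure μp := isFiniteMeasure_withDensity_ofReal hfi.2
  have hmf : IsFiniteMeasure μm := isFiniteMeasure_withDensity_ofReal hfi.neg.2
  have hchar : ∀ t, charFun μp t = charFun μm t := by
    intro t
    have h1 := dmom_zero hfm hc hf t (h0 t) 1 0
    unfold dmom at h1
    simp only [pow_zero, one_mul] at h1
    rw [charFun_apply, charFun_apply]
    have e : ∀ g : E → ℝ, Integrable g μ →
        ∫ x, Complex.exp (⟪x, t⟫ * Complex.I) ∂(μ.withDensity fun x => ENNReal.ofReal (g x))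
        = ∫ x, ((max (g x) 0 : ℝ) : ℂ) * Complex.exp (⟪x, t⟫ * Complex.I) ∂μ := by
      intro g hg
      rw [integral_withDensity_eq_integral_toReal_smul₀]
      · refine integral_congr_ae (Eventually.of_forall fun x => ?_)
        simp only [ENNReal.toReal_ofReal', Complex.real_smul]
      · exact hg.1.aemeasurable.ennreal_ofReal
      · exact Eventually.of_forall fun x => ENNReal.ofReal_lt_top
    have e' : ∀ g : E → ℝ, Integrable g μ →
        Integrable (fun x => ((max (g x) 0 : ℝ) : ℂ) * Complex.exp (⟪x, t⟫ * Complex.I)) μ := by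
      intro g hg
      refine hg.abs.mono' ?_ ?_
      · refine (Complex.continuous_ofReal.comp_aestronglyMeasurable
          (hg.pos_part.1)).mul ?_
        exact Continuous.aestronglyMeasurable (by fun_prop)
      · refine Eventually.of_forall fun x => ?_
        rw [norm_mul, Complex.norm_exp_ofReal_mul_I, mul_one, Complex.norm_real,
          Real.norm_of_nonneg (le_max_right _ _)]
        exact max_le (le_abs_self _) (abs_nonneg _)
    rw [e f hfi, e (fun x => -f x) hfi.neg, ← sub_eq_zero, ← integral_sub (e' f hfi)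
      (e' (fun x => -f x) hfi.neg)]
    rw [← h1]
    refine integral_congr_ae (Eventually.of_forall fun x => ?_)
    simp only
    rw [← sub_mul, ← Complex.ofReal_sub, real_inner_comm]
    congr 2
    have := max_zero_sub_eq_self (f x)
    exact this
  have hμ : μp = μm := Measure.ext_of_charFun (funext hchar)
  refine hfi.ae_eq_zero_of_forall_setIntegral_eq_zero fun s hs _ => ?_
  rw [integral_eq_lintegral_pos_part_sub_lintegral_neg_part hfi.integrableOn]
  have h1 : ∫⁻ a in s, ENNReal.ofReal (f a) ∂μ = μp s := by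
    rw [withDensity_apply _ hs]
  have h2 : ∫⁻ a in s, ENNReal.ofReal (-f a) ∂μ = μm s := by
    rw [withDensity_apply _ hs]
  rw [h1, h2, hμ, sub_self]

end

end Vale.Agent.P370
end

section

/-!
The Sturmian lower bound: for `u` orthogonal (with the weight `1 / ‖x‖`) to `E n`,
`κ (n + 1) ∫ u² / ‖x‖ ≤ ½ ∫ |∇ u|² + κ²/2 ∫ u²`.
-/

namespace Vale.Agent.P370.Hyd

open MeasureTheory Filter Topology MvPolynomial
open scoped NNReal ENNReal RealInnerProductSpace

instance finite_index (N : ℕ) : Finite {d : Fin 3 →₀ ℕ // d.degree < N} := by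
  have h : Set.Finite {d : Fin 3 →₀ ℕ | d.degree < N} := by
    refine (Set.finite_Iic (Finsupp.equivFunOnFinite.symm fun _ => N)).subset fun d hd => ?_
    rw [Set.mem_Iic, Finsupp.le_def]
    intro i
    have h1 : d i ≤ d.degree := Finsupp.le_degree i d
    have h2 : d.degree < N := hd
    simp only [Finsupp.equivFunOnFinite_symm_apply_apply]
    omega
  exact h.to_subtype

/-- the coefficients as coordinates -/
noncomputable def ltCoord (N : ℕ) : lt N →ₗ[ℝ] ({d : Fin 3 →₀ ℕ // d.degree < N} → ℝ) where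
  toFun P d := coeff d.1 P.1
  map_add' P Q := by
    funext d
    exact coeff_add _ _ _
  map_smul' c P := by
    funext d
    exact coeff_smul _ _ _

theorem ltCoord_injective (N : ℕ) : Function.Injective (ltCoord N) := by
  intro P Q h
  refine Subtype.ext (MvPolynomial.ext _ _ fun d => ?_)
  rcases Nat.lt_or_ge d.degree N with hd | hd
  · exact congrFun h ⟨d, hd⟩
  · rw [P.2 d hd, Q.2 d hd]

instance (N : ℕ) : FiniteDimensional ℝ (lt N) :=
  FiniteDimensional.of_injective (ltCoord N) (ltCoord_injective N)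

/-- `E N` as a product -/
noncomputable def eEquiv (N : ℕ) : E N ≃ₗ[ℝ] (lt N × lt (N - 1)) where
  toFun z := (⟨z.1.1, z.2.1⟩, ⟨z.1.2, z.2.2⟩)
  invFun z := ⟨(z.1.1, z.2.1), z.1.2, z.2.2⟩
  left_inv _ := rfl
  right_inv _ := rfl
  map_add' _ _ := rfl
  map_smul' _ _ := rfl

instance (N : ℕ) : FiniteDimensional ℝ (E N) :=
  LinearEquiv.finiteDimensional (eEquiv N).symm

/-- the measure `dx / ‖x‖` -/
noncomputable def μr : Measure R3 := volume.withDensity fun x => ((‖x‖₊⁻¹ : ℝ≥0) : ℝ≥0∞)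

theorem measurable_nninv : Measurable fun x : R3 => (‖x‖₊⁻¹ : ℝ≥0) := measurable_nnnorm.inv

theorem integral_μr (f : R3 → ℝ) : ∫ x, f x ∂μr = ∫ x, f x / ‖x‖ := by
  unfold μr
  rw [integral_withDensity_eq_integral_smul measurable_nninv]
  refine integral_congr_ae (Eventually.of_forall fun x => ?_)
  simp only [NNReal.smul_def, NNReal.coe_inv, coe_nnnorm, smul_eq_mul]
  rw [div_eq_inv_mul]

theorem integrable_μr {f : R3 → ℝ} : Integrable f μr ↔ Integrable fun x => f x / ‖x‖ := by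
  unfold μr
  rw [integrable_withDensity_iff_integrable_smul measurable_nninv]
  refine integrable_congr (Eventually.of_forall fun x => ?_)
  simp only [NNReal.smul_def, NNReal.coe_inv, coe_nnnorm, smul_eq_mul]
  rw [div_eq_inv_mul]

theorem μr_ac : μr ≪ volume := withDensity_absolutelyContinuous _ _

theorem memLp_of_dec {w : R3 → ℝ} (hc : Continuous w) (hd : Dec w) : MemLp w 2 μr := by
  rw [memLp_two_iff_integrable_sq hc.aestronglyMeasurable, integrable_μr]
  have h := (hd.mul hd).integrable_div (hc.mul hc).aestronglyMeasurable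
  refine h.congr (Eventually.of_forall fun x => ?_)
  simp only
  rw [sq]

/-- the weighted Hilbert space -/
abbrev Hs : Type := Lp ℝ 2 μr

/-- class of an admissible function -/
noncomputable def toH (w : R3 → ℝ) (hc : Continuous w) (hd : Dec w) : Hs :=
  (memLp_of_dec hc hd).toLp w

theorem inner_toH {v w : R3 → ℝ} (hv : Continuous v) (hv' : Dec v) (hw : Continuous w)
    (hw' : Dec w) : ⟪toH v hv hv', toH w hw hw'⟫ = ipr v w := by
  rw [L2.inner_def]
  unfold ipr
  rw [← integral_μr]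
  refine integral_congr_ae ?_
  filter_upwards [(memLp_of_dec hv hv').coeFn_toLp, (memLp_of_dec hw hw').coeFn_toLp] with x h1 h2
  show ⟪(toH v hv hv') x, (toH w hw hw') x⟫ = v x * w x
  unfold toH
  rw [h1, h2]
  simp [mul_comm]

/-- the map from pairs of polynomials to the Hilbert space -/
noncomputable def Ξ {κ : ℝ} (hκ : 0 < κ) : Pl × Pl →ₗ[ℝ] Hs where
  toFun z := toH (xp κ z.1 z.2) (continuous_xp κ z.1 z.2) (dec_xp hκ z.1 z.2)
  map_add' z z' := by
    unfold toH
    rw [← MemLp.toLp_add]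
    refine (MemLp.toLp_eq_toLp_iff _ _).2 (Eventually.of_forall fun x => ?_)
    simp only [xp, Prod.fst_add, Prod.snd_add, ev_add, Pi.add_apply]
    ring
  map_smul' c z := by
    unfold toH
    rw [RingHom.id_apply, ← MemLp.toLp_const_smul]
    refine (MemLp.toLp_eq_toLp_iff _ _).2 (Eventually.of_forall fun x => ?_)
    simp only [xp, Prod.smul_fst, Prod.smul_snd, Pi.smul_apply, smul_eq_mul, ev, smul_eval]
    ring

theorem inner_Ξ_left {κ : ℝ} (hκ : 0 < κ) (z : Pl × Pl) {w : R3 → ℝ} (hw : Continuous w)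
    (hw' : Dec w) : ⟪Ξ hκ z, toH w hw hw'⟫ = ipr (xp κ z.1 z.2) w :=
  inner_toH (continuous_xp κ z.1 z.2) (dec_xp hκ z.1 z.2) hw hw'

/-- the energy form with parameter `κ` -/
noncomputable def en (κ : ℝ) (v w : R3 → ℝ) (dv dw : Fin 3 → R3 → ℝ) : ℝ :=
  kin dv dw + κ ^ 2 / 2 * ip v w

theorem green' {κ : ℝ} (hκ : 0 < κ) (z : Pl × Pl) {w : R3 → ℝ} {dw : Fin 3 → R3 → ℝ}
    (hw : Adm w dw) : en κ (xp κ z.1 z.2) w (xpd κ z.1 z.2) dw
      = ⟪Ξ hκ (TL κ z), toH w hw.cont hw.dec⟫ := by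
  rw [inner_Ξ_left, TL_apply]
  exact green hκ z.1 z.2 hw

theorem kin_comm (dv dw : Fin 3 → R3 → ℝ) : kin dv dw = kin dw dv := by
  unfold kin
  simp only [mul_comm]

theorem ip_comm (v w : R3 → ℝ) : ip v w = ip w v := by
  unfold ip
  simp only [mul_comm]

theorem ipr_comm (v w : R3 → ℝ) : ipr v w = ipr w v := by
  unfold ipr
  simp only [mul_comm]

theorem en_comm (κ : ℝ) (v w : R3 → ℝ) (dv dw : Fin 3 → R3 → ℝ) :
    en κ v w dv dw = en κ w v dw dv := by
  unfold en
  rw [kin_comm, ip_comm]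

theorem TL_symm {κ : ℝ} (hκ : 0 < κ) (z z' : Pl × Pl) :
    ⟪Ξ hκ (TL κ z), Ξ hκ z'⟫ = ⟪Ξ hκ z, Ξ hκ (TL κ z')⟫ := by
  have h1 := green' hκ z (adm_xp hκ z'.1 z'.2)
  have h2 := green' hκ z' (adm_xp hκ z.1 z.2)
  rw [en_comm] at h2
  calc ⟪Ξ hκ (TL κ z), Ξ hκ z'⟫ = _ := h1.symm
    _ = ⟪Ξ hκ (TL κ z'), Ξ hκ z⟫ := h2
    _ = _ := real_inner_comm _ _

theorem Adm.int_mul {v w : R3 → ℝ} {dv dw : Fin 3 → R3 → ℝ} (hv : Adm v dv) (hw : Adm w dw) :
    Integrable fun x => v x * w x :=
  (hv.dec.mul hw.dec).integrable (hv.cont.mul hw.cont).aestronglyMeasurable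

theorem Adm.int_mul_div {v w : R3 → ℝ} {dv dw : Fin 3 → R3 → ℝ} (hv : Adm v dv)
    (hw : Adm w dw) : Integrable fun x => v x * w x / ‖x‖ :=
  (hv.dec.mul hw.dec).integrable_div (hv.cont.mul hw.cont).aestronglyMeasurable

theorem Adm.int_dmul {v w : R3 → ℝ} {dv dw : Fin 3 → R3 → ℝ} (hv : Adm v dv) (hw : Adm w dw)
    (i : Fin 3) : Integrable fun x => dv i x * dw i x :=
  ((hv.ddec i).mul (hw.ddec i)).integrable ((hv.meas i).mul (hw.meas i)).aestronglyMeasurable

theorem int3 {f g h : R3 → ℝ} (hf : Integrable f) (hg : Integrable g) (hh : Integrable h) :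
    ∫ x, (f x - 2 * g x + h x) = (∫ x, f x) - 2 * (∫ x, g x) + ∫ x, h x := by
  have h1 := integral_add (f := fun x => f x - 2 * g x) (g := h) (hf.sub (hg.const_mul 2)) hh
  have h2 := integral_sub (f := f) (g := fun x => 2 * g x) hf (hg.const_mul 2)
  rw [h1, h2, integral_const_mul]

theorem kin_sub {v w : R3 → ℝ} {dv dw : Fin 3 → R3 → ℝ} (hv : Adm v dv) (hw : Adm w dw) :
    kin (fun i x => dv i x - dw i x) (fun i x => dv i x - dw i x)
      = kin dv dv - 2 * kin dv dw + kin dw dw := by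
  unfold kin
  have : ∀ i, ∫ x, (dv i x - dw i x) * (dv i x - dw i x)
      = (∫ x, dv i x * dv i x) - 2 * (∫ x, dv i x * dw i x) + ∫ x, dw i x * dw i x := by
    intro i
    rw [← int3 (hv.int_dmul hv i) (hv.int_dmul hw i) (hw.int_dmul hw i)]
    refine integral_congr_ae (Eventually.of_forall fun x => ?_)
    simp only
    ring
  simp only [this, Finset.sum_add_distrib, Finset.sum_sub_distrib, ← Finset.mul_sum]
  ring

theorem ip_sub {v w : R3 → ℝ} {dv dw : Fin 3 → R3 → ℝ} (hv : Adm v dv) (hw : Adm w dw) :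
    ip (fun x => v x - w x) (fun x => v x - w x) = ip v v - 2 * ip v w + ip w w := by
  unfold ip
  rw [← int3 (hv.int_mul hv) (hv.int_mul hw) (hw.int_mul hw)]
  refine integral_congr_ae (Eventually.of_forall fun x => ?_)
  simp only
  ring

theorem kin_nonneg (dv : Fin 3 → R3 → ℝ) : 0 ≤ kin dv dv := by
  unfold kin
  refine mul_nonneg (by norm_num) (Finset.sum_nonneg fun i _ => integral_nonneg fun x => ?_)
  exact mul_self_nonneg _

theorem ip_nonneg (v : R3 → ℝ) : 0 ≤ ip v v := integral_nonneg fun _ => mul_self_nonneg _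

theorem en_nonneg (κ : ℝ) (v : R3 → ℝ) (dv : Fin 3 → R3 → ℝ) : 0 ≤ en κ v v dv dv :=
  add_nonneg (kin_nonneg dv) (mul_nonneg (by positivity) (ip_nonneg v))

theorem en_sub (κ : ℝ) {v w : R3 → ℝ} {dv dw : Fin 3 → R3 → ℝ} (hv : Adm v dv) (hw : Adm w dw) :
    en κ (fun x => v x - w x) (fun x => v x - w x) (fun i x => dv i x - dw i x)
      (fun i x => dv i x - dw i x) = en κ v v dv dv - 2 * en κ v w dv dw + en κ w w dw dw := by
  unfold en
  rw [kin_sub hv hw, ip_sub hv hw]
  ring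

/-- density -/
theorem dense_Ξ {κ : ℝ} (hκ : 0 < κ) : (⊤ : Submodule ℝ Hs)
    ≤ (⨆ N : ℕ, (E N).map (Ξ hκ)).topologicalClosure := by
  rw [top_le_iff, Submodule.topologicalClosure_eq_top_iff, Submodule.eq_bot_iff]
  intro h hh
  have horth : ∀ P : Pl, ∫ x, ev P x * Real.exp (-κ * ‖x‖) * h x ∂μr = 0 := by
    intro P
    obtain ⟨N, hN⟩ : ∃ N, P ∈ lt N := by
      refine ⟨P.totalDegree + 1, fun d hd => ?_⟩
      by_contra hcon
      have h1 := le_totalDegree (mem_support_iff.2 hcon)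
      have h2 : (d.sum fun _ e => e) = d.degree := rfl
      omega
    have h1 : Ξ hκ (P, 0) ∈ ⨆ N : ℕ, (E N).map (Ξ hκ) :=
      Submodule.mem_iSup_of_mem N ⟨(P, 0), ⟨hN, Submodule.zero_mem _⟩, rfl⟩
    have h2 := hh _ h1
    rw [L2.inner_def] at h2
    rw [← h2]
    refine integral_congr_ae ?_
    filter_upwards [(memLp_of_dec (continuous_xp κ P 0) (dec_xp hκ P 0)).coeFn_toLp] with x hx
    show _ = ⟪(toH (xp κ P 0) (continuous_xp κ P 0) (dec_xp hκ P 0)) x, h x⟫
    unfold toH
    rw [hx]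
    simp only [xp, ev, map_zero, mul_zero, add_zero]
    simp [mul_comm]
  have hmeas : AEStronglyMeasurable (h : R3 → ℝ) volume :=
    (Lp.stronglyMeasurable h).aestronglyMeasurable
  have hexp : ∀ c : ℝ, 0 < c → MemLp (fun x : R3 => Real.exp (-c * ‖x‖)) 2 μr := fun c hc =>
    memLp_of_dec (by fun_prop) ⟨1, c, hc, fun x => by rw [abs_of_pos (Real.exp_pos _), one_mul]⟩
  have hz : (fun x => (h x) * Real.exp (-κ * ‖x‖) / ‖x‖) =ᵐ[volume] 0 := by
    refine ae_zero_of_moments (c := κ / 2) ?_ (by positivity) ?_ ?_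
    · simp only [div_eq_mul_inv]
      exact (hmeas.mul (by fun_prop : Continuous fun x : R3 =>
        Real.exp (-κ * ‖x‖)).aestronglyMeasurable).mul measurable_norm.inv.aestronglyMeasurable
    · have h1 : Integrable (fun x => h x * Real.exp (-(κ / 2) * ‖x‖)) μr :=
        (Lp.memLp h).integrable_mul (hexp (κ / 2) (by positivity))
      rw [integrable_μr] at h1
      refine h1.congr (Eventually.of_forall fun x => ?_)
      simp only
      rw [div_mul_eq_mul_div, mul_assoc, ← Real.exp_add]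
      congr 3
      ring
    · intro t m
      have h1 := horth ((∑ i, C (t i) * X i) ^ m)
      rw [integral_μr] at h1
      rw [← h1]
      refine integral_congr_ae (Eventually.of_forall fun x => ?_)
      simp only
      have h2 : ev ((∑ i, C (t i) * X i) ^ m) x = ⟪t, x⟫ ^ m := by
        simp [ev, PiLp.inner_apply, mul_comm]
      rw [h2]
      ring
  have hne : ∀ᵐ x : R3, x ≠ 0 := by
    rw [ae_iff]
    simp
  have h0 : (h : R3 → ℝ) =ᵐ[volume] 0 := by
    filter_upwards [hz, hne] with x hx hx0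
    have hr : ‖x‖ ≠ 0 := norm_ne_zero_iff.2 hx0
    simp only [Pi.zero_apply, div_eq_zero_iff, mul_eq_zero, Real.exp_ne_zero, or_false, hr] at hx ⊢
    exact hx
  exact Lp.eq_zero_iff_ae_eq_zero.2 (μr_ac.ae_eq h0)

end Vale.Agent.P370.Hyd
end

section

/-! The Sturmian lower bound. -/

namespace Vale.Agent.P370.Hyd

open MeasureTheory Filter Topology MvPolynomial
open scoped NNReal ENNReal RealInnerProductSpace

section

variable {κ : ℝ} (hκ : 0 < κ)

/-- the finite dimensional spaces -/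
noncomputable def SN (N : ℕ) : Submodule ℝ Hs := (E N).map (Ξ hκ)

instance (N : ℕ) : FiniteDimensional ℝ (SN hκ N) := by
  unfold SN
  infer_instance

theorem SN_mono : Monotone (SN hκ) := fun _ _ h => Submodule.map_mono (E_mono h)

theorem exists_rep_SN {N : ℕ} {y : Hs} (hy : y ∈ SN hκ N) : ∃ z ∈ E N, Ξ hκ z = y := hy

/-- on `S (N+1) ⊖ S N` the operator is multiplication by `κ (N + 1)` -/
theorem TL_eigen {N : ℕ} {g : Pl × Pl} (hg : g ∈ E (N + 1))
    (hg' : ∀ y ∈ E N, ⟪Ξ hκ y, Ξ hκ g⟫ = 0) : Ξ hκ (TL κ g) = (κ * (N + 1)) • Ξ hκ g := by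
  have h1 := TL_sub_mem κ hg
  have h2 : Ξ hκ (TL κ g - (κ * (N + 1)) • g) = 0 := by
    rw [← inner_self_eq_zero (𝕜 := ℝ)]
    have h3 : ∀ y ∈ E N, ⟪Ξ hκ y, Ξ hκ (TL κ g - (κ * (N + 1)) • g)⟫ = 0 := by
      intro y hy
      rw [map_sub, inner_sub_right, map_smul, inner_smul_right, hg' y hy, mul_zero, sub_zero,
        ← TL_symm]
      exact hg' _ (TL_mem κ hy)
    exact h3 _ h1
  rw [map_sub, map_smul, sub_eq_zero] at h2
  exact h2

include hκ in
theorem sturm (n : ℕ) {u : R3 → ℝ} {du : Fin 3 → R3 → ℝ} (hu : Adm u du)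
    (horth : ∀ z ∈ E n, ipr (xp κ z.1 z.2) u = 0) :
    κ * (n + 1) * ipr u u ≤ en κ u u du du := by
  obtain ⟨U, hU⟩ : ∃ U : Hs, U = toH u hu.cont hu.dec := ⟨_, rfl⟩
  have hpm : ∀ N, (SN hκ N).starProjection U ∈ SN hκ N := fun N =>
    Submodule.starProjection_apply_mem _ _
  choose z hz hzp using fun N => exists_rep_SN hκ (hpm N)
  have hUo : ∀ N, ∀ y ∈ E N, ⟪Ξ hκ y, U⟫ = ⟪Ξ hκ y, Ξ hκ (z N)⟫ := by
    intro N y hy
    have h1 := Submodule.starProjection_inner_eq_zero (K := SN hκ N) U (Ξ hκ y) ⟨y, hy, rfl⟩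
    rw [inner_sub_left, sub_eq_zero] at h1
    rw [hzp, real_inner_comm, h1, real_inner_comm]
  have hp0 : Ξ hκ (z n) = 0 := by
    rw [← inner_self_eq_zero (𝕜 := ℝ), ← hUo n _ (hz n), hU, inner_Ξ_left]
    exact horth _ (hz n)
  -- (a)
  have ha : ∀ N, ⟪Ξ hκ (TL κ (z N)), Ξ hκ (z N)⟫ ≤ en κ u u du du := by
    intro N
    have h1 := en_nonneg κ (fun x => u x - xp κ (z N).1 (z N).2 x)
      (fun i x => du i x - xpd κ (z N).1 (z N).2 i x)
    rw [en_sub κ hu (adm_xp hκ (z N).1 (z N).2)] at h1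
    have h2 := green' hκ (z N) hu
    have h3 := green' hκ (z N) (adm_xp hκ (z N).1 (z N).2)
    rw [← hU, hUo N _ (TL_mem κ (hz N))] at h2
    have h4 : toH (xp κ (z N).1 (z N).2) (adm_xp hκ (z N).1 (z N).2).cont
      (adm_xp hκ (z N).1 (z N).2).dec = Ξ hκ (z N) := rfl
    rw [h4] at h3
    rw [en_comm κ u (xp κ (z N).1 (z N).2), h2, h3] at h1
    linarith
  -- (b)
  have hb : ∀ N, n ≤ N →
      κ * (n + 1) * ‖Ξ hκ (z N)‖ ^ 2 ≤ ⟪Ξ hκ (TL κ (z N)), Ξ hκ (z N)⟫ := by
    intro N hN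
    induction N, hN using Nat.le_induction with
    | base => rw [hp0, norm_zero, inner_zero_right]; simp
    | succ N hN ih =>
      obtain ⟨g, hg⟩ : ∃ g, g = z (N + 1) - z N := ⟨_, rfl⟩
      have hgE : g ∈ E (N + 1) := by
        rw [hg]
        exact Submodule.sub_mem _ (hz (N + 1)) (E_mono (Nat.le_succ N) (hz N))
      have hgo : ∀ y ∈ E N, ⟪Ξ hκ y, Ξ hκ g⟫ = 0 := by
        intro y hy
        rw [hg, map_sub, inner_sub_right, ← hUo N y hy,
          ← hUo (N + 1) y (E_mono (Nat.le_succ N) hy), sub_self]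
      have hT := TL_eigen hκ hgE hgo
      have hz1 : z (N + 1) = z N + g := by rw [hg]; abel
      have e1 : ⟪Ξ hκ (TL κ (z (N + 1))), Ξ hκ (z (N + 1))⟫
          = ⟪Ξ hκ (TL κ (z N)), Ξ hκ (z N)⟫ + κ * (N + 1) * ‖Ξ hκ g‖ ^ 2 := by
        rw [hz1, map_add, map_add, map_add, inner_add_left, inner_add_right, inner_add_right,
          hT, inner_smul_left, inner_smul_left, hgo _ (TL_mem κ (hz N)),
          real_inner_comm (Ξ hκ (z N)) (Ξ hκ g), hgo _ (hz N), real_inner_self_eq_norm_sq]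
        simp
      have e2 : ‖Ξ hκ (z (N + 1))‖ ^ 2 = ‖Ξ hκ (z N)‖ ^ 2 + ‖Ξ hκ g‖ ^ 2 := by
        rw [hz1, map_add, ← real_inner_self_eq_norm_sq, inner_add_left, inner_add_right,
          inner_add_right, real_inner_comm (Ξ hκ (z N)) (Ξ hκ g), hgo _ (hz N),
          real_inner_self_eq_norm_sq, real_inner_self_eq_norm_sq]
        ring
      rw [e1, e2]
      have h5 : (n : ℝ) ≤ N := by exact_mod_cast hN
      have h6 : κ * (n + 1) * ‖Ξ hκ g‖ ^ 2 ≤ κ * (N + 1) * ‖Ξ hκ g‖ ^ 2 := by gcongr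
      linarith
  -- (c)
  have hc : Tendsto (fun N => ‖Ξ hκ (z N)‖ ^ 2) atTop (𝓝 (ipr u u)) := by
    have h1 := Submodule.starProjection_tendsto_self (SN hκ) (SN_mono hκ) U (dense_Ξ hκ)
    have h2 : ‖U‖ ^ 2 = ipr u u := by
      rw [← real_inner_self_eq_norm_sq, hU, inner_toH]
    rw [← h2]
    have h3 := (h1.norm).pow 2
    refine h3.congr fun N => ?_
    rw [hzp]
  refine le_of_tendsto (hc.const_mul (κ * (n + 1))) ?_
  filter_upwards [eventually_ge_atTop n] with N hN
  exact (hb N hN).trans (ha N)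

end

end Vale.Agent.P370.Hyd
end

section

/-! The quadratic form inequality for the hydrogen atom. -/

namespace Vale.Agent.P370.Hyd

open MeasureTheory Filter Topology MvPolynomial
open scoped NNReal ENNReal RealInnerProductSpace

/-- admissible functions as a vector space -/
noncomputable def AdmS : Submodule ℝ ((R3 → ℝ) × (Fin 3 → R3 → ℝ)) where
  carrier := {p | Adm p.1 p.2}
  add_mem' h h' := h.add h'
  zero_mem' := Adm.zero
  smul_mem' c _ h := h.const_mul c

/-- the kinetic form -/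
noncomputable def kinB : AdmS →ₗ[ℝ] AdmS →ₗ[ℝ] ℝ :=
  LinearMap.mk₂ ℝ (fun v w => kin v.1.2 w.1.2)
    (fun v v' w => by
      unfold kin
      rw [← mul_add, ← Finset.sum_add_distrib]
      congr 1
      refine Finset.sum_congr rfl fun i _ => ?_
      rw [← integral_add (v.2.int_dmul w.2 i) (v'.2.int_dmul w.2 i)]
      exact integral_congr_ae (Eventually.of_forall fun x => add_mul _ _ _))
    (fun c v w => by
      have hs : ∀ i, ∫ x, (c • v).1.2 i x * w.1.2 i x = c * ∫ x, v.1.2 i x * w.1.2 i x := by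
        intro i
        rw [← integral_const_mul]
        exact integral_congr_ae (Eventually.of_forall fun x => mul_assoc _ _ _)
      unfold kin
      rw [smul_eq_mul, Finset.sum_congr rfl fun i _ => hs i, ← Finset.mul_sum, mul_left_comm])
    (fun v w w' => by
      unfold kin
      rw [← mul_add, ← Finset.sum_add_distrib]
      congr 1
      refine Finset.sum_congr rfl fun i _ => ?_
      rw [← integral_add (v.2.int_dmul w.2 i) (v.2.int_dmul w'.2 i)]
      exact integral_congr_ae (Eventually.of_forall fun x => mul_add _ _ _))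
    (fun c v w => by
      have hs : ∀ i, ∫ x, v.1.2 i x * (c • w).1.2 i x = c * ∫ x, v.1.2 i x * w.1.2 i x := by
        intro i
        rw [← integral_const_mul]
        exact integral_congr_ae (Eventually.of_forall fun x => mul_left_comm _ _ _)
      unfold kin
      rw [smul_eq_mul, Finset.sum_congr rfl fun i _ => hs i, ← Finset.mul_sum, mul_left_comm])

/-- the L² form -/
noncomputable def ipB : AdmS →ₗ[ℝ] AdmS →ₗ[ℝ] ℝ :=
  LinearMap.mk₂ ℝ (fun v w => ip v.1.1 w.1.1)
    (fun v v' w => by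
      unfold ip
      rw [← integral_add (v.2.int_mul w.2) (v'.2.int_mul w.2)]
      exact integral_congr_ae (Eventually.of_forall fun x => add_mul _ _ _))
    (fun c v w => by
      unfold ip
      rw [smul_eq_mul, ← integral_const_mul]
      exact integral_congr_ae (Eventually.of_forall fun x => mul_assoc _ _ _))
    (fun v w w' => by
      unfold ip
      rw [← integral_add (v.2.int_mul w.2) (v.2.int_mul w'.2)]
      exact integral_congr_ae (Eventually.of_forall fun x => mul_add _ _ _))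
    (fun c v w => by
      unfold ip
      rw [smul_eq_mul, ← integral_const_mul]
      exact integral_congr_ae (Eventually.of_forall fun x => mul_left_comm _ _ _))

/-- the Coulomb form -/
noncomputable def iprB : AdmS →ₗ[ℝ] AdmS →ₗ[ℝ] ℝ :=
  LinearMap.mk₂ ℝ (fun v w => ipr v.1.1 w.1.1)
    (fun v v' w => by
      unfold ipr
      rw [← integral_add (v.2.int_mul_div w.2) (v'.2.int_mul_div w.2)]
      refine integral_congr_ae (Eventually.of_forall fun x => ?_)
      show (v.1.1 x + v'.1.1 x) * w.1.1 x / ‖x‖ = _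
      rw [add_mul, add_div])
    (fun c v w => by
      unfold ipr
      rw [smul_eq_mul, ← integral_const_mul]
      refine integral_congr_ae (Eventually.of_forall fun x => ?_)
      show (c * v.1.1 x) * w.1.1 x / ‖x‖ = c * (v.1.1 x * w.1.1 x / ‖x‖)
      ring)
    (fun v w w' => by
      unfold ipr
      rw [← integral_add (v.2.int_mul_div w.2) (v.2.int_mul_div w'.2)]
      refine integral_congr_ae (Eventually.of_forall fun x => ?_)
      show v.1.1 x * (w.1.1 x + w'.1.1 x) / ‖x‖ = _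
      rw [mul_add, add_div])
    (fun c v w => by
      unfold ipr
      rw [smul_eq_mul, ← integral_const_mul]
      refine integral_congr_ae (Eventually.of_forall fun x => ?_)
      show v.1.1 x * (c * w.1.1 x) / ‖x‖ = c * (v.1.1 x * w.1.1 x / ‖x‖)
      ring)

theorem kinB_comm (v w : AdmS) : kinB v w = kinB w v := kin_comm _ _

theorem ipB_comm (v w : AdmS) : ipB v w = ipB w v := ip_comm _ _

theorem iprB_comm (v w : AdmS) : iprB v w = iprB w v := ipr_comm _ _

/-- the classes in the weighted space -/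
noncomputable def toHL : AdmS →ₗ[ℝ] Hs where
  toFun v := toH v.1.1 v.2.cont v.2.dec
  map_add' v w := by
    unfold toH
    rw [← MemLp.toLp_add]
    exact (MemLp.toLp_eq_toLp_iff _ _).2 (Eventually.of_forall fun x => rfl)
  map_smul' c v := by
    unfold toH
    rw [RingHom.id_apply, ← MemLp.toLp_const_smul]
    exact (MemLp.toLp_eq_toLp_iff _ _).2 (Eventually.of_forall fun x => rfl)

/-- the form `H - e` with `e = -κ² / 2` -/
noncomputable def QB (κ : ℝ) : AdmS →ₗ[ℝ] AdmS →ₗ[ℝ] ℝ := kinB + (κ ^ 2 / 2) • ipB - iprB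

theorem QB_apply (κ : ℝ) (v w : AdmS) :
    QB κ v w = kinB v w + κ ^ 2 / 2 * ipB v w - iprB v w := rfl

theorem QB_comm (κ : ℝ) (v w : AdmS) : QB κ v w = QB κ w v := by
  rw [QB_apply, QB_apply, kinB_comm, ipB_comm, iprB_comm]

theorem QB_nonneg (n : ℕ) {u : AdmS}
    (horth : ∀ z ∈ E n, ⟪Ξ (κ := 1 / ((n : ℝ) + 1)) (by positivity) z, toHL u⟫ = 0) :
    0 ≤ QB (1 / ((n : ℝ) + 1)) u u := by
  have hκ : (0 : ℝ) < 1 / ((n : ℝ) + 1) := by positivity
  have h := sturm hκ n u.2 fun z hz => by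
    have := horth z hz
    rwa [show toHL u = toH u.1.1 u.2.cont u.2.dec from rfl, inner_Ξ_left] at this
  have h1 : 1 / ((n : ℝ) + 1) * (n + 1) = 1 := by
    field_simp
  rw [h1, one_mul] at h
  have h2 : QB (1 / ((n : ℝ) + 1)) u u
      = en (1 / ((n : ℝ) + 1)) u.1.1 u.1.1 u.1.2 u.1.2 - ipr u.1.1 u.1.1 := rfl
  rw [h2]
  linarith only [h]

/-- **Form inequality for the hydrogen atom.** -/
theorem hyd_lower (n : ℕ) {ι : Type*} [Fintype ι] [DecidableEq ι] (φ : ι → AdmS) (e : ι → ℝ)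
    (hEig : ∀ a w, kinB (φ a) w - iprB (φ a) w = e a * ipB (φ a) w)
    (horth : ∀ a b, ipB (φ a) (φ b) = if a = b then 1 else 0)
    (he : ∀ a, e a < -(1 / (2 * ((n : ℝ) + 1) ^ 2)))
    (hcard : Module.finrank ℝ (E n) ≤ Fintype.card ι) (u : AdmS) :
    ∑ a, (e a - -(1 / (2 * ((n : ℝ) + 1) ^ 2))) * (ipB (φ a) u) ^ 2
      + -(1 / (2 * ((n : ℝ) + 1) ^ 2)) * ipB u u ≤ kinB u u - iprB u u := by
  have hκ : (0 : ℝ) < 1 / ((n : ℝ) + 1) := by positivity
  obtain ⟨e', he'⟩ : ∃ e' : ℝ, e' = -(1 / (2 * ((n : ℝ) + 1) ^ 2)) := ⟨_, rfl⟩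
  have hee : (1 / ((n : ℝ) + 1)) ^ 2 / 2 = -e' := by
    rw [he']
    field_simp
  rw [← he'] at he ⊢
  set κ : ℝ := 1 / ((n : ℝ) + 1) with hκd
  -- the form on eigenfunctions
  have hQφ : ∀ a w, QB κ (φ a) w = (e a - e') * ipB (φ a) w := by
    intro a w
    rw [QB_apply, hee]
    have := hEig a w
    linarith only [this]
  -- the span of the eigenfunctions
  let F : (ι → ℝ) →ₗ[ℝ] AdmS :=
    { toFun := fun c => ∑ a, c a • φ a
      map_add' := fun c d => by
        simp only [Pi.add_apply, add_smul, Finset.sum_add_distrib]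
      map_smul' := fun c d => by
        simp only [Pi.smul_apply, smul_eq_mul, RingHom.id_apply, Finset.smul_sum, smul_smul] }
  have hF : ∀ c, F c = ∑ a, c a • φ a := fun c => rfl
  have hQF : ∀ c w, QB κ (F c) w = ∑ a, c a * ((e a - e') * ipB (φ a) w) := by
    intro c w
    rw [hF, map_sum, LinearMap.sum_apply]
    refine Finset.sum_congr rfl fun a _ => ?_
    rw [map_smul, LinearMap.smul_apply, smul_eq_mul, hQφ]
  have hipF : ∀ a c, ipB (φ a) (F c) = c a := by
    intro a c
    rw [hF, map_sum]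
    rw [Finset.sum_eq_single a]
    · rw [map_smul, horth, if_pos rfl, smul_eq_mul, mul_one]
    · intro b _ hb
      rw [map_smul, horth, if_neg hb.symm, smul_zero]
    · intro h
      exact absurd (Finset.mem_univ a) h
  have hQFF : ∀ c, QB κ (F c) (F c) = ∑ a, (e a - e') * c a ^ 2 := by
    intro c
    rw [hQF]
    refine Finset.sum_congr rfl fun a _ => ?_
    rw [hipF]
    ring
  have hQFneg : ∀ c, QB κ (F c) (F c) ≤ 0 := by
    intro c
    rw [hQFF]
    refine Finset.sum_nonpos fun a _ => ?_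
    exact mul_nonpos_of_nonpos_of_nonneg (by linarith only [he a]) (sq_nonneg _)
  -- projection
  let L : (ι → ℝ) →ₗ[ℝ] SN hκ n :=
    ((SN hκ n).orthogonalProjectionOnto : Hs →ₗ[ℝ] SN hκ n).comp (toHL.comp F)
  have hproj : ∀ y : Hs, (SN hκ n).orthogonalProjectionOnto y = 0 →
      ∀ z ∈ E n, ⟪Ξ hκ z, y⟫ = 0 := by
    intro y hy z hz
    have h1 := Submodule.starProjection_inner_eq_zero (K := SN hκ n) y (Ξ hκ z) ⟨z, hz, rfl⟩
    have h2 : (SN hκ n).starProjection y = 0 := by
      rw [Submodule.starProjection_apply, hy, ZeroMemClass.coe_zero]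
    rw [h2, sub_zero] at h1
    rw [real_inner_comm]
    exact h1
  have hLinj : Function.Injective L := by
    rw [injective_iff_map_eq_zero]
    intro c hc
    have h1 : 0 ≤ QB κ (F c) (F c) := QB_nonneg n (hproj _ hc)
    have h2 : ∑ a, (e a - e') * c a ^ 2 = 0 := by
      rw [← hQFF]
      exact le_antisymm (hQFneg c) h1
    have h3 : ∑ a, (e' - e a) * c a ^ 2 = 0 := by
      rw [← neg_eq_zero, ← Finset.sum_neg_distrib, ← h2]
      exact Finset.sum_congr rfl fun a _ => by ring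
    rw [Finset.sum_eq_zero_iff_of_nonneg fun a _ =>
      mul_nonneg (by linarith only [he a]) (sq_nonneg _)] at h3
    funext a
    have h4 := h3 a (Finset.mem_univ a)
    have h5 : e' - e a ≠ 0 := by
      have := he a
      intro h
      linarith only [this, h]
    simpa [h5] using h4
  have hfr : Module.finrank ℝ (ι → ℝ) = Module.finrank ℝ (SN hκ n) := by
    refine le_antisymm (LinearMap.finrank_le_finrank_of_injective hLinj) ?_
    rw [Module.finrank_fintype_fun_eq_card]
    refine le_trans ?_ hcard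
    exact Submodule.finrank_map_le (Ξ hκ) (E n)
  have hLsurj : Function.Surjective L :=
    (LinearMap.injective_iff_surjective_of_finrank_eq_finrank hfr).1 hLinj
  -- the decomposition
  obtain ⟨d, hd⟩ : ∃ d : ι → ℝ, ∀ a, d a = ipB (φ a) u := ⟨fun a => ipB (φ a) u, fun _ => rfl⟩
  obtain ⟨u', hu'⟩ : ∃ u', u' = u - F d := ⟨_, rfl⟩
  have hu'φ : ∀ a, ipB (φ a) u' = 0 := by
    intro a
    rw [hu', map_sub, hipF, hd, sub_self]
  obtain ⟨c, hc⟩ := hLsurj ((SN hκ n).orthogonalProjectionOnto (toHL u'))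
  have h0 : (SN hκ n).orthogonalProjectionOnto (toHL (u' - F c)) = 0 := by
    rw [map_sub, map_sub, sub_eq_zero]
    exact hc.symm
  have h1 : 0 ≤ QB κ (u' - F c) (u' - F c) := QB_nonneg n (hproj _ h0)
  have h2 : QB κ (F c) u' = 0 := by
    rw [hQF]
    refine Finset.sum_eq_zero fun a _ => ?_
    rw [hu'φ, mul_zero, mul_zero]
  have h3 : QB κ (u' - F c) (u' - F c) = QB κ u' u' + QB κ (F c) (F c) := by
    have e1 : QB κ (u' - F c) = QB κ u' - QB κ (F c) := map_sub _ _ _
    rw [e1, LinearMap.sub_apply, map_sub (QB κ u'), map_sub (QB κ (F c)), QB_comm κ u' (F c), h2]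
    ring
  have h4 : 0 ≤ QB κ u' u' := by
    have := hQFneg c
    linarith only [h1, h3, this]
  have h5 : QB κ (F d) u' = 0 := by
    rw [hQF]
    refine Finset.sum_eq_zero fun a _ => ?_
    rw [hu'φ, mul_zero, mul_zero]
  have h6 : u = u' + F d := by
    rw [hu']
    abel
  have h7 : QB κ u u = QB κ u' u' + QB κ (F d) (F d) := by
    have e1 : QB κ (u' + F d) = QB κ u' + QB κ (F d) := map_add _ _ _
    conv_lhs => rw [h6]
    rw [e1, LinearMap.add_apply, map_add (QB κ u'), map_add (QB κ (F d)), QB_comm κ u' (F d), h5]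
    ring
  rw [hQFF] at h7
  simp only [hd] at h7
  rw [QB_apply, hee] at h7
  linarith only [h4, h7]

end Vale.Agent.P370.Hyd
end

section

/-! Dimension counts. -/

namespace Vale.Agent.P370.Hyd

open MeasureTheory Filter Topology MvPolynomial

/-- exponents of degree `< N` -/
noncomputable def expo (N : ℕ) : Finset (Fin 3 →₀ ℕ) :=
  (Finset.range N).biUnion fun k => (Finset.univ : Finset (Fin 3)).finsuppAntidiag k

theorem mem_antidiag {k : ℕ} {d : Fin 3 →₀ ℕ} :
    d ∈ (Finset.univ : Finset (Fin 3)).finsuppAntidiag k ↔ d.degree = k := by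
  rw [Finset.mem_finsuppAntidiag, Finsupp.degree_eq_sum]
  simp

theorem mem_expo {N : ℕ} {d : Fin 3 →₀ ℕ} : d ∈ expo N ↔ d.degree < N := by
  unfold expo
  simp only [Finset.mem_biUnion, Finset.mem_range, mem_antidiag]
  constructor
  · rintro ⟨k, hk, rfl⟩
    exact hk
  · intro h
    exact ⟨_, h, rfl⟩

theorem card_antidiag (k : ℕ) :
    ((Finset.univ : Finset (Fin 3)).finsuppAntidiag k).card = (k + 2).choose 2 := by
  rw [Finset.card_finsuppAntidiag_nat_eq_choose, Finset.card_univ, Fintype.card_fin]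
  have : 3 + k - 1 = k + 2 := by omega
  rw [this, ← Nat.choose_symm_add]

theorem card_expo (N : ℕ) : (expo N).card = ∑ k ∈ Finset.range N, (k + 2).choose 2 := by
  unfold expo
  rw [Finset.card_biUnion]
  · exact Finset.sum_congr rfl fun k _ => card_antidiag k
  · intro k _ m _ hkm
    show Disjoint _ _
    rw [Finset.disjoint_left]
    intro d hd hd'
    rw [mem_antidiag] at hd hd'
    omega

theorem ltCoord_surjective (N : ℕ) : Function.Surjective (ltCoord N) := by
  intro f
  classical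
  have hfin : Finite {d : Fin 3 →₀ ℕ // d.degree < N} := finite_index N
  have := Fintype.ofFinite {d : Fin 3 →₀ ℕ // d.degree < N}
  refine ⟨⟨∑ d : {d : Fin 3 →₀ ℕ // d.degree < N}, monomial d.1 (f d), ?_⟩, ?_⟩
  · exact Submodule.sum_mem _ fun d _ => monomial_mem_lt d.2 _
  · funext d
    show coeff d.1 (∑ d : {d : Fin 3 →₀ ℕ // d.degree < N}, monomial d.1 (f d)) = f d
    rw [coeff_sum]
    simp only [coeff_monomial]
    rw [Finset.sum_eq_single d]
    · simp
    · intro b _ hb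
      rw [if_neg]
      intro h
      exact hb (Subtype.ext h)
    · intro h
      exact absurd (Finset.mem_univ d) h

theorem finrank_lt (N : ℕ) : Module.finrank ℝ (lt N) = ∑ k ∈ Finset.range N, (k + 2).choose 2 := by
  classical
  have hfin : Finite {d : Fin 3 →₀ ℕ // d.degree < N} := finite_index N
  have := Fintype.ofFinite {d : Fin 3 →₀ ℕ // d.degree < N}
  have e := LinearEquiv.ofBijective (ltCoord N) ⟨ltCoord_injective N, ltCoord_surjective N⟩
  rw [e.finrank_eq, Module.finrank_fintype_fun_eq_card, ← card_expo]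
  exact Fintype.card_of_subtype _ fun d => mem_expo

theorem finrank_E (n : ℕ) : Module.finrank ℝ (E n) = ∑ k ∈ Finset.range n, (k + 1) ^ 2 := by
  rw [(eEquiv n).finrank_eq, Module.finrank_prod, finrank_lt, finrank_lt]
  induction n with
  | zero => simp
  | succ n ih =>
    rw [Finset.sum_range_succ _ n, Finset.sum_range_succ (fun k => (k + 1) ^ 2) n, ← ih,
      Nat.add_sub_cancel]
    rcases Nat.eq_zero_or_pos n with h | h
    · subst h
      simp
    · obtain ⟨m, rfl⟩ : ∃ m, n = m + 1 := ⟨n - 1, by omega⟩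
      rw [Nat.add_sub_cancel, Finset.sum_range_succ _ m]
      have h1 : (m + 1 + 2).choose 2 + (m + 2).choose 2 = (m + 1 + 1) ^ 2 := by
        rw [Nat.choose_two_right, Nat.choose_two_right]
        have e1 : m + 1 + 2 - 1 = m + 2 := by omega
        have e2 : m + 2 - 1 = m + 1 := by omega
        rw [e1, e2]
        have h3 : 2 ∣ (m + 1 + 2) * (m + 2) := by
          have := Nat.even_mul_succ_self (m + 2)
          rw [mul_comm]
          exact this.two_dvd
        have h4 : 2 ∣ (m + 2) * (m + 1) := by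
          have := Nat.even_mul_succ_self (m + 1)
          rw [mul_comm]
          exact this.two_dvd
        obtain ⟨a, ha⟩ := h3
        obtain ⟨b, hb⟩ := h4
        rw [ha, hb, Nat.mul_div_cancel_left _ two_pos, Nat.mul_div_cancel_left _ two_pos]
        nlinarith
      omega

end Vale.Agent.P370.Hyd
end

section

/-! The subshells: `h(x) L(‖x‖) exp(-‖x‖/n)` with `h` harmonic. -/

namespace Vale.Agent.P370.Hyd

open MeasureTheory Filter Topology MvPolynomial

end Vale.Agent.P370.Hyd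
end

section

/-!
Polar coordinates for (homogeneous) times (radial) functions.
-/

namespace Vale.Agent.P370.GC

open MeasureTheory Set Metric Module

section

variable {E : Type*} [NormedAddCommGroup E] [NormedSpace ℝ E] [MeasurableSpace E]
  [Nontrivial E] (μ : Measure E) [FiniteDimensional ℝ E] [BorelSpace E] [μ.IsAddHaarMeasure]

end

end Vale.Agent.P370.GC
end

section

/-! Sphere integrals of products of harmonic polynomials. -/

namespace Vale.Agent.P370.Hyd

open MeasureTheory Filter Topology MvPolynomial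

instance : IsFiniteMeasure (volume : Measure R3).toSphere := inferInstance

end Vale.Agent.P370.Hyd
end

section

/-! The complete orthonormal family of eigenfunctions of the first `n` hydrogen shells. -/

namespace Vale.Agent.P370.Hyd

open MeasureTheory Filter Topology MvPolynomial

/-- orbital labels: shell `k + 1 ≤ n`, angular momentum `l ≤ k`, and a number `< 2 l + 1` -/
abbrev Orb (n : ℕ) : Type := (k : Fin n) × (l : Fin (k.1 + 1)) × Fin (2 * l.1 + 1)

variable {p : (l : ℕ) → Fin (2 * l + 1) → Pl}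

end Vale.Agent.P370.Hyd
end

section

/-! The form inequality for compactly supported `C¹` functions, real and complex. -/

namespace Vale.Agent.P370.Hyd

open MeasureTheory Filter Topology MvPolynomial

theorem dec_of_compactSupport {f : R3 → ℝ} (hf : Continuous f) (hc : HasCompactSupport f) :
    Dec f := by
  obtain ⟨B, hB⟩ := hc.exists_bound_of_continuous hf
  obtain ⟨R, hR⟩ := hc.isBounded.subset_closedBall (0 : R3)
  refine ⟨|B| * Real.exp (1 * |R|), 1, one_pos, fun x => ?_⟩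
  by_cases hx : x ∈ tsupport f
  · have h1 : ‖x‖ ≤ |R| := by
      have := hR hx
      rw [mem_closedBall_zero_iff] at this
      exact this.trans (le_abs_self R)
    have h2 : |f x| ≤ |B| := (hB x).trans (le_abs_self B)
    have h3 : 1 ≤ Real.exp (1 * |R|) * Real.exp (-1 * ‖x‖) := by
      rw [← Real.exp_add]
      exact Real.one_le_exp (by linarith)
    calc |f x| ≤ |B| * 1 := by rw [mul_one]; exact h2
      _ ≤ |B| * (Real.exp (1 * |R|) * Real.exp (-1 * ‖x‖)) :=
        mul_le_mul_of_nonneg_left h3 (abs_nonneg B)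
      _ = _ := by ring
  · rw [image_eq_zero_of_notMem_tsupport hx, abs_zero]
    positivity

variable {p : (l : ℕ) → Fin (2 * l + 1) → Pl}

end Vale.Agent.P370.Hyd
end

section

/-!
Calculus of the class `Nice`, exponential polynomials.
-/

namespace Vale.Agent.P370.Q

open MeasureTheory Finset ComplexConjugate Filter Topology Hyd

theorem dec_of_bound {f : R3 → ℝ} {C c : ℝ} (hc : 0 < c)
    (h : ∀ x, x ≠ 0 → |f x| ≤ C * Real.exp (-(c * ‖x‖))) : Dec f := by
  refine ⟨max C |f 0|, c, hc, fun x => ?_⟩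
  by_cases hx : x = 0
  · subst hx
    rw [norm_zero, mul_zero, Real.exp_zero, mul_one]
    exact le_max_right _ _
  · refine (h x hx).trans ?_
    rw [neg_mul]
    exact mul_le_mul_of_nonneg_right (le_max_left _ _) (Real.exp_pos _).le

theorem isOpen_ne_zero : IsOpen ({0}ᶜ : Set R3) := isOpen_compl_singleton

theorem Nice.contDiffAt {f : R3 → ℝ} (hf : Nice f) {x : R3} (hx : x ≠ 0) : ContDiffAt ℝ 1 f x :=
  hf.smooth.contDiffAt (isOpen_ne_zero.mem_nhds hx)

theorem Nice.differentiableAt {f : R3 → ℝ} (hf : Nice f) {x : R3} (hx : x ≠ 0) :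
    DifferentiableAt ℝ f x := (hf.contDiffAt hx).differentiableAt one_ne_zero

theorem Nice.dec {f : R3 → ℝ} (hf : Nice f) : Dec f := by
  obtain ⟨C, c, hc, h⟩ := hf.bound
  exact dec_of_bound hc fun x hx => (h x hx).1

theorem norm_ei (i : Fin 3) : ‖ei i‖ = 1 := by simp [ei]

theorem Nice.dec_pd {f : R3 → ℝ} (hf : Nice f) (k : Fin 3) : Dec (pd k f) := by
  obtain ⟨C, c, hc, h⟩ := hf.bound
  refine dec_of_bound (C := C) hc fun x hx => ?_
  have h1 := (fderiv ℝ f x).le_opNorm (ei k)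
  rw [norm_ei, mul_one] at h1
  exact h1.trans (h x hx).2

/-- directional derivatives off the origin -/
theorem hasDerivAt_line {f : R3 → ℝ} {x : R3} (h : DifferentiableAt ℝ f x) (v : R3) :
    HasDerivAt (fun t : ℝ => f (x + t • v)) (fderiv ℝ f x v) 0 := by
  have h1 : HasFDerivAt f (fderiv ℝ f x) (x + (0 : ℝ) • v) := by
    rw [zero_smul, add_zero]
    exact h.hasFDerivAt
  have h2 : HasDerivAt (fun t : ℝ => x + t • v) v 0 := by
    have := ((hasDerivAt_id (0 : ℝ)).smul_const v).const_add x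
    exact this.congr_deriv (one_smul _ _)
  exact h1.comp_hasDerivAt (0 : ℝ) h2

theorem Nice.adm {f : R3 → ℝ} (hf : Nice f) : Adm f (fun k x => pd k f x) := by
  refine ⟨hf.cont, fun i x hx => hasDerivAt_line (hf.differentiableAt hx) (ei i), fun i => ?_,
    hf.dec, hf.dec_pd⟩
  exact (hf.smooth.continuousOn_fderiv_of_isOpen isOpen_ne_zero le_rfl).clm_apply
    continuousOn_const

theorem exp_combine {C c C' c' r : ℝ} (hr : 0 ≤ r) :
    C * Real.exp (-(c * r)) + C' * Real.exp (-(c' * r))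
      ≤ (|C| + |C'|) * Real.exp (-(min c c' * r)) := by
  have h1 : C * Real.exp (-(c * r)) ≤ |C| * Real.exp (-(min c c' * r)) := by
    refine (mul_le_mul_of_nonneg_right (le_abs_self C) (Real.exp_pos _).le).trans ?_
    refine mul_le_mul_of_nonneg_left (Real.exp_le_exp.2 ?_) (abs_nonneg _)
    nlinarith [mul_le_mul_of_nonneg_right (min_le_left c c') hr]
  have h2 : C' * Real.exp (-(c' * r)) ≤ |C'| * Real.exp (-(min c c' * r)) := by
    refine (mul_le_mul_of_nonneg_right (le_abs_self C') (Real.exp_pos _).le).trans ?_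
    refine mul_le_mul_of_nonneg_left (Real.exp_le_exp.2 ?_) (abs_nonneg _)
    nlinarith [mul_le_mul_of_nonneg_right (min_le_right c c') hr]
  linarith

theorem nice_c1 {f : R3 → ℝ} (hf : ContDiff ℝ 1 f) (hc : HasCompactSupport f) : Nice f := by
  obtain ⟨C, c, hc0, h⟩ := dec_of_compactSupport hf.continuous hc
  have hcn : HasCompactSupport fun x => ‖fderiv ℝ f x‖ :=
    ((hc.fderiv (𝕜 := ℝ)).comp_left (g := fun L : R3 →L[ℝ] ℝ => ‖L‖) norm_zero)
  obtain ⟨C', c', hc0', h'⟩ := dec_of_compactSupport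
    (f := fun x => ‖fderiv ℝ f x‖) (hf.continuous_fderiv one_ne_zero).norm hcn
  refine ⟨hf.continuous, hf.contDiffOn, |C| + |C'|, min c c', lt_min hc0 hc0',
    fun x _ => ⟨?_, ?_⟩⟩
  · refine (h x).trans (le_trans ?_ (exp_combine (norm_nonneg x)))
    rw [neg_mul]
    have h1 := h' x
    have : 0 ≤ C' * Real.exp (-(c' * ‖x‖)) := by
      rw [neg_mul] at h1
      exact (abs_nonneg _).trans h1
    linarith
  · have h1 := h' x
    rw [abs_norm, neg_mul] at h1
    refine h1.trans (le_trans ?_ (exp_combine (norm_nonneg x)))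
    have h2 := h x
    have : 0 ≤ C * Real.exp (-(c * ‖x‖)) := by
      rw [neg_mul] at h2
      exact (abs_nonneg _).trans h2
    linarith

theorem nice_test {f : R3 → ℝ} (hf : ContDiff ℝ (⊤ : ℕ∞) f) (hc : HasCompactSupport f) :
    Nice f := nice_c1 (hf.of_le (by exact_mod_cast le_top)) hc

theorem expPoly_eq (κ : ℝ) (P Q : Poly3) : expPoly κ P Q = xp κ P Q := by
  funext x
  unfold expPoly xp
  rw [neg_mul]
  rfl

theorem contDiff_ev {n : WithTop ℕ∞} (P : Poly3) : ContDiff ℝ n (ev P) := by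
  induction P using MvPolynomial.induction_on with
  | C a =>
    have : ev (MvPolynomial.C a) = fun _ => a := by
      funext x
      exact ev_C a x
    rw [this]
    exact contDiff_const
  | add P Q hP hQ =>
    have : ev (P + Q) = fun x => ev P x + ev Q x := by
      funext x
      exact ev_add P Q x
    rw [this]
    exact hP.add hQ
  | mul_X P j hP =>
    have : ev (P * MvPolynomial.X j) = fun x => ev P x * x j := by
      funext x
      rw [ev_mul, ev_X]
    rw [this]
    refine hP.mul ?_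
    exact (EuclideanSpace.proj (𝕜 := ℝ) j).contDiff

theorem contDiffAt_xp {n : WithTop ℕ∞} (κ : ℝ) (P Q : Poly3) {x : R3} (hx : x ≠ 0) :
    ContDiffAt ℝ n (xp κ P Q) x := by
  have hn : ContDiffAt ℝ n (fun y : R3 => ‖y‖) x := contDiffAt_norm ℝ hx
  unfold xp
  exact ((contDiff_ev P).contDiffAt.add (hn.mul (contDiff_ev Q).contDiffAt)).mul
    (contDiffAt_const.mul hn).exp

theorem fderiv_xp (κ : ℝ) (P Q : Poly3) {x : R3} (hx : x ≠ 0) (i : Fin 3) :
    fderiv ℝ (xp κ P Q) x (ei i) = xpd κ P Q i x :=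
  (hasDerivAt_line ((contDiffAt_xp (n := 1) κ P Q hx).differentiableAt one_ne_zero) (ei i)).unique
    (hasDerivAt_xp κ P Q i x hx)

theorem norm_clm_le (L : R3 →L[ℝ] ℝ) : ‖L‖ ≤ ∑ i, |L (ei i)| := by
  refine L.opNorm_le_bound (Finset.sum_nonneg fun i _ => abs_nonneg _) fun v => ?_
  have h1 : v = ∑ i, v i • ei i := by
    ext j
    rw [WithLp.ofLp_sum, Finset.sum_apply, Finset.sum_eq_single j]
    · rw [PiLp.smul_apply, ei_apply, if_pos rfl, smul_eq_mul, mul_one]
    · intro b _ hb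
      rw [PiLp.smul_apply, ei_apply, if_neg hb.symm, smul_zero]
    · intro h
      exact absurd (Finset.mem_univ j) h
  have h2 : L v = ∑ i, v i * L (ei i) := by
    conv_lhs => rw [h1]
    rw [map_sum]
    simp
  rw [h2, Finset.sum_mul]
  refine (norm_sum_le _ _).trans (Finset.sum_le_sum fun i _ => ?_)
  rw [Real.norm_eq_abs, abs_mul, mul_comm]
  refine mul_le_mul_of_nonneg_left ?_ (abs_nonneg _)
  have := EuclideanSpace.norm_eq v
  rw [this]
  refine Real.le_sqrt_of_sq_le ?_
  rw [sq_abs]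
  have h3 := Finset.single_le_sum (f := fun i => ‖v i‖ ^ 2) (fun i _ => sq_nonneg _)
    (Finset.mem_univ i)
  simpa using h3

theorem nice_xp {κ : ℝ} (hκ : 0 < κ) (P Q : Poly3) : Nice (xp κ P Q) := by
  obtain ⟨C0, c0, hc0, h0⟩ := dec_xp hκ P Q
  obtain ⟨C1, c1, hc1, h1⟩ : Dec fun x => ∑ i, |xpd κ P Q i x| := by
    have h3 : ∀ i, Dec fun x => |xpd κ P Q i x| := fun i => by
      obtain ⟨C, c, hc, h⟩ := dec_xpd hκ P Q i
      exact ⟨C, c, hc, fun x => by rw [abs_abs]; exact h x⟩
    simp only [Fin.sum_univ_three]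
    exact ((h3 0).add (h3 1)).add (h3 2)
  refine ⟨continuous_xp κ P Q, fun x hx => (contDiffAt_xp κ P Q hx).contDiffWithinAt,
    |C0| + |C1|, min c0 c1, lt_min hc0 hc1, fun x hx => ⟨?_, ?_⟩⟩
  · have h2 := h0 x
    rw [neg_mul] at h2
    refine h2.trans (le_trans ?_ (exp_combine (norm_nonneg x)))
    have h3 := h1 x
    have : 0 ≤ C1 * Real.exp (-(c1 * ‖x‖)) := by
      rw [neg_mul] at h3
      exact (abs_nonneg _).trans h3
    linarith
  · have h2 := h1 x
    rw [neg_mul, abs_of_nonneg (Finset.sum_nonneg fun i _ => abs_nonneg _)] at h2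
    have h3 : ‖fderiv ℝ (xp κ P Q) x‖ ≤ ∑ i, |xpd κ P Q i x| := by
      refine (norm_clm_le _).trans (le_of_eq ?_)
      exact Finset.sum_congr rfl fun i _ => by rw [fderiv_xp κ P Q hx]
    refine (h3.trans h2).trans (le_trans ?_ (exp_combine (norm_nonneg x)))
    have h4 := h0 x
    have : 0 ≤ C0 * Real.exp (-(c0 * ‖x‖)) := by
      rw [neg_mul] at h4
      exact (abs_nonneg _).trans h4
    linarith

theorem nice_integrable_dir {f g : R3 → ℝ} (hf : Nice f) (hg : Nice g) (k : Fin 3) :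
    Integrable (fun x => pd k f x * pd k g x) := hf.adm.int_dmul hg.adm k

theorem dir_eq_sum {f g : R3 → ℝ} (hf : Nice f) (hg : Nice g) :
    dir f g = ∑ k, ∫ x, pd k f x * pd k g x := by
  unfold dir
  exact integral_finsetSum _ fun k _ => nice_integrable_dir hf hg k

/-- Nice functions in the form domain -/
noncomputable def Nice.toS {f : R3 → ℝ} (hf : Nice f) : AdmS := ⟨(f, fun k x => pd k f x), hf.adm⟩

theorem kinB_toS {f g : R3 → ℝ} (hf : Nice f) (hg : Nice g) :
    kinB hf.toS hg.toS = (1 / 2) * dir f g := by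
  rw [dir_eq_sum hf hg]
  rfl

theorem ipB_toS {f g : R3 → ℝ} (hf : Nice f) (hg : Nice g) : ipB hf.toS hg.toS = ov f g := rfl

theorem iprB_toS {f g : R3 → ℝ} (hf : Nice f) (hg : Nice g) : iprB hf.toS hg.toS = rinv f g := rfl

end Vale.Agent.P370.Q
end

section

/-! Eigenspaces of the polynomial operator, orthonormal families. -/

namespace Vale.Agent.P370.Hyd

open MeasureTheory MvPolynomial

/-! ### eigenspaces in `E n` -/

theorem mem_lt_iff {N : ℕ} (hN : 1 ≤ N) {P : Pl} : P ∈ lt N ↔ P.totalDegree + 1 ≤ N := by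
  constructor
  · intro h
    have h1 : P.totalDegree < N := by
      unfold totalDegree
      rw [Finset.sup_lt_iff (show (⊥ : ℕ) < N from hN)]
      intro d hd
      by_contra hcon
      have h2 : (d.sum fun _ e => e) = d.degree := rfl
      exact (mem_support_iff.1 hd) (h d (by omega))
    omega
  · intro h d hd
    by_contra hcon
    have h1 := le_totalDegree (mem_support_iff.2 hcon)
    have h2 : (d.sum fun _ e => e) = d.degree := rfl
    omega

/-- the eigenspace -/
noncomputable def Eig (n : ℕ) : Submodule ℝ (Pl × Pl) :=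
  E n ⊓ LinearMap.ker (TL (1 / (n : ℝ)) - LinearMap.id)

theorem mem_Eig {n : ℕ} {z : Pl × Pl} : z ∈ Eig n ↔ z ∈ E n ∧ TL (1 / (n : ℝ)) z = z := by
  unfold Eig
  rw [Submodule.mem_inf, LinearMap.mem_ker, LinearMap.sub_apply, LinearMap.id_apply, sub_eq_zero]

/-! ### injectivity -/

/-- pairs as admissible functions -/
noncomputable def toAdm {κ : ℝ} (hκ : 0 < κ) : Pl × Pl →ₗ[ℝ] AdmS where
  toFun z := ⟨(xp κ z.1 z.2, xpd κ z.1 z.2), adm_xp hκ z.1 z.2⟩
  map_add' z z' := by
    refine Subtype.ext (Prod.ext ?_ ?_)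
    · funext x
      show xp κ (z.1 + z'.1) (z.2 + z'.2) x = xp κ z.1 z.2 x + xp κ z'.1 z'.2 x
      simp only [xp, ev_add]
      ring
    · funext i x
      show xpd κ (z.1 + z'.1) (z.2 + z'.2) i x = xpd κ z.1 z.2 i x + xpd κ z'.1 z'.2 i x
      simp only [xpd, ev_add, map_add]
      ring
  map_smul' c z := by
    refine Subtype.ext (Prod.ext ?_ ?_)
    · funext x
      show xp κ (c • z.1) (c • z.2) x = c * xp κ z.1 z.2 x
      simp only [xp, ev, smul_eval]
      ring
    · funext i x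
      show xpd κ (c • z.1) (c • z.2) i x = c * xpd κ z.1 z.2 i x
      simp only [xpd, ev, smul_eval, Derivation.map_smul]
      ring

theorem toAdm_eigen {κ : ℝ} (hκ : 0 < κ) {z : Pl × Pl} (hz : TL κ z = z) (w : AdmS) :
    kinB (toAdm hκ z) w - iprB (toAdm hκ z) w = -(κ ^ 2 / 2) * ipB (toAdm hκ z) w := by
  have h1 := green hκ z.1 z.2 w.2
  rw [TL_apply] at hz
  rw [show TP κ z.1 z.2 = z.1 from congrArg Prod.fst hz,
    show TQ κ z.1 z.2 = z.2 from congrArg Prod.snd hz] at h1
  show kin _ _ - ipr _ _ = -(κ ^ 2 / 2) * ip _ _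
  have h5 : kin (toAdm hκ z).1.2 w.1.2 + κ ^ 2 / 2 * ip (toAdm hκ z).1.1 w.1.1
      = ipr (toAdm hκ z).1.1 w.1.1 := h1
  linarith

end Vale.Agent.P370.Hyd
end

section

/-!
Dimension and basis of the hydrogenic shells.
-/

namespace Vale.Agent.P370.Q

open MeasureTheory Finset ComplexConjugate Hyd

theorem TP_eq (κ : ℝ) (P Q : Poly3) : TP κ P Q = Hyd.TP κ P Q := by
  unfold TP Hyd.TP
  rw [mul_assoc]
  rfl

theorem TQ_eq (κ : ℝ) (P Q : Poly3) : TQ κ P Q = Hyd.TQ κ P Q := by
  unfold TQ Hyd.TQ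
  have h2 : (MvPolynomial.C 2 : Poly3) = 2 := by
    rw [show (2 : ℝ) = ((2 : ℕ) : ℝ) by norm_num, map_natCast]
    norm_num
  rw [h2]
  rfl

theorem isShell_iff {n : ℕ} (hn : 1 ≤ n) {φ : R3 → ℝ} :
    IsShell n φ ↔ ∃ z ∈ Eig n, φ = xp (1 / (n : ℝ)) z.1 z.2 := by
  have hdeg : ∀ P Q : Poly3, DegLe n P Q ↔ (P, Q) ∈ E n := by
    intro P Q
    unfold DegLe E
    rw [Submodule.mem_prod, mem_lt_iff hn]
    simp only
    refine and_congr Iff.rfl ?_
    rcases Nat.eq_or_lt_of_le hn with h | h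
    · constructor
      · rintro (h1 | h1)
        · rw [h1]
          exact Submodule.zero_mem _
        · omega
      · intro h1
        left
        rw [← h] at h1
        exact lt_zero h1
    · rw [mem_lt_iff (by omega)]
      constructor
      · rintro (h1 | h1)
        · rw [h1, MvPolynomial.totalDegree_zero]
          omega
        · omega
      · intro h1
        right
        omega
  constructor
  · rintro ⟨P, Q, h1, h2, h3, h4⟩
    refine ⟨(P, Q), ?_, ?_⟩
    · rw [mem_Eig]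
      refine ⟨(hdeg P Q).1 h1, ?_⟩
      rw [TL_apply]
      rw [TP_eq] at h2
      rw [TQ_eq] at h3
      exact Prod.ext h2 h3
    · rw [h4, expPoly_eq]
  · rintro ⟨z, hz, rfl⟩
    rw [mem_Eig, TL_apply] at hz
    refine ⟨z.1, z.2, (hdeg z.1 z.2).2 hz.1, ?_, ?_, ?_⟩
    · rw [TP_eq]
      exact congrArg Prod.fst hz.2
    · rw [TQ_eq]
      exact congrArg Prod.snd hz.2
    · rw [expPoly_eq]

theorem inv_pos' {k : ℕ} (hk : 1 ≤ k) : (0 : ℝ) < 1 / (k : ℝ) := by
  have : (0 : ℝ) < k := by exact_mod_cast hk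
  positivity

theorem IsShell.nice {n : ℕ} (hn : 1 ≤ n) {φ : R3 → ℝ} (hφ : IsShell n φ) : Nice φ := by
  obtain ⟨z, -, rfl⟩ := (isShell_iff hn).1 hφ
  exact nice_xp (inv_pos' hn) _ _

theorem dir_xp {κ : ℝ} (hκ : 0 < κ) (P Q : Poly3) {u : R3 → ℝ} (hu : Nice u) :
    kin (xpd κ P Q) (fun k x => pd k u x) = (1 / 2) * dir (xp κ P Q) u := by
  rw [dir_eq_sum (nice_xp hκ P Q) hu]
  unfold kin
  congr 1
  refine Finset.sum_congr rfl fun k _ => integral_congr_ae ?_
  have hne : ∀ᵐ x : R3, x ≠ 0 := by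
    rw [ae_iff]
    simp
  filter_upwards [hne] with x hx
  rw [← fderiv_xp κ P Q hx k]
  rfl

/-- eigenvalue equation of shell functions in form sense -/
theorem shell_form {n : ℕ} (hn : 1 ≤ n) {φ : R3 → ℝ} (hφ : IsShell n φ) {u : R3 → ℝ}
    (hu : Nice u) :
    (1 / 2) * dir φ u - rinv φ u = -(1 / (2 * (n : ℝ) ^ 2)) * ov φ u := by
  obtain ⟨z, hz, rfl⟩ := (isShell_iff hn).1 hφ
  have h := toAdm_eigen (inv_pos' hn) (mem_Eig.1 hz).2 hu.toS
  have h1 : kinB (toAdm (inv_pos' hn) z) hu.toS = (1 / 2) * dir (xp (1 / (n : ℝ)) z.1 z.2) u :=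
    dir_xp (inv_pos' hn) z.1 z.2 hu
  rw [h1] at h
  have h2 : -((1 / (n : ℝ)) ^ 2 / 2) = -(1 / (2 * (n : ℝ) ^ 2)) := by
    have : (0 : ℝ) < n := by exact_mod_cast hn
    field_simp
  rw [h2] at h
  exact h

end Vale.Agent.P370.Q
end

section

/-!
The one-body inequality for hydrogen.
-/

namespace Vale.Agent.P370.Q

open MeasureTheory Finset ComplexConjugate Hyd

theorem ShellBasis.card_ge {n : ℕ} {A : Type} [Fintype A] [DecidableEq A] (B : ShellBasis n A) :
    Module.finrank ℝ (E n) ≤ Fintype.card A := by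
  rw [finrank_E]
  have h1 : (univ : Finset A).card = ∑ k ∈ range n, (univ.filter (fun a => B.lev a = k + 1)).card
      := by
    rw [Finset.card_eq_sum_card_fiberwise (f := fun a => B.lev a - 1) (t := range n)]
    · refine Finset.sum_congr rfl fun k _ => ?_
      congr 1
      ext a
      have := B.lev_pos a
      simp only [Finset.mem_filter, Finset.mem_univ, true_and]
      omega
    · intro a _
      have h1 := B.lev_pos a
      have h2 := B.lev_le a
      simp only [Finset.coe_range, Set.mem_Iio]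
      omega
  rw [← Finset.card_univ, h1]
  refine Finset.sum_le_sum fun k hk => ?_
  rw [B.card (k + 1) (by omega) (by have := Finset.mem_range.1 hk; omega)]

theorem lev_lt {n k : ℕ} (hk : 1 ≤ k) (hkn : k ≤ n) :
    -((1 / (k : ℝ)) ^ 2 / 2) < -(1 / (2 * ((n : ℝ) + 1) ^ 2)) := by
  have h1 : (0 : ℝ) < k := by exact_mod_cast hk
  have h2 : (k : ℝ) ≤ n := by exact_mod_cast hkn
  have h3 : -((1 / (k : ℝ)) ^ 2 / 2) = -(1 / (2 * (k : ℝ) ^ 2)) := by
    field_simp
  rw [h3]
  refine neg_lt_neg (one_div_lt_one_div_of_lt (by positivity) ?_)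
  nlinarith

theorem coef_eq {n k : ℕ} (hk : 1 ≤ k) :
    (1 / (2 * ((n : ℝ) + 1) ^ 2) - 1 / (2 * (k : ℝ) ^ 2))
      = (-((1 / (k : ℝ)) ^ 2 / 2) - -(1 / (2 * ((n : ℝ) + 1) ^ 2))) := by
  have h1 : (0 : ℝ) < k := by exact_mod_cast hk
  field_simp
  ring

/-- The one-body inequality for hydrogen (real version). -/
theorem hydrogen_ineq_real {n : ℕ} (_hn : 1 ≤ n) {A : Type} [Fintype A] [DecidableEq A]
    (B : ShellBasis n A) {u : R3 → ℝ} (hu : Nice u) :
    -(1 / (2 * ((n : ℝ) + 1) ^ 2)) * ov u u +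
        ∑ a, (1 / (2 * ((n : ℝ) + 1) ^ 2) - 1 / (2 * (B.lev a : ℝ) ^ 2)) * ov (B.χ a) u ^ 2
      ≤ (1 / 2) * dir u u - rinv u u := by
  have hz : ∀ a, ∃ z ∈ Eig (B.lev a), B.χ a = xp (1 / (B.lev a : ℝ)) z.1 z.2 := fun a =>
    (isShell_iff (B.lev_pos a)).1 (B.mem a)
  choose z hz1 hz2 using hz
  have h := hyd_lower n (ι := A) (fun a => toAdm (inv_pos' (B.lev_pos a)) (z a))
    (fun a => -((1 / (B.lev a : ℝ)) ^ 2 / 2))
    (fun a w => toAdm_eigen _ (mem_Eig.1 (hz1 a)).2 w)
    (fun a b => by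
      rw [← B.ortho a b]
      show ip _ _ = ov _ _
      rw [hz2 a, hz2 b]
      rfl)
    (fun a => lev_lt (B.lev_pos a) (B.lev_le a)) B.card_ge hu.toS
  rw [kinB_toS hu hu, ipB_toS, iprB_toS] at h
  refine le_trans (le_of_eq ?_) h
  rw [add_comm]
  congr 1
  refine Finset.sum_congr rfl fun a _ => ?_
  rw [coef_eq (B.lev_pos a), hz2 a]
  rfl

end Vale.Agent.P370.Q
end

section

/-!
Spherical coordinates: measure theoretic part (helper file of `Sph1`).
-/

namespace Vale.Agent.P370.Q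

open MeasureTheory Finset ComplexConjugate
open scoped ENNReal NNReal

/-- Cartesian coordinates `(z, (x, y)) ↦ (x, y, z)` -/
noncomputable def sph1Cart (p : ℝ × (ℝ × ℝ)) : R3 := WithLp.toLp 2 ![p.2.1, p.2.2, p.1]

theorem sph1Cart_mp : MeasurePreserving sph1Cart := by
  have h1 : MeasurePreserving (fun p : ℝ × (ℝ × ℝ) =>
      (p.1, (MeasurableEquiv.finTwoArrow (α := ℝ)).symm p.2)) :=
    (MeasurePreserving.id volume).prod (volume_preserving_finTwoArrow ℝ).symm
  have h2 := (volume_preserving_piFinSuccAbove (fun _ : Fin 3 => ℝ) 2).symm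
  have h3 := PiLp.volume_preserving_toLp (Fin 3)
  have h := h3.comp (h2.comp h1)
  have e : sph1Cart = (WithLp.toLp 2 ∘ (MeasurableEquiv.piFinSuccAbove (fun _ : Fin 3 => ℝ)
      2).symm ∘ fun p : ℝ × (ℝ × ℝ) => (p.1, (MeasurableEquiv.finTwoArrow (α := ℝ)).symm p.2)) := by
    funext p
    unfold sph1Cart
    simp only [Function.comp]
    congr 1
    funext i
    fin_cases i <;> simp [MeasurableEquiv.piFinSuccAbove, Fin.insertNthEquiv, Fin.insertNth,
      Fin.succAboveCases, MeasurableEquiv.finTwoArrow]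
  rw [e]
  exact h

theorem sph1_continuous_sp : Continuous (fun p : ℝ × ℝ => sp p.1 p.2) := by
  unfold sp
  refine (PiLp.continuous_toLp 2 (fun _ : Fin 3 => ℝ)).comp ?_
  refine continuous_pi fun i => ?_
  fin_cases i <;> simp <;> fun_prop

theorem sph1_measurable_cart : Measurable sph1Cart := sph1Cart_mp.measurable

/-- inner integral over the azimuth in cylindrical coordinates -/
noncomputable def sph1K (f : R3 → ℝ≥0∞) (z ρ : ℝ) : ℝ≥0∞ :=
  ∫⁻ φ in Set.Ioo (-Real.pi) Real.pi,
    ENNReal.ofReal ρ * f (sph1Cart (z, (ρ * Real.cos φ, ρ * Real.sin φ)))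

theorem sph1_step1 (f : R3 → ℝ≥0∞) (hf : Measurable f) :
    ∫⁻ x, f x = ∫⁻ z, ∫⁻ ρ in Set.Ioi (0 : ℝ), sph1K f z ρ := by
  rw [← sph1Cart_mp.lintegral_comp hf, Measure.volume_eq_prod,
    lintegral_prod (fun p => f (sph1Cart p)) ((hf.comp sph1_measurable_cart).aemeasurable)]
  refine lintegral_congr fun z => ?_
  rw [← lintegral_comp_polarCoord_symm]
  have e : (volume : Measure (ℝ × ℝ)).restrict polarCoord.target =
      (volume.restrict (Set.Ioi (0 : ℝ))).prod
        (volume.restrict (Set.Ioo (-Real.pi) Real.pi)) := by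
    rw [Measure.prod_restrict]
    rfl
  rw [e, lintegral_prod]
  · rfl
  · apply Measurable.aemeasurable
    have h1 : Measurable (fun q : ℝ × ℝ => sph1Cart (z, polarCoord.symm q)) :=
      sph1_measurable_cart.comp
        (measurable_const.prodMk continuous_polarCoord_symm.measurable)
    exact (ENNReal.measurable_ofReal.comp measurable_fst).mul (hf.comp h1)

theorem sph1_measurable_K (f : R3 → ℝ≥0∞) (hf : Measurable f) :
    Measurable (fun p : ℝ × ℝ => sph1K f p.1 p.2) := by
  unfold sph1K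
  have h1 : Measurable (fun q : (ℝ × ℝ) × ℝ =>
      ENNReal.ofReal q.1.2 * f (sph1Cart (q.1.1, (q.1.2 * Real.cos q.2, q.1.2 * Real.sin q.2)))) := by
    refine (ENNReal.measurable_ofReal.comp (measurable_snd.comp measurable_fst)).mul
      (hf.comp (sph1_measurable_cart.comp ?_))
    apply Continuous.measurable
    fun_prop
  exact h1.lintegral_prod_right'

theorem sph1_step2 (f : R3 → ℝ≥0∞) (hf : Measurable f) :
    ∫⁻ z, ∫⁻ ρ in Set.Ioi (0 : ℝ), sph1K f z ρ =
      ∫⁻ r in Set.Ioi (0 : ℝ), ∫⁻ θ in Set.Ioo (-Real.pi) Real.pi,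
        ENNReal.ofReal r * (Set.Ioi (0 : ℝ)).indicator (sph1K f (r * Real.cos θ))
          (r * Real.sin θ) := by
  have hm : Measurable (fun p : ℝ × ℝ =>
      (Set.Ioi (0 : ℝ)).indicator (sph1K f p.1) p.2) := by
    have : (fun p : ℝ × ℝ => (Set.Ioi (0 : ℝ)).indicator (sph1K f p.1) p.2) =
        (Prod.snd ⁻¹' Set.Ioi (0 : ℝ)).indicator (fun p : ℝ × ℝ => sph1K f p.1 p.2) := by
      funext p
      by_cases h : p.2 ∈ Set.Ioi (0 : ℝ)
      · rw [Set.indicator_of_mem h, Set.indicator_of_mem (by exact h)]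
      · rw [Set.indicator_of_notMem h, Set.indicator_of_notMem (by exact h)]
    rw [this]
    exact (sph1_measurable_K f hf).indicator (measurable_snd measurableSet_Ioi)
  have h1 : ∫⁻ z, ∫⁻ ρ in Set.Ioi (0 : ℝ), sph1K f z ρ =
      ∫⁻ p : ℝ × ℝ, (Set.Ioi (0 : ℝ)).indicator (sph1K f p.1) p.2 := by
    rw [Measure.volume_eq_prod, lintegral_prod _ hm.aemeasurable]
    refine lintegral_congr fun z => ?_
    rw [← lintegral_indicator measurableSet_Ioi]
  rw [h1, ← lintegral_comp_polarCoord_symm]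
  have e : (volume : Measure (ℝ × ℝ)).restrict polarCoord.target =
      (volume.restrict (Set.Ioi (0 : ℝ))).prod
        (volume.restrict (Set.Ioo (-Real.pi) Real.pi)) := by
    rw [Measure.prod_restrict]
    rfl
  rw [e, lintegral_prod]
  · rfl
  · apply Measurable.aemeasurable
    exact (ENNReal.measurable_ofReal.comp measurable_fst).mul
      (hm.comp continuous_polarCoord_symm.measurable)

theorem sph1_cart_sp (r θ φ : ℝ) :
    sph1Cart (r * Real.cos θ, (r * Real.sin θ * Real.cos φ, r * Real.sin θ * Real.sin φ)) =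
      r • sp θ φ := by
  unfold sph1Cart sp
  rw [← WithLp.toLp_smul]
  congr 1
  funext i
  fin_cases i <;> simp [mul_assoc]

theorem sph1_step3 (f : R3 → ℝ≥0∞) (r : ℝ) (hr : 0 < r) :
    ∫⁻ θ in Set.Ioo (-Real.pi) Real.pi,
        ENNReal.ofReal r * (Set.Ioi (0 : ℝ)).indicator (sph1K f (r * Real.cos θ))
          (r * Real.sin θ) =
      ∫⁻ θ in Set.Ioo 0 Real.pi, ∫⁻ φ in Set.Ioo (-Real.pi) Real.pi,
        ENNReal.ofReal (r ^ 2 * Real.sin θ) * f (r • sp θ φ) := by
  rw [← lintegral_indicator measurableSet_Ioo, ← lintegral_indicator measurableSet_Ioo]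
  refine lintegral_congr fun θ => ?_
  by_cases h0 : θ ∈ Set.Ioo 0 Real.pi
  · have h1 : θ ∈ Set.Ioo (-Real.pi) Real.pi := ⟨by linarith [h0.1, Real.pi_pos], h0.2⟩
    have hs : 0 < Real.sin θ := Real.sin_pos_of_mem_Ioo h0
    have h2 : r * Real.sin θ ∈ Set.Ioi (0 : ℝ) := mul_pos hr hs
    rw [Set.indicator_of_mem h1, Set.indicator_of_mem h0, Set.indicator_of_mem h2, sph1K,
      ← lintegral_const_mul' _ _ ENNReal.ofReal_ne_top]
    refine lintegral_congr fun φ => ?_
    rw [sph1_cart_sp, ← mul_assoc, ← ENNReal.ofReal_mul hr.le]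
    congr 2
    ring
  · rw [Set.indicator_of_notMem h0]
    by_cases h1 : θ ∈ Set.Ioo (-Real.pi) Real.pi
    · rw [Set.indicator_of_mem h1, Set.indicator_of_notMem, mul_zero]
      have hθ : θ ≤ 0 := by
        by_contra hc
        exact h0 ⟨not_le.1 hc, h1.2⟩
      have hs : Real.sin θ ≤ 0 := Real.sin_nonpos_of_nonpos_of_neg_pi_le hθ h1.1.le
      intro hc
      have hc' : 0 < r * Real.sin θ := hc
      nlinarith
    · rw [Set.indicator_of_notMem h1]

theorem sph1_lintegral (f : R3 → ℝ≥0∞) (hf : Measurable f) :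
    ∫⁻ x, f x = ∫⁻ r in Set.Ioi (0 : ℝ), ∫⁻ θ in Set.Ioo 0 Real.pi,
      ∫⁻ φ in Set.Ioo (-Real.pi) Real.pi,
        ENNReal.ofReal (r ^ 2 * Real.sin θ) * f (r • sp θ φ) := by
  rw [sph1_step1 f hf, sph1_step2 f hf]
  refine setLIntegral_congr_fun measurableSet_Ioi fun r hr => ?_
  exact sph1_step3 f r hr

/-- product measure on `(0,∞) × ((0,π) × (-π,π))` -/
noncomputable def sph1Box : Measure (ℝ × (ℝ × ℝ)) :=
  (volume.restrict (Set.Ioi 0)).prod ((volume.restrict (Set.Ioo 0 Real.pi)).prod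
    (volume.restrict (Set.Ioo (-Real.pi) Real.pi)))

/-- the volume element -/
noncomputable def sph1Den (p : ℝ × (ℝ × ℝ)) : ℝ≥0 := (p.1 ^ 2 * Real.sin p.2.1).toNNReal

theorem sph1_measurable_Den : Measurable sph1Den := by
  unfold sph1Den
  apply Measurable.real_toNNReal
  fun_prop

/-- spherical coordinates -/
noncomputable def sph1Sp (p : ℝ × (ℝ × ℝ)) : R3 := p.1 • sp p.2.1 p.2.2

theorem sph1_continuous_Sp : Continuous sph1Sp := by
  unfold sph1Sp
  exact continuous_fst.smul (sph1_continuous_sp.comp continuous_snd)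

theorem sph1_map : Measure.map sph1Sp (sph1Box.withDensity (fun p => (sph1Den p : ℝ≥0∞))) =
    (volume : Measure R3) := by
  refine Measure.ext_of_lintegral _ fun f hf => ?_
  have hm : Measurable (fun p => f (sph1Sp p)) := hf.comp sph1_continuous_Sp.measurable
  have hd : Measurable (fun p => (sph1Den p : ℝ≥0∞)) := sph1_measurable_Den.coe_nnreal_ennreal
  rw [lintegral_map hf sph1_continuous_Sp.measurable,
    lintegral_withDensity_eq_lintegral_mul _ hd hm, sph1_lintegral f hf]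
  have hg : Measurable ((fun p => (sph1Den p : ℝ≥0∞)) * fun p => f (sph1Sp p)) := hd.mul hm
  unfold sph1Box
  rw [lintegral_prod _ hg.aemeasurable]
  refine lintegral_congr fun r => ?_
  have hg' : Measurable (fun q : ℝ × ℝ =>
      ((fun p => (sph1Den p : ℝ≥0∞)) * fun p => f (sph1Sp p)) (r, q)) :=
    hg.comp (measurable_const.prodMk measurable_id)
  rw [lintegral_prod _ hg'.aemeasurable]
  rfl

theorem sph1_integral {E : Type} [NormedAddCommGroup E] [NormedSpace ℝ E]
    (F : R3 → E) (hF : Integrable F) :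
    ∫ x, F x = ∫ r in Set.Ioi (0 : ℝ), ∫ θ in Set.Ioo 0 Real.pi,
      ∫ φ in Set.Ioo (-Real.pi) Real.pi, (r ^ 2 * Real.sin θ) • F (r • sp θ φ) := by
  have hmp : MeasurePreserving sph1Sp (sph1Box.withDensity (fun p => (sph1Den p : ℝ≥0∞)))
      (volume : Measure R3) := ⟨sph1_continuous_Sp.measurable, sph1_map⟩
  have hI : Integrable (fun p => F (sph1Sp p))
      (sph1Box.withDensity (fun p => (sph1Den p : ℝ≥0∞))) := hmp.integrable_comp_of_integrable hF
  have h1 : ∫ x, F x = ∫ p, F (sph1Sp p)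
      ∂(sph1Box.withDensity (fun p => (sph1Den p : ℝ≥0∞))) := by
    rw [← sph1_map] at hF ⊢
    exact integral_map sph1_continuous_Sp.measurable.aemeasurable hF.aestronglyMeasurable
  rw [h1, integral_withDensity_eq_integral_smul sph1_measurable_Den]
  rw [integrable_withDensity_iff_integrable_smul sph1_measurable_Den] at hI
  unfold sph1Box at hI ⊢
  rw [integral_prod _ hI]
  have h2 := hI.prod_right_ae
  refine integral_congr_ae ?_
  filter_upwards [h2, ae_restrict_mem measurableSet_Ioi] with r hr hr0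
  rw [integral_prod _ hr]
  refine setIntegral_congr_fun measurableSet_Ioo fun θ hθ => ?_
  refine integral_congr_ae (Filter.Eventually.of_forall fun φ => ?_)
  have hs : 0 < Real.sin θ := Real.sin_pos_of_mem_Ioo hθ
  have hr0' : 0 < r := hr0
  have h3 : 0 ≤ r ^ 2 * Real.sin θ := by positivity
  change sph1Den (r, (θ, φ)) • F (sph1Sp (r, (θ, φ))) = _
  rw [NNReal.smul_def]
  unfold sph1Den sph1Sp
  rw [Real.coe_toNNReal _ h3]

theorem sph1_norm_sp (θ φ : ℝ) : ‖sp θ φ‖ = 1 := by
  unfold sp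
  rw [EuclideanSpace.norm_eq, Real.sqrt_eq_one, Fin.sum_univ_three]
  simp only [Real.norm_eq_abs, sq_abs, Matrix.cons_val_zero, Matrix.cons_val_one,
    Matrix.cons_val]
  have h1 := Real.sin_sq_add_cos_sq θ
  have h2 := Real.sin_sq_add_cos_sq φ
  nlinarith [h1, h2]

theorem sph1_sp_mem (θ φ : ℝ) : sp θ φ ∈ Metric.sphere (0 : R3) 1 := by
  rw [mem_sphere_zero_iff_norm]
  exact sph1_norm_sp θ φ

/-- spherical coordinates on the sphere -/
noncomputable def sph1Sp2 (q : ℝ × ℝ) : Metric.sphere (0 : R3) 1 := ⟨sp q.1 q.2, sph1_sp_mem _ _⟩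

theorem sph1_continuous_Sp2 : Continuous sph1Sp2 :=
  Continuous.subtype_mk sph1_continuous_sp _

/-- product measure on `(0,π) × (-π,π)` -/
noncomputable def sph1Box2 : Measure (ℝ × ℝ) :=
  (volume.restrict (Set.Ioo 0 Real.pi)).prod (volume.restrict (Set.Ioo (-Real.pi) Real.pi))

/-- the area element -/
noncomputable def sph1Den2 (q : ℝ × ℝ) : ℝ≥0 := (Real.sin q.1).toNNReal

theorem sph1_measurable_Den2 : Measurable sph1Den2 := by
  unfold sph1Den2
  apply Measurable.real_toNNReal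
  fun_prop

/-- the cone over a subset of the sphere -/
def sph1Cone (s : Set (Metric.sphere (0 : R3) 1)) : Set R3 :=
  {x | x ≠ 0 ∧ ‖x‖ < 1 ∧ ‖x‖⁻¹ • x ∈ ((↑) '' s : Set R3)}

open scoped Pointwise in
theorem sph1Cone_eq (s : Set (Metric.sphere (0 : R3) 1)) :
    (Set.Ioo (0 : ℝ) 1) • ((↑) '' s : Set R3) = sph1Cone s := by
  ext x
  constructor
  · rintro ⟨r, hr, y, ⟨u, hu, rfl⟩, rfl⟩
    have hu1 : ‖(u : R3)‖ = 1 := mem_sphere_zero_iff_norm.1 u.2
    have hn : ‖r • (u : R3)‖ = r := by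
      rw [norm_smul, hu1, mul_one, Real.norm_of_nonneg hr.1.le]
    refine ⟨?_, ?_, ?_⟩
    · intro h0
      have h0' : r • (u : R3) = 0 := h0
      rw [h0', norm_zero] at hn
      exact hr.1.ne hn
    · change ‖r • (u : R3)‖ < 1
      rw [hn]
      exact hr.2
    · change ‖r • (u : R3)‖⁻¹ • (r • (u : R3)) ∈ _
      rw [hn, smul_smul, inv_mul_cancel₀ hr.1.ne', one_smul]
      exact ⟨u, hu, rfl⟩
  · rintro ⟨h0, h1, h2⟩
    refine ⟨‖x‖, ⟨norm_pos_iff.2 h0, h1⟩, ‖x‖⁻¹ • x, h2, ?_⟩
    change ‖x‖ • (‖x‖⁻¹ • x) = x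
    rw [smul_smul, mul_inv_cancel₀ (norm_pos_iff.2 h0).ne', one_smul]

theorem sph1Cone_measurable {s : Set (Metric.sphere (0 : R3) 1)} (hs : MeasurableSet s) :
    MeasurableSet (sph1Cone s) := by
  have h1 : MeasurableSet ((↑) '' s : Set R3) :=
    (MeasurableEmbedding.subtype_coe Metric.isClosed_sphere.measurableSet).measurableSet_image.2 hs
  have h2 : Measurable (fun x : R3 => ‖x‖⁻¹ • x) := by fun_prop
  have h3 : sph1Cone s = {0}ᶜ ∩ ({x : R3 | ‖x‖ < 1} ∩
      (fun x : R3 => ‖x‖⁻¹ • x) ⁻¹' ((↑) '' s : Set R3)) := rfl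
  rw [h3]
  exact (measurableSet_singleton _).compl.inter
    ((measurableSet_lt measurable_norm measurable_const).inter (h2 h1))

theorem sph1_mem_Cone {s : Set (Metric.sphere (0 : R3) 1)} {r : ℝ} (hr : 0 < r) (q : ℝ × ℝ) :
    r • sp q.1 q.2 ∈ sph1Cone s ↔ r < 1 ∧ sph1Sp2 q ∈ s := by
  have hn : ‖r • sp q.1 q.2‖ = r := by
    rw [norm_smul, sph1_norm_sp, mul_one, Real.norm_of_nonneg hr.le]
  have h0 : r • sp q.1 q.2 ≠ 0 := by
    intro h
    rw [h, norm_zero] at hn
    exact hr.ne hn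
  unfold sph1Cone
  simp only [Set.mem_ofPred_eq, hn]
  rw [smul_smul, inv_mul_cancel₀ hr.ne', one_smul]
  constructor
  · rintro ⟨-, h1, u, hu, hu'⟩
    refine ⟨h1, ?_⟩
    have : u = sph1Sp2 q := Subtype.ext hu'
    rwa [← this]
  · rintro ⟨h1, h2⟩
    exact ⟨h0, h1, _, h2, rfl⟩

theorem sph1_map2 :
    Measure.map sph1Sp2 (sph1Box2.withDensity (fun q => (sph1Den2 q : ℝ≥0∞))) =
      (volume : Measure R3).toSphere := by
  refine Measure.ext fun s hs => ?_
  have hC := sph1Cone_measurable hs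
  have hd : Measurable (fun q => (sph1Den2 q : ℝ≥0∞)) := sph1_measurable_Den2.coe_nnreal_ennreal
  have hS : MeasurableSet (sph1Sp2 ⁻¹' s) := sph1_continuous_Sp2.measurable hs
  rw [Measure.map_apply sph1_continuous_Sp2.measurable hs, withDensity_apply _ hS,
    Measure.toSphere_apply' _ hs, sph1Cone_eq, ← lintegral_indicator_one hC,
    sph1_lintegral _ (measurable_one.indicator hC)]
  have h1 : ∀ r ∈ Set.Ioi (0 : ℝ), ∫⁻ θ in Set.Ioo 0 Real.pi,
      ∫⁻ φ in Set.Ioo (-Real.pi) Real.pi, ENNReal.ofReal (r ^ 2 * Real.sin θ) *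
        (sph1Cone s).indicator 1 (r • sp θ φ) =
      (Set.Iio (1 : ℝ)).indicator (fun r => ENNReal.ofReal (r ^ 2) *
        ∫⁻ q in sph1Sp2 ⁻¹' s, (sph1Den2 q : ℝ≥0∞) ∂sph1Box2) r := by
    intro r hr
    have hr' : 0 < r := hr
    by_cases h : r < 1
    · rw [Set.indicator_of_mem (show r ∈ Set.Iio (1 : ℝ) from h), ← lintegral_indicator hS,
        sph1Box2, lintegral_prod _ (hd.indicator hS).aemeasurable,
        ← lintegral_const_mul' _ _ ENNReal.ofReal_ne_top]
      refine lintegral_congr fun θ => ?_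
      rw [← lintegral_const_mul' _ _ ENNReal.ofReal_ne_top]
      refine lintegral_congr fun φ => ?_
      rw [ENNReal.ofReal_mul (by positivity), mul_assoc]
      congr 1
      by_cases h2 : sph1Sp2 (θ, φ) ∈ s
      · rw [Set.indicator_of_mem ((sph1_mem_Cone hr' (θ, φ)).2 ⟨h, h2⟩),
          Set.indicator_of_mem (by exact h2)]
        simp only [Pi.one_apply, mul_one]
        rfl
      · rw [Set.indicator_of_notMem (fun hc => h2 ((sph1_mem_Cone hr' (θ, φ)).1 hc).2),
          Set.indicator_of_notMem (by exact h2), mul_zero]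
    · rw [Set.indicator_of_notMem (show r ∉ Set.Iio (1 : ℝ) from h)]
      have : ∀ θ φ : ℝ, (sph1Cone s).indicator (1 : R3 → ℝ≥0∞) (r • sp θ φ) = 0 := fun θ φ =>
        Set.indicator_of_notMem (fun hc => h ((sph1_mem_Cone hr' (θ, φ)).1 hc).1) _
      simp only [this, mul_zero, lintegral_zero]
  rw [setLIntegral_congr_fun measurableSet_Ioi h1, lintegral_indicator measurableSet_Iio,
    Measure.restrict_restrict measurableSet_Iio]
  have h2 : (∫⁻ r in Set.Iio (1 : ℝ) ∩ Set.Ioi (0 : ℝ), ENNReal.ofReal (r ^ 2)) =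
      ENNReal.ofReal (1 / 3) := by
    have e : Set.Iio (1 : ℝ) ∩ Set.Ioi (0 : ℝ) = Set.Ioo 0 1 := by
      rw [Set.inter_comm]
      exact Set.Ioi_inter_Iio
    rw [e, ← ofReal_integral_eq_lintegral_ofReal]
    · rw [← integral_Ioc_eq_integral_Ioo, ← intervalIntegral.integral_of_le zero_le_one]
      norm_num
    · have : IntegrableOn (fun r : ℝ => r ^ 2) (Set.Icc 0 1) :=
        (continuous_pow 2).continuousOn.integrableOn_Icc
      exact this.mono_set Set.Ioo_subset_Icc_self
    · exact Filter.Eventually.of_forall fun r => by positivity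
  rw [lintegral_mul_const _ (by fun_prop), h2, ← mul_assoc]
  have h3 : ((Module.finrank ℝ R3 : ℕ) : ℝ≥0∞) * ENNReal.ofReal (1 / 3) = 1 := by
    rw [finrank_euclideanSpace, Fintype.card_fin, ← ENNReal.ofReal_natCast,
      ← ENNReal.ofReal_mul (by positivity)]
    norm_num
  rw [h3, one_mul]

/-- a linear isometry, on the sphere -/
noncomputable def sph1G (g : R3 ≃ₗᵢ[ℝ] R3) (u : Metric.sphere (0 : R3) 1) :
    Metric.sphere (0 : R3) 1 :=
  ⟨g u, by rw [mem_sphere_zero_iff_norm, g.norm_map]; exact mem_sphere_zero_iff_norm.1 u.2⟩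

theorem sph1_continuous_G (g : R3 ≃ₗᵢ[ℝ] R3) : Continuous (sph1G g) :=
  Continuous.subtype_mk (g.continuous.comp continuous_subtype_val) _

theorem sph1Cone_G (g : R3 ≃ₗᵢ[ℝ] R3) (s : Set (Metric.sphere (0 : R3) 1)) :
    sph1Cone (sph1G g ⁻¹' s) = g ⁻¹' (sph1Cone s) := by
  ext x
  unfold sph1Cone
  simp only [Set.mem_ofPred_eq, Set.mem_preimage, g.norm_map, ne_eq, map_eq_zero_iff g g.injective]
  refine and_congr_right fun _ => and_congr_right fun _ => ?_
  rw [← map_smul]
  constructor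
  · rintro ⟨u, hu, hu'⟩
    exact ⟨sph1G g u, hu, by rw [← hu']; rfl⟩
  · rintro ⟨v, hv, hv'⟩
    have hn : ‖‖x‖⁻¹ • x‖ = 1 := by
      rw [← g.norm_map, ← hv']
      exact mem_sphere_zero_iff_norm.1 v.2
    refine ⟨⟨‖x‖⁻¹ • x, mem_sphere_zero_iff_norm.2 hn⟩, ?_, rfl⟩
    change sph1G g _ ∈ s
    have : sph1G g ⟨‖x‖⁻¹ • x, mem_sphere_zero_iff_norm.2 hn⟩ = v := Subtype.ext hv'.symm
    rw [this]
    exact hv

theorem sph1_map_G (g : R3 ≃ₗᵢ[ℝ] R3) :
    Measure.map (sph1G g) (volume : Measure R3).toSphere = (volume : Measure R3).toSphere := by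
  refine Measure.ext fun s hs => ?_
  have hm : Measurable (sph1G g) := (sph1_continuous_G g).measurable
  rw [Measure.map_apply hm hs, Measure.toSphere_apply' _ hs, Measure.toSphere_apply' _ (hm hs),
    sph1Cone_eq, sph1Cone_eq, sph1Cone_G,
    g.measurePreserving.measure_preimage (sph1Cone_measurable hs).nullMeasurableSet]

/-- the sphere average as an integral over the open rectangle -/
theorem sph1_sph {E : Type} [NormedAddCommGroup E] [NormedSpace ℝ E] (f : R3 → E) :
    sph f = (1 / (4 * Real.pi)) • ∫ θ in Set.Ioo 0 Real.pi,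
      ∫ φ in Set.Ioo (-Real.pi) Real.pi, Real.sin θ • f (sp θ φ) := by
  unfold sph
  congr 1
  rw [intervalIntegral.integral_of_le Real.pi_pos.le, integral_Ioc_eq_integral_Ioo]
  refine integral_congr_ae (Filter.Eventually.of_forall fun θ => ?_)
  change (∫ φ in (0 : ℝ)..(2 * Real.pi), Real.sin θ • f (sp θ φ)) =
    ∫ φ in Set.Ioo (-Real.pi) Real.pi, Real.sin θ • f (sp θ φ)
  have hp : Function.Periodic (fun φ => Real.sin θ • f (sp θ φ)) (2 * Real.pi) := by
    intro φ
    have : sp θ (φ + 2 * Real.pi) = sp θ φ := by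
      unfold sp
      rw [Real.cos_add_two_pi, Real.sin_add_two_pi]
    simp only [this]
  have h := hp.intervalIntegral_add_eq 0 (-Real.pi)
  rw [zero_add, show -Real.pi + 2 * Real.pi = Real.pi by ring] at h
  rw [h, intervalIntegral.integral_of_le (by linarith [Real.pi_pos]),
    integral_Ioc_eq_integral_Ioo]

/-- the surface integral over the unit sphere in spherical coordinates -/
theorem sph1_toSphere {E : Type} [NormedAddCommGroup E] [NormedSpace ℝ E]
    (f : Metric.sphere (0 : R3) 1 → E) (hf : Integrable f (volume : Measure R3).toSphere) :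
    ∫ ω, f ω ∂(volume : Measure R3).toSphere = ∫ θ in Set.Ioo 0 Real.pi,
      ∫ φ in Set.Ioo (-Real.pi) Real.pi, Real.sin θ • f (sph1Sp2 (θ, φ)) := by
  have hmp : MeasurePreserving sph1Sp2 (sph1Box2.withDensity (fun p => (sph1Den2 p : ℝ≥0∞)))
      (volume : Measure R3).toSphere := ⟨sph1_continuous_Sp2.measurable, sph1_map2⟩
  have hI : Integrable (fun p => f (sph1Sp2 p))
      (sph1Box2.withDensity (fun p => (sph1Den2 p : ℝ≥0∞))) := hmp.integrable_comp_of_integrable hf
  have h1 : ∫ x, f x ∂(volume : Measure R3).toSphere = ∫ p, f (sph1Sp2 p)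
      ∂(sph1Box2.withDensity (fun p => (sph1Den2 p : ℝ≥0∞))) := by
    rw [← sph1_map2] at hf ⊢
    exact integral_map sph1_continuous_Sp2.measurable.aemeasurable hf.aestronglyMeasurable
  rw [h1, integral_withDensity_eq_integral_smul sph1_measurable_Den2]
  rw [integrable_withDensity_iff_integrable_smul sph1_measurable_Den2] at hI
  unfold sph1Box2 at hI ⊢
  rw [integral_prod _ hI]
  refine setIntegral_congr_fun measurableSet_Ioo fun θ hθ => ?_
  refine integral_congr_ae (Filter.Eventually.of_forall fun φ => ?_)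
  have hs : 0 < Real.sin θ := Real.sin_pos_of_mem_Ioo hθ
  change sph1Den2 (θ, φ) • f (sph1Sp2 (θ, φ)) = _
  rw [NNReal.smul_def]
  unfold sph1Den2
  rw [Real.coe_toNNReal _ hs.le]

theorem sph1_integrable {E : Type} [NormedAddCommGroup E] [NormedSpace ℝ E] (f : R3 → E)
    (hf : ContinuousOn f (Metric.sphere 0 1)) :
    Integrable (fun ω : Metric.sphere (0 : R3) 1 => f ω) (volume : Measure R3).toSphere := by
  have hc : Continuous (fun ω : Metric.sphere (0 : R3) 1 => f ω) :=
    continuousOn_iff_continuous_domRestrict.1 hf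
  exact hc.integrable_of_hasCompactSupport (HasCompactSupport.of_compactSpace _)

/-- bridge to Mathlib's surface measure -/
theorem sph_eq_toSphere {E : Type} [NormedAddCommGroup E] [NormedSpace ℝ E] (f : R3 → E)
    (hf : ContinuousOn f (Metric.sphere 0 1)) :
    sph f = (1 / (4 * Real.pi)) • ∫ ω : Metric.sphere (0 : R3) 1, f ω
      ∂(volume : Measure R3).toSphere := by
  rw [sph1_sph, sph1_toSphere _ (sph1_integrable f hf)]
  rfl

end Vale.Agent.P370.Q
end

section

/-!
Sphere averages: polar coordinates, rotation invariance, zonal functions.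
-/

namespace Vale.Agent.P370.Q

open MeasureTheory Finset ComplexConjugate

theorem norm_sp (θ φ : ℝ) : ‖sp θ φ‖ = 1 := by
  exact sph1_norm_sp θ φ

/-- polar coordinates -/
theorem polar_sph {E : Type} [NormedAddCommGroup E] [NormedSpace ℝ E] [CompleteSpace E]
    (F : R3 → E) (hF : Integrable F) :
    ∫ x, F x = ∫ r in Set.Ioi (0 : ℝ), (4 * Real.pi * r ^ 2) • sph (fun u => F (r • u)) := by
  rw [sph1_integral F hF]
  refine integral_congr_ae (Filter.Eventually.of_forall fun r => ?_)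
  change (∫ θ in Set.Ioo 0 Real.pi, ∫ φ in Set.Ioo (-Real.pi) Real.pi,
    (r ^ 2 * Real.sin θ) • F (r • sp θ φ)) =
      (4 * Real.pi * r ^ 2) • sph (fun u => F (r • u))
  have h1 : 4 * Real.pi * r ^ 2 * (1 / (4 * Real.pi)) = r ^ 2 := by
    have := Real.pi_ne_zero
    field_simp
  rw [sph1_sph, smul_smul, h1, ← integral_smul]
  refine integral_congr_ae (Filter.Eventually.of_forall fun θ => ?_)
  change (∫ φ in Set.Ioo (-Real.pi) Real.pi, (r ^ 2 * Real.sin θ) • F (r • sp θ φ)) =
    r ^ 2 • ∫ φ in Set.Ioo (-Real.pi) Real.pi, Real.sin θ • F (r • sp θ φ)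
  rw [← integral_smul]
  refine integral_congr_ae (Filter.Eventually.of_forall fun φ => ?_)
  exact mul_smul _ _ _

/-- rotation invariance of the sphere average -/
theorem sph_rot {E : Type} [NormedAddCommGroup E] [NormedSpace ℝ E] [CompleteSpace E]
    (g : R3 ≃ₗᵢ[ℝ] R3) (f : R3 → E) (hf : ContinuousOn f (Metric.sphere 0 1)) :
    sph (fun u => f (g u)) = sph f := by
  have hg : ContinuousOn (fun u => f (g u)) (Metric.sphere 0 1) := by
    refine hf.comp g.continuous.continuousOn fun u hu => ?_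
    rw [mem_sphere_zero_iff_norm] at hu ⊢
    rw [g.norm_map, hu]
  rw [sph_eq_toSphere f hf, sph_eq_toSphere _ hg]
  congr 1
  have hm : Measurable (sph1G g) := (sph1_continuous_G g).measurable
  have h1 := (sph1_integrable f hf).aestronglyMeasurable
  have h2 := integral_map (μ := (volume : Measure R3).toSphere) hm.aemeasurable
    (f := fun ω : Metric.sphere (0 : R3) 1 => f ω) (by rw [sph1_map_G]; exact h1)
  rw [sph1_map_G] at h2
  exact h2.symm

theorem sph_const {E : Type} [NormedAddCommGroup E] [NormedSpace ℝ E] [CompleteSpace E] (c : E) :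
    sph (fun _ => c) = c := by
  unfold sph
  have h1 : ∀ θ : ℝ, (∫ _ in (0 : ℝ)..(2 * Real.pi), Real.sin θ • c) =
      Real.sin θ • ((2 * Real.pi) • c) := by
    intro θ
    rw [intervalIntegral.integral_const, sub_zero, smul_comm]
  simp only [h1]
  rw [intervalIntegral.integral_smul_const, integral_sin, smul_smul, smul_smul]
  have := Real.pi_ne_zero
  have e : 1 / (4 * Real.pi) * ((Real.cos 0 - Real.cos Real.pi) * (2 * Real.pi)) = 1 := by
    rw [Real.cos_zero, Real.cos_pi]
    field_simp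
    norm_num
  rw [mul_assoc, e, one_smul]

theorem sph_congr {E : Type} [NormedAddCommGroup E] [NormedSpace ℝ E] {f g : R3 → E}
    (h : ∀ u, ‖u‖ = 1 → f u = g u) : sph f = sph g := by
  unfold sph
  have e : ∀ θ φ : ℝ, f (sp θ φ) = g (sp θ φ) := fun θ φ => h _ (norm_sp θ φ)
  simp only [e]

theorem sph_add {E : Type} [NormedAddCommGroup E] [NormedSpace ℝ E] [CompleteSpace E]
    {f g : R3 → E} (hf : ContinuousOn f (Metric.sphere 0 1))
    (hg : ContinuousOn g (Metric.sphere 0 1)) :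
    sph (fun u => f u + g u) = sph f + sph g := by
  rw [sph_eq_toSphere f hf, sph_eq_toSphere g hg,
    sph_eq_toSphere (fun u => f u + g u) (hf.add hg),
    integral_add (sph1_integrable f hf) (sph1_integrable g hg), smul_add]

theorem sph_smul {E : Type} [NormedAddCommGroup E] [NormedSpace ℝ E] (c : ℝ) (f : R3 → E) :
    sph (fun u => c • f u) = c • sph f := by
  rw [sph1_sph, sph1_sph, smul_comm c]
  congr 1
  rw [← integral_smul]
  refine integral_congr_ae (Filter.Eventually.of_forall fun θ => ?_)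
  change (∫ φ in Set.Ioo (-Real.pi) Real.pi, Real.sin θ • c • f (sp θ φ)) =
    c • ∫ φ in Set.Ioo (-Real.pi) Real.pi, Real.sin θ • f (sp θ φ)
  rw [← integral_smul]
  refine integral_congr_ae (Filter.Eventually.of_forall fun φ => ?_)
  exact smul_comm _ _ _

/-- zonal functions -/
theorem sph_zonal {E : Type} [NormedAddCommGroup E] [NormedSpace ℝ E] [CompleteSpace E]
    (e : R3) (he : ‖e‖ = 1) (f : ℝ → E) (hf : ContinuousOn f (Set.Icc (-1) 1)) :
    sph (fun u => f (inner ℝ e u)) = (1 / 2 : ℝ) • ∫ t in (-1 : ℝ)..1, f t := by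
  have hz : ‖sp 0 0‖ = 1 := norm_sp 0 0
  have hc : ∀ v : R3, ‖v‖ = 1 →
      ContinuousOn (fun u : R3 => f (inner ℝ v u)) (Metric.sphere 0 1) := by
    intro v hv
    refine hf.comp (by fun_prop) fun u hu => ?_
    rw [mem_sphere_zero_iff_norm] at hu
    have := abs_real_inner_le_norm v u
    rw [hv, hu, mul_one] at this
    exact abs_le.1 this
  -- rotate to the z axis
  set g : R3 ≃ₗᵢ[ℝ] R3 := (ℝ ∙ (e - sp 0 0))ᗮ.reflection with hg
  have hg1 : g e = sp 0 0 := Submodule.reflection_sub (he.trans hz.symm)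
  have hgg : ∀ u, g (g u) = u := fun u => Submodule.reflection_reflection _ u
  have h1 : sph (fun u => f (inner ℝ e u)) = sph (fun u => f (inner ℝ (sp 0 0) u)) := by
    rw [← sph_rot g _ (hc e he)]
    congr 1
    funext u
    rw [← hg1, ← g.inner_map_map e (g u), hgg]
  rw [h1]
  have h2 : ∀ θ φ : ℝ, inner ℝ (sp 0 0) (sp θ φ) = Real.cos θ := by
    intro θ φ
    unfold sp
    rw [PiLp.inner_apply, Fin.sum_univ_three]
    simp
  unfold sph
  simp only [h2]
  have h3 : ∀ θ : ℝ, (∫ _ in (0 : ℝ)..(2 * Real.pi), Real.sin θ • f (Real.cos θ)) =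
      (2 * Real.pi) • (Real.sin θ • f (Real.cos θ)) := by
    intro θ
    rw [intervalIntegral.integral_const, sub_zero]
  simp only [h3]
  rw [intervalIntegral.integral_smul, smul_smul]
  have h4 : (∫ θ in (0 : ℝ)..Real.pi, (-Real.sin θ) • (f ∘ Real.cos) θ) =
      ∫ t in (Real.cos 0)..(Real.cos Real.pi), f t := by
    refine intervalIntegral.integral_deriv_smul_comp' (fun x _ => Real.hasDerivAt_cos x)
      (by fun_prop) (hf.mono ?_)
    rintro t ⟨x, -, rfl⟩
    exact ⟨Real.neg_one_le_cos x, Real.cos_le_one x⟩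
  rw [Real.cos_zero, Real.cos_pi] at h4
  have h5 : (∫ θ in (0 : ℝ)..Real.pi, Real.sin θ • f (Real.cos θ)) =
      ∫ t in (-1 : ℝ)..1, f t := by
    rw [intervalIntegral.integral_symm (1 : ℝ) (-1), ← h4, ← intervalIntegral.integral_neg]
    refine intervalIntegral.integral_congr fun θ _ => ?_
    simp
  rw [h5]
  congr 1
  have := Real.pi_ne_zero
  field_simp
  norm_num

end Vale.Agent.P370.Q
end

section

/-!
Legendre functions for `Sph3`.
-/

namespace Vale.Agent.P370.Q.S3

open MeasureTheory intervalIntegral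

/-- Legendre polynomials -/
noncomputable def lp : ℕ → ℝ → ℝ
  | 0 => fun _ => 1
  | 1 => fun t => t
  | (n + 2) => fun t => ((2 * (n : ℝ) + 3) * t * lp (n + 1) t - ((n : ℝ) + 1) * lp n t) / (n + 2)

/-- their derivatives -/
noncomputable def lq : ℕ → ℝ → ℝ
  | 0 => fun _ => 0
  | 1 => fun _ => 1
  | (n + 2) => fun t =>
    ((2 * (n : ℝ) + 3) * (lp (n + 1) t + t * lq (n + 1) t) - ((n : ℝ) + 1) * lq n t) / (n + 2)

theorem lp_hasDerivAt (n : ℕ) (t : ℝ) : HasDerivAt (lp n) (lq n t) t := by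
  induction n using Nat.twoStepInduction with
  | zero => exact hasDerivAt_const t (1 : ℝ)
  | one => exact hasDerivAt_id t
  | more n ih0 ih1 =>
    have h := (((((hasDerivAt_id t).mul ih1).const_mul (2 * (n : ℝ) + 3)).sub
      (ih0.const_mul ((n : ℝ) + 1))).div_const ((n : ℝ) + 2))
    refine HasDerivAt.congr_deriv (f := lp (n + 2)) (h.congr_of_eventuallyEq ?_) ?_
    · refine Filter.Eventually.of_forall fun s => ?_
      show ((2 * (n : ℝ) + 3) * s * lp (n + 1) s - ((n : ℝ) + 1) * lp n s) / (n + 2) =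
        ((2 * (n : ℝ) + 3) * (s * lp (n + 1) s) - ((n : ℝ) + 1) * lp n s) / (n + 2)
      ring
    · show ((2 * (n : ℝ) + 3) * (1 * lp (n + 1) t + t * lq (n + 1) t) - ((n : ℝ) + 1) * lq n t) /
        (n + 2) = ((2 * (n : ℝ) + 3) * (lp (n + 1) t + t * lq (n + 1) t) -
        ((n : ℝ) + 1) * lq n t) / (n + 2)
      ring

theorem lp_continuous (n : ℕ) : Continuous (lp n) :=
  continuous_iff_continuousAt.2 fun t => (lp_hasDerivAt n t).continuousAt

theorem lp_succ (n : ℕ) (t : ℝ) :
    ((n : ℝ) + 2) * lp (n + 2) t = (2 * (n : ℝ) + 3) * t * lp (n + 1) t - ((n : ℝ) + 1) * lp n t := by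
  have : ((n : ℝ) + 2) ≠ 0 := by positivity
  show ((n : ℝ) + 2) * (((2 * (n : ℝ) + 3) * t * lp (n + 1) t - ((n : ℝ) + 1) * lp n t) / (n + 2)) = _
  field_simp

theorem lq_succ (n : ℕ) (t : ℝ) :
    ((n : ℝ) + 2) * lq (n + 2) t =
      (2 * (n : ℝ) + 3) * (lp (n + 1) t + t * lq (n + 1) t) - ((n : ℝ) + 1) * lq n t := by
  have : ((n : ℝ) + 2) ≠ 0 := by positivity
  show ((n : ℝ) + 2) * (((2 * (n : ℝ) + 3) * (lp (n + 1) t + t * lq (n + 1) t) -
    ((n : ℝ) + 1) * lq n t) / (n + 2)) = _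
  field_simp

theorem lq_rel (n : ℕ) (t : ℝ) :
    ((n : ℝ) + 1) * lp (n + 1) t = t * lq (n + 1) t - lq n t ∧
      ((n : ℝ) + 1) * lp n t = lq (n + 1) t - t * lq n t := by
  induction n with
  | zero => simp [lp, lq]
  | succ n ih =>
    obtain ⟨h1, h2⟩ := ih
    have h3 := lp_succ n t
    have h4 := lq_succ n t
    have hn : ((n : ℝ) + 2) ≠ 0 := by positivity
    have e2 : lq (n + 2) t = t * lq (n + 1) t + ((n : ℝ) + 2) * lp (n + 1) t := by
      apply mul_left_cancel₀ hn
      rw [h4]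
      linear_combination (-((n : ℝ) + 1)) * h1
    push_cast
    refine ⟨?_, ?_⟩
    · show ((n : ℝ) + 1 + 1) * lp (n + 2) t = t * lq (n + 2) t - lq (n + 1) t
      rw [e2]
      linear_combination h3 + t * h1 - h2
    · show ((n : ℝ) + 1 + 1) * lp (n + 1) t = lq (n + 2) t - t * lq (n + 1) t
      rw [e2]
      ring

theorem lp_deriv (n : ℕ) (t : ℝ) :
    (2 * ((n : ℝ) + 1) + 1) * lp (n + 1) t = lq (n + 2) t - lq n t := by
  have h1 := (lq_rel n t).1
  have h2 := (lq_rel (n + 1) t).2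
  push_cast at h2
  show _ = lq (n + 1 + 1) t - lq n t
  linear_combination h1 + h2

theorem lp_one (n : ℕ) : lp n 1 = 1 := by
  induction n using Nat.twoStepInduction with
  | zero => rfl
  | one => rfl
  | more n ih0 ih1 =>
    have hn : ((n : ℝ) + 2) ≠ 0 := by positivity
    apply mul_left_cancel₀ hn
    rw [lp_succ, ih0, ih1]
    ring

theorem lp_neg_one (n : ℕ) : lp n (-1) = (-1) ^ n := by
  induction n using Nat.twoStepInduction with
  | zero => simp [lp]
  | one => simp [lp]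
  | more n ih0 ih1 =>
    have hn : ((n : ℝ) + 2) ≠ 0 := by positivity
    apply mul_left_cancel₀ hn
    rw [lp_succ, ih0, ih1]
    ring

/-! ### Laplace integral -/

section Laplace

variable (c1 c2 c3 : ℂ) (σ t : ℝ)

end Laplace

/-! ### the radial integrals -/

section Radial

variable {r ρ : ℝ}

/-- squared distance -/
noncomputable def Dd (r ρ t : ℝ) : ℝ := r ^ 2 + ρ ^ 2 - 2 * r * ρ * t

theorem Dd_pos (hr : 0 < r) (hρ : 0 < ρ) (hne : r ≠ ρ) {t : ℝ} (ht : t ≤ 1) :
    0 < Dd r ρ t := by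
  unfold Dd
  have h1 : 0 < (r - ρ) ^ 2 := by
    have : r - ρ ≠ 0 := sub_ne_zero.2 hne
    positivity
  have h2 : 0 ≤ 2 * r * ρ * (1 - t) := by
    have : 0 ≤ 1 - t := by linarith
    positivity
  linarith only [h1, h2]

theorem Dd_continuous (r ρ : ℝ) : Continuous (Dd r ρ) := by
  unfold Dd
  fun_prop

theorem inv_sqrt_hasDerivAt (hr : 0 < r) (hρ : 0 < ρ) (hne : r ≠ ρ) {t : ℝ} (ht : t ≤ 1) :
    HasDerivAt (fun t => 1 / √(Dd r ρ t)) (r * ρ * (1 / (Dd r ρ t * √(Dd r ρ t)))) t := by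
  have hD := Dd_pos hr hρ hne ht
  have h1 : HasDerivAt (Dd r ρ) (-(2 * r * ρ)) t := by
    unfold Dd
    have := ((hasDerivAt_id t).const_mul (2 * r * ρ)).const_sub (r ^ 2 + ρ ^ 2)
    simpa using this
  have h2 := (h1.sqrt hD.ne').inv (Real.sqrt_ne_zero'.2 hD)
  have h3 : (fun t => 1 / √(Dd r ρ t)) = (fun t => (√(Dd r ρ t)))⁻¹ := by
    ext s; simp
  rw [h3]
  refine h2.congr_deriv ?_
  have hs := Real.sq_sqrt hD.le
  have hs0 : √(Dd r ρ t) ≠ 0 := Real.sqrt_ne_zero'.2 hD
  rw [hs]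
  field_simp

theorem Dd_pos' (hr : 0 < r) (hρ : 0 < ρ) (hne : r ≠ ρ) {t : ℝ} (ht : t ∈ Set.uIcc (-1 : ℝ) 1) :
    0 < Dd r ρ t := by
  apply Dd_pos hr hρ hne
  rw [Set.uIcc_of_le (by norm_num)] at ht
  exact ht.2

theorem cA (hr : 0 < r) (hρ : 0 < ρ) (hne : r ≠ ρ) :
    ContinuousOn (fun t => 1 / √(Dd r ρ t)) (Set.uIcc (-1 : ℝ) 1) := by
  apply ContinuousOn.div continuousOn_const
  · exact (Dd_continuous r ρ).sqrt.continuousOn
  · intro t ht
    exact Real.sqrt_ne_zero'.2 (Dd_pos' hr hρ hne ht)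

theorem cB (hr : 0 < r) (hρ : 0 < ρ) (hne : r ≠ ρ) :
    ContinuousOn (fun t => 1 / (Dd r ρ t * √(Dd r ρ t))) (Set.uIcc (-1 : ℝ) 1) := by
  apply ContinuousOn.div continuousOn_const
  · exact ((Dd_continuous r ρ).mul (Dd_continuous r ρ).sqrt).continuousOn
  · intro t ht
    have := Dd_pos' hr hρ hne ht
    have h2 := Real.sqrt_ne_zero'.2 this
    exact mul_ne_zero this.ne' h2

/-- Legendre coefficient of the inverse distance -/
noncomputable def aI (r ρ : ℝ) (n : ℕ) : ℝ :=
  (1 / 2) * ∫ t in (-1 : ℝ)..1, 1 / √(Dd r ρ t) * lp n t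

/-- Legendre coefficient of the inverse cubed distance -/
noncomputable def bI (r ρ : ℝ) (n : ℕ) : ℝ :=
  (1 / 2) * ∫ t in (-1 : ℝ)..1, 1 / (Dd r ρ t * √(Dd r ρ t)) * lp n t

theorem aI_int (hr : 0 < r) (hρ : 0 < ρ) (hne : r ≠ ρ) (n : ℕ) :
    IntervalIntegrable (fun t => 1 / √(Dd r ρ t) * lp n t) volume (-1) 1 :=
  ((cA hr hρ hne).mul (lp_continuous n).continuousOn).intervalIntegrable

theorem bI_int (hr : 0 < r) (hρ : 0 < ρ) (hne : r ≠ ρ) (n : ℕ) :
    IntervalIntegrable (fun t => 1 / (Dd r ρ t * √(Dd r ρ t)) * lp n t) volume (-1) 1 :=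
  ((cB hr hρ hne).mul (lp_continuous n).continuousOn).intervalIntegrable

theorem rel1 (hr : 0 < r) (hρ : 0 < ρ) (hne : r ≠ ρ) (n : ℕ) :
    (2 * (n : ℝ) + 3) * aI r ρ (n + 1) = -(r * ρ * (bI r ρ (n + 2) - bI r ρ n)) := by
  have hd : ∀ t ∈ Set.uIcc (-1 : ℝ) 1,
      HasDerivAt (fun t => (lp (n + 2) t - lp n t) * (1 / √(Dd r ρ t)))
        ((2 * (n : ℝ) + 3) * (1 / √(Dd r ρ t) * lp (n + 1) t) +
          r * ρ * (1 / (Dd r ρ t * √(Dd r ρ t)) * lp (n + 2) t -
            1 / (Dd r ρ t * √(Dd r ρ t)) * lp n t)) t := by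
    intro t ht
    rw [Set.uIcc_of_le (by norm_num)] at ht
    have h1 := ((lp_hasDerivAt (n + 2) t).sub (lp_hasDerivAt n t)).mul
      (inv_sqrt_hasDerivAt hr hρ hne ht.2)
    refine h1.congr_deriv ?_
    have h2 := lp_deriv n t
    rw [← h2]
    simp only [Pi.sub_apply]
    ring
  have hi1 := aI_int hr hρ hne (n + 1)
  have hi2 := bI_int hr hρ hne (n + 2)
  have hi3 := bI_int hr hρ hne n
  have h := integral_eq_sub_of_hasDerivAt hd
    ((hi1.const_mul _).add ((hi2.sub hi3).const_mul _))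
  rw [intervalIntegral.integral_add (hi1.const_mul _) ((hi2.sub hi3).const_mul _),
    intervalIntegral.integral_const_mul, intervalIntegral.integral_const_mul,
    intervalIntegral.integral_sub hi2 hi3] at h
  have e1 : lp (n + 2) 1 - lp n 1 = 0 := by rw [lp_one, lp_one]; ring
  have e2 : lp (n + 2) (-1) - lp n (-1) = 0 := by rw [lp_neg_one, lp_neg_one]; ring
  rw [e1, e2] at h
  unfold aI bI
  linear_combination (1 / 2) * h

theorem rel2 (hr : 0 < r) (hρ : 0 < ρ) (hne : r ≠ ρ) (n : ℕ) :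
    (2 * (n : ℝ) + 3) * aI r ρ (n + 1) = (2 * (n : ℝ) + 3) * (r ^ 2 + ρ ^ 2) * bI r ρ (n + 1) -
      2 * r * ρ * (((n : ℝ) + 2) * bI r ρ (n + 2) + ((n : ℝ) + 1) * bI r ρ n) := by
  have hi2 := bI_int hr hρ hne (n + 2)
  have hi1 := bI_int hr hρ hne (n + 1)
  have hi3 := bI_int hr hρ hne n
  have e : (∫ t in (-1 : ℝ)..1, (2 * (n : ℝ) + 3) * (1 / √(Dd r ρ t) * lp (n + 1) t)) =
      ∫ t in (-1 : ℝ)..1, ((2 * (n : ℝ) + 3) * (r ^ 2 + ρ ^ 2) *
        (1 / (Dd r ρ t * √(Dd r ρ t)) * lp (n + 1) t) -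
        (2 * r * ρ * ((n : ℝ) + 2) * (1 / (Dd r ρ t * √(Dd r ρ t)) * lp (n + 2) t) +
        2 * r * ρ * ((n : ℝ) + 1) * (1 / (Dd r ρ t * √(Dd r ρ t)) * lp n t))) := by
    apply intervalIntegral.integral_congr
    intro t ht
    have hD := Dd_pos' hr hρ hne ht
    have hs : √(Dd r ρ t) ≠ 0 := Real.sqrt_ne_zero'.2 hD
    have hl := lp_succ n t
    simp only
    have e1 : 1 / √(Dd r ρ t) = (r ^ 2 + ρ ^ 2 - 2 * r * ρ * t) * (1 / (Dd r ρ t * √(Dd r ρ t))) := by
      have : (r ^ 2 + ρ ^ 2 - 2 * r * ρ * t) = Dd r ρ t := rfl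
      rw [this]
      field_simp
    rw [e1]
    linear_combination (2 * r * ρ * (1 / (Dd r ρ t * √(Dd r ρ t)))) * hl
  rw [intervalIntegral.integral_const_mul, intervalIntegral.integral_sub (hi1.const_mul _)
    ((hi2.const_mul _).add (hi3.const_mul _)), intervalIntegral.integral_add (hi2.const_mul _)
    (hi3.const_mul _), intervalIntegral.integral_const_mul, intervalIntegral.integral_const_mul,
    intervalIntegral.integral_const_mul] at e
  unfold aI bI
  linear_combination (1 / 2) * e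

theorem rel3 (hr : 0 < r) (hρ : 0 < ρ) (hne : r ≠ ρ) (n : ℕ) :
    r * ρ * (bI r ρ (n + 2) + bI r ρ n) = (r ^ 2 + ρ ^ 2) * bI r ρ (n + 1) := by
  have h1 := rel1 hr hρ hne n
  have h2 := rel2 hr hρ hne n
  have hn : (2 * (n : ℝ) + 3) ≠ 0 := by positivity
  apply mul_left_cancel₀ hn
  linear_combination h2 - h1

theorem rel2' (hr : 0 < r) (hρ : 0 < ρ) (hne : r ≠ ρ) :
    aI r ρ 0 = (r ^ 2 + ρ ^ 2) * bI r ρ 0 - 2 * r * ρ * bI r ρ 1 := by
  have hi1 := bI_int hr hρ hne 0
  have hi2 := bI_int hr hρ hne 1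
  have e : (∫ t in (-1 : ℝ)..1, (1 / √(Dd r ρ t) * lp 0 t)) =
      ∫ t in (-1 : ℝ)..1, ((r ^ 2 + ρ ^ 2) *
        (1 / (Dd r ρ t * √(Dd r ρ t)) * lp 0 t) -
        (2 * r * ρ) * (1 / (Dd r ρ t * √(Dd r ρ t)) * lp 1 t)) := by
    apply intervalIntegral.integral_congr
    intro t ht
    have hD := Dd_pos' hr hρ hne ht
    have hs : √(Dd r ρ t) ≠ 0 := Real.sqrt_ne_zero'.2 hD
    simp only
    have e1 : 1 / √(Dd r ρ t) = (r ^ 2 + ρ ^ 2 - 2 * r * ρ * t) * (1 / (Dd r ρ t * √(Dd r ρ t))) := by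
      have : (r ^ 2 + ρ ^ 2 - 2 * r * ρ * t) = Dd r ρ t := rfl
      rw [this]
      field_simp
    rw [e1]
    simp only [lp]
    ring
  rw [intervalIntegral.integral_sub (hi1.const_mul _)
    (hi2.const_mul _), intervalIntegral.integral_const_mul, intervalIntegral.integral_const_mul]
    at e
  unfold aI bI
  linear_combination (1 / 2) * e

theorem Dd_one (r ρ : ℝ) : √(Dd r ρ 1) = |r - ρ| := by
  rw [← Real.sqrt_sq_eq_abs]
  congr 1
  unfold Dd
  ring

theorem Dd_neg_one (hr : 0 < r) (hρ : 0 < ρ) : √(Dd r ρ (-1)) = r + ρ := by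
  rw [← abs_of_pos (add_pos hr hρ), ← Real.sqrt_sq_eq_abs]
  congr 1
  unfold Dd
  ring

theorem bI_zero (hr : 0 < r) (hρ : 0 < ρ) (hne : r ≠ ρ) :
    2 * (r * ρ) * bI r ρ 0 = 1 / |r - ρ| - 1 / (r + ρ) := by
  have h := integral_eq_sub_of_hasDerivAt (a := (-1 : ℝ)) (b := 1)
    (f := fun t => 1 / √(Dd r ρ t)) (f' := fun t => r * ρ * (1 / (Dd r ρ t * √(Dd r ρ t))))
    (fun t ht => inv_sqrt_hasDerivAt hr hρ hne (by
      rw [Set.uIcc_of_le (by norm_num)] at ht; exact ht.2))
    (((cB hr hρ hne).intervalIntegrable).const_mul _)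
  rw [intervalIntegral.integral_const_mul, Dd_one, Dd_neg_one hr hρ] at h
  unfold bI
  simp only [lp, mul_one]
  linear_combination h

theorem aI_zero (hr : 0 < r) (hρ : 0 < ρ) (hne : r ≠ ρ) :
    2 * (r * ρ) * aI r ρ 0 = (r + ρ) - |r - ρ| := by
  have hd : ∀ t ∈ Set.uIcc (-1 : ℝ) 1,
      HasDerivAt (fun t => √(Dd r ρ t)) (-(r * ρ) * (1 / √(Dd r ρ t))) t := by
    intro t ht
    have hD := Dd_pos' hr hρ hne ht
    have h1 : HasDerivAt (Dd r ρ) (-(2 * r * ρ)) t := by
      unfold Dd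
      have := ((hasDerivAt_id t).const_mul (2 * r * ρ)).const_sub (r ^ 2 + ρ ^ 2)
      simpa using this
    refine (h1.sqrt hD.ne').congr_deriv ?_
    have hs0 : √(Dd r ρ t) ≠ 0 := Real.sqrt_ne_zero'.2 hD
    field_simp
  have h := integral_eq_sub_of_hasDerivAt hd (((cA hr hρ hne).intervalIntegrable).const_mul _)
  rw [intervalIntegral.integral_const_mul, Dd_one, Dd_neg_one hr hρ] at h
  unfold aI
  simp only [lp, mul_one]
  linear_combination -h

theorem bI_eq (hr : 0 < r) (hρ : 0 < ρ) (hne : r ≠ ρ) (n : ℕ) :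
    bI r ρ n = (min r ρ / max r ρ) ^ n * bI r ρ 0 ∧
    bI r ρ (n + 1) = (min r ρ / max r ρ) ^ (n + 1) * bI r ρ 0 := by
  have hmul : min r ρ * max r ρ = r * ρ := min_mul_max r ρ
  have hsq : min r ρ ^ 2 + max r ρ ^ 2 = r ^ 2 + ρ ^ 2 := by
    rcases le_total r ρ with h | h
    · rw [min_eq_left h, max_eq_right h]
    · rw [min_eq_right h, max_eq_left h]; ring
  have hm : 0 < min r ρ := lt_min hr hρ
  have hM : 0 < max r ρ := lt_max_of_lt_left hr
  have hlt : min r ρ < max r ρ := by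
    rcases lt_or_gt_of_ne hne with h | h
    · rw [min_eq_left h.le, max_eq_right h.le]; exact h
    · rw [min_eq_right h.le, max_eq_left h.le]; exact h
  have habs : |r - ρ| = max r ρ - min r ρ := by
    rcases lt_or_gt_of_ne hne with h | h
    · rw [min_eq_left h.le, max_eq_right h.le, abs_of_neg (by linarith)]; ring
    · rw [min_eq_right h.le, max_eq_left h.le, abs_of_pos (by linarith)]
  have hsum : r + ρ = max r ρ + min r ρ := by
    rcases le_total r ρ with h | h
    · rw [min_eq_left h, max_eq_right h]; ring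
    · rw [min_eq_right h, max_eq_left h]
  have hb0 := bI_zero hr hρ hne
  have ha0 := aI_zero hr hρ hne
  have h2 := rel2' hr hρ hne
  have h3 := rel3 hr hρ hne
  generalize min r ρ = m at *
  generalize max r ρ = M at *
  generalize bI r ρ = b at *
  have hMm : M - m ≠ 0 := sub_ne_zero.2 hlt.ne'
  have hMm' : M + m ≠ 0 := by positivity
  rw [habs, hsum, ← hmul] at hb0 ha0
  have eb0 : b 0 = 1 / (M * (M - m) * (M + m)) := by
    have : 2 * (m * M) ≠ 0 := by positivity
    apply mul_left_cancel₀ this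
    rw [hb0]
    field_simp
    ring
  have eb1 : b 1 = (m / M) * b 0 := by
    have : 2 * (m * M) ≠ 0 := by positivity
    apply mul_left_cancel₀ this
    have e1 : 2 * (m * M) * b 1 = (r ^ 2 + ρ ^ 2) * b 0 - aI r ρ 0 := by
      rw [h2, hmul]; ring
    have ea : aI r ρ 0 = 1 / M := by
      apply mul_left_cancel₀ this
      rw [ha0]
      field_simp
      ring
    rw [e1, ea, eb0, ← hsq]
    field_simp
    ring
  induction n with
  | zero => exact ⟨by simp, by simpa using eb1⟩
  | succ n ih =>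
    refine ⟨ih.2, ?_⟩
    have h4 := h3 n
    rw [ih.1, ih.2, ← hsq, ← hmul] at h4
    have : m * M ≠ 0 := by positivity
    apply mul_left_cancel₀ this
    have e5 : m * M * b (n + 1 + 1) = (m ^ 2 + M ^ 2) * ((m / M) ^ (n + 1) * b 0) -
        m * M * ((m / M) ^ n * b 0) := by
      linear_combination h4
    rw [e5]
    have hM0 : M ≠ 0 := hM.ne'
    simp only [div_pow]
    field_simp
    ring

theorem aI_eq (hr : 0 < r) (hρ : 0 < ρ) (hne : r ≠ ρ) (n : ℕ) :
    aI r ρ n = 1 / (2 * (n : ℝ) + 1) * (min r ρ ^ n / max r ρ ^ (n + 1)) := by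
  have hmul : min r ρ * max r ρ = r * ρ := min_mul_max r ρ
  have hm : 0 < min r ρ := lt_min hr hρ
  have hM : 0 < max r ρ := lt_max_of_lt_left hr
  have hlt : min r ρ < max r ρ := by
    rcases lt_or_gt_of_ne hne with h | h
    · rw [min_eq_left h.le, max_eq_right h.le]; exact h
    · rw [min_eq_right h.le, max_eq_left h.le]; exact h
  have habs : |r - ρ| = max r ρ - min r ρ := by
    rcases lt_or_gt_of_ne hne with h | h
    · rw [min_eq_left h.le, max_eq_right h.le, abs_of_neg (by linarith)]; ring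
    · rw [min_eq_right h.le, max_eq_left h.le, abs_of_pos (by linarith)]
  have hsum : r + ρ = max r ρ + min r ρ := by
    rcases le_total r ρ with h | h
    · rw [min_eq_left h, max_eq_right h]; ring
    · rw [min_eq_right h, max_eq_left h]
  have hb0 := bI_zero hr hρ hne
  have ha0 := aI_zero hr hρ hne
  have hb := bI_eq hr hρ hne
  have h1 := rel1 hr hρ hne
  generalize min r ρ = m at *
  generalize max r ρ = M at *
  have hMm : M - m ≠ 0 := sub_ne_zero.2 hlt.ne'
  have hMm' : M + m ≠ 0 := by positivity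
  rw [habs, hsum, ← hmul] at hb0 ha0
  have h2m : 2 * (m * M) ≠ 0 := by positivity
  have eb0 : bI r ρ 0 = 1 / (M * (M - m) * (M + m)) := by
    apply mul_left_cancel₀ h2m
    rw [hb0]
    field_simp
    ring
  cases n with
  | zero =>
    apply mul_left_cancel₀ h2m
    rw [ha0]
    simp
    field_simp
    ring
  | succ n =>
    have h4 := h1 n
    rw [(hb (n + 1)).2, (hb n).1, eb0, ← hmul] at h4
    have hn : (2 * (n : ℝ) + 3) ≠ 0 := by positivity
    apply mul_left_cancel₀ hn
    rw [h4]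
    have hM0 : M ≠ 0 := hM.ne'
    push_cast
    have h5 : 2 * ((n : ℝ) + 1) + 1 = 2 * (n : ℝ) + 3 := by ring
    rw [h5]
    simp only [div_pow]
    field_simp
    ring

end Radial

end Vale.Agent.P370.Q.S3
end

section

/-!
Newton theorem for null powers (Funk-Hecke with the Coulomb kernel).
-/

namespace Vale.Agent.P370.Q

open MeasureTheory Finset ComplexConjugate

namespace S3

theorem sph_zonal_real (f : ℝ → ℝ) (e : R3) (he : ‖e‖ = 1)
    (hf : ContinuousOn f (Set.Icc (-1) 1)) :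
    sph (fun u => (f (inner ℝ e u) : ℝ)) = (1 / 2) * ∫ t in (-1 : ℝ)..1, f t := by
  rw [sph_zonal e he f hf, smul_eq_mul]

theorem dist_eq (e u : R3) (he : ‖e‖ = 1) (hu : ‖u‖ = 1) (r ρ : ℝ) :
    dist (r • e) (ρ • u) = √(Dd r ρ (inner ℝ e u)) := by
  rw [dist_eq_norm, ← Real.sqrt_sq (norm_nonneg _)]
  congr 1
  rw [@norm_sub_sq_real, norm_smul, norm_smul, he, hu, inner_smul_left, inner_smul_right]
  unfold Dd
  simp
  ring

end S3

open S3

theorem sph_newton_zero (ρ : ℝ) (hρ : 0 < ρ) (x : R3) (hne : ‖x‖ ≠ ρ) :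
    sph (fun u => (1 / dist x (ρ • u) : ℝ)) = 1 / max ‖x‖ ρ := by
  rcases eq_or_ne x 0 with hx | hx
  · subst hx
    have : sph (fun u : R3 => (1 / dist 0 (ρ • u) : ℝ)) = sph (fun _ => (1 / ρ : ℝ)) := by
      apply sph_congr
      intro u hu
      rw [dist_zero_left, norm_smul, hu, Real.norm_of_nonneg hρ.le, mul_one]
    rw [this, sph_const, norm_zero, max_eq_right hρ.le]
  · have hr : 0 < ‖x‖ := norm_pos_iff.2 hx
    obtain ⟨e, he, hxe⟩ : ∃ e : R3, ‖e‖ = 1 ∧ x = ‖x‖ • e := by
      refine ⟨(1 / ‖x‖) • x, ?_, ?_⟩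
      · rw [norm_smul, Real.norm_of_nonneg (by positivity)]
        field_simp
      · rw [smul_smul, mul_one_div_cancel hr.ne', one_smul]
    have hf : ContinuousOn (fun t => 1 / √(Dd ‖x‖ ρ t)) (Set.Icc (-1 : ℝ) 1) := by
      have := cA hr hρ hne
      rwa [Set.uIcc_of_le (by norm_num)] at this
    have h2 : sph (fun u => (1 / dist x (ρ • u) : ℝ)) =
        sph (fun u => ((fun t => 1 / √(Dd ‖x‖ ρ t)) (inner ℝ e u) : ℝ)) := by
      apply sph_congr
      intro u hu
      have e1 : dist x (ρ • u) = √(Dd ‖x‖ ρ (inner ℝ e u)) := by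
        conv_lhs => rw [hxe]
        rw [dist_eq e u he hu]
      rw [e1]
    rw [h2, sph_zonal_real _ e he hf]
    have h3 : (1 / 2) * ∫ t in (-1 : ℝ)..1, 1 / √(Dd ‖x‖ ρ t) = aI ‖x‖ ρ 0 := by
      unfold aI
      simp [S3.lp]
    rw [h3, aI_eq hr hρ hne]
    simp

end Vale.Agent.P370.Q
end

section

/-!
Radial integrals: Gamma integral, scalar product of two functions of the top subspace,
multipole matrix elements.
-/

namespace Vale.Agent.P370.Q

open MeasureTheory Finset ComplexConjugate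

theorem rad_integral (m : ℕ) {c : ℝ} (hc : 0 < c) :
    ∫ r in Set.Ioi (0 : ℝ), r ^ m * Real.exp (-(c * r)) =
      (m.factorial : ℝ) * (1 / c) ^ (m + 1) := by
  have h := Real.integral_rpow_mul_exp_neg_mul_Ioi (a := (m : ℝ) + 1) (r := c) (by positivity) hc
  rw [Real.Gamma_nat_eq_factorial, add_sub_cancel_right, ← Nat.cast_succ, Real.rpow_natCast] at h
  simp only [Real.rpow_natCast] at h
  rw [h, mul_comm]

end Vale.Agent.P370.Q
end

section

/-!
Measure theory of the slots of a finite power of a measure space.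
-/

namespace Vale.Agent.P370.NB

open MeasureTheory Function

variable {ι : Type*} [Fintype ι] [DecidableEq ι] {Y : Type*} [MeasurableSpace Y]

/-- the power measure -/
noncomputable abbrev pm (ι : Type*) [Fintype ι] {Y : Type*} [MeasurableSpace Y] (μ : Measure Y) :
    Measure (ι → Y) := Measure.pi fun _ => μ

def slotMap (i : ι) (p : (ι → Y) × Y) : (ι → Y) × Y := (update p.1 i p.2, p.1 i)

omit [Fintype ι] in
theorem measurable_update_pair (i : ι) :
    Measurable (fun p : (ι → Y) × Y => update p.1 i p.2) := by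
  rw [measurable_pi_iff]
  intro j
  by_cases h : j = i
  · subst h
    simp only [update_self]
    exact measurable_snd
  · simp only [update_of_ne h]
    exact (measurable_pi_apply j).comp measurable_fst

omit [Fintype ι] in
theorem measurable_slotMap (i : ι) : Measurable (slotMap (Y := Y) i) :=
  (measurable_update_pair i).prodMk ((measurable_pi_apply i).comp measurable_fst)

variable (μ : Measure Y) [SigmaFinite μ]

theorem measurePreserving_slotMap (i : ι) :
    MeasurePreserving (slotMap i) ((pm ι μ).prod μ) ((pm ι μ).prod μ) := by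
  refine ⟨measurable_slotMap i, ?_⟩
  let e : (Option ι → Y) ≃ᵐ (ι → Y) × Y := MeasurableEquiv.piOptionEquivProd (fun _ => Y)
  have he : MeasurePreserving e.symm ((pm ι μ).prod μ) (pm (Option ι) μ) :=
    ⟨e.symm.measurable, Measure.pi_map_piOptionEquivProd (fun _ : Option ι => μ)⟩
  have he' : MeasurePreserving e (pm (Option ι) μ) ((pm ι μ).prod μ) := he.symm
  let s : (Option ι → Y) ≃ᵐ (Option ι → Y) :=
    MeasurableEquiv.piCongrLeft (fun _ => Y) (Equiv.swap none (some i))
  have hs : MeasurePreserving s (pm (Option ι) μ) (pm (Option ι) μ) :=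
    measurePreserving_piCongrLeft (fun _ : Option ι => μ) (Equiv.swap none (some i))
  have h := (he'.comp (hs.comp he)).map_eq
  have hfun : (e ∘ (s ∘ e.symm)) = slotMap (Y := Y) i := by
    funext p
    apply e.symm.injective
    simp only [comp_apply, MeasurableEquiv.symm_apply_apply]
    funext o
    have h1 : ∀ (q : (ι → Y) × Y), e.symm q none = q.2 := fun q => rfl
    have h2 : ∀ (q : (ι → Y) × Y) (j : ι), e.symm q (some j) = q.1 j := fun q j => rfl
    have h3 : ∀ (f : Option ι → Y), s f = fun o => f (Equiv.swap none (some i) o) := by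
      intro f
      funext o
      have := Equiv.piCongrLeft_apply_apply (P := fun _ : Option ι => Y)
        (Equiv.swap none (some i)) f (Equiv.swap none (some i) o)
      rw [Equiv.swap_apply_self] at this
      exact this
    rw [h3]
    simp only
    cases o with
    | none =>
      rw [Equiv.swap_apply_left, h1, h2]
      rfl
    | some j =>
      by_cases hj : j = i
      · subst hj
        rw [Equiv.swap_apply_right, h1, h2]
        simp [slotMap]
      · rw [Equiv.swap_apply_of_ne_of_ne (by simp) (by simpa using hj), h2, h2]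
        simp [slotMap, update_of_ne hj]
  rw [hfun] at h
  exact h

variable {E : Type*} [NormedAddCommGroup E]

theorem integrable_slotMap (i : ι) {K : (ι → Y) × Y → E} (hK : Integrable K ((pm ι μ).prod μ)) :
    Integrable (fun p => K (slotMap i p)) ((pm ι μ).prod μ) :=
  (measurePreserving_slotMap μ i).integrable_comp_of_integrable hK

variable [NormedSpace ℝ E]

theorem integral_slotMap (i : ι) (K : (ι → Y) × Y → E) (hK : AEStronglyMeasurable K ((pm ι μ).prod μ)) :
    ∫ p, K (slotMap i p) ∂((pm ι μ).prod μ) = ∫ p, K p ∂((pm ι μ).prod μ) := by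
  have h := (measurePreserving_slotMap μ i).map_eq
  conv_rhs => rw [← h]
  rw [integral_map (measurable_slotMap i).aemeasurable]
  rw [h]
  exact hK

/-- iterated form -/
theorem integral_slot₂ (i : ι) (K : (ι → Y) → Y → E)
    (hK : Integrable (fun p : (ι → Y) × Y => K p.1 p.2) ((pm ι μ).prod μ)) :
    ∫ w, ∫ z, K (update w i z) (w i) ∂μ ∂(pm ι μ) = ∫ w, ∫ z, K w z ∂μ ∂(pm ι μ) := by
  have h1 := integral_slotMap μ i _ hK.1
  have h2 := integrable_slotMap μ i hK
  rw [integral_prod _ hK, integral_prod _ h2] at h1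
  exact h1

end Vale.Agent.P370.NB
end

section

/-!
Abstract slot projections: a resolution of the identity in each slot, commuting between slots, on a
(semi) inner product space. The weights `‖cfg J u‖ ^ 2` of the configurations form a joint
distribution whose marginals are `‖p i b u‖ ^ 2`.
-/

namespace Vale.Agent.P370.NB

open scoped ComplexInnerProductSpace

variable {V : Type*} [SeminormedAddCommGroup V] [InnerProductSpace ℂ V]

structure Slots (V : Type*) [SeminormedAddCommGroup V] [InnerProductSpace ℂ V] (N : ℕ)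
    (B : Type*) [Fintype B] where
  p : Fin N → B → V →ₗ[ℂ] V
  symm : ∀ i b u v, ⟪p i b u, v⟫ = ⟪u, p i b v⟫
  idem : ∀ i b u, p i b (p i b u) = p i b u
  orth : ∀ i a b u, a ≠ b → p i a (p i b u) = 0
  comm : ∀ i j a b u, i ≠ j → p i a (p j b u) = p j b (p i a u)
  total : ∀ i u, ∑ b, p i b u = u

namespace Slots

variable {N : ℕ} {B : Type*} [Fintype B] (S : Slots V N B)

theorem norm_sq_sum (i : Fin N) (u : V) : ∑ b, ‖S.p i b u‖ ^ 2 = ‖u‖ ^ 2 := by
  have h : (⟪u, u⟫ : ℂ) = ∑ b, ⟪S.p i b u, S.p i b u⟫ := by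
    conv_lhs => rw [← S.total i u]
    rw [sum_inner]
    refine Finset.sum_congr rfl fun b _ => ?_
    rw [S.total i u, S.symm i b u (S.p i b u), S.idem, ← S.symm]
  have h2 := congrArg Complex.re h
  rw [Complex.re_sum] at h2
  simp only [inner_self_eq_norm_sq_to_K] at h2
  norm_cast at h2
  exact h2.symm

/-- configuration operator for the first `k` slots -/
noncomputable def cfg : (k : ℕ) → (hk : k ≤ N) → (Fin k → B) → V →ₗ[ℂ] V
  | 0, _, _ => LinearMap.id
  | k + 1, hk, J => (S.p ⟨k, hk⟩ (J (Fin.last k))).comp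
      (cfg k (Nat.le_of_succ_le hk) (fun i => J i.castSucc))

theorem cfg_succ (k : ℕ) (hk : k + 1 ≤ N) (J : Fin (k + 1) → B) (u : V) :
    S.cfg (k + 1) hk J u =
      S.p ⟨k, hk⟩ (J (Fin.last k)) (S.cfg k (Nat.le_of_succ_le hk) (fun i => J i.castSucc) u) :=
  rfl

theorem sum_cfg (k : ℕ) (hk : k ≤ N) (u : V) : ∑ J, ‖S.cfg k hk J u‖ ^ 2 = ‖u‖ ^ 2 := by
  induction k with
  | zero =>
    rw [Fintype.sum_unique]
    rfl
  | succ k ih =>
    have h1 : ∑ J : Fin (k + 1) → B, ‖S.cfg (k + 1) hk J u‖ ^ 2 =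
        ∑ q : B × (Fin k → B), ‖S.p ⟨k, hk⟩ q.1 (S.cfg k (Nat.le_of_succ_le hk) q.2 u)‖ ^ 2 := by
      refine (Fintype.sum_equiv (Fin.snocEquiv (fun _ => B)) _ _ ?_).symm
      intro q
      rw [cfg_succ]
      simp [Fin.snocEquiv]
    rw [h1, Fintype.sum_prod_type_right]
    rw [← ih (Nat.le_of_succ_le hk)]
    refine Finset.sum_congr rfl fun J _ => ?_
    exact S.norm_sq_sum ⟨k, hk⟩ (S.cfg k (Nat.le_of_succ_le hk) J u)

theorem cfg_comm (k : ℕ) (hk : k ≤ N) (J : Fin k → B) (i : Fin N) (hi : k ≤ i.val) (b : B) (u : V) :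
    S.cfg k hk J (S.p i b u) = S.p i b (S.cfg k hk J u) := by
  induction k with
  | zero => rfl
  | succ k ih =>
    rw [cfg_succ, cfg_succ, ih (Nat.le_of_succ_le hk) _ (by omega)]
    apply S.comm
    intro h
    have := congrArg Fin.val h
    simp at this
    omega

theorem cfg_p [DecidableEq B] (k : ℕ) (hk : k ≤ N) (J : Fin k → B) (i : Fin k) (b : B) (u : V) :
    S.cfg k hk J (S.p ⟨i.val, lt_of_lt_of_le i.isLt hk⟩ b u) =
      if J i = b then S.cfg k hk J u else 0 := by
  induction k with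
  | zero => exact i.elim0
  | succ k ih =>
    rw [cfg_succ, cfg_succ]
    refine Fin.lastCases ?_ (fun j => ?_) i
    · have h1 : (⟨(Fin.last k).val, lt_of_lt_of_le (Fin.last k).isLt hk⟩ : Fin N) = ⟨k, hk⟩ := rfl
      rw [h1, cfg_comm _ _ _ _ _ (le_refl k)]
      split_ifs with h
      · rw [h, S.idem]
      · exact S.orth _ _ _ _ h
    · have h1 := ih (Nat.le_of_succ_le hk) (fun i => J i.castSucc) j
      have h2 : (⟨(Fin.castSucc j).val, lt_of_lt_of_le (Fin.castSucc j).isLt hk⟩ : Fin N) =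
        ⟨j.val, lt_of_lt_of_le j.isLt (Nat.le_of_succ_le hk)⟩ := rfl
      rw [h2, h1]
      split_ifs with h
      · rfl
      · exact map_zero _

theorem marginal [DecidableEq B] (i : Fin N) (b : B) (u : V) :
    ∑ J : Fin N → B, (if J i = b then ‖S.cfg N le_rfl J u‖ ^ 2 else 0) = ‖S.p i b u‖ ^ 2 := by
  rw [← S.sum_cfg N le_rfl (S.p i b u)]
  refine Finset.sum_congr rfl fun J _ => ?_
  have := S.cfg_p N le_rfl J i b u
  have h2 : (⟨i.val, lt_of_lt_of_le i.isLt le_rfl⟩ : Fin N) = i := rfl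
  rw [h2] at this
  rw [this]
  split_ifs <;> simp

theorem weight_marginal [DecidableEq B] (f : B → ℝ) (i : Fin N) (u : V) :
    ∑ b, f b * ‖S.p i b u‖ ^ 2 = ∑ J : Fin N → B, f (J i) * ‖S.cfg N le_rfl J u‖ ^ 2 := by
  have h1 : ∀ b, f b * ‖S.p i b u‖ ^ 2 =
      ∑ J : Fin N → B, (if J i = b then f b * ‖S.cfg N le_rfl J u‖ ^ 2 else 0) := by
    intro b
    rw [← S.marginal i b u, Finset.mul_sum]
    refine Finset.sum_congr rfl fun J _ => ?_
    split_ifs <;> simp
  simp_rw [h1]
  rw [Finset.sum_comm]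
  refine Finset.sum_congr rfl fun J _ => ?_
  rw [Finset.sum_ite_eq]
  simp

theorem cfg_eq_zero [DecidableEq B] (u : V) (b : B) (i j : Fin N)
    (h0 : S.p i b (S.p j b u) = 0) (J : Fin N → B) (hi : J i = b) (hj : J j = b) :
    S.cfg N le_rfl J u = 0 := by
  have h1 := S.cfg_p N le_rfl J i b (S.p j b u)
  have h2 := S.cfg_p N le_rfl J j b u
  have e1 : (⟨i.val, lt_of_lt_of_le i.isLt le_rfl⟩ : Fin N) = i := rfl
  have e2 : (⟨j.val, lt_of_lt_of_le j.isLt le_rfl⟩ : Fin N) = j := rfl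
  rw [e1, if_pos hi] at h1
  rw [e2, if_pos hj] at h2
  rw [← h2, ← h1, h0, map_zero]

end Slots

/-- orthogonal projections `p i a`, `a : A`, in every slot; not nec. summing to one -/
structure PreSlots (V : Type*) [SeminormedAddCommGroup V] [InnerProductSpace ℂ V] (N : ℕ)
    (A : Type*) where
  p : Fin N → A → V →ₗ[ℂ] V
  symm : ∀ i b u v, ⟪p i b u, v⟫ = ⟪u, p i b v⟫
  idem : ∀ i b u, p i b (p i b u) = p i b u
  orth : ∀ i a b u, a ≠ b → p i a (p i b u) = 0
  comm : ∀ i j a b u, i ≠ j → p i a (p j b u) = p j b (p i a u)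

namespace PreSlots

variable {N : ℕ} {A : Type*} [Fintype A] (S : PreSlots V N A)

noncomputable def q (i : Fin N) : Option A → V →ₗ[ℂ] V
  | some a => S.p i a
  | none => LinearMap.id - ∑ a, S.p i a

theorem q_some (i : Fin N) (a : A) : S.q i (some a) = S.p i a := rfl

theorem q_none_apply (i : Fin N) (u : V) : S.q i none u = u - ∑ a, S.p i a u := by
  simp [q]

theorem p_sum (i : Fin N) (a : A) (u : V) : S.p i a (∑ b, S.p i b u) = S.p i a u := by
  classical
  rw [map_sum, Finset.sum_eq_single a]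
  · exact S.idem _ _ _
  · intro b _ hb
    exact S.orth _ _ _ _ (Ne.symm hb)
  · simp

noncomputable def toSlots : Slots V N (Option A) where
  p := S.q
  symm := by
    intro i b u v
    cases b with
    | some a => exact S.symm i a u v
    | none =>
      rw [q_none_apply, q_none_apply, inner_sub_left, inner_sub_right, sum_inner, inner_sum]
      congr 1
      exact Finset.sum_congr rfl fun a _ => S.symm i a u v
  idem := by
    intro i b u
    cases b with
    | some a => exact S.idem i a u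
    | none =>
      rw [q_none_apply, q_none_apply]
      simp only [map_sub, p_sum, sub_self, Finset.sum_const_zero, sub_zero]
  orth := by
    intro i a b u hab
    cases a with
    | some a =>
      cases b with
      | some b => exact S.orth i a b u (fun h => hab (by rw [h]))
      | none =>
        rw [q_none_apply, q_some, map_sub, p_sum, sub_self]
    | none =>
      cases b with
      | some b =>
        classical
        rw [q_none_apply, q_some, Finset.sum_eq_single b, S.idem, sub_self]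
        · intro c _ hc
          exact S.orth _ _ _ _ hc
        · simp
      | none => exact absurd rfl hab
  comm := by
    have h1 : ∀ (i j : Fin N) (a : A) (u : V), i ≠ j →
        S.p i a (∑ b, S.p j b u) = ∑ b, S.p j b (S.p i a u) := by
      intro i j a u hij
      rw [map_sum]
      exact Finset.sum_congr rfl fun b _ => S.comm i j a b u hij
    intro i j a b u hij
    cases a with
    | some a =>
      cases b with
      | some b => exact S.comm i j a b u hij
      | none => simp only [q_none_apply, q_some, map_sub, h1 i j a u hij]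
    | none =>
      cases b with
      | some b => simp only [q_none_apply, q_some, map_sub, h1 j i b u hij.symm]
      | none =>
        simp only [q_none_apply, map_sub]
        have h2 : ∑ a, S.p i a (∑ b, S.p j b u) = ∑ b, S.p j b (∑ a, S.p i a u) := by
          simp_rw [map_sum]
          rw [Finset.sum_comm]
          exact Finset.sum_congr rfl fun b _ => Finset.sum_congr rfl fun a _ =>
            S.comm i j a b u hij
        rw [h2]
        abel
  total := by
    intro i u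
    rw [Fintype.sum_option, q_none_apply]
    simp only [q_some]
    abel

/-- iterated projection on the orbital configuration `I` -/
noncomputable def cfg (I : Fin N → A) : V →ₗ[ℂ] V :=
  S.toSlots.cfg N le_rfl (fun i => some (I i))

end PreSlots

namespace PreSlots

variable {N : ℕ} {A : Type*} [Fintype A] (S : PreSlots V N A)

end PreSlots

end Vale.Agent.P370.NB
end

section

/-!
The space of measurable functions on a power `ι → Y` dominated by a product weight, with the `L²`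
inner product, and the slot projections on orbitals.
-/

namespace Vale.Agent.P370.NB

open MeasureTheory Function ComplexConjugate

/-- a measure space with an integrable weight -/
structure WSp (Y : Type*) [MeasurableSpace Y] where
  μ : Measure Y
  sf : SigmaFinite μ
  E : Y → ℝ
  meas : Measurable E
  nonneg : ∀ y, 0 ≤ E y
  le_one : ∀ y, E y ≤ 1
  int : Integrable E μ

attribute [instance] WSp.sf

/-- measurable orbitals dominated by the weight -/
structure Orb {Y : Type*} [MeasurableSpace Y] (D : WSp Y) (χ : Y → ℝ) : Prop where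
  meas : Measurable χ
  bound : ∃ C : ℝ, 0 ≤ C ∧ ∀ y, |χ y| ≤ C * D.E y

section

variable {ι : Type*} [Fintype ι] {Y : Type*} [MeasurableSpace Y] (D : WSp Y)

/-- product weight -/
noncomputable def WSp.W (w : ι → Y) : ℝ := ∏ l, D.E (w l)

theorem WSp.W_nonneg (w : ι → Y) : 0 ≤ D.W w := Finset.prod_nonneg fun _ _ => D.nonneg _

theorem WSp.W_le_one (w : ι → Y) : D.W w ≤ 1 :=
  Finset.prod_le_one (fun _ _ => D.nonneg _) fun _ _ => D.le_one _

theorem WSp.integrable_W : Integrable (fun w : ι → Y => D.W w) (pm ι D.μ) :=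
  Integrable.fintype_prod (f := fun _ : ι => D.E) fun _ => D.int

theorem WSp.W_eq [DecidableEq ι] (w : ι → Y) (i : ι) :
    D.W w = D.E (w i) * ∏ l ∈ Finset.univ.erase i, D.E (w l) := by
  unfold WSp.W
  exact (Finset.mul_prod_erase Finset.univ (fun l => D.E (w l)) (Finset.mem_univ i)).symm

theorem WSp.W_update [DecidableEq ι] (w : ι → Y) (i : ι) (z : Y) :
    D.W (update w i z) = D.E z * ∏ l ∈ Finset.univ.erase i, D.E (w l) := by
  rw [D.W_eq _ i, update_self]
  congr 1
  refine Finset.prod_congr rfl fun l hl => ?_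
  rw [update_of_ne (Finset.ne_of_mem_erase hl)]

/-- dominated measurable functions -/
def Dm (f : (ι → Y) → ℂ) : Prop := Measurable f ∧ ∃ C : ℝ, 0 ≤ C ∧ ∀ w, ‖f w‖ ≤ C * D.W w

/-- the space of dominated functions -/
def GW (ι : Type*) [Fintype ι] : Submodule ℂ ((ι → Y) → ℂ) where
  carrier := {f | Dm D f}
  add_mem' := by
    rintro f g ⟨hf, C, hC, h⟩ ⟨hg, C', hC', h'⟩
    refine ⟨hf.add hg, C + C', add_nonneg hC hC', fun w => ?_⟩
    rw [add_mul]
    exact (norm_add_le _ _).trans (add_le_add (h w) (h' w))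
  zero_mem' := ⟨measurable_const, 0, le_rfl, fun w => by simp⟩
  smul_mem' := by
    rintro c f ⟨hf, C, hC, h⟩
    refine ⟨hf.const_smul c, ‖c‖ * C, by positivity, fun w => ?_⟩
    rw [Pi.smul_apply, norm_smul, mul_assoc]
    exact mul_le_mul_of_nonneg_left (h w) (norm_nonneg _)

/-- type of dominated functions -/
def GT (ι : Type*) [Fintype ι] : Type _ := GW D ι

noncomputable instance : AddCommGroup (GT D ι) := inferInstanceAs (AddCommGroup (GW D ι))
noncomputable instance : Module ℂ (GT D ι) := inferInstanceAs (Module ℂ (GW D ι))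

variable {D}

/-- underlying function -/
def GT.fn (f : GT D ι) : (ι → Y) → ℂ := f.1

theorem GT.dm (f : GT D ι) : Dm D f.fn := f.2

theorem GT.ext {f g : GT D ι} (h : f.fn = g.fn) : f = g := Subtype.ext h

theorem GT.fn_add (f g : GT D ι) : (f + g).fn = fun w => f.fn w + g.fn w := rfl

theorem GT.fn_smul (c : ℂ) (f : GT D ι) : (c • f).fn = fun w => c * f.fn w := rfl

theorem Dm.integrable {f : (ι → Y) → ℂ} (hf : Dm D f) : Integrable f (pm ι D.μ) := by
  obtain ⟨hm, C, hC, h⟩ := hf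
  exact (D.integrable_W.const_mul C).mono' hm.aestronglyMeasurable (Filter.Eventually.of_forall h)

/-- product with a bounded function -/
theorem Dm.bdd_mul {f g : (ι → Y) → ℂ} (hf : Dm D f) (hg : Measurable g) {B : ℝ}
    (hB : ∀ w, ‖g w‖ ≤ B) (hB0 : 0 ≤ B) : Dm D (fun w => g w * f w) := by
  obtain ⟨hm, C, hC, h⟩ := hf
  refine ⟨hg.mul hm, B * C, by positivity, fun w => ?_⟩
  rw [norm_mul, mul_assoc]
  exact mul_le_mul (hB w) (h w) (norm_nonneg _) hB0

theorem Dm.bdd {f : (ι → Y) → ℂ} (hf : Dm D f) : ∃ C : ℝ, 0 ≤ C ∧ ∀ w, ‖f w‖ ≤ C := by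
  obtain ⟨hm, C, hC, h⟩ := hf
  refine ⟨C, hC, fun w => (h w).trans ?_⟩
  have := D.W_le_one w
  calc C * D.W w ≤ C * 1 := by gcongr
    _ = C := mul_one C

theorem Dm.conj {f : (ι → Y) → ℂ} (hf : Dm D f) : Dm D (fun w => conj (f w)) := by
  obtain ⟨hm, C, hC, h⟩ := hf
  exact ⟨Complex.continuous_conj.measurable.comp hm, C, hC, fun w => by simpa using h w⟩

theorem Dm.mul {f g : (ι → Y) → ℂ} (hf : Dm D f) (hg : Dm D g) : Dm D (fun w => f w * g w) := by
  obtain ⟨B, hB, h⟩ := hf.bdd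
  exact hg.bdd_mul hf.1 h hB

noncomputable instance : PreInnerProductSpace.Core ℂ (GT D ι) where
  inner f g := ∫ w, conj (f.fn w) * g.fn w ∂(pm ι D.μ)
  conj_inner_symm f g := by
    rw [← integral_conj]
    refine integral_congr_ae (Filter.Eventually.of_forall fun w => ?_)
    simp [mul_comm]
  re_inner_nonneg f := by
    have h : ∫ w, conj (f.fn w) * f.fn w ∂(pm ι D.μ) =
        ((∫ w, ‖f.fn w‖ ^ 2 ∂(pm ι D.μ) : ℝ) : ℂ) := by
      rw [← integral_complex_ofReal]
      refine integral_congr_ae (Filter.Eventually.of_forall fun w => ?_)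
      simp only [Complex.conj_mul']
      push_cast
      rfl
    rw [h]
    simp only [RCLike.re_to_complex, Complex.ofReal_re]
    exact integral_nonneg fun w => by positivity
  add_left f g h := by
    rw [← integral_add (f.dm.conj.mul h.dm).integrable (g.dm.conj.mul h.dm).integrable]
    refine integral_congr_ae (Filter.Eventually.of_forall fun w => ?_)
    simp only [GT.fn_add, map_add, add_mul]
  smul_left f g c := by
    rw [← integral_const_mul]
    refine integral_congr_ae (Filter.Eventually.of_forall fun w => ?_)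
    simp only [GT.fn_smul, map_mul, mul_assoc]

noncomputable instance : SeminormedAddCommGroup (GT D ι) :=
  InnerProductSpace.Core.toSeminormedAddCommGroup (𝕜 := ℂ)

noncomputable instance : InnerProductSpace ℂ (GT D ι) := InnerProductSpace.ofCore inferInstance

theorem GT.inner_def (f g : GT D ι) :
    inner ℂ f g = ∫ w, conj (f.fn w) * g.fn w ∂(pm ι D.μ) := rfl

theorem GT.norm_sq (f : GT D ι) : ‖f‖ ^ 2 = ∫ w, ‖f.fn w‖ ^ 2 ∂(pm ι D.μ) := by
  rw [@norm_sq_eq_re_inner ℂ, GT.inner_def]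
  have h : ∫ w, conj (f.fn w) * f.fn w ∂(pm ι D.μ) =
      ((∫ w, ‖f.fn w‖ ^ 2 ∂(pm ι D.μ) : ℝ) : ℂ) := by
    rw [← integral_complex_ofReal]
    refine integral_congr_ae (Filter.Eventually.of_forall fun w => ?_)
    simp only [Complex.conj_mul']
    push_cast
    rfl
  rw [h]
  simp

end

end Vale.Agent.P370.NB
end

section

/-!
Slot projections.
-/

namespace Vale.Agent.P370.NB

open MeasureTheory Function ComplexConjugate

variable {ι : Type*} [Fintype ι] [DecidableEq ι] {Y : Type*} [MeasurableSpace Y] {D : WSp Y}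

/-- `(|χ⟩⟨χ'|)` in slot `i` -/
noncomputable def op (D : WSp Y) (i : ι) (χ χ' : Y → ℝ) (f : (ι → Y) → ℂ) (w : ι → Y) : ℂ :=
  (χ (w i) : ℂ) * ∫ z, (χ' z : ℂ) * f (update w i z) ∂D.μ

theorem Orb.measC {χ : Y → ℝ} (hχ : Orb D χ) : Measurable (fun z => (χ z : ℂ)) :=
  Complex.measurable_ofReal.comp hχ.meas

theorem Orb.bdd {χ : Y → ℝ} (hχ : Orb D χ) : ∃ C : ℝ, 0 ≤ C ∧ ∀ y, |χ y| ≤ C := by
  obtain ⟨C, hC, h⟩ := hχ.bound
  refine ⟨C, hC, fun y => (h y).trans ?_⟩
  calc C * D.E y ≤ C * 1 := by gcongr; exact D.le_one y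
    _ = C := mul_one C

omit [DecidableEq ι] in
/-- integrability on the product from domination -/
theorem integrable_prod_of_dom {K : (ι → Y) × Y → ℂ} (hm : Measurable K) {C : ℝ}
    (h : ∀ w z, ‖K (w, z)‖ ≤ C * (D.W w * D.E z)) : Integrable K ((pm ι D.μ).prod D.μ) := by
  refine ((D.integrable_W.mul_prod D.int).const_mul C).mono' hm.aestronglyMeasurable ?_
  exact Filter.Eventually.of_forall fun p => h p.1 p.2

theorem Dm.slice_measurable {f : (ι → Y) → ℂ} (hf : Dm D f) (i : ι) (w : ι → Y) :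
    Measurable (fun z => f (update w i z)) :=
  hf.1.comp (measurable_update w)

theorem Dm.slice_integrable {f : (ι → Y) → ℂ} (hf : Dm D f) (i : ι) {χ : Y → ℝ} (hχ : Orb D χ)
    (w : ι → Y) : Integrable (fun z => (χ z : ℂ) * f (update w i z)) D.μ := by
  obtain ⟨B, hB, h⟩ := hf.bdd
  obtain ⟨C, hC, h'⟩ := hχ.bound
  refine (D.int.const_mul (C * B)).mono'
    (hχ.measC.mul (hf.slice_measurable i w)).aestronglyMeasurable
    (Filter.Eventually.of_forall fun z => ?_)
  rw [norm_mul, Complex.norm_real, Real.norm_eq_abs]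
  calc |χ z| * ‖f (update w i z)‖ ≤ (C * D.E z) * B := by
        apply mul_le_mul (h' z) (h _) (norm_nonneg _)
        exact mul_nonneg hC (D.nonneg z)
    _ = _ := by ring

theorem Dm.op {f : (ι → Y) → ℂ} (hf : Dm D f) (i : ι) {χ χ' : Y → ℝ} (hχ : Orb D χ)
    (hχ' : Orb D χ') : Dm D (op D i χ χ' f) := by
  obtain ⟨hm, B, hB, h⟩ := hf
  obtain ⟨C, hC, hc⟩ := hχ.bound
  obtain ⟨C', hC', hc'⟩ := hχ'.bound
  have hE : 0 ≤ ∫ z, D.E z ∂D.μ := integral_nonneg D.nonneg
  refine ⟨?_, C * (C' * B * ∫ z, D.E z ∂D.μ), by positivity, fun w => ?_⟩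
  · have h1 : Measurable (fun p : (ι → Y) × Y => (χ' p.2 : ℂ) * f (update p.1 i p.2)) :=
      (hχ'.measC.comp measurable_snd).mul (hm.comp (measurable_update_pair i))
    have h2 : StronglyMeasurable (fun w : ι → Y => ∫ z, (χ' z : ℂ) * f (update w i z) ∂D.μ) :=
      h1.stronglyMeasurable.integral_prod_right'
    exact (hχ.measC.comp (measurable_pi_apply i)).mul h2.measurable
  · unfold NB.op
    rw [norm_mul, Complex.norm_real, Real.norm_eq_abs]
    have h1 : ‖∫ z, (χ' z : ℂ) * f (update w i z) ∂D.μ‖ ≤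
        ∫ z, (C' * B * ∏ l ∈ Finset.univ.erase i, D.E (w l)) * D.E z ∂D.μ := by
      refine norm_integral_le_of_norm_le (D.int.const_mul _) (Filter.Eventually.of_forall fun z => ?_)
      rw [norm_mul, Complex.norm_real, Real.norm_eq_abs]
      have h2 := h (update w i z)
      rw [D.W_update] at h2
      have h3 : 0 ≤ ∏ l ∈ Finset.univ.erase i, D.E (w l) :=
        Finset.prod_nonneg fun _ _ => D.nonneg _
      have h4 := D.nonneg z
      have h5 := D.le_one z
      calc |χ' z| * ‖f (update w i z)‖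
          ≤ (C' * D.E z) * (B * (D.E z * ∏ l ∈ Finset.univ.erase i, D.E (w l))) := by
            apply mul_le_mul (hc' z) h2 (norm_nonneg _)
            exact mul_nonneg hC' h4
        _ ≤ (C' * D.E z) * (B * (1 * ∏ l ∈ Finset.univ.erase i, D.E (w l))) := by gcongr
        _ = _ := by ring
    rw [integral_const_mul] at h1
    have h4 := D.nonneg (w i)
    calc |χ (w i)| * ‖∫ z, (χ' z : ℂ) * f (update w i z) ∂D.μ‖
        ≤ (C * D.E (w i)) * ((C' * B * ∏ l ∈ Finset.univ.erase i, D.E (w l)) * ∫ z, D.E z ∂D.μ) :=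
          mul_le_mul (hc _) h1 (norm_nonneg _) (mul_nonneg hC h4)
      _ = C * (C' * B * ∫ z, D.E z ∂D.μ) * (D.E (w i) *
          ∏ l ∈ Finset.univ.erase i, D.E (w l)) := by ring
      _ = _ := by rw [← D.W_eq w i]

omit [Fintype ι] in
theorem op_op_same (i : ι) (χ χ' θ θ' : Y → ℝ) (f : (ι → Y) → ℂ) :
    op D i χ χ' (op D i θ θ' f) = fun w => ((∫ z, χ' z * θ z ∂D.μ : ℝ) : ℂ) * op D i χ θ' f w := by
  funext w
  unfold op
  simp only [update_self, update_idem]
  have : ∀ z, (χ' z : ℂ) * ((θ z : ℂ) * ∫ z', (θ' z' : ℂ) * f (update w i z') ∂D.μ) =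
      ((χ' z * θ z : ℝ) : ℂ) * ∫ z', (θ' z' : ℂ) * f (update w i z') ∂D.μ := by
    intro z
    push_cast
    ring
  simp only [this]
  rw [integral_mul_const, integral_complex_ofReal]
  ring

theorem op_symm (i : ι) {χ χ' : Y → ℝ} (hχ : Orb D χ) (hχ' : Orb D χ')
    {f g : (ι → Y) → ℂ} (hf : Dm D f) (hg : Dm D g) :
    ∫ w, conj (op D i χ χ' f w) * g w ∂(pm ι D.μ) =
      ∫ w, conj (f w) * op D i χ' χ g w ∂(pm ι D.μ) := by
  have hfm := hf.1
  have hgm := hg.1
  obtain ⟨_, B, hB, h⟩ := hf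
  obtain ⟨_, B', hB', h'⟩ := hg.conj.conj
  obtain ⟨Bg, hBg0, hBg⟩ := hg.bdd
  obtain ⟨C, hC, hc⟩ := hχ.bound
  obtain ⟨C', hC', hc'⟩ := hχ'.bdd
  have hK : Integrable (fun p : (ι → Y) × Y => (χ' (p.1 i) : ℂ) * (χ p.2 : ℂ) *
      (conj (f p.1) * g (update p.1 i p.2))) ((pm ι D.μ).prod D.μ) := by
    refine integrable_prod_of_dom (C := C' * C * (B * Bg)) ?_ ?_
    · exact ((hχ'.measC.comp ((measurable_pi_apply i).comp measurable_fst)).mul
        (hχ.measC.comp measurable_snd)).mul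
        (((Complex.continuous_conj.measurable.comp hfm).comp measurable_fst).mul
          (hgm.comp (measurable_update_pair i)))
    · intro w z
      simp only [norm_mul, Complex.norm_real, Real.norm_eq_abs, RCLike.norm_conj]
      have h1 := D.nonneg z
      have h2 := D.W_nonneg w
      calc |χ' (w i)| * |χ z| * (‖f w‖ * ‖g (update w i z)‖)
          ≤ C' * (C * D.E z) * ((B * D.W w) * Bg) := by
            gcongr
            · exact hc' _
            · exact hc z
            · exact h w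
            · exact hBg _
        _ = _ := by ring
  have h1 := integral_slot₂ D.μ i (fun w z => (χ' (w i) : ℂ) * (χ z : ℂ) *
      (conj (f w) * g (update w i z))) hK
  simp only [update_self, update_idem, update_eq_self] at h1
  have h2 : ∀ w, conj (op D i χ χ' f w) * g w =
      ∫ z, (χ' z : ℂ) * (χ (w i) : ℂ) * (conj (f (update w i z)) * g w) ∂D.μ := by
    intro w
    unfold op
    rw [map_mul, Complex.conj_ofReal, ← integral_conj, mul_right_comm, ← integral_const_mul]
    refine integral_congr_ae (Filter.Eventually.of_forall fun z => ?_)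
    simp only [map_mul, Complex.conj_ofReal]
    ring
  have h3 : ∀ w, conj (f w) * op D i χ' χ g w =
      ∫ z, (χ' (w i) : ℂ) * (χ z : ℂ) * (conj (f w) * g (update w i z)) ∂D.μ := by
    intro w
    unfold op
    rw [← mul_assoc, ← integral_const_mul]
    refine integral_congr_ae (Filter.Eventually.of_forall fun z => ?_)
    ring
  simp only [h2, h3]
  exact h1

/-- integrability for two different slots -/
theorem Dm.slice₂_integrable {f : (ι → Y) → ℂ} (hf : Dm D f) (i j : ι) {χ θ : Y → ℝ}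
    (hχ : Orb D χ) (hθ : Orb D θ) (w : ι → Y) :
    Integrable (fun p : Y × Y => (χ p.1 : ℂ) * (θ p.2 : ℂ) *
      f (update (update w i p.1) j p.2)) (D.μ.prod D.μ) := by
  obtain ⟨B, hB, h⟩ := hf.bdd
  obtain ⟨C, hC, hc⟩ := hχ.bound
  obtain ⟨C', hC', hc'⟩ := hθ.bound
  have hm : Measurable (fun p : Y × Y => update (update w i p.1) j p.2) := by
    have h1 : Measurable (fun p : Y × Y => ((update w i p.1, p.2) : (ι → Y) × Y)) :=
      ((measurable_update w).comp measurable_fst).prodMk measurable_snd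
    exact (measurable_update_pair j).comp h1
  refine ((D.int.mul_prod D.int).const_mul (C * C' * B)).mono'
    (((hχ.measC.comp measurable_fst).mul (hθ.measC.comp measurable_snd)).mul
      (hf.1.comp hm)).aestronglyMeasurable (Filter.Eventually.of_forall fun p => ?_)
  simp only [norm_mul, Complex.norm_real, Real.norm_eq_abs]
  have h1 := D.nonneg p.1
  have h2 := D.nonneg p.2
  calc |χ p.1| * |θ p.2| * ‖f (update (update w i p.1) j p.2)‖
      ≤ (C * D.E p.1) * (C' * D.E p.2) * B := by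
        gcongr
        · exact hc _
        · exact hc' _
        · exact h _
    _ = _ := by ring

theorem op_comm {i j : ι} (hij : i ≠ j) {χ χ' θ θ' : Y → ℝ} (_hχ : Orb D χ) (hχ' : Orb D χ')
    (_hθ : Orb D θ) (hθ' : Orb D θ') {f : (ι → Y) → ℂ} (hf : Dm D f) :
    op D i χ χ' (op D j θ θ' f) = op D j θ θ' (op D i χ χ' f) := by
  funext w
  unfold op
  simp only [update_of_ne hij, update_of_ne hij.symm]
  have h1 := integral_integral_swap (f := fun z z' => (χ' z : ℂ) * (θ' z' : ℂ) *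
    f (update (update w i z) j z')) (hf.slice₂_integrable i j hχ' hθ' w)
  have e1 : ∫ z, (χ' z : ℂ) * ((θ (w j) : ℂ) * ∫ z', (θ' z' : ℂ) *
      f (update (update w i z) j z') ∂D.μ) ∂D.μ = (θ (w j) : ℂ) *
      ∫ z, ∫ z', (χ' z : ℂ) * (θ' z' : ℂ) * f (update (update w i z) j z') ∂D.μ ∂D.μ := by
    rw [← integral_const_mul]
    refine integral_congr_ae (Filter.Eventually.of_forall fun z => ?_)
    simp only
    rw [mul_left_comm, ← integral_const_mul]
    congr 1
    refine integral_congr_ae (Filter.Eventually.of_forall fun z' => ?_)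
    ring
  have e2 : ∫ z', (θ' z' : ℂ) * ((χ (w i) : ℂ) * ∫ z, (χ' z : ℂ) *
      f (update (update w j z') i z) ∂D.μ) ∂D.μ = (χ (w i) : ℂ) *
      ∫ z', ∫ z, (χ' z : ℂ) * (θ' z' : ℂ) * f (update (update w i z) j z') ∂D.μ ∂D.μ := by
    rw [← integral_const_mul]
    refine integral_congr_ae (Filter.Eventually.of_forall fun z' => ?_)
    simp only
    rw [mul_left_comm, ← integral_const_mul]
    congr 1
    refine integral_congr_ae (Filter.Eventually.of_forall fun z => ?_)
    simp only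
    rw [update_comm hij]
    ring
  rw [e1, e2, h1]
  ring

end Vale.Agent.P370.NB
end

section

/-!
Configurations of orthonormal orbitals.
-/

namespace Vale.Agent.P370.NB

open MeasureTheory Function ComplexConjugate

namespace Slots

open scoped ComplexInnerProductSpace

variable {V : Type*} [SeminormedAddCommGroup V] [InnerProductSpace ℂ V]
variable {N : ℕ} {B : Type*} [Fintype B] (S : Slots V N B)

theorem comm' (i j : Fin N) (a b : B) (u : V) : S.p i a (S.p j b u) = S.p j b (S.p i a u) := by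
  classical
  by_cases hij : i = j
  · subst hij
    by_cases hab : a = b
    · rw [hab]
    · rw [S.orth _ _ _ _ hab, S.orth _ _ _ _ (Ne.symm hab)]
  · exact S.comm _ _ _ _ _ hij

theorem p_cfg (k : ℕ) (hk : k ≤ N) (J : Fin k → B) (i : Fin N) (b : B) (u : V) :
    S.p i b (S.cfg k hk J u) = S.cfg k hk J (S.p i b u) := by
  induction k with
  | zero => rfl
  | succ k ih =>
    rw [cfg_succ, cfg_succ, S.comm', ih]

theorem p_cfg_self (J : Fin N → B) (i : Fin N) (u : V) :
    S.p i (J i) (S.cfg N le_rfl J u) = S.cfg N le_rfl J u := by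
  classical
  rw [p_cfg]
  have h := S.cfg_p N le_rfl J i (J i) u
  rw [if_pos rfl] at h
  exact h

theorem inner_cfg (k : ℕ) (hk : k ≤ N) (J : Fin k → B) (u v : V)
    (hv : ∀ i : Fin k, S.p ⟨i.val, lt_of_lt_of_le i.isLt hk⟩ (J i) v = v) :
    ⟪v, S.cfg k hk J u⟫ = ⟪v, u⟫ := by
  induction k with
  | zero => rfl
  | succ k ih =>
    rw [cfg_succ, ← S.symm]
    have h1 := hv (Fin.last k)
    have h2 : (⟨(Fin.last k).val, lt_of_lt_of_le (Fin.last k).isLt hk⟩ : Fin N) = ⟨k, hk⟩ := rfl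
    rw [h2] at h1
    rw [h1]
    exact ih _ _ fun i => hv i.castSucc

end Slots

variable {Y : Type*} [MeasurableSpace Y]

/-- an orthonormal family of orbitals -/
structure Fam (D : WSp Y) (A : Type*) [DecidableEq A] where
  θ : A → Y → ℝ
  orb : ∀ a, Orb D (θ a)
  ortho : ∀ a b, ∫ y, θ a y * θ b y ∂D.μ = if a = b then 1 else 0

section
variable {ι : Type*} [Fintype ι] [DecidableEq ι] {D : WSp Y} {A : Type*} [DecidableEq A]
  (F : Fam D A)

noncomputable def Fam.opG (i : ι) (a : A) : GT D ι →ₗ[ℂ] GT D ι where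
  toFun f := ⟨op D i (F.θ a) (F.θ a) f.fn, f.dm.op i (F.orb a) (F.orb a)⟩
  map_add' f g := by
    apply GT.ext
    funext w
    show op D i (F.θ a) (F.θ a) (f + g).fn w = op D i (F.θ a) (F.θ a) f.fn w +
      op D i (F.θ a) (F.θ a) g.fn w
    unfold op
    rw [← mul_add, ← integral_add (f.dm.slice_integrable i (F.orb a) w)
      (g.dm.slice_integrable i (F.orb a) w)]
    congr 1
    refine integral_congr_ae (Filter.Eventually.of_forall fun z => ?_)
    simp only [GT.fn_add, mul_add]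
  map_smul' c f := by
    apply GT.ext
    funext w
    show op D i (F.θ a) (F.θ a) (c • f).fn w = c * op D i (F.θ a) (F.θ a) f.fn w
    unfold op
    have h : ∫ z, (F.θ a z : ℂ) * (c • f).fn (update w i z) ∂D.μ =
        c * ∫ z, (F.θ a z : ℂ) * f.fn (update w i z) ∂D.μ := by
      rw [← integral_const_mul]
      refine integral_congr_ae (Filter.Eventually.of_forall fun z => ?_)
      simp only [GT.fn_smul]
      ring
    rw [h]
    ring

theorem Fam.opG_fn (i : ι) (a : A) (f : GT D ι) :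
    (F.opG i a f).fn = op D i (F.θ a) (F.θ a) f.fn := rfl

/-- product of orbitals -/
noncomputable def Fam.po (I : ι → A) (w : ι → Y) : ℝ := ∏ l, F.θ (I l) (w l)

omit [DecidableEq ι] in
theorem Fam.po_dm (I : ι → A) : Dm D (fun w => (F.po I w : ℂ)) := by
  refine ⟨Complex.measurable_ofReal.comp
    (Finset.measurable_fun_prod _ fun l _ => (F.orb (I l)).meas.comp (measurable_pi_apply l)), ?_⟩
  choose C hC h using fun a => (F.orb a).bound
  refine ⟨∏ l, C (I l), Finset.prod_nonneg fun l _ => hC _, fun w => ?_⟩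
  rw [Complex.norm_real, Real.norm_eq_abs, Fam.po, Finset.abs_prod, WSp.W,
    ← Finset.prod_mul_distrib]
  exact Finset.prod_le_prod (fun l _ => abs_nonneg _) fun l _ => h _ _

noncomputable def Fam.poG (I : ι → A) : GT D ι := ⟨fun w => (F.po I w : ℂ), F.po_dm I⟩

omit [DecidableEq ι] in
theorem Fam.poG_fn (I : ι → A) : (F.poG I).fn = fun w => (F.po I w : ℂ) := rfl

omit [DecidableEq ι] in
theorem Fam.integral_po_po (I J : ι → A) :
    ∫ w, F.po I w * F.po J w ∂(pm ι D.μ) = if I = J then 1 else 0 := by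
  have h1 : ∀ w : ι → Y, F.po I w * F.po J w = ∏ l, (F.θ (I l) (w l) * F.θ (J l) (w l)) :=
    fun w => Finset.prod_mul_distrib.symm
  simp only [h1]
  rw [integral_fintype_prod_eq_prod (f := fun l y => F.θ (I l) y * F.θ (J l) y)]
  simp only [F.ortho]
  by_cases h : I = J
  · subst h
    simp
  · rw [if_neg h]
    obtain ⟨l, hl⟩ := Function.ne_iff.1 h
    exact Finset.prod_eq_zero (Finset.mem_univ l) (if_neg hl)

omit [DecidableEq ι] in
theorem Fam.inner_poG (I J : ι → A) : inner ℂ (F.poG I) (F.poG J) = if I = J then (1 : ℂ) else 0 := by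
  rw [GT.inner_def]
  simp only [Fam.poG_fn, Complex.conj_ofReal]
  have := F.integral_po_po I J
  have h2 : ∀ w : ι → Y, ((F.po I w : ℂ) * (F.po J w : ℂ)) = ((F.po I w * F.po J w : ℝ) : ℂ) :=
    fun w => (Complex.ofReal_mul _ _).symm
  simp only [h2]
  rw [integral_complex_ofReal, this]
  split_ifs <;> simp

theorem Fam.op_po (I : ι → A) (i : ι) :
    op D i (F.θ (I i)) (F.θ (I i)) (fun w => (F.po I w : ℂ)) = fun w => (F.po I w : ℂ) := by
  funext w
  unfold op
  have h1 : ∀ z, (F.θ (I i) z : ℂ) * (F.po I (update w i z) : ℂ) =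
      ((F.θ (I i) z * F.θ (I i) z : ℝ) : ℂ) *
        ((∏ l ∈ Finset.univ.erase i, F.θ (I l) (w l) : ℝ) : ℂ) := by
    intro z
    have : F.po I (update w i z) = F.θ (I i) z *
        ∏ l ∈ Finset.univ.erase i, F.θ (I l) (w l) := by
      unfold Fam.po
      rw [← Finset.mul_prod_erase Finset.univ (fun l => F.θ (I l) (update w i z l))
        (Finset.mem_univ i), update_self]
      congr 1
      refine Finset.prod_congr rfl fun l hl => ?_
      rw [update_of_ne (Finset.ne_of_mem_erase hl)]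
    rw [this]
    push_cast
    ring
  simp only [h1]
  rw [integral_mul_const, integral_complex_ofReal, F.ortho, if_pos rfl]
  have h2 : F.po I w = F.θ (I i) (w i) * ∏ l ∈ Finset.univ.erase i, F.θ (I l) (w l) :=
    (Finset.mul_prod_erase Finset.univ (fun l => F.θ (I l) (w l)) (Finset.mem_univ i)).symm
  rw [h2]
  push_cast
  ring

/-- a function fixed by all projections is a multiple of the product of orbitals -/
theorem Fam.fixed (I : ι → A) (g : (ι → Y) → ℂ)
    (hg : ∀ i, op D i (F.θ (I i)) (F.θ (I i)) g = g) :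
    ∃ c : ℂ, ∀ w, g w = c * F.po I w := by
  have key : ∀ S : Finset ι, ∃ h : (ι → Y) → ℂ,
      (∀ w, g w = ((∏ i ∈ S, F.θ (I i) (w i) : ℝ) : ℂ) * h w) ∧
      ∀ i ∈ S, ∀ w z, h (update w i z) = h w := by
    intro S
    induction S using Finset.induction_on with
    | empty => exact ⟨g, fun w => by simp, fun i hi => by simp at hi⟩
    | insert i S hi ih =>
      obtain ⟨h, h1, h2⟩ := ih
      refine ⟨fun w => ∫ z, (F.θ (I i) z : ℂ) * h (update w i z) ∂D.μ, fun w => ?_, ?_⟩
      · conv_lhs => rw [← hg i]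
        unfold op
        rw [Finset.prod_insert hi]
        push_cast
        rw [mul_assoc]
        congr 1
        rw [← integral_const_mul]
        refine integral_congr_ae (Filter.Eventually.of_forall fun z => ?_)
        simp only
        rw [h1 (update w i z)]
        have h3 : ∏ j ∈ S, F.θ (I j) (update w i z j) = ∏ j ∈ S, F.θ (I j) (w j) := by
          refine Finset.prod_congr rfl fun j hj => ?_
          rw [update_of_ne]
          rintro rfl
          exact hi hj
        rw [h3]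
        push_cast
        ring
      · intro j hj w z'
        simp only
        refine integral_congr_ae (Filter.Eventually.of_forall fun z => ?_)
        simp only
        rw [Finset.mem_insert] at hj
        rcases hj with rfl | hj
        · rw [update_idem]
        · have hne : i ≠ j := by
            rintro rfl
            exact hi hj
          rw [update_comm hne.symm, h2 j hj]
  obtain ⟨h, h1, h2⟩ := key Finset.univ
  rcases isEmpty_or_nonempty (ι → Y) with he | ⟨⟨w₀⟩⟩
  · exact ⟨0, fun w => (he.false w).elim⟩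
  · refine ⟨h w₀, fun w => ?_⟩
    have h3 : ∀ T : Finset ι, h (T.piecewise w w₀) = h w₀ := by
      intro T
      induction T using Finset.induction_on with
      | empty => simp
      | insert j T hj ih =>
        rw [Finset.piecewise_insert, h2 j (Finset.mem_univ j), ih]
    have h4 := h3 Finset.univ
    rw [Finset.piecewise_univ] at h4
    rw [h1 w, h4, mul_comm]
    rfl

end

section
variable {D : WSp Y} {A : Type*} [Fintype A] [DecidableEq A] (F : Fam D A) {N : ℕ}

noncomputable def Fam.pre (F : Fam D A) (N : ℕ) : PreSlots (GT D (Fin N)) N A where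
  p i a := F.opG i a
  symm i a f g := op_symm i (F.orb a) (F.orb a) f.dm g.dm
  idem i a f := by
    apply GT.ext
    rw [F.opG_fn, F.opG_fn, op_op_same, F.ortho, if_pos rfl]
    funext w
    rw [Complex.ofReal_one, one_mul]
  orth i a b f hab := by
    apply GT.ext
    rw [F.opG_fn, F.opG_fn, op_op_same, F.ortho, if_neg hab]
    funext w
    rw [Complex.ofReal_zero, zero_mul]
    rfl
  comm i j a b f hij := by
    apply GT.ext
    rw [F.opG_fn, F.opG_fn, F.opG_fn, F.opG_fn]
    exact op_comm hij (F.orb a) (F.orb a) (F.orb b) (F.orb b) f.dm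

/-- orbital coefficients -/
noncomputable def Fam.coef (I : Fin N → A) (f : (Fin N → Y) → ℂ) : ℂ :=
  ∫ w, (F.po I w : ℂ) * f w ∂(pm (Fin N) D.μ)

omit [Fintype A] in
theorem Fam.inner_poG_left (I : Fin N → A) (f : GT D (Fin N)) :
    inner ℂ (F.poG I) f = F.coef I f.fn := by
  rw [GT.inner_def]
  simp only [Fam.poG_fn, Complex.conj_ofReal]
  rfl

theorem Fam.cfg_eq (I : Fin N → A) (f : GT D (Fin N)) :
    (F.pre N).cfg I f = F.coef I f.fn • F.poG I := by
  have h1 : ∀ i, op D i (F.θ (I i)) (F.θ (I i)) ((F.pre N).cfg I f).fn =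
      ((F.pre N).cfg I f).fn := by
    intro i
    have := (F.pre N).toSlots.p_cfg_self (fun i => some (I i)) i f
    exact congrArg GT.fn this
  obtain ⟨c, hc⟩ := F.fixed I _ h1
  have h2 : (F.pre N).cfg I f = c • F.poG I := by
    apply GT.ext
    funext w
    rw [hc w]
    rfl
  have h3 : inner ℂ (F.poG I) ((F.pre N).cfg I f) = inner ℂ (F.poG I) f := by
    apply (F.pre N).toSlots.inner_cfg
    intro i
    apply GT.ext
    exact F.op_po I i
  rw [h2, inner_smul_right, F.inner_poG, if_pos rfl, mul_one, F.inner_poG_left] at h3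
  rw [h2, h3]

theorem Fam.norm_cfg_sq (I : Fin N → A) (f : GT D (Fin N)) :
    ‖(F.pre N).cfg I f‖ ^ 2 = ‖F.coef I f.fn‖ ^ 2 := by
  have h : ‖F.poG I‖ ^ 2 = 1 := by
    rw [@norm_sq_eq_re_inner ℂ, F.inner_poG, if_pos rfl]
    simp
  rw [F.cfg_eq, norm_smul, mul_pow, h, mul_one]

/-- projection on a set of configurations -/
noncomputable def Fam.proj (G : Finset (Fin N → A)) (f : (Fin N → Y) → ℂ) (w : Fin N → Y) : ℂ :=
  ∑ I ∈ G, F.coef I f * F.po I w

end

end Vale.Agent.P370.NB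
end
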