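import Vale.Agent.P363.MathlibUsed
import Vale.Agent.P363.Bdl.B1
import Vale.Agent.P363.Bdl.B2
import Vale.Agent.P370.MathlibUsed
import Vale.Agent.P363.Stmt
import Vale.Agent.P363.StmtPure
seal MeasureTheory.ae

set_option linter.all false

section

section

namespace Vale.Agent.P363

open MeasureTheory Set Filter Topology
open scoped ENNReal ContDiff

set_option linter.unusedSectionVars false

noncomputable section

namespace KS

variable {ι : Type} [Fintype ι] {M : ℕ} (D : KS ι M)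

lemma int_ux (i : ι) (k : Fin 3) : Integrable (fun p => D.ux i k p ^ 2) :=
  ((D.hu i).memLpx k).integrable_sq

lemma int_uy (i : ι) (k : Fin 3) : Integrable (fun p => D.uy i k p ^ 2) :=
  ((D.hu i).memLpy k).integrable_sq

lemma int_uux (i : ι) (k : Fin 3) : Integrable (fun p => D.u i p * D.ux i k p) :=
  (D.hu i).memLp.integrable_mul ((D.hu i).memLpx k)

lemma ρ_acl (k : Fin 3) : ACL volume (dir3 k) D.ρ (D.ρ' k) := by
  have h1 : ACL (volume : Measure X6) (dirX k) (fun p => ∑ i, D.u i p * D.u i p)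
      (fun p => ∑ i, (D.ux i k p * D.u i p + D.u i p * D.ux i k p)) :=
    ACL.sum Finset.univ (fun i _ => ((D.hu i).aclx k).mul ((D.hu i).aclx k))
  have e1 : (fun p => ∑ i, D.u i p * D.u i p) = fun p => D.g p ^ 2 := by
    funext p
    rw [D.g_sq]
    apply Finset.sum_congr rfl
    intro i _; ring
  have e2 : (fun p => ∑ i, (D.ux i k p * D.u i p + D.u i p * D.ux i k p)) =
      fun p => ∑ i, 2 * (D.u i p * D.ux i k p) := by
    funext p
    apply Finset.sum_congr rfl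
    intro i _; ring
  rw [e1, e2] at h1
  have h2 : Integrable (fun p : X6 => ∑ i, 2 * (D.u i p * D.ux i k p)) :=
    integrable_finsetSum _ (fun i _ => (D.int_uux i k).const_mul 2)
  exact ACL.marginal (μ := (volume : Measure R3)) (ν := (volume : Measure R3)) h1
    D.integrable_g_sq h2

/-- Kinetic contribution of one coordinate. -/
def κ2 (k : Fin 3) (x : R3) : ℝ := ∫ y, ∑ i, D.ux i k (x, y) ^ 2

lemma κ2_nonneg (k : Fin 3) (x : R3) : 0 ≤ D.κ2 k x :=
  integral_nonneg (fun _ => Finset.sum_nonneg (fun _ _ => sq_nonneg _))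

lemma integrable_κ2 (k : Fin 3) : Integrable (D.κ2 k) :=
  integrable_marg (F := fun p => ∑ i, D.ux i k p ^ 2)
    (integrable_finsetSum _ (fun i _ => D.int_ux i k))

lemma ρ'_sq_le (k : Fin 3) : ∀ᵐ x : R3, D.ρ' k x ^ 2 ≤ 4 * (D.ρ x * D.κ2 k x) := by
  have h1 : ∀ᵐ x : R3, ∀ i, Integrable (fun y => D.u i (x, y) ^ 2) :=
    ae_all_iff.mpr (fun i => (slice_int (D.integrable_u_sq i) :))
  have h2 : ∀ᵐ x : R3, ∀ i, Integrable (fun y => D.ux i k (x, y) ^ 2) :=
    ae_all_iff.mpr (fun i => (slice_int (D.int_ux i k) :))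
  have h3 : ∀ᵐ x : R3, ∀ i, Integrable (fun y => D.u i (x, y) * D.ux i k (x, y)) :=
    ae_all_iff.mpr (fun i => (slice_int (D.int_uux i k) :))
  filter_upwards [h1, h2, h3] with x a1 a2 a3
  have hcs := integral_cs_sum a1 a2 a3
  have e1 : D.ρ' k x = 2 * ∫ y, ∑ i, D.u i (x, y) * D.ux i k (x, y) := by
    unfold ρ'
    rw [← integral_const_mul]
    congr 1; funext y; rw [Finset.mul_sum]
  have e2 : D.ρ x = ∫ y, ∑ i, D.u i (x, y) ^ 2 := by
    unfold ρ
    congr 1; funext y; exact D.g_sq _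
  rw [e1, e2]
  unfold κ2
  linarith

lemma integrable_ρ : Integrable D.ρ := integrable_marg D.integrable_g_sq

lemma φ_meas : AEStronglyMeasurable D.φ volume :=
  Real.continuous_sqrt.comp_aestronglyMeasurable D.integrable_ρ.1

lemma φ'_sq_le (k : Fin 3) : ∀ᵐ x : R3, D.φ' k x ^ 2 ≤ D.κ2 k x := by
  filter_upwards [D.ρ'_sq_le k, D.φ_pos] with x h1 h2
  unfold φ'
  rw [div_pow, div_le_iff₀ (by positivity)]
  have h3 := D.φ_sq x
  calc D.ρ' k x ^ 2 ≤ 4 * (D.ρ x * D.κ2 k x) := h1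
    _ = D.κ2 k x * (2 * D.φ x) ^ 2 := by rw [← h3]; ring

lemma φ_H1o : H1o D.φ D.φ' := by
  refine ⟨?_, ?_, ?_⟩
  · rw [memLp_two_iff_integrable_sq D.φ_meas]
    refine D.integrable_ρ.congr ?_
    filter_upwards with x
    exact (D.φ_sq x).symm
  · intro k
    have hm : AEStronglyMeasurable (D.φ' k) volume := by
      unfold φ'
      exact (D.ρ_acl k).meas'.div₀ (D.φ_meas.const_mul 2)
    rw [memLp_two_iff_integrable_sq hm]
    refine (D.integrable_κ2 k).mono' (hm.pow 2) ?_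
    filter_upwards [D.φ'_sq_le k] with x hx
    rw [Real.norm_of_nonneg (sq_nonneg _)]
    exact hx
  · intro k
    have hκ : LocallyIntegrable (fun x => √(D.κ2 k x)) volume := by
      have hm : AEStronglyMeasurable (fun x => √(D.κ2 k x)) volume :=
        Real.continuous_sqrt.comp_aestronglyMeasurable (D.integrable_κ2 k).1
      have : MemLp (fun x => √(D.κ2 k x)) 2 volume := by
        rw [memLp_two_iff_integrable_sq hm]
        refine (D.integrable_κ2 k).congr ?_
        filter_upwards with x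
        rw [Real.sq_sqrt (D.κ2_nonneg k x)]
      exact this.locallyIntegrable (by norm_num)
    have h0 : ∀ᵐ x, 0 ≤ D.ρ x := by filter_upwards with x; exact D.ρ_nonneg x
    have hb : ∀ᵐ x, |D.ρ' k x| ≤ 2 * √(D.ρ x) * √(D.κ2 k x) := by
      filter_upwards [D.ρ'_sq_le k] with x hx
      apply abs_le_of_sq_le_sq _ (by positivity)
      rw [mul_pow, mul_pow, Real.sq_sqrt (D.ρ_nonneg x), Real.sq_sqrt (D.κ2_nonneg k x)]
      linarith
    exact ACL.sqrt (κ := fun x => √(D.κ2 k x)) (D.ρ_acl k) h0 ((locInt_line _ hκ :)) hb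

lemma int_T : Integrable (fun p : X6 => ∑ k, ∑ i, (D.ux i k p ^ 2 + D.uy i k p ^ 2)) :=
  integrable_finsetSum _ (fun k _ => integrable_finsetSum _ (fun i _ =>
    (D.int_ux i k).add (D.int_uy i k)))

lemma int_Vm : Integrable (fun p : X6 => (pot D.Z D.R p - D.E) * D.g p ^ 2) := by
  have h1 : ∀ i, Integrable (fun p : X6 => (pot D.Z D.R p - D.E) * D.u i p ^ 2) := by
    intro i
    have i1 := integrable_pot_sq D.Z D.R (D.hu i)
    have i2 := (D.integrable_u_sq i).const_mul D.E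
    refine (i1.sub i2).congr ?_
    filter_upwards with p
    simp only [Pi.sub_apply]; ring
  refine (integrable_finsetSum Finset.univ (fun i _ => h1 i)).congr ?_
  filter_upwards with p
  rw [D.g_sq, Finset.mul_sum]

lemma sum_κ2_le : ∀ᵐ x : R3, ∑ k, D.κ2 k x ≤ D.T x := by
  have h2 : ∀ᵐ x : R3, ∀ i k, Integrable (fun y => D.ux i k (x, y) ^ 2) :=
    ae_all_iff.mpr (fun i => ae_all_iff.mpr (fun k => (slice_int (D.int_ux i k) :)))
  filter_upwards [h2, slice_int D.int_T] with x h3 h4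
  unfold κ2 T
  rw [← integral_finsetSum _ (fun k _ => integrable_finsetSum _ (fun i _ => h3 i k))]
  apply integral_mono (integrable_finsetSum _ (fun k _ =>
    integrable_finsetSum _ (fun i _ => h3 i k))) h4
  intro y
  apply Finset.sum_le_sum
  intro k _
  apply Finset.sum_le_sum
  intro i _
  have := sq_nonneg (D.uy i k (x, y))
  linarith

lemma T_nonneg (x : R3) : 0 ≤ D.T x :=
  integral_nonneg (fun _ => Finset.sum_nonneg (fun _ _ => Finset.sum_nonneg
    (fun _ _ => add_nonneg (sq_nonneg _) (sq_nonneg _))))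

lemma T_le : ∃ C5 : ℝ, 0 < C5 ∧ ∀ᵐ x : R3, D.T x ≤ C5 * (Kw D.R x * D.ρ x) := by
  obtain ⟨C4, hC4, h⟩ := D.slice_wsum
  set n : ℝ := (Fintype.card ι : ℝ) with hn
  have hn0 : 0 ≤ n := by positivity
  have hC := D.hC
  have hb : ∀ᵐ p : X6, ∑ k, ∑ i, (D.ux i k p ^ 2 + D.uy i k p ^ 2) ≤
      (3 * (n * (2 * (D.C ^ 2 * (4 * (M + 1)))))) * (wsum D.R p * D.g p ^ 2) := by
    have hx : ∀ᵐ p : X6, ∀ i k, |D.ux i k p| ≤ D.C * dsing D.R p * D.g p :=
      ae_all_iff.mpr (fun i => ae_all_iff.mpr (fun k => D.bx i k))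
    have hy : ∀ᵐ p : X6, ∀ i k, |D.uy i k p| ≤ D.C * dsing D.R p * D.g p :=
      ae_all_iff.mpr (fun i => ae_all_iff.mpr (fun k => D.by' i k))
    filter_upwards [hx, hy] with p h1 h2
    have hd := dsing_sq_le D.R p
    have hg := D.g_nonneg p
    have hsq : ∀ a : ℝ, |a| ≤ D.C * dsing D.R p * D.g p →
        a ^ 2 ≤ D.C ^ 2 * (4 * (M + 1)) * (wsum D.R p * D.g p ^ 2) := by
      intro a ha
      have h3 : a ^ 2 ≤ (D.C * dsing D.R p * D.g p) ^ 2 := by
        rw [← sq_abs]; exact pow_le_pow_left₀ (abs_nonneg _) ha 2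
      calc a ^ 2 ≤ (D.C * dsing D.R p * D.g p) ^ 2 := h3
        _ = D.C ^ 2 * D.g p ^ 2 * dsing D.R p ^ 2 := by ring
        _ ≤ D.C ^ 2 * D.g p ^ 2 * (4 * (M + 1) * wsum D.R p) :=
          mul_le_mul_of_nonneg_left hd (by (clear * - hC; positivity))
        _ = _ := by ring
    set B := D.C ^ 2 * (4 * (M + 1)) * (wsum D.R p * D.g p ^ 2) with hB
    calc ∑ k, ∑ i, (D.ux i k p ^ 2 + D.uy i k p ^ 2)
        ≤ ∑ _k : Fin 3, ∑ _i : ι, (B + B) :=
          Finset.sum_le_sum (fun k _ => Finset.sum_le_sum (fun i _ =>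
            add_le_add (hsq _ (h1 i k)) (hsq _ (h2 i k))))
      _ = _ := by
        simp only [Finset.sum_const, Finset.card_univ, Fintype.card_fin, nsmul_eq_mul]
        push_cast
        rw [← hn, hB]; ring
  set c := 3 * (n * (2 * (D.C ^ 2 * (4 * (M + 1))))) with hc
  have hc0 : 0 ≤ c := by (clear * - hC; positivity)
  refine ⟨c * C4 + 1, by positivity, ?_⟩
  filter_upwards [h, slice_int D.int_T, ae_slice hb] with x h1 h2 h3
  have h4 : D.T x ≤ ∫ y, c * (wsum D.R (x, y) * D.g (x, y) ^ 2) :=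
    integral_mono_ae h2 (h1.1.const_mul c) h3
  rw [integral_const_mul] at h4
  have h5 := mul_le_mul_of_nonneg_left h1.2 hc0
  have h6 : 0 ≤ Kw D.R x * D.ρ x :=
    mul_nonneg (by linarith [Kw_pos D.R x]) (D.ρ_nonneg x)
  linarith

lemma Vm_le : ∃ C6 : ℝ, 0 < C6 ∧ ∀ᵐ x : R3, |D.Vm x| ≤ C6 * (Kw D.R x * D.ρ x) := by
  obtain ⟨C4, hC4, h⟩ := D.slice_wsum
  obtain ⟨c, hc, hp⟩ := pot_abs_le D.Z D.R D.E
  refine ⟨c * C4, by positivity, ?_⟩
  filter_upwards [h, slice_int D.int_Vm] with x h1 h2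
  unfold Vm
  calc |∫ y, (pot D.Z D.R (x, y) - D.E) * D.g (x, y) ^ 2|
      ≤ ∫ y, |(pot D.Z D.R (x, y) - D.E) * D.g (x, y) ^ 2| := abs_integral_le_integral_abs
    _ ≤ ∫ y, c * (wsum D.R (x, y) * D.g (x, y) ^ 2) := by
      apply integral_mono h2.abs (h1.1.const_mul c)
      intro y
      simp only
      rw [abs_mul, abs_of_nonneg (sq_nonneg (D.g (x, y))), ← mul_assoc]
      exact mul_le_mul_of_nonneg_right (hp _) (sq_nonneg _)
    _ = c * ∫ y, wsum D.R (x, y) * D.g (x, y) ^ 2 := integral_const_mul _ _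
    _ ≤ c * (C4 * (Kw D.R x * D.ρ x)) := mul_le_mul_of_nonneg_left h1.2 hc.le
    _ = _ := by ring

lemma v_meas : AEStronglyMeasurable D.v volume := by
  have hT : AEStronglyMeasurable D.T volume := (integrable_marg D.int_T).1
  have hV : AEStronglyMeasurable D.Vm volume := (integrable_marg D.int_Vm).1
  unfold v
  apply AEStronglyMeasurable.sub
  · exact ((hT.const_mul _).add hV).div₀ D.integrable_ρ.1
  · apply AEStronglyMeasurable.div₀
    · apply Finset.aestronglyMeasurable_fun_sum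
      intro k _
      exact (D.φ_H1o.memLp' k).1.pow 2
    · exact D.integrable_ρ.1.const_mul 2

lemma v_le : ∃ C7 : ℝ, 0 < C7 ∧ ∀ᵐ x : R3, |D.v x| ≤ C7 * Kw D.R x := by
  obtain ⟨C5, hC5, h5⟩ := D.T_le
  obtain ⟨C6, hC6, h6⟩ := D.Vm_le
  refine ⟨C5 + C6, by positivity, ?_⟩
  have h7 : ∀ᵐ x : R3, ∀ k, D.φ' k x ^ 2 ≤ D.κ2 k x := ae_all_iff.mpr D.φ'_sq_le
  filter_upwards [h5, h6, h7, D.sum_κ2_le, D.φ_pos] with x a5 a6 a7 a8 a9
  have hρ : 0 < D.ρ x := by rw [← D.φ_sq]; positivity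
  have hS : ∑ k, D.φ' k x ^ 2 ≤ D.T x := (Finset.sum_le_sum (fun k _ => a7 k)).trans a8
  have hS0 : 0 ≤ ∑ k, D.φ' k x ^ 2 := Finset.sum_nonneg (fun k _ => sq_nonneg _)
  have e : D.v x = ((1 / 2) * D.T x + D.Vm x - (∑ k, D.φ' k x ^ 2) / 2) / D.ρ x := by
    unfold v; (clear * - hρ; field_simp)
  rw [e, abs_div, abs_of_pos hρ, div_le_iff₀ hρ]
  have hb : |(1 / 2) * D.T x + D.Vm x - (∑ k, D.φ' k x ^ 2) / 2| ≤ D.T x + |D.Vm x| := by
    have hT := D.T_nonneg x
    rw [abs_le]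
    constructor
    · linarith only [hS, hS0, neg_abs_le (D.Vm x)]
    · linarith only [hS, hS0, le_abs_self (D.Vm x)]
  calc _ ≤ D.T x + |D.Vm x| := hb
    _ ≤ C5 * (Kw D.R x * D.ρ x) + C6 * (Kw D.R x * D.ρ x) := add_le_add a5 a6
    _ = _ := by ring

lemma v_memV : MemV D.v := by
  obtain ⟨C7, _, h⟩ := D.v_le
  exact memV_of_bound D.R D.v_meas h

end KS

end

end Vale.Agent.P363
end
end

section

section

namespace Vale.Agent.P363

open MeasureTheory Set Filter Topology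
open scoped ENNReal ContDiff

set_option linter.unusedSectionVars false

noncomputable section

/-- Products of a function of the first variable with a two-variable function. -/
lemma memLp_prod_mul {a : R3 → ℝ} (ha : AEStronglyMeasurable a volume) {b : X6 → ℝ}
    (hb : MemLp b 2 volume) {w : R3 → ℝ} (hw : Integrable w)
    (h : ∀ᵐ x, a x ^ 2 * ∫ y, b (x, y) ^ 2 ≤ w x) :
    MemLp (fun p : X6 => a p.1 * b p) 2 volume := by
  have hm : AEStronglyMeasurable (fun p : X6 => a p.1 * b p) volume :=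
    (ha.comp_fst (ν := (volume : Measure R3))).mul hb.1
  rw [memLp_two_iff_integrable_sq hm]
  have hb2 : Integrable (fun p => b p ^ 2) := hb.integrable_sq
  have hsl : ∀ᵐ x : R3, Integrable (fun y => b (x, y) ^ 2) := (Integrable.prod_right_ae hb2 :)
  have hm2 : AEStronglyMeasurable (fun p : X6 => (a p.1 * b p) ^ 2)
      ((volume : Measure R3).prod (volume : Measure R3)) := hm.pow 2
  have key : Integrable (fun p : X6 => (a p.1 * b p) ^ 2)
      ((volume : Measure R3).prod (volume : Measure R3)) := by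
    rw [integrable_prod_iff hm2]
    constructor
    · filter_upwards [hsl] with x hx
      refine (hx.const_mul (a x ^ 2)).congr ?_
      filter_upwards with y
      ring
    · have hm3 : AEStronglyMeasurable (fun x : R3 => ∫ y, ‖(a x * b (x, y)) ^ 2‖) volume :=
        hm2.norm.integral_prod_right'
      refine hw.mono' hm3 ?_
      filter_upwards [h] with x hx
      have e : ∫ y, ‖(a x * b (x, y)) ^ 2‖ = a x ^ 2 * ∫ y, b (x, y) ^ 2 := by
        rw [← integral_const_mul]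
        congr 1; funext y
        rw [Real.norm_of_nonneg (sq_nonneg _)]; ring
      rw [e, Real.norm_of_nonneg]
      · exact hx
      · exact mul_nonneg (sq_nonneg _) (integral_nonneg (fun _ => sq_nonneg _))
  exact key

/-- One-body quadratic form. -/
def q1 (v : R3 → ℝ) (η : R3 → ℝ) (η' : Fin 3 → R3 → ℝ) : ℝ :=
  (1 / 2) * (∑ k, ∫ x, η' k x ^ 2) + ∫ x, v x * η x ^ 2

namespace KS

variable {ι : Type} [Fintype ι] {M : ℕ} (D : KS ι M)

lemma φinv_acl (k : Fin 3) : ACL volume (dir3 k) (fun x => (D.φ x)⁻¹)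
    (fun x => -(D.φ x ^ 2)⁻¹ * D.φ' k x) := by
  obtain ⟨m, hm1, hm2, hm3⟩ := D.φ_lower
  apply ACL.comp (D.φ_H1o.acl k) (Φ := fun y => y⁻¹) (Φ' := fun y => -(y ^ 2)⁻¹) (Ω := Ioi 0)
  · intro y hy
    exact hasDerivAt_inv (ne_of_gt hy)
  · apply ContinuousOn.neg
    apply ContinuousOn.inv₀ (by fun_prop)
    intro y hy
    have : (0:ℝ) < y := hy
    positivity
  · exact D.φ_meas.inv₀
  · exact ((D.φ_meas.pow 2).inv₀).neg
  · filter_upwards [ACL.prim_ge (D.φ_H1o.acl k) hm1 hm3] with x hx t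
    exact (hm2 _).trans_le (hx t)

variable {η : R3 → ℝ} {η' : Fin 3 → R3 → ℝ}

/-- Quotient by the amplitude. -/
def χ (η : R3 → ℝ) (x : R3) : ℝ := η x * (D.φ x)⁻¹

def χ' (η : R3 → ℝ) (η' : Fin 3 → R3 → ℝ) (k : Fin 3) (x : R3) : ℝ :=
  η' k x * (D.φ x)⁻¹ + η x * (-(D.φ x ^ 2)⁻¹ * D.φ' k x)

lemma χ_acl (h : H1o η η') (k : Fin 3) : ACL volume (dir3 k) (D.χ η) (D.χ' η η' k) :=
  (h.acl k).mul (D.φinv_acl k)

lemma χ_meas (h : H1o η η') : AEStronglyMeasurable (D.χ η) volume :=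
  h.memLp.1.mul D.φ_meas.inv₀

lemma lift_x {f f' : R3 → ℝ} {k : Fin 3} (h : ACL volume (dir3 k) f f') :
    ACL (volume : Measure X6) (dirX k) (fun p => f p.1) (fun p => f' p.1) :=
  h.comp_qmp (T := Prod.fst)
    (Measure.quasiMeasurePreserving_fst (μ := (volume : Measure R3)) (ν := (volume : Measure R3)))
    (fun p t => by simp [dirX, dir3])

lemma lift_x_dirY {f : R3 → ℝ} (k : Fin 3) (h : AEStronglyMeasurable f volume) :
    ACL (volume : Measure X6) (dirY k) (fun p => f p.1) (fun _ => 0) :=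
  (ACL.zero_dir h).comp_qmp (T := Prod.fst) (f' := fun _ => 0)
    (Measure.quasiMeasurePreserving_fst (μ := (volume : Measure R3)) (ν := (volume : Measure R3)))
    (fun p t => by simp [dirY])

/-- Test functions `χ(x) u(x,y)`. -/
def tf (η : R3 → ℝ) (i : ι) (p : X6) : ℝ := D.χ η p.1 * D.u i p

def tfx (η : R3 → ℝ) (η' : Fin 3 → R3 → ℝ) (i : ι) (k : Fin 3) (p : X6) : ℝ :=
  D.χ' η η' k p.1 * D.u i p + D.χ η p.1 * D.ux i k p

def tfy (η : R3 → ℝ) (i : ι) (k : Fin 3) (p : X6) : ℝ := D.χ η p.1 * D.uy i k p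

lemma tf_H1 (h : H1o η η') (i : ι) : H1 (D.tf η i) (D.tfx η η' i) (D.tfy η i) := by
  have hu := D.hu i
  obtain ⟨C5, hC5, hT⟩ := D.T_le
  have hηsq : Integrable (fun x => η x ^ 2) := h.memLp.integrable_sq
  have hKη : Integrable (fun x => Kw D.R x * η x ^ 2) := h.integrable_Kw D.R
  have slu : ∀ᵐ x : R3, ∀ i, Integrable (fun y => D.u i (x, y) ^ 2) :=
    ae_all_iff.mpr (fun i => (slice_int (D.integrable_u_sq i) :))
  have slg : ∀ᵐ x : R3, Integrable (fun y => D.g (x, y) ^ 2) := (slice_int D.integrable_g_sq :)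
  -- slice integral bounds
  have bu : ∀ᵐ x : R3, ∫ y, D.u i (x, y) ^ 2 ≤ D.ρ x := by
    filter_upwards [slu, slg] with x h1 h2
    apply integral_mono (h1 i) h2
    intro y
    simp only
    rw [D.g_sq]
    exact Finset.single_le_sum (f := fun i => D.u i (x, y) ^ 2) (fun i _ => sq_nonneg _)
      (Finset.mem_univ i)
  have slT := slice_int D.int_T
  have slx : ∀ᵐ x : R3, ∀ k, Integrable (fun y => D.ux i k (x, y) ^ 2) :=
    ae_all_iff.mpr (fun k => (slice_int (D.int_ux i k) :))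
  have sly : ∀ᵐ x : R3, ∀ k, Integrable (fun y => D.uy i k (x, y) ^ 2) :=
    ae_all_iff.mpr (fun k => (slice_int (D.int_uy i k) :))
  have bx : ∀ᵐ x : R3, ∀ k, ∫ y, D.ux i k (x, y) ^ 2 ≤ D.T x := by
    filter_upwards [slx, slT] with x h1 h2 k
    apply integral_mono (h1 k) h2
    intro y
    simp only
    calc D.ux i k (x, y) ^ 2 ≤ D.ux i k (x, y) ^ 2 + D.uy i k (x, y) ^ 2 := by
          have := sq_nonneg (D.uy i k (x, y)); linarith
      _ ≤ ∑ i, (D.ux i k (x, y) ^ 2 + D.uy i k (x, y) ^ 2) :=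
          Finset.single_le_sum (f := fun i => D.ux i k (x, y) ^ 2 + D.uy i k (x, y) ^ 2)
            (fun i _ => by (clear * -; positivity)) (Finset.mem_univ i)
      _ ≤ _ := Finset.single_le_sum
            (f := fun k => ∑ i, (D.ux i k (x, y) ^ 2 + D.uy i k (x, y) ^ 2))
            (fun k _ => Finset.sum_nonneg (fun i _ => by (clear * -; positivity))) (Finset.mem_univ k)
  have by'' : ∀ᵐ x : R3, ∀ k, ∫ y, D.uy i k (x, y) ^ 2 ≤ D.T x := by
    filter_upwards [sly, slT] with x h1 h2 k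
    apply integral_mono (h1 k) h2
    intro y
    simp only
    calc D.uy i k (x, y) ^ 2 ≤ D.ux i k (x, y) ^ 2 + D.uy i k (x, y) ^ 2 := by
          have := sq_nonneg (D.ux i k (x, y)); linarith
      _ ≤ ∑ i, (D.ux i k (x, y) ^ 2 + D.uy i k (x, y) ^ 2) :=
          Finset.single_le_sum (f := fun i => D.ux i k (x, y) ^ 2 + D.uy i k (x, y) ^ 2)
            (fun i _ => by (clear * -; positivity)) (Finset.mem_univ i)
      _ ≤ _ := Finset.single_le_sum
            (f := fun k => ∑ i, (D.ux i k (x, y) ^ 2 + D.uy i k (x, y) ^ 2))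
            (fun k _ => Finset.sum_nonneg (fun i _ => by (clear * -; positivity))) (Finset.mem_univ k)
  have hχρ : ∀ᵐ x : R3, D.χ η x ^ 2 * D.ρ x = η x ^ 2 := by
    filter_upwards [D.φ_pos] with x hx
    unfold χ
    rw [← D.φ_sq]; (clear * - hx; field_simp)
  have hχm := D.χ_meas h
  have hwT : ∀ F : X6 → ℝ, (∀ᵐ x : R3, ∫ y, F (x, y) ^ 2 ≤ D.T x) →
      ∀ᵐ x : R3, D.χ η x ^ 2 * ∫ y, F (x, y) ^ 2 ≤ C5 * (Kw D.R x * η x ^ 2) := by
    intro F hF
    filter_upwards [hF, hT, hχρ] with x h1 h2 h3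
    calc D.χ η x ^ 2 * ∫ y, F (x, y) ^ 2 ≤ D.χ η x ^ 2 * (C5 * (Kw D.R x * D.ρ x)) :=
          mul_le_mul_of_nonneg_left (h1.trans h2) (sq_nonneg _)
      _ = C5 * (Kw D.R x * (D.χ η x ^ 2 * D.ρ x)) := by ring
      _ = _ := by rw [h3]
  refine ⟨?_, ?_, ?_, ?_, ?_⟩
  · apply memLp_prod_mul hχm hu.memLp hηsq
    filter_upwards [bu, hχρ] with x h1 h2
    rw [← h2]
    exact mul_le_mul_of_nonneg_left h1 (sq_nonneg _)
  · intro k
    apply MemLp.add
    · -- the term with the derivative of the quotient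
      have hw : Integrable (fun x => 2 * η' k x ^ 2 + 2 * C5 * (Kw D.R x * η x ^ 2)) :=
        ((h.memLp' k).integrable_sq.const_mul 2).add (hKη.const_mul _)
      apply memLp_prod_mul (D.χ_acl h k).meas' hu.memLp hw
      filter_upwards [bu, hT, D.φ_pos, D.φ'_sq_le k, D.sum_κ2_le] with x h1 h2 h3 h4 h5
      have h6 : D.κ2 k x ≤ D.T x :=
        (Finset.single_le_sum (f := fun k => D.κ2 k x) (fun k _ => D.κ2_nonneg k x)
          (Finset.mem_univ k)).trans h5
      have e1 : D.χ' η η' k x ^ 2 * D.ρ x = (η' k x - η x * D.φ' k x / D.φ x) ^ 2 := by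
        unfold χ'
        rw [← D.φ_sq]; field_simp; ring
      have e2 : (η x * D.φ' k x / D.φ x) ^ 2 ≤ C5 * (Kw D.R x * η x ^ 2) := by
        rw [div_pow, mul_pow, div_le_iff₀ (by positivity), D.φ_sq]
        calc η x ^ 2 * D.φ' k x ^ 2 ≤ η x ^ 2 * (C5 * (Kw D.R x * D.ρ x)) :=
              mul_le_mul_of_nonneg_left (h4.trans (h6.trans h2)) (sq_nonneg _)
          _ = _ := by ring
      calc D.χ' η η' k x ^ 2 * ∫ y, D.u i (x, y) ^ 2 ≤ D.χ' η η' k x ^ 2 * D.ρ x :=
            mul_le_mul_of_nonneg_left h1 (sq_nonneg _)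
        _ = (η' k x - η x * D.φ' k x / D.φ x) ^ 2 := e1
        _ ≤ 2 * η' k x ^ 2 + 2 * (η x * D.φ' k x / D.φ x) ^ 2 := by
          linarith only [sq_nonneg (η' k x + η x * D.φ' k x / D.φ x)]
        _ ≤ _ := by linarith only [e2]
    · apply memLp_prod_mul hχm (hu.memLpx k) (hKη.const_mul C5)
      exact hwT _ (by filter_upwards [bx] with x hx; exact hx k)
  · intro k
    apply memLp_prod_mul hχm (hu.memLpy k) (hKη.const_mul C5)
    exact hwT _ (by filter_upwards [by''] with x hx; exact hx k)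
  · intro k
    exact (lift_x (D.χ_acl h k)).mul (hu.aclx k)
  · intro k
    refine ((lift_x_dirY k hχm).mul (hu.acly k)).congr (ae_eq_refl _) ?_
    filter_upwards with p
    simp [tfy]

end KS

end

end Vale.Agent.P363
end
end

section

section

namespace Vale.Agent.P363

open MeasureTheory Set Filter Topology
open scoped ENNReal ContDiff

set_option linter.unusedSectionVars false

noncomputable section

namespace KS

variable {ι : Type} [Fintype ι] {M : ℕ} (D : KS ι M)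

/-- Energy density on the two-electron space. -/
def edens (w : X6 → ℝ) (f : ι → X6 → ℝ) (fx fy : ι → Fin 3 → X6 → ℝ) (p : X6) : ℝ :=
  (1 / 2) * (∑ k, ∑ i, (fx i k p ^ 2 + fy i k p ^ 2)) + w p * ∑ i, f i p ^ 2

lemma sum_Q_eq (w : X6 → ℝ) {f : ι → X6 → ℝ} {fx fy : ι → Fin 3 → X6 → ℝ}
    (hf : ∀ i, H1 (f i) (fx i) (fy i)) (hw : ∀ i, Integrable (fun p => w p * f i p ^ 2)) :
    Integrable (edens w f fx fy) ∧
    ∑ i, Q w (f i) (fx i) (fy i) = ∫ p, edens w f fx fy p := by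
  have i1 : ∀ i k, Integrable (fun p => fx i k p ^ 2 + fy i k p ^ 2) := fun i k =>
    ((hf i).memLpx k).integrable_sq.add ((hf i).memLpy k).integrable_sq
  have i2 : Integrable (fun p => ∑ k, ∑ i, (fx i k p ^ 2 + fy i k p ^ 2)) :=
    integrable_finsetSum _ (fun k _ => integrable_finsetSum _ (fun i _ => i1 i k))
  have i3 : Integrable (fun p => w p * ∑ i, f i p ^ 2) := by
    simp_rw [Finset.mul_sum]
    exact integrable_finsetSum _ (fun i _ => hw i)
  refine ⟨(i2.const_mul _).add i3, ?_⟩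
  unfold edens
  rw [integral_add (i2.const_mul _) i3, integral_const_mul,
    integral_finsetSum _ (fun k _ => integrable_finsetSum _ (fun i _ => i1 i k))]
  have e1 : ∀ k, ∫ p, ∑ i, (fx i k p ^ 2 + fy i k p ^ 2) =
      ∑ i, ((∫ p, fx i k p ^ 2) + (∫ p, fy i k p ^ 2)) := by
    intro k
    rw [integral_finsetSum _ (fun i _ => i1 i k)]
    apply Finset.sum_congr rfl
    intro i _
    exact integral_add ((hf i).memLpx k).integrable_sq ((hf i).memLpy k).integrable_sq
  have e2 : ∫ p, w p * ∑ i, f i p ^ 2 = ∑ i, ∫ p, w p * f i p ^ 2 := by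
    simp_rw [Finset.mul_sum]
    exact integral_finsetSum _ (fun i _ => hw i)
  simp only [e1, e2]
  unfold Q
  rw [Finset.sum_add_distrib, ← Finset.mul_sum, Finset.sum_comm]

lemma int_pot_sq {f : X6 → ℝ} {fx fy : Fin 3 → X6 → ℝ} (hf : H1 f fx fy) :
    Integrable (fun p => (pot D.Z D.R p - D.E) * f p ^ 2) := by
  have i1 := integrable_pot_sq D.Z D.R hf
  have i2 := hf.memLp.integrable_sq.const_mul D.E
  refine (i1.sub i2).congr ?_
  filter_upwards with p
  simp only [Pi.sub_apply]; ring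

variable {η : R3 → ℝ} {η' : Fin 3 → R3 → ℝ}

/-- The inner integral of the energy density of the test functions. -/
lemma inner_eq (h : H1o η η') : ∀ᵐ x : R3,
    ∫ y, edens (fun p => pot D.Z D.R p - D.E) (D.tf η) (D.tfx η η') (D.tfy η) (x, y) =
      (1 / 2) * (∑ k, η' k x ^ 2) + D.v x * η x ^ 2 := by
  have s1 : ∀ᵐ x : R3, ∀ i, Integrable (fun y => D.u i (x, y) ^ 2) :=
    ae_all_iff.mpr (fun i => (slice_int (D.integrable_u_sq i) :))
  have s3 : ∀ᵐ x : R3, ∀ i k, Integrable (fun y => D.u i (x, y) * D.ux i k (x, y)) :=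
    ae_all_iff.mpr (fun i => ae_all_iff.mpr (fun k => (slice_int (D.int_uux i k) :)))
  filter_upwards [D.φ_pos, slice_int D.int_T, slice_int D.int_Vm, slice_int D.integrable_g_sq,
    s1, s3] with x hx iT iV ig iu iux
  set c := D.χ η x with hc
  -- pointwise expansion
  have e1 : ∀ y, edens (fun p => pot D.Z D.R p - D.E) (D.tf η) (D.tfx η η') (D.tfy η) (x, y) =
      (((1 / 2) * (∑ k, D.χ' η η' k x ^ 2)) * D.g (x, y) ^ 2 +
        ∑ k, ((1 / 2) * (c * D.χ' η η' k x)) *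
          (∑ i, 2 * (D.u i (x, y) * D.ux i k (x, y)))) +
      (((1 / 2) * c ^ 2) * (∑ k, ∑ i, (D.ux i k (x, y) ^ 2 + D.uy i k (x, y) ^ 2)) +
        c ^ 2 * ((pot D.Z D.R (x, y) - D.E) * D.g (x, y) ^ 2)) := by
    intro y
    unfold edens tf tfx tfy
    simp only
    rw [← hc, D.g_sq]
    have a1 : ∑ k, ∑ i, ((D.χ' η η' k x * D.u i (x, y) + c * D.ux i k (x, y)) ^ 2 +
        (c * D.uy i k (x, y)) ^ 2) =
        (∑ k, D.χ' η η' k x ^ 2) * (∑ i, D.u i (x, y) ^ 2) +
        (∑ k, (c * D.χ' η η' k x) * (∑ i, 2 * (D.u i (x, y) * D.ux i k (x, y)))) +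
        c ^ 2 * (∑ k, ∑ i, (D.ux i k (x, y) ^ 2 + D.uy i k (x, y) ^ 2)) := by
      rw [Finset.sum_mul, Finset.mul_sum, ← Finset.sum_add_distrib, ← Finset.sum_add_distrib]
      apply Finset.sum_congr rfl
      intro k _
      rw [Finset.mul_sum, Finset.mul_sum, Finset.mul_sum, ← Finset.sum_add_distrib,
        ← Finset.sum_add_distrib]
      apply Finset.sum_congr rfl
      intro i _
      ring
    have a2 : ∑ i, (c * D.u i (x, y)) ^ 2 = c ^ 2 * ∑ i, D.u i (x, y) ^ 2 := by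
      rw [Finset.mul_sum]
      apply Finset.sum_congr rfl
      intro i _; ring
    rw [a1, a2]
    have a3 : ∑ k, ((1 / 2) * (c * D.χ' η η' k x)) *
        (∑ i, 2 * (D.u i (x, y) * D.ux i k (x, y))) =
        (1 / 2) * ∑ k, (c * D.χ' η η' k x) * (∑ i, 2 * (D.u i (x, y) * D.ux i k (x, y))) := by
      rw [Finset.mul_sum]
      apply Finset.sum_congr rfl
      intro k _; ring
    rw [a3]; ring
  simp_rw [e1]
  have j1 : Integrable (fun y => ((1 / 2) * (∑ k, D.χ' η η' k x ^ 2)) * D.g (x, y) ^ 2) :=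
    ig.const_mul _
  have j2k : ∀ k, Integrable (fun y => ∑ i, 2 * (D.u i (x, y) * D.ux i k (x, y))) := fun k =>
    integrable_finsetSum _ (fun i _ => (iux i k).const_mul 2)
  have j2 : Integrable (fun y => ∑ k, ((1 / 2) * (c * D.χ' η η' k x)) *
          (∑ i, 2 * (D.u i (x, y) * D.ux i k (x, y)))) :=
    integrable_finsetSum _ (fun k _ => (j2k k).const_mul _)
  have j3 : Integrable (fun y => ((1 / 2) * c ^ 2) *
      (∑ k, ∑ i, (D.ux i k (x, y) ^ 2 + D.uy i k (x, y) ^ 2))) := iT.const_mul _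
  have j4 : Integrable (fun y => c ^ 2 * ((pot D.Z D.R (x, y) - D.E) * D.g (x, y) ^ 2)) :=
    iV.const_mul _
  have j12 : Integrable (fun y => ((1 / 2) * (∑ k, D.χ' η η' k x ^ 2)) * D.g (x, y) ^ 2 +
        ∑ k, ((1 / 2) * (c * D.χ' η η' k x)) *
          (∑ i, 2 * (D.u i (x, y) * D.ux i k (x, y)))) := j1.add j2
  have j34 : Integrable (fun y => ((1 / 2) * c ^ 2) *
      (∑ k, ∑ i, (D.ux i k (x, y) ^ 2 + D.uy i k (x, y) ^ 2)) +
        c ^ 2 * ((pot D.Z D.R (x, y) - D.E) * D.g (x, y) ^ 2)) := j3.add j4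
  rw [integral_add j12 j34, integral_add j1 j2, integral_add j3 j4,
    integral_const_mul, integral_const_mul, integral_const_mul,
    integral_finsetSum _ (fun k _ => (j2k k).const_mul _)]
  simp only [integral_const_mul]
  have d1 : ∫ y, D.g (x, y) ^ 2 = D.ρ x := rfl
  have d2 : ∀ k, ∫ y, ∑ i, 2 * (D.u i (x, y) * D.ux i k (x, y)) = D.ρ' k x := fun k => rfl
  have d3 : ∫ y, ∑ k, ∑ i, (D.ux i k (x, y) ^ 2 + D.uy i k (x, y) ^ 2) = D.T x := rfl
  have d4 : ∫ y, (pot D.Z D.R (x, y) - D.E) * D.g (x, y) ^ 2 = D.Vm x := rfl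
  rw [d1, d3, d4]
  simp only [d2]
  -- algebra
  have hρ : D.ρ x = D.φ x ^ 2 := (D.φ_sq x).symm
  have hρ' : ∀ k, D.ρ' k x = 2 * D.φ x * D.φ' k x := by
    intro k; unfold φ'; (clear * - hx; field_simp)
  have hη : η x = c * D.φ x := by rw [hc]; unfold χ; (clear * - hx; field_simp)
  have hη' : ∀ k, η' k x = D.χ' η η' k x * D.φ x + c * D.φ' k x := by
    intro k
    rw [hc]; unfold χ' χ
    field_simp; ring
  have hv : D.v x * η x ^ 2 = c ^ 2 * ((1 / 2) * D.T x + D.Vm x - (∑ k, D.φ' k x ^ 2) / 2) := by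
    unfold v
    rw [hη, hρ]
    (clear * - hx; field_simp)
  rw [hv, hρ]
  simp only [hρ', hη']
  have b1 : ∑ k, (D.χ' η η' k x * D.φ x + c * D.φ' k x) ^ 2 =
      D.φ x ^ 2 * (∑ k, D.χ' η η' k x ^ 2) +
      ∑ k, (c * D.χ' η η' k x) * (2 * D.φ x * D.φ' k x) + c ^ 2 * ∑ k, D.φ' k x ^ 2 := by
    rw [Finset.mul_sum, Finset.mul_sum, ← Finset.sum_add_distrib, ← Finset.sum_add_distrib]
    apply Finset.sum_congr rfl
    intro k _; ring
  have b2 : ∑ k, (1 / 2) * (c * D.χ' η η' k x) * (2 * D.φ x * D.φ' k x) =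
      (1 / 2) * ∑ k, (c * D.χ' η η' k x) * (2 * D.φ x * D.φ' k x) := by
    rw [Finset.mul_sum]
    apply Finset.sum_congr rfl
    intro k _; ring
  rw [b1, b2]; ring

lemma int_v_sq (h : H1o η η') : Integrable (fun x => D.v x * η x ^ 2) := by
  obtain ⟨C7, hC7, hv⟩ := D.v_le
  refine ((h.integrable_Kw D.R).const_mul C7).mono' (D.v_meas.mul (h.memLp.1.pow 2)) ?_
  filter_upwards [hv] with x hx
  rw [Real.norm_eq_abs, abs_mul, abs_of_nonneg (sq_nonneg (η x)), ← mul_assoc]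
  exact mul_le_mul_of_nonneg_right hx (sq_nonneg _)

lemma q1_eq (h : H1o η η') :
    q1 D.v η η' = ∫ x, ((1 / 2) * (∑ k, η' k x ^ 2) + D.v x * η x ^ 2) := by
  unfold q1
  have i1 : Integrable (fun x => ∑ k, η' k x ^ 2) :=
    integrable_finsetSum _ (fun k _ => (h.memLp' k).integrable_sq)
  rw [integral_add (i1.const_mul _) (D.int_v_sq h), integral_const_mul,
    integral_finsetSum _ (fun k _ => (h.memLp' k).integrable_sq)]

/-- The one-body form with the effective potential is nonnegative. -/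
theorem q1_nonneg (h : H1o η η') : 0 ≤ q1 D.v η η' := by
  obtain ⟨hint, hsum⟩ := sum_Q_eq (fun p => pot D.Z D.R p - D.E) (fun i => D.tf_H1 h i)
    (fun i => D.int_pot_sq (D.tf_H1 h i))
  have h1 : 0 ≤ ∑ i, Q (fun p => pot D.Z D.R p - D.E) (D.tf η i) (D.tfx η η' i) (D.tfy η i) :=
    Finset.sum_nonneg (fun i _ => D.Qpos (D.tf_H1 h i))
  rw [hsum, integral_slice hint, integral_congr_ae (D.inner_eq h)] at h1
  rw [D.q1_eq h]
  exact h1

/-- The amplitude has zero energy. -/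
theorem q1_φ : q1 D.v D.φ D.φ' = 0 := by
  rw [D.q1_eq D.φ_H1o]
  obtain ⟨hint, hsum⟩ := sum_Q_eq (fun p => pot D.Z D.R p - D.E) D.hu
    (fun i => D.int_pot_sq (D.hu i))
  have h0 : ∑ i, Q (fun p => pot D.Z D.R p - D.E) (D.u i) (D.ux i) (D.uy i) = 0 :=
    Finset.sum_eq_zero (fun i _ => D.Qu i)
  rw [hsum, integral_slice hint] at h0
  rw [← h0]
  apply integral_congr_ae
  filter_upwards [D.φ_pos, slice_int D.int_T, slice_int D.int_Vm] with x hx iT iV
  have e : ∀ y, edens (fun p => pot D.Z D.R p - D.E) D.u D.ux D.uy (x, y) =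
      (1 / 2) * (∑ k, ∑ i, (D.ux i k (x, y) ^ 2 + D.uy i k (x, y) ^ 2)) +
      (pot D.Z D.R (x, y) - D.E) * D.g (x, y) ^ 2 := by
    intro y; unfold edens; rw [D.g_sq]
  simp_rw [e]
  rw [integral_add (iT.const_mul _) iV, integral_const_mul]
  have d3 : ∫ y, ∑ k, ∑ i, (D.ux i k (x, y) ^ 2 + D.uy i k (x, y) ^ 2) = D.T x := rfl
  have d4 : ∫ y, (pot D.Z D.R (x, y) - D.E) * D.g (x, y) ^ 2 = D.Vm x := rfl
  rw [d3, d4]
  unfold v
  rw [D.φ_sq]
  have hρ : 0 < D.ρ x := by rw [← D.φ_sq]; positivity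
  field_simp
  ring

end KS

end

end Vale.Agent.P363
end
end

section

section

namespace Vale.Agent.P363

open MeasureTheory Set Filter Topology
open scoped ENNReal ContDiff

set_option linter.unusedSectionVars false

noncomputable section

/-- Slices of `H¹` functions in the first variable. -/
lemma H1.slice {θ : X6 → ℝ} {θx θy : Fin 3 → X6 → ℝ} (h : H1 θ θx θy) :
    ∀ᵐ z : R3, H1o (fun x => θ (x, z)) (fun k x => θx k (x, z)) := by
  have h1 : ∀ᵐ z : R3, ∀ k, ACL (volume : Measure R3) (dir3 k) (fun x => θ (x, z))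
      (fun x => θx k (x, z)) := by
    rw [ae_all_iff]
    intro k
    exact ACL.slice (μ := (volume : Measure R3)) (ν := (volume : Measure R3)) (h.aclx k)
  have hsl : ∀ {F : X6 → ℝ}, MemLp F 2 (volume : Measure X6) →
      ∀ᵐ z : R3, MemLp (fun x => F (x, z)) 2 volume := by
    intro F hF
    have a1 : ∀ᵐ z : R3, AEStronglyMeasurable (fun x => F (x, z)) volume :=
      AEStronglyMeasurable.prodMk_right hF.1
    have a2 : ∀ᵐ z : R3, Integrable (fun x => F (x, z) ^ 2) volume :=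
      (Integrable.prod_left_ae hF.integrable_sq :)
    filter_upwards [a1, a2] with z h1 h2
    rwa [memLp_two_iff_integrable_sq h1]
  have h2 := hsl h.memLp
  have h3 : ∀ᵐ z : R3, ∀ k, MemLp (fun x => θx k (x, z)) 2 volume :=
    ae_all_iff.mpr (fun k => hsl (h.memLpx k))
  filter_upwards [h1, h2, h3] with z a b c
  exact ⟨b, c, a⟩

namespace KS

variable {ι : Type} [Fintype ι] {M : ℕ} (D : KS ι M)

lemma int_v1 {θ : X6 → ℝ} {θx θy : Fin 3 → X6 → ℝ} (h : H1 θ θx θy) :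
    Integrable (fun p : X6 => D.v p.1 * θ p ^ 2) := by
  obtain ⟨C7, hC7, hv⟩ := D.v_le
  have hK : Integrable (fun p : X6 => Kw D.R p.1 * θ p ^ 2) := by
    have h1 : Integrable (fun p : X6 => θ p ^ 2 + ∑ j, (1 / ‖p.1 - D.R j‖) * (θ p * θ p)) :=
      h.memLp.integrable_sq.add (integrable_finsetSum _ (fun j _ => hardy_mul1 (D.R j) h h))
    refine h1.congr ?_
    filter_upwards with p
    unfold Kw
    rw [add_mul, one_mul, Finset.sum_mul]
    congr 1
    apply Finset.sum_congr rfl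
    intro j _; ring
  have hvm : AEStronglyMeasurable (fun p : X6 => D.v p.1) volume :=
    D.v_meas.comp_fst (ν := (volume : Measure R3))
  refine (hK.const_mul C7).mono' (hvm.mul (h.memLp.1.pow 2)) ?_
  have hv2 : ∀ᵐ p : X6, |D.v p.1| ≤ C7 * Kw D.R p.1 :=
    (Measure.quasiMeasurePreserving_fst (μ := (volume : Measure R3))
      (ν := (volume : Measure R3))).ae hv
  filter_upwards [hv2] with p hp
  rw [Real.norm_eq_abs, abs_mul, abs_of_nonneg (sq_nonneg (θ p)), ← mul_assoc]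
  exact mul_le_mul_of_nonneg_right hp (sq_nonneg _)

lemma half_nonneg {θ : X6 → ℝ} {θx θy : Fin 3 → X6 → ℝ} (h : H1 θ θx θy) :
    0 ≤ (1 / 2) * (∑ k, ∫ p, θx k p ^ 2) + ∫ p : X6, D.v p.1 * θ p ^ 2 := by
  have i1 : Integrable (fun p => ∑ k, θx k p ^ 2) :=
    integrable_finsetSum _ (fun k _ => (h.memLpx k).integrable_sq)
  have i2 := D.int_v1 h
  have e : (1 / 2) * (∑ k, ∫ p, θx k p ^ 2) + ∫ p : X6, D.v p.1 * θ p ^ 2 =
      ∫ p : X6, ((1 / 2) * (∑ k, θx k p ^ 2) + D.v p.1 * θ p ^ 2) := by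
    rw [integral_add (i1.const_mul _) i2, integral_const_mul,
      integral_finsetSum _ (fun k _ => (h.memLpx k).integrable_sq)]
  have i3 : Integrable (fun p : X6 => (1 / 2) * (∑ k, θx k p ^ 2) + D.v p.1 * θ p ^ 2)
      ((volume : Measure R3).prod (volume : Measure R3)) := (i1.const_mul _).add i2
  have e2 : ∫ p : X6, ((1 / 2) * (∑ k, θx k p ^ 2) + D.v p.1 * θ p ^ 2) =
      ∫ z : R3, ∫ x : R3, ((1 / 2) * (∑ k, θx k (x, z) ^ 2) + D.v x * θ (x, z) ^ 2) :=
    integral_prod_symm _ i3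
  rw [e, e2]
  apply integral_nonneg_of_ae
  filter_upwards [h.slice] with z hz
  have := D.q1_nonneg hz
  rw [D.q1_eq hz] at this
  exact this

/-- The two-body form with the effective potential is nonnegative. -/
theorem Q_nonneg {θ : X6 → ℝ} {θx θy : Fin 3 → X6 → ℝ} (h : H1 θ θx θy) :
    0 ≤ Q (fun p => D.v p.1 + D.v p.2) θ θx θy := by
  have h1 := D.half_nonneg h
  have h2 := D.half_nonneg h.swap
  have i1 := D.int_v1 h
  have i2' := D.int_v1 h.swap
  have i2 : Integrable (fun p : X6 => D.v p.2 * θ p ^ 2) := by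
    have := mp_swap.integrable_comp_of_integrable i2'
    refine this.congr ?_
    filter_upwards with p
    simp
  have e1 : ∀ k, ∫ p : X6, θy k p.swap ^ 2 = ∫ p, θy k p ^ 2 := fun k =>
    mp_swap.integral_comp me_swap (fun p => θy k p ^ 2)
  have e2 : ∫ p : X6, D.v p.1 * θ p.swap ^ 2 = ∫ p : X6, D.v p.2 * θ p ^ 2 := by
    rw [← mp_swap.integral_comp me_swap (fun p => D.v p.2 * θ p ^ 2)]
    congr 1
  simp only [e1] at h2
  rw [e2] at h2
  have e3 : ∫ p : X6, (D.v p.1 + D.v p.2) * θ p ^ 2 =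
      (∫ p : X6, D.v p.1 * θ p ^ 2) + ∫ p : X6, D.v p.2 * θ p ^ 2 := by
    rw [← integral_add i1 i2]
    congr 1; funext p; ring
  unfold Q
  rw [e3, Finset.sum_add_distrib]
  linarith

lemma int_W {θ : X6 → ℝ} {θx θy : Fin 3 → X6 → ℝ} (h : H1 θ θx θy) :
    Integrable (fun p : X6 => (D.v p.1 + D.v p.2) * θ p ^ 2) := by
  have i1 := D.int_v1 h
  have i2' := D.int_v1 h.swap
  have i2 : Integrable (fun p : X6 => D.v p.2 * θ p ^ 2) := by
    have := mp_swap.integrable_comp_of_integrable i2'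
    refine this.congr ?_
    filter_upwards with p
    simp
  refine (i1.add i2).congr ?_
  filter_upwards with p
  simp only [Pi.add_apply]; ring

/-- The product function. -/
def pf (p : X6) : ℝ := D.φ p.1 * D.φ p.2
def pfx (k : Fin 3) (p : X6) : ℝ := D.φ' k p.1 * D.φ p.2
def pfy (k : Fin 3) (p : X6) : ℝ := D.φ p.1 * D.φ' k p.2

lemma memLp_tensor {a b : R3 → ℝ} (ha : MemLp a 2 volume) (hb : MemLp b 2 volume) :
    MemLp (fun p : X6 => a p.1 * b p.2) 2 volume := by
  have hm : AEStronglyMeasurable (fun p : X6 => a p.1 * b p.2) volume :=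
    (ha.1.comp_fst (ν := (volume : Measure R3))).mul (hb.1.comp_snd (μ := (volume : Measure R3)))
  rw [memLp_two_iff_integrable_sq hm]
  have : Integrable (fun p : X6 => a p.1 ^ 2 * b p.2 ^ 2) :=
    Integrable.mul_prod (μ := (volume : Measure R3)) (ν := (volume : Measure R3))
      ha.integrable_sq hb.integrable_sq
  refine this.congr ?_
  filter_upwards with p
  ring

lemma lift_y {f f' : R3 → ℝ} {k : Fin 3} (h : ACL volume (dir3 k) f f') :
    ACL (volume : Measure X6) (dirY k) (fun p => f p.2) (fun p => f' p.2) :=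
  h.comp_qmp (T := Prod.snd)
    (Measure.quasiMeasurePreserving_snd (μ := (volume : Measure R3)) (ν := (volume : Measure R3)))
    (fun p t => by simp [dirY, dir3])

lemma lift_y_dirX {f : R3 → ℝ} (k : Fin 3) (h : AEStronglyMeasurable f volume) :
    ACL (volume : Measure X6) (dirX k) (fun p => f p.2) (fun _ => 0) :=
  (ACL.zero_dir h).comp_qmp (T := Prod.snd) (f' := fun _ => 0)
    (Measure.quasiMeasurePreserving_snd (μ := (volume : Measure R3)) (ν := (volume : Measure R3)))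
    (fun p t => by simp [dirX])

lemma pf_H1 : H1 D.pf D.pfx D.pfy := by
  have h := D.φ_H1o
  refine ⟨memLp_tensor h.memLp h.memLp, fun k => memLp_tensor (h.memLp' k) h.memLp,
    fun k => memLp_tensor h.memLp (h.memLp' k), fun k => ?_, fun k => ?_⟩
  · refine ((lift_x (h.acl k)).mul (lift_y_dirX k h.memLp.1)).congr (ae_eq_refl _) ?_
    filter_upwards with p
    simp [pfx]
  · refine ((lift_x_dirY k h.memLp.1).mul (lift_y (h.acl k))).congr (ae_eq_refl _) ?_
    filter_upwards with p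
    simp [pfy]

lemma integral_tensor (a b : R3 → ℝ) : ∫ p : X6, a p.1 * b p.2 = (∫ x, a x) * ∫ y, b y :=
  integral_prod_mul a b

lemma Q_pf (hn : ∫ x, D.ρ x = 1) : Q (fun p => D.v p.1 + D.v p.2) D.pf D.pfx D.pfy = 0 := by
  have hq := D.q1_φ
  unfold q1 at hq
  have hφ1 : ∫ x, D.φ x ^ 2 = 1 := by rw [← hn]; congr 1; funext x; exact D.φ_sq x
  have e1 : ∀ k, ∫ p : X6, D.pfx k p ^ 2 = ∫ x, D.φ' k x ^ 2 := by
    intro k
    have : ∫ p : X6, D.pfx k p ^ 2 = ∫ p : X6, (D.φ' k p.1 ^ 2) * (D.φ p.2 ^ 2) := by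
      congr 1; funext p; unfold pfx; ring
    rw [this, integral_tensor (fun x => D.φ' k x ^ 2) (fun x => D.φ x ^ 2), hφ1, mul_one]
  have e2 : ∀ k, ∫ p : X6, D.pfy k p ^ 2 = ∫ x, D.φ' k x ^ 2 := by
    intro k
    have : ∫ p : X6, D.pfy k p ^ 2 = ∫ p : X6, (D.φ p.1 ^ 2) * (D.φ' k p.2 ^ 2) := by
      congr 1; funext p; unfold pfy; ring
    rw [this, integral_tensor (fun x => D.φ x ^ 2) (fun x => D.φ' k x ^ 2), hφ1, one_mul]
  have iv := D.int_v_sq D.φ_H1o
  have ip := D.φ_H1o.memLp.integrable_sq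
  have e3 : ∫ p : X6, (D.v p.1 + D.v p.2) * D.pf p ^ 2 = 2 * ∫ x, D.v x * D.φ x ^ 2 := by
    have a1 : Integrable (fun p : X6 => (D.v p.1 * D.φ p.1 ^ 2) * (D.φ p.2 ^ 2)) :=
      Integrable.mul_prod (μ := (volume : Measure R3)) (ν := (volume : Measure R3)) iv ip
    have a2 : Integrable (fun p : X6 => (D.φ p.1 ^ 2) * (D.v p.2 * D.φ p.2 ^ 2)) :=
      Integrable.mul_prod (μ := (volume : Measure R3)) (ν := (volume : Measure R3)) ip iv
    have : ∫ p : X6, (D.v p.1 + D.v p.2) * D.pf p ^ 2 =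
        ∫ p : X6, ((D.v p.1 * D.φ p.1 ^ 2) * (D.φ p.2 ^ 2) +
          (D.φ p.1 ^ 2) * (D.v p.2 * D.φ p.2 ^ 2)) := by
      congr 1; funext p; unfold pf; ring
    rw [this, integral_add a1 a2, integral_tensor (fun x => D.v x * D.φ x ^ 2)
      (fun x => D.φ x ^ 2), integral_tensor (fun x => D.φ x ^ 2)
      (fun x => D.v x * D.φ x ^ 2), hφ1]
    ring
  unfold Q
  simp only [e1, e2, e3]
  rw [Finset.sum_add_distrib]
  linarith

end KS

end

end Vale.Agent.P363
end
end

section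

section

namespace Vale.Agent.P363

open MeasureTheory Set Filter Topology
open scoped ENNReal ContDiff

set_option linter.unusedSectionVars false

noncomputable section

/-- The mixture concentrated on one state. -/
lemma representable_of_pure {n : ℕ} {v : R3 → ℝ} (hv : MemV v) {Φ : ElectronState (n + 1)}
    (hΦ : IsGroundState (sumPotential v) Φ) {d : R3 → ℝ} (hd : ∀ᵐ r, density Φ r = d r) :
    NonintEnsembleRepresentable n d := by
  refine ⟨v, hv, fun k => if k = 0 then 1 else 0, fun _ => Φ, ?_, ?_, fun _ => hΦ, ?_⟩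
  · intro k
    show (0:ℝ) ≤ if k = 0 then 1 else 0
    split_ifs <;> norm_num
  · exact hasSum_ite_eq 0 1
  · filter_upwards [hd] with r hr
    have : (fun k : ℕ => (if k = 0 then (1:ℝ) else 0) * density Φ r) =
        fun k => if k = 0 then d r else 0 := by
      funext k; split_ifs <;> simp [hr]
    rw [this]
    exact hasSum_ite_eq 0 (d r)

/-- One electron. -/
theorem one_electron : CoulombDensitiesRepresentable 0 := by
  intro M _ Z _ R _ Ψ hΨ
  set v : R3 → ℝ := fun r => ∑ j, -((Z j : ℝ) / ‖r - R j‖) with hv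
  have hpot : coulombPotential (N := 0 + 1) Z R = sumPotential v := by
    funext x
    unfold coulombPotential sumPotential
    have h0 : (Finset.Ioi (0 : Fin (0 + 1))) = ∅ := by decide
    simp only [Nat.reduceAdd, Finset.univ_unique, Fin.default_eq_zero, Fin.isValue,
      Finset.sum_singleton]
    have h0' : (Finset.Ioi (0 : Fin 1)) = ∅ := by decide
    rw [h0']
    simp only [Fin.isValue, Finset.sum_neg_distrib, one_div, Finset.sum_empty, add_zero, hv]
  rw [hpot] at hΨ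
  have hmem : MemV v := by
    apply memV_of_bound R (C := ∑ j, (Z j : ℝ))
    · apply Measurable.aestronglyMeasurable
      rw [hv]; fun_prop
    · filter_upwards with x
      have hz0 : 0 ≤ ∑ j, (Z j : ℝ) := Finset.sum_nonneg (fun j _ => by positivity)
      have hzj : ∀ j, (Z j : ℝ) ≤ ∑ j, (Z j : ℝ) := fun j =>
        Finset.single_le_sum (f := fun j => (Z j : ℝ)) (fun j _ => by positivity)
          (Finset.mem_univ j)
      calc |v x| ≤ ∑ j, |-((Z j : ℝ) / ‖x - R j‖)| := Finset.abs_sum_le_sum_abs _ _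
        _ ≤ ∑ j, (∑ j, (Z j : ℝ)) * (1 / ‖x - R j‖) := by
          apply Finset.sum_le_sum
          intro j _
          rw [abs_neg, abs_of_nonneg (by (clear * -; positivity)), div_eq_mul_one_div]
          exact mul_le_mul_of_nonneg_right (hzj j) (by positivity)
        _ = (∑ j, (Z j : ℝ)) * ∑ j, (1 / ‖x - R j‖) := by rw [← Finset.mul_sum]
        _ ≤ _ := by
          unfold Kw
          apply mul_le_mul_of_nonneg_left _ hz0
          linarith only []
  exact representable_of_pure hmem hΨ (by filter_upwards with r; rfl)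

/-- Integration over one remaining electron. -/
lemma integral_fin_one (F : R3 → ℝ) : ∫ y : Fin 1 → R3, F (y 0) = ∫ y, F y := by
  have h := MeasureTheory.volume_preserving_funUnique (Fin 1) R3
  have := h.integral_comp' F
  rw [← this]
  rfl

lemma toX_cons (r : R3) (y : Fin 1 → R3) :
    toX (Fin.cons r y : Fin (1 + 1) → R3) = (r, y 0) := by
  simp only [toX]
  rfl

lemma density_eq (Ψ : ElectronState 2) :
    ∀ᵐ r : R3, density (n := 1) Ψ r = 2 * ∫ y, amplitude Ψ (r, y) ^ 2 := by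
  have h1 : ∀ᵐ r : R3, ∀ i, Integrable (fun y => comp Ψ i (r, y) ^ 2) :=
    ae_all_iff.mpr (fun i => (Integrable.prod_right_ae ((comp_H1 Ψ i).memLp.integrable_sq) :))
  filter_upwards [h1] with r hr
  unfold density
  have e1 : ∀ s : Fin (1 + 1) → Fin 2, ∫ y : Fin 1 → R3, ‖Ψ.amp s (Fin.cons r y)‖ ^ 2 =
      ∫ y : R3, (comp Ψ (s, true) (r, y) ^ 2 + comp Ψ (s, false) (r, y) ^ 2) := by
    intro s
    rw [← integral_fin_one]
    congr 1; funext y
    have hx : (Fin.cons r y : Fin (1 + 1) → R3) = fromX (r, y 0) := by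
      rw [← toX_cons r y, fromX_toX]
    rw [hx]
    simp only [comp, if_true, Bool.false_eq_true, if_false]
    exact sq_re_im _
  have e2 : ∑ s : Fin (1 + 1) → Fin 2, ∫ y : Fin 1 → R3, ‖Ψ.amp s (Fin.cons r y)‖ ^ 2 =
      ∫ y, amplitude Ψ (r, y) ^ 2 := by
    simp only [e1]
    simp only [integral_add (hr _) (hr _)]
    rw [← sum_comp_index (fun i => ∫ y, comp Ψ i (r, y) ^ 2),
      ← integral_finsetSum _ (fun i _ => hr i)]
    congr 1; funext y
    exact (amplitude_sq Ψ (r, y)).symm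
  rw [e2]
  push_cast
  ring

namespace KS

variable {ι : Type} [Fintype ι] {M : ℕ} (D : KS ι M)

/-- The normalized closed-shell determinant. -/
def gs : ElectronState 2 := mkState _ _ _ (D.pf_H1.const_mul (√2)⁻¹)

lemma gs_normSq (hn : ∫ x, D.ρ x = 1) : normSq D.gs = 1 := by
  unfold gs
  rw [normSq_mkState]
  have hφ1 : ∫ x, D.φ x ^ 2 = 1 := by rw [← hn]; congr 1; funext x; exact D.φ_sq x
  have e : ∫ p : X6, ((√2)⁻¹ * D.pf p) ^ 2 = (1 / 2) * ∫ p : X6, (D.φ p.1 ^ 2) * (D.φ p.2 ^ 2) := by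
    rw [← integral_const_mul]
    congr 1; funext p
    unfold pf
    have h2 : ((√2)⁻¹ : ℝ) ^ 2 = 1 / 2 := by rw [inv_pow, Real.sq_sqrt (by norm_num)]; norm_num
    rw [mul_pow, h2]; ring
  rw [e, integral_tensor (fun x => D.φ x ^ 2) (fun x => D.φ x ^ 2), hφ1]
  norm_num

lemma gs_ground (hn : ∫ x, D.ρ x = 1) : IsGroundState (sumPotential D.v) D.gs := by
  have hW : ∀ p : X6, sumPotential D.v (fromX p) = D.v p.1 + D.v p.2 := by
    intro p
    simp [sumPotential, fromX]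
  have hsym : ∀ p : X6, D.v p.swap.1 + D.v p.swap.2 = D.v p.1 + D.v p.2 := by
    intro p; simp [add_comm]
  refine ⟨D.gs_normSq hn, ?_⟩
  intro Φ _
  have h1 : energy (sumPotential D.v) D.gs = 0 := by
    unfold gs
    rw [energy_mkState _ (sumPotential D.v) (fun p => D.v p.1 + D.v p.2) hW hsym, Q_const_mul,
      D.Q_pf hn]
    ring
  have h2 := energy_eq_sum Φ (sumPotential D.v) (fun p => D.v p.1 + D.v p.2) hW
    (fun i => D.int_W (comp_H1 Φ i))
  rw [h1, h2]
  exact Finset.sum_nonneg (fun i _ => D.Q_nonneg (comp_H1 Φ i))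

lemma gs_density (hn : ∫ x, D.ρ x = 1) (r : R3) : density (n := 1) D.gs r = 2 * D.ρ r := by
  have hφ1 : ∫ x, D.φ x ^ 2 = 1 := by rw [← hn]; congr 1; funext x; exact D.φ_sq x
  have h10 : ¬ (![1, 0] : Fin 2 → Fin 2) = ![0, 1] := by decide
  have h2 : ((√2)⁻¹ : ℝ) ^ 2 = 1 / 2 := by rw [inv_pow, Real.sq_sqrt (by norm_num)]; norm_num
  unfold density
  have hs : ∑ s : Fin (1 + 1) → Fin 2, ∫ y : Fin 1 → R3, ‖D.gs.amp s (Fin.cons r y)‖ ^ 2 =
      (∫ y : Fin 1 → R3, ‖D.gs.amp ![0, 1] (Fin.cons r y)‖ ^ 2) +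
      ∫ y : Fin 1 → R3, ‖D.gs.amp ![1, 0] (Fin.cons r y)‖ ^ 2 := by
    apply sum_mk
    intro s a b
    simp only [gs, mkState, realState, mkA, Nat.succ_eq_add_one, Nat.reduceAdd, Fin.isValue, a, ↓reduceIte, b, Complex.ofReal_zero, norm_zero, ne_eq, OfNat.ofNat_ne_zero, not_false_eq_true, zero_pow, integral_zero]
  have e1 : ∫ y : Fin 1 → R3, ‖D.gs.amp ![0, 1] (Fin.cons r y)‖ ^ 2 = (1 / 2) * D.ρ r := by
    have : ∀ y : Fin 1 → R3, ‖D.gs.amp ![0, 1] (Fin.cons r y)‖ ^ 2 =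
        (1 / 2) * (D.φ r ^ 2 * D.φ (y 0) ^ 2) := by
      intro y
      simp only [gs, mkState, realState, mkA, if_true, toX_cons, pf]
      rw [Complex.norm_real, Real.norm_eq_abs, sq_abs, mul_pow, h2]; ring
    simp_rw [this]
    rw [integral_fin_one (fun y => (1 / 2) * (D.φ r ^ 2 * D.φ y ^ 2)), integral_const_mul,
      integral_const_mul, hφ1, D.φ_sq]
    ring
  have e2 : ∫ y : Fin 1 → R3, ‖D.gs.amp ![1, 0] (Fin.cons r y)‖ ^ 2 = (1 / 2) * D.ρ r := by
    have : ∀ y : Fin 1 → R3, ‖D.gs.amp ![1, 0] (Fin.cons r y)‖ ^ 2 =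
        (1 / 2) * (D.φ r ^ 2 * D.φ (y 0) ^ 2) := by
      intro y
      simp only [gs, mkState, realState, mkA, if_true, h10, if_false, toX_cons, pf,
        Prod.fst_swap, Prod.snd_swap]
      rw [Complex.norm_real, Real.norm_eq_abs, sq_abs, neg_sq, mul_pow, h2]; ring
    simp_rw [this]
    rw [integral_fin_one (fun y => (1 / 2) * (D.φ r ^ 2 * D.φ y ^ 2)), integral_const_mul,
      integral_const_mul, hφ1, D.φ_sq]
    ring
  rw [hs, e1, e2]
  push_cast
  ring

end KS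

/-- Two electrons, given the Harnack inequality and the gradient bound. -/
theorem two_electrons (hHG : HarnackGradient) : CoulombDensitiesRepresentable 1 := by
  intro M _ Z _ R _ Ψ hΨ
  have hΨ' : IsGroundState (N := 2) (coulombPotential Z R) Ψ := hΨ
  obtain ⟨G, C, r, hr, hC, hGm, hGp, hG1, hG2, hG3, hG4, hG5⟩ :=
    hHG Z R (energy (coulombPotential Z R) Ψ) _ (comp Ψ) (compx Ψ) (compy Ψ) (amplitude Ψ)
      (amplitudex Ψ) (amplitudey Ψ) (comp_H1 Ψ) (comp_weakSol hΨ') (fun _ => rfl)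
      (amplitude_H1 Ψ) (amplitude_weakSol hΨ') (amplitude_ne_zero hΨ')
  let D : KS ((Fin 2 → Fin 2) × Bool) M :=
    { Z := Z, R := R, E := energy (coulombPotential Z R) Ψ, u := comp Ψ, ux := compx Ψ,
      uy := compy Ψ, hu := comp_H1 Ψ, g := amplitude Ψ, hg := fun _ => rfl, G := G, C := C,
      r := r, hr := hr, hC := hC, Gmeas := hGm, Gpos := hGp, har := hG1, Gg := hG2, gG := hG3,
      bx := hG4, by' := hG5, Qu := Q_comp_eq_zero hΨ',
      Qpos := fun h => Vale.Agent.P363.Q_nonneg hΨ' h }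
  have hn : ∫ x, D.ρ x = 1 := by
    have h1 : ∫ p, amplitude Ψ p ^ 2 = 1 := by rw [integral_amplitude_sq]; exact hΨ'.1
    rw [← h1]
    exact (KS.integral_slice D.integrable_g_sq).symm
  apply representable_of_pure D.v_memV (D.gs_ground hn)
  filter_upwards [density_eq Ψ] with x hx
  rw [hx]
  exact D.gs_density hn x

theorem at_most_two_electrons (hHG : HarnackGradient) (n : ℕ) (hn : n + 1 ≤ 2) :
    CoulombDensitiesRepresentable n := by
  have : n = 0 ∨ n = 1 := by omega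
  rcases this with h | h
  · subst h; exact one_electron
  · subst h; exact two_electrons hHG

end

end Vale.Agent.P363
end
end

section

section

/-! KD3b: integrals over Slater determinants. -/

namespace Vale.Agent.P363.KD

open MeasureTheory Set Filter Topology
open scoped ENNReal ContDiff

noncomputable section

/-- Unnormalised determinant with the functions `u` in the row `i`. -/
def k3bS {N : ℕ} (u χ : Fin N → Fin 2 → R3 → ℝ) (i : Fin N) (s : Fin N → Fin 2)
    (x : Fin N → R3) : ℝ :=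
  ∑ σ : Equiv.Perm (Fin N), ((Equiv.Perm.sign σ : ℤ) : ℝ) *
      (u (σ i) (s i) (x i) * ∏ j ∈ Finset.univ.erase i, χ (σ j) (s j) (x j))

/-- The factor of position `j`. -/
def k3bG {N : ℕ} (u χ : Fin N → Fin 2 → R3 → ℝ) (a : R3 → ℝ) (i : Fin N)
    (σ τ : Equiv.Perm (Fin N)) (j : Fin N) (t : Fin 2) (y : R3) : ℝ :=
  if j = i then a y * (u (σ i) t y * u (τ i) t y) else χ (σ j) t y * χ (τ j) t y

theorem k3b_expand {N : ℕ} (u χ : Fin N → Fin 2 → R3 → ℝ) (a : R3 → ℝ) (i : Fin N)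
    (s : Fin N → Fin 2) (x : Fin N → R3) :
    a (x i) * k3bS u χ i s x ^ 2 =
      ∑ σ : Equiv.Perm (Fin N), ∑ τ : Equiv.Perm (Fin N),
        (((Equiv.Perm.sign σ : ℤ) : ℝ) * ((Equiv.Perm.sign τ : ℤ) : ℝ)) *
          ∏ j, k3bG u χ a i σ τ j (s j) (x j) := by
  have h : ∀ σ τ : Equiv.Perm (Fin N), ∏ j, k3bG u χ a i σ τ j (s j) (x j) =
      a (x i) * ((u (σ i) (s i) (x i) * ∏ j ∈ Finset.univ.erase i, χ (σ j) (s j) (x j)) *
        (u (τ i) (s i) (x i) * ∏ j ∈ Finset.univ.erase i, χ (τ j) (s j) (x j))) := by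
    intro σ τ
    rw [← Finset.mul_prod_erase Finset.univ _ (Finset.mem_univ i)]
    have h1 : k3bG u χ a i σ τ i (s i) (x i) =
        a (x i) * (u (σ i) (s i) (x i) * u (τ i) (s i) (x i)) := by simp [k3bG]
    have h2 : ∏ j ∈ Finset.univ.erase i, k3bG u χ a i σ τ j (s j) (x j) =
        ∏ j ∈ Finset.univ.erase i, (χ (σ j) (s j) (x j) * χ (τ j) (s j) (x j)) := by
      apply Finset.prod_congr rfl
      intro j hj
      rw [k3bG, if_neg (Finset.ne_of_mem_erase hj)]
    rw [h1, h2, Finset.prod_mul_distrib]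
    ring
  simp only [h]
  rw [k3bS, pow_two, Finset.sum_mul_sum, Finset.mul_sum]
  refine Finset.sum_congr rfl fun σ _ => ?_
  rw [Finset.mul_sum]
  refine Finset.sum_congr rfl fun τ _ => ?_
  ring

theorem k3b_int {N : ℕ} {u χ : Fin N → Fin 2 → R3 → ℝ} {a : R3 → ℝ} {i : Fin N}
    (h1 : ∀ m t, MemLp (χ m t) 2 volume)
    (ha : ∀ m m' t, Integrable (fun y => a y * (u m t y * u m' t y)))
    (σ τ : Equiv.Perm (Fin N)) (j : Fin N) (t : Fin 2) :
    Integrable (fun y => k3bG u χ a i σ τ j t y) := by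
  by_cases hj : j = i
  · simp only [k3bG, if_pos hj]
    exact ha _ _ _
  · simp only [k3bG, if_neg hj]
    exact (h1 _ _).integrable_mul (h1 _ _)

theorem k3b_intprod {N : ℕ} {u χ : Fin N → Fin 2 → R3 → ℝ} {a : R3 → ℝ} {i : Fin N}
    (h1 : ∀ m t, MemLp (χ m t) 2 volume)
    (ha : ∀ m m' t, Integrable (fun y => a y * (u m t y * u m' t y)))
    (σ τ : Equiv.Perm (Fin N)) (s : Fin N → Fin 2) :
    Integrable (fun x : Fin N → R3 => ∏ j, k3bG u χ a i σ τ j (s j) (x j)) :=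
  Integrable.fintype_prod (μ := fun _ => (volume : Measure R3))
    (f := fun j y => k3bG u χ a i σ τ j (s j) y) (fun j => k3b_int h1 ha σ τ j (s j))

theorem k3b_sum {N : ℕ} {u χ : Fin N → Fin 2 → R3 → ℝ} {a : R3 → ℝ} {i : Fin N}
    (ho : ∀ m m', ∑ σ, ∫ x, χ m σ x * χ m' σ x = if m = m' then 1 else 0)
    (σ τ : Equiv.Perm (Fin N)) :
    ∑ s : Fin N → Fin 2, ∫ x : Fin N → R3, ∏ j, k3bG u χ a i σ τ j (s j) (x j) =
      if σ = τ then ∑ t, ∫ y, a y * u (σ i) t y ^ 2 else 0 := by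
  have h : ∀ s : Fin N → Fin 2, ∫ x : Fin N → R3, ∏ j, k3bG u χ a i σ τ j (s j) (x j) =
      ∏ j, ∫ y, k3bG u χ a i σ τ j (s j) y := fun s =>
    integral_fintype_prod_volume_eq_prod (fun j y => k3bG u χ a i σ τ j (s j) y)
  simp only [h]
  have h2 := Finset.prod_univ_sum (fun _ : Fin N => (Finset.univ : Finset (Fin 2)))
    (fun j t => ∫ y, k3bG u χ a i σ τ j t y)
  rw [Fintype.piFinset_univ] at h2
  rw [← h2, ← Finset.mul_prod_erase Finset.univ _ (Finset.mem_univ i)]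
  have h3 : ∀ j ∈ Finset.univ.erase i, ∑ t, ∫ y, k3bG u χ a i σ τ j t y =
      if σ j = τ j then 1 else 0 := by
    intro j hj
    rw [← ho]
    refine Finset.sum_congr rfl fun t _ => ?_
    simp only [k3bG, if_neg (Finset.ne_of_mem_erase hj)]
  rw [Finset.prod_congr rfl h3]
  by_cases hst : σ = τ
  · subst hst
    simp only [if_true, Finset.prod_const_one, mul_one]
    refine Finset.sum_congr rfl fun t _ => ?_
    simp only [k3bG, if_true, pow_two]
  · rw [if_neg hst]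
    have : ∃ j ∈ Finset.univ.erase i, σ j ≠ τ j := by
      by_contra hcon
      push Not at hcon
      apply hst
      have hne : ∀ j, j ≠ i → σ j = τ j := fun j hj =>
        hcon j (Finset.mem_erase.2 ⟨hj, Finset.mem_univ _⟩)
      apply Equiv.ext
      intro j
      by_cases hj : j = i
      · subst hj
        by_contra hji
        have h5 : τ.symm (σ j) ≠ j := by
          intro h6
          apply hji
          rw [← h6]
          simp
          rw [h6]
        have h7 := hne _ h5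
        rw [Equiv.apply_symm_apply] at h7
        exact h5 (σ.injective h7)
      · exact hne j hj
    obtain ⟨j, hj, hj2⟩ := this
    rw [Finset.prod_eq_zero hj (by rw [if_neg hj2]), mul_zero]

theorem k3b_main {N : ℕ} {u χ : Fin N → Fin 2 → R3 → ℝ} {a : R3 → ℝ} {i : Fin N}
    (h1 : ∀ m t, MemLp (χ m t) 2 volume)
    (ha : ∀ m m' t, Integrable (fun y => a y * (u m t y * u m' t y)))
    (ho : ∀ m m', ∑ σ, ∫ x, χ m σ x * χ m' σ x = if m = m' then 1 else 0) :
    (∀ s, Integrable (fun x : Fin N → R3 => a (x i) * k3bS u χ i s x ^ 2)) ∧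
    ∑ s, ∫ x : Fin N → R3, a (x i) * k3bS u χ i s x ^ 2 =
      ∑ σ : Equiv.Perm (Fin N), ∑ t, ∫ y, a y * u (σ i) t y ^ 2 := by
  constructor
  · intro s
    simp only [k3b_expand]
    refine integrable_finsetSum _ fun σ _ => integrable_finsetSum _ fun τ _ => ?_
    exact (k3b_intprod h1 ha σ τ s).const_mul _
  · have h2 : ∀ s : Fin N → Fin 2, ∫ x : Fin N → R3, a (x i) * k3bS u χ i s x ^ 2 =
        ∑ σ : Equiv.Perm (Fin N), ∑ τ : Equiv.Perm (Fin N),
        (((Equiv.Perm.sign σ : ℤ) : ℝ) * ((Equiv.Perm.sign τ : ℤ) : ℝ)) *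
          ∫ x : Fin N → R3, ∏ j, k3bG u χ a i σ τ j (s j) (x j) := by
      intro s
      simp only [k3b_expand]
      rw [integral_finsetSum _ fun σ _ => integrable_finsetSum _ fun τ _ =>
        (k3b_intprod h1 ha σ τ s).const_mul _]
      refine Finset.sum_congr rfl fun σ _ => ?_
      rw [integral_finsetSum _ fun τ _ => (k3b_intprod h1 ha σ τ s).const_mul _]
      refine Finset.sum_congr rfl fun τ _ => ?_
      rw [integral_const_mul]
    simp only [h2]
    rw [Finset.sum_comm]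
    refine Finset.sum_congr rfl fun σ _ => ?_
    rw [Finset.sum_comm]
    have h3 : ∀ τ : Equiv.Perm (Fin N), ∑ s : Fin N → Fin 2,
        (((Equiv.Perm.sign σ : ℤ) : ℝ) * ((Equiv.Perm.sign τ : ℤ) : ℝ)) *
          ∫ x : Fin N → R3, ∏ j, k3bG u χ a i σ τ j (s j) (x j) =
        if σ = τ then ∑ t, ∫ y, a y * u (σ i) t y ^ 2 else 0 := by
      intro τ
      rw [← Finset.mul_sum, k3b_sum ho]
      split_ifs with hst
      · subst hst
        have : (((Equiv.Perm.sign σ : ℤ) : ℝ) * ((Equiv.Perm.sign σ : ℤ) : ℝ)) = 1 := by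
          rcases Int.units_eq_one_or (Equiv.Perm.sign σ) with h | h <;> rw [h] <;> norm_num
        rw [this, one_mul]
      · rw [mul_zero]
    simp only [h3]
    rw [Finset.sum_ite_eq]
    simp only [Finset.mem_univ, ↓reduceIte, Fin.sum_univ_two, Fin.isValue]

/-- Averages over permutations. -/
theorem k3b_avg {N : ℕ} (A : Fin N → ℝ) (i : Fin N) :
    ((N.factorial : ℝ))⁻¹ * ∑ σ : Equiv.Perm (Fin N), A (σ i) = (N : ℝ)⁻¹ * ∑ m, A m := by
  have hN : (N : ℝ) ≠ 0 := by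
    have : 0 < N := i.pos
    positivity
  have hsym : ∀ j : Fin N, ∑ σ : Equiv.Perm (Fin N), A (σ j) =
      ∑ σ : Equiv.Perm (Fin N), A (σ i) := by
    intro j
    apply Fintype.sum_equiv (Equiv.mulRight (Equiv.swap i j))
    intro σ
    simp
  have h1 : (N : ℝ) * ∑ σ : Equiv.Perm (Fin N), A (σ i) = (N.factorial : ℝ) * ∑ m, A m := by
    calc (N : ℝ) * ∑ σ : Equiv.Perm (Fin N), A (σ i)
        = ∑ j : Fin N, ∑ σ : Equiv.Perm (Fin N), A (σ j) := by
          rw [Finset.sum_congr rfl fun j _ => hsym j, Finset.sum_const, Finset.card_univ,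
            Fintype.card_fin, nsmul_eq_mul]
      _ = ∑ σ : Equiv.Perm (Fin N), ∑ j : Fin N, A (σ j) := Finset.sum_comm
      _ = ∑ σ : Equiv.Perm (Fin N), ∑ m, A m :=
          Finset.sum_congr rfl fun σ _ => Equiv.sum_comp σ A
      _ = (N.factorial : ℝ) * ∑ m, A m := by
          rw [Finset.sum_const, Finset.card_univ, Fintype.card_perm, Fintype.card_fin,
            nsmul_eq_mul]
  have hf : (N.factorial : ℝ) ≠ 0 := by positivity
  field_simp
  linarith

theorem k3b_sqrt (N : ℕ) : ((√(N.factorial : ℝ))⁻¹) ^ 2 = ((N.factorial : ℝ))⁻¹ := by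
  rw [inv_pow, Real.sq_sqrt (by positivity)]

/-- KD3b. Integrals over Slater determinants of orthonormal spin orbitals, for an electron-`i`
observable `a` (take `a = 1` for the norm). -/
theorem slater_integral {N : ℕ} (χ : Fin N → Fin 2 → R3 → ℝ)
    (h1 : ∀ m σ, MemLp (χ m σ) 2 volume)
    (ho : ∀ m m', ∑ σ, ∫ x, χ m σ x * χ m' σ x = if m = m' then 1 else 0) (i : Fin N)
    (a : R3 → ℝ) (ha : ∀ m σ, Integrable (fun x => a x * χ m σ x ^ 2)) :
    (∀ s, Integrable (fun x : Fin N → R3 => a (x i) * slaterAmp χ s x ^ 2)) ∧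
    ∑ s, ∫ x : Fin N → R3, a (x i) * slaterAmp χ s x ^ 2 =
      (N : ℝ)⁻¹ * ∑ m, ∑ σ, ∫ x, a x * χ m σ x ^ 2 := by
  have ha' : ∀ m m' t, Integrable (fun y => a y * (χ m t y * χ m' t y)) := by
    intro m m' t
    have hm : AEStronglyMeasurable (fun y => a y * (χ m t y * χ m' t y)) volume := by
      have h2 : (fun y => a y * (χ m t y * χ m' t y)) =
          fun y => (a y * χ m t y ^ 2) * (χ m' t y * (χ m t y)⁻¹) := by
        funext y
        by_cases h0 : χ m t y = 0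
        · rw [h0]; ring
        · field_simp
      rw [h2]
      exact (ha m t).1.mul ((h1 m' t).1.mul
        (((h1 m t).1.aemeasurable.inv).aestronglyMeasurable))
    refine ((ha m t).abs.add (ha m' t).abs).mono' hm (Eventually.of_forall fun y => ?_)
    rw [Real.norm_eq_abs, Pi.add_apply, abs_mul (a y), abs_mul (a y), abs_mul (a y), ← mul_add]
    apply mul_le_mul_of_nonneg_left _ (abs_nonneg _)
    rw [abs_mul, abs_of_nonneg (sq_nonneg (χ m t y)), abs_of_nonneg (sq_nonneg (χ m' t y)),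
      ← sq_abs (χ m t y), ← sq_abs (χ m' t y)]
    nlinarith only []
  have hS : ∀ s (x : Fin N → R3), a (x i) * slaterAmp χ s x ^ 2 =
      ((N.factorial : ℝ))⁻¹ * (a (x i) * k3bS χ χ i s x ^ 2) := by
    intro s x
    have h2 : slaterAmp χ s x = (√(N.factorial : ℝ))⁻¹ * k3bS χ χ i s x := by
      unfold slaterAmp k3bS
      congr 1
      refine Finset.sum_congr rfl fun σ _ => ?_
      rw [← Finset.mul_prod_erase Finset.univ _ (Finset.mem_univ i)]
    rw [h2, mul_pow, k3b_sqrt]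
    ring
  obtain ⟨m1, m2⟩ := k3b_main (i := i) h1 ha' ho
  simp only [hS]
  refine ⟨fun s => (m1 s).const_mul _, ?_⟩
  simp only [integral_const_mul]
  rw [← Finset.mul_sum, m2]
  exact k3b_avg (fun m => ∑ σ, ∫ x, a x * χ m σ x ^ 2) i

/-- KD3b'. Kinetic energy of a Slater determinant. -/
theorem slater_kinetic {N : ℕ} (χ : Fin N → Fin 2 → R3 → ℝ)
    (χ' : Fin N → Fin 2 → Fin 3 → R3 → ℝ)
    (h1 : ∀ m σ, MemLp (χ m σ) 2 volume) (h2 : ∀ m σ k, MemLp (χ' m σ k) 2 volume)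
    (ho : ∀ m m', ∑ σ, ∫ x, χ m σ x * χ m' σ x = if m = m' then 1 else 0) (i : Fin N)
    (k : Fin 3) :
    ∑ s, ∫ x : Fin N → R3, slaterGrad χ χ' s i k x ^ 2 =
      (N : ℝ)⁻¹ * ∑ m, ∑ σ, ∫ x, χ' m σ k x ^ 2 := by
  have ha' : ∀ m m' t, Integrable (fun y => (fun _ => (1 : ℝ)) y *
      ((fun m t => χ' m t k) m t y * (fun m t => χ' m t k) m' t y)) := by
    intro m m' t
    simp only [one_mul]
    exact (h2 m t k).integrable_mul (h2 m' t k)
  have hS : ∀ s (x : Fin N → R3), slaterGrad χ χ' s i k x ^ 2 =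
      ((N.factorial : ℝ))⁻¹ * ((fun _ => (1 : ℝ)) (x i) *
        k3bS (fun m t => χ' m t k) χ i s x ^ 2) := by
    intro s x
    have h3 : slaterGrad χ χ' s i k x =
        (√(N.factorial : ℝ))⁻¹ * k3bS (fun m t => χ' m t k) χ i s x := rfl
    rw [h3, mul_pow, k3b_sqrt, one_mul]
  obtain ⟨_, m2⟩ := k3b_main (i := i) h1 ha' ho
  simp only [one_mul] at m2 hS
  simp only [hS, integral_const_mul]
  rw [← Finset.mul_sum, m2]
  exact k3b_avg (fun m => ∑ σ, ∫ x, χ' m σ k x ^ 2) i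

end

end Vale.Agent.P363.KD
end
end

section

section

/-! KD5: kinetic energy through the first electron. -/

namespace Vale.Agent.P363.KD

open MeasureTheory Set Filter Topology
open scoped ENNReal ContDiff

noncomputable section

/-- Permutation of the electrons, as a measurable equivalence. -/
def permME {N : ℕ} (σ : Equiv.Perm (Fin N)) : (Fin N → R3) ≃ᵐ (Fin N → R3) :=
  MeasurableEquiv.piCongrLeft (fun _ => R3) σ.symm

lemma permME_apply {N : ℕ} (σ : Equiv.Perm (Fin N)) (x : Fin N → R3) :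
    permME σ x = x ∘ σ := by
  funext j
  have h := Equiv.piCongrLeft_apply (fun _ : Fin N => R3) σ.symm x j
  simpa [permME, MeasurableEquiv.coe_piCongrLeft] using h

lemma mp_permME {N : ℕ} (σ : Equiv.Perm (Fin N)) :
    MeasurePreserving (permME σ) (volume : Measure (Fin N → R3)) volume :=
  MeasureTheory.volume_measurePreserving_piCongrLeft (fun _ => R3) σ.symm

lemma integral_perm {N : ℕ} (σ : Equiv.Perm (Fin N)) {E : Type*} [NormedAddCommGroup E]
    [NormedSpace ℝ E] (F : (Fin N → R3) → E) : ∫ x, F (x ∘ σ) = ∫ x, F x := by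
  have h := (mp_permME σ).integral_comp (permME σ).measurableEmbedding F
  simpa only [permME_apply] using h

lemma mp_perm {N : ℕ} (σ : Equiv.Perm (Fin N)) :
    MeasurePreserving (fun x : Fin N → R3 => x ∘ σ) volume volume := by
  have h := mp_permME σ
  have he : (permME σ : (Fin N → R3) → (Fin N → R3)) = fun x => x ∘ σ := by
    funext x; exact permME_apply σ x
  rwa [he] at h

/-- Permutation of the electrons as a continuous linear map. -/
def permL {N : ℕ} (σ : Equiv.Perm (Fin N)) : (Fin N → R3) →L[ℝ] (Fin N → R3) :=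
  ContinuousLinearMap.pi fun j => ContinuousLinearMap.proj (σ j)

lemma permL_apply {N : ℕ} (σ : Equiv.Perm (Fin N)) (x : Fin N → R3) :
    permL σ x = x ∘ σ := rfl

lemma perm_axisDir {N : ℕ} (σ : Equiv.Perm (Fin N)) (i : Fin N) (k : Fin 3) :
    (axisDir (σ i) k : Fin N → R3) ∘ σ = axisDir i k := by
  funext j
  by_cases h : j = i
  · subst h; simp [axisDir]
  · have h' : σ j ≠ σ i := fun hh => h (σ.injective hh)
    simp [axisDir, Pi.single_eq_of_ne, h, h']

/-- Uniqueness of weak derivatives. -/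
lemma weak_unique {N : ℕ} {e : Fin N → R3} {f f' g g' : (Fin N → R3) → ℂ}
    (h : IsWeakDeriv e f g) (h' : IsWeakDeriv e f' g') (hf : f =ᵐ[volume] f')
    (hg : MemLp g 2 volume) (hg' : MemLp g' 2 volume) : g =ᵐ[volume] g' := by
  apply ae_eq_of_integral_contDiff_smul_eq (hg.locallyIntegrable (by norm_num))
    (hg'.locallyIntegrable (by norm_num))
  intro φ hφ hc
  have h1 := h φ hφ hc
  have h2 := h' φ hφ hc
  have h3 : ∫ x, ((fderiv ℝ φ x e : ℝ) : ℂ) * f x = ∫ x, ((fderiv ℝ φ x e : ℝ) : ℂ) * f' x := by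
    apply integral_congr_ae
    filter_upwards [hf] with x hx
    rw [hx]
  rw [h1, h2] at h3
  have h4 := neg_injective h3
  simpa only [Complex.real_smul] using h4

/-- Transport of a weak derivative by a permutation of the electrons. -/
lemma weak_perm {N : ℕ} (σ : Equiv.Perm (Fin N)) (i : Fin N) (k : Fin 3)
    {f g : (Fin N → R3) → ℂ} (h : IsWeakDeriv (axisDir i k) f g) :
    IsWeakDeriv (axisDir (σ i) k) (fun x => f (x ∘ σ)) (fun x => g (x ∘ σ)) := by
  intro φ hφ hc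
  set ψ : (Fin N → R3) → ℝ := fun y => φ (permL σ.symm y) with hψ
  have hψs : ContDiff ℝ ∞ ψ := hφ.comp (permL σ.symm).contDiff
  have hinv : ∀ x : Fin N → R3, permL σ.symm (x ∘ σ) = x := by
    intro x; funext j; simp [permL_apply]
  have hinv' : ∀ x : Fin N → R3, permL σ (permL σ.symm x) = x := by
    intro x; funext j; simp [permL_apply]
  have hψc : HasCompactSupport ψ := by
    let H : (Fin N → R3) ≃ₜ (Fin N → R3) :=
      { toFun := fun x => permL σ.symm x
        invFun := fun x => permL σ x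
        left_inv := hinv'
        right_inv := hinv
        continuous_toFun := (permL σ.symm).continuous
        continuous_invFun := (permL σ).continuous }
    have hemb : Topology.IsClosedEmbedding (permL σ.symm : (Fin N → R3) → (Fin N → R3)) :=
      H.isClosedEmbedding
    exact hc.comp_isClosedEmbedding hemb
  have hd : ∀ x : Fin N → R3, fderiv ℝ φ x (axisDir (σ i) k)
      = fderiv ℝ ψ (x ∘ σ) (axisDir i k) := by
    intro x
    have h1 : DifferentiableAt ℝ φ (permL σ.symm (x ∘ σ)) :=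
      (hφ.differentiable (by norm_num)).differentiableAt
    have h2 : fderiv ℝ ψ (x ∘ σ) = (fderiv ℝ φ (permL σ.symm (x ∘ σ))).comp (permL σ.symm) := by
      have h3 := fderiv_comp (x ∘ σ) h1 (permL σ.symm).differentiableAt
      rw [ContinuousLinearMap.fderiv] at h3
      exact h3
    rw [h2, hinv x, ContinuousLinearMap.comp_apply]
    congr 1
    have h4 := perm_axisDir σ i k
    rw [← h4, hinv]
  have h1 := h ψ hψs hψc
  have e1 : ∫ x, ((fderiv ℝ φ x (axisDir (σ i) k) : ℝ) : ℂ) * f (x ∘ σ)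
      = ∫ x, ((fderiv ℝ ψ x (axisDir i k) : ℝ) : ℂ) * f x := by
    rw [← integral_perm σ (fun x => ((fderiv ℝ ψ x (axisDir i k) : ℝ) : ℂ) * f x)]
    congr 1
    funext x
    rw [hd x]
  have e2 : ∫ x, ((φ x : ℝ) : ℂ) * g (x ∘ σ) = ∫ x, ((ψ x : ℝ) : ℂ) * g x := by
    rw [← integral_perm σ (fun x => ((ψ x : ℝ) : ℂ) * g x)]
    congr 1
    funext x
    simp only [hψ]
    rw [hinv x]
  rw [e1, e2]
  exact h1

/-- Derivatives of an electron state in different electrons. -/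
lemma grad_perm {N : ℕ} (Φ : ElectronState N) (σ : Equiv.Perm (Fin N)) (s : Fin N → Fin 2)
    (i : Fin N) (k : Fin 3) :
    ∫ x, ‖Φ.grad s (σ i) k x‖ ^ 2 = ∫ x, ‖Φ.grad (s ∘ σ) i k x‖ ^ 2 := by
  have h1 := weak_perm σ i k (Φ.grad_weak (s ∘ σ) i k)
  set c : ℂ := ((Equiv.Perm.sign σ : ℤ) : ℂ) with hc
  have h2 : IsWeakDeriv (axisDir (σ i) k) (fun x => c * Φ.amp s x)
      (fun x => c * Φ.grad s (σ i) k x) := by
    intro φ hφ hcs
    have h3 := Φ.grad_weak s (σ i) k φ hφ hcs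
    have e1 : ∀ x, ((fderiv ℝ φ x (axisDir (σ i) k) : ℝ) : ℂ) * (c * Φ.amp s x)
        = c * (((fderiv ℝ φ x (axisDir (σ i) k) : ℝ) : ℂ) * Φ.amp s x) := fun x => by ring
    have e2 : ∀ x, ((φ x : ℝ) : ℂ) * (c * Φ.grad s (σ i) k x)
        = c * (((φ x : ℝ) : ℂ) * Φ.grad s (σ i) k x) := fun x => by ring
    simp only [e1, e2]
    rw [integral_const_mul, integral_const_mul, h3]
    ring
  have hm1 : MemLp (fun x => Φ.grad (s ∘ σ) i k (x ∘ σ)) 2 volume :=
    (Φ.grad_memLp (s ∘ σ) i k).comp_measurePreserving (mp_perm σ)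
  have hm2 : MemLp (fun x => c * Φ.grad s (σ i) k x) 2 volume :=
    (Φ.grad_memLp s (σ i) k).const_mul c
  have h4 := weak_unique h1 h2 (Φ.antisymm σ s) hm1 hm2
  have hcn : ‖c‖ = 1 := by
    rcases Int.units_eq_one_or (Equiv.Perm.sign σ) with hs | hs <;> simp [hc, hs]
  rw [← integral_perm σ (fun x => ‖Φ.grad (s ∘ σ) i k x‖ ^ 2)]
  apply integral_congr_ae
  filter_upwards [h4] with x hx
  rw [hx, norm_mul, hcn, one_mul]

/-- KD5. Kinetic energy in terms of the first electron. -/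
theorem kinetic_state {n : ℕ} (Φ : ElectronState (n + 1)) :
    (∑ s, ∑ i, ∑ k, ∫ x, ‖Φ.grad s i k x‖ ^ 2) =
      (n + 1 : ℝ) * ∑ s, ∑ k, ∫ x, ‖Φ.grad s 0 k x‖ ^ 2 := by
  have h1 : ∀ i : Fin (n + 1), (∑ s, ∑ k, ∫ x, ‖Φ.grad s i k x‖ ^ 2)
      = ∑ s, ∑ k, ∫ x, ‖Φ.grad s 0 k x‖ ^ 2 := by
    intro i
    set σ : Equiv.Perm (Fin (n + 1)) := Equiv.swap 0 i with hσ
    have hσi : σ 0 = i := Equiv.swap_apply_left 0 i
    have h2 : ∀ s : Fin (n + 1) → Fin 2, (∑ k, ∫ x, ‖Φ.grad s i k x‖ ^ 2)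
        = ∑ k, ∫ x, ‖Φ.grad (s ∘ σ) 0 k x‖ ^ 2 := by
      intro s
      apply Finset.sum_congr rfl
      intro k _
      have := grad_perm Φ σ s 0 k
      rw [hσi] at this
      exact this
    simp only [h2]
    exact Fintype.sum_equiv (Equiv.arrowCongr σ.symm (Equiv.refl (Fin 2)))
      _ (fun s => ∑ k, ∫ x, ‖Φ.grad s 0 k x‖ ^ 2) (fun s => rfl)
  rw [Finset.sum_comm]
  simp only [h1, Finset.sum_const, Finset.card_univ, Fintype.card_fin, nsmul_eq_mul]
  push_cast
  rfl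

end

end Vale.Agent.P363.KD
end
end

section

section

namespace Vale.Agent.P363.KX

open MeasureTheory Set Filter Topology
open scoped ENNReal ContDiff

noncomputable section

/-! Mollification of the logarithm: derivatives. -/

variable {v : R3 → ℝ} {e : ℝ} {φ H : R3 → ℝ} {g : Fin 3 → R3 → ℝ}

lemma X11_conv_eq (ψ H : R3 → ℝ) : (fun x : R3 => ∫ y, ψ (x - y) * H y) =
    convolution ψ H (ContinuousLinearMap.mul ℝ ℝ) volume := by
  funext x
  have h := integral_sub_left_eq_self (fun t : R3 => ψ t * H (x - t)) volume x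
  simp only [convolution_def, ContinuousLinearMap.mul_apply']
  rw [← h]
  simp only [sub_sub_cancel]

lemma X11_contDiff {ψ : R3 → ℝ} (hψ : ContDiff ℝ ∞ ψ) (hc : HasCompactSupport ψ)
    (hH : LocallyIntegrable H volume) : ContDiff ℝ ∞ (fun x : R3 => ∫ y, ψ (x - y) * H y) := by
  rw [X11_conv_eq]
  exact hc.contDiff_convolution_left _ hψ hH

lemma X11_pd {ψ : R3 → ℝ} (hψ : ContDiff ℝ ∞ ψ) (hc : HasCompactSupport ψ)
    (hH : LocallyIntegrable H volume) (k : Fin 3) (x : R3) :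
    pd k (fun x : R3 => ∫ y, ψ (x - y) * H y) x = ∫ y, pd k ψ (x - y) * H y := by
  have hψ1 : ContDiff ℝ 1 ψ := hψ.of_le (by exact_mod_cast le_top)
  have h1 := hc.hasFDerivAt_convolution_left (ContinuousLinearMap.mul ℝ ℝ) hψ1 hH x
  have h2 : Integrable (fun t : R3 =>
      ((ContinuousLinearMap.mul ℝ ℝ).precompL R3) (fderiv ℝ ψ t) (H (x - t))) := by
    have h3 : ConvolutionExistsAt (fderiv ℝ ψ) H x
        ((ContinuousLinearMap.mul ℝ ℝ).precompL R3) volume :=
      (hc.fderiv ℝ).convolutionExists_left _ (hψ1.continuous_fderiv (by norm_num)) hH x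
    exact h3
  unfold pd
  rw [X11_conv_eq, h1.fderiv]
  have h4 : (convolution (fderiv ℝ ψ) H ((ContinuousLinearMap.mul ℝ ℝ).precompL R3) volume x)
      (dir3 k) = ∫ t, fderiv ℝ ψ t (dir3 k) * H (x - t) := by
    rw [convolution_def, ContinuousLinearMap.integral_apply h2]
    rfl
  rw [h4, ← integral_sub_left_eq_self (fun t : R3 => fderiv ℝ ψ t (dir3 k) * H (x - t)) volume x]
  simp only [sub_sub_cancel]

lemma X11_pd_rho_contDiff (k : Fin 3) : ContDiff ℝ ∞ (fun y => pd k rho y) := by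
  unfold pd
  exact (rho_contDiff.fderiv_right (m := ∞) (by simp)).clm_apply contDiff_const

lemma X11_pd_rho_hcs (k : Fin 3) : HasCompactSupport (fun y => pd k rho y) := by
  unfold pd
  exact rho_hasCompactSupport.fderiv_apply ℝ (dir3 k)

lemma moll_contDiff (hH : LocallyIntegrable H volume) : ContDiff ℝ ∞ (moll H) :=
  X11_contDiff rho_contDiff rho_hasCompactSupport hH

lemma moll_pd (hH : LocallyIntegrable H volume) (k : Fin 3) (x : R3) :
    pd k (moll H) x = ∫ y, pd k rho (x - y) * H y :=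
  X11_pd rho_contDiff rho_hasCompactSupport hH k x

lemma X11_tsupport (x : R3) (hx : 3 / 4 < x 0) : tsupport (th x) ⊆ Om (1 / 2) := by
  intro y hy
  have h1 : x 0 - 1 / 4 ≤ y 0 := (tsupport_th x hy).1
  change (1 / 2 : ℝ) < y 0
  linarith only [hx, h1]

lemma moll_pd_g (hL : LogOut (1 / 2) v e φ H g) (k : Fin 3) {x : R3} (hx : 3 / 4 < x 0) :
    pd k (moll H) x = ∫ y, th x y * g k y := by
  rw [moll_pd hL.locH]
  have h := hL.deriv (th x) (th_contDiff x) (th_hasCompactSupport x) (X11_tsupport x hx) k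
  simp only [pd_th] at h
  simp only [neg_mul, integral_neg] at h
  linarith only [h]

lemma moll_pd2_g (hL : LogOut (1 / 2) v e φ H g) (k : Fin 3) {x : R3} (hx : 3 / 4 < x 0) :
    pd k (pd k (moll H)) x = - ∫ y, pd k (th x) y * g k y := by
  have e1 : pd k (moll H) = fun x => ∫ y, pd k rho (x - y) * H y := by
    funext x
    exact moll_pd hL.locH k x
  have e2 : pd k (pd k (moll H)) x = ∫ y, pd k (fun z => pd k rho z) (x - y) * H y := by
    rw [e1]
    exact X11_pd (X11_pd_rho_contDiff k) (X11_pd_rho_hcs k) hL.locH k x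
  rw [e2]
  -- the test function
  have hs : tsupport (fun y => pd k (th x) y) ⊆ Om (1 / 2) := by
    unfold pd
    exact (tsupport_fderiv_apply_subset ℝ (dir3 k)).trans (X11_tsupport x hx)
  have hc : HasCompactSupport (fun y => pd k (th x) y) := by
    unfold pd
    exact (th_hasCompactSupport x).fderiv_apply ℝ (dir3 k)
  have hd : ContDiff ℝ ∞ (fun y => pd k (th x) y) := by
    unfold pd
    exact ((th_contDiff x).fderiv_right (m := ∞) (by simp)).clm_apply contDiff_const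
  have h := hL.deriv (fun y => pd k (th x) y) hd hc hs k
  rw [← h]
  congr 1
  funext y
  have h1 : HasFDerivAt (fun z => pd k rho z) (fderiv ℝ (fun z => pd k rho z) (x - y)) (x - y) :=
    ((X11_pd_rho_contDiff k).differentiable (by simp) _).hasFDerivAt
  have h2 : HasFDerivAt (fun y : R3 => x - y) (-(ContinuousLinearMap.id ℝ R3)) y :=
    (hasFDerivAt_id y).const_sub x
  have h3 : HasFDerivAt (fun y => pd k (th x) y)
      (-((fderiv ℝ (fun z => pd k rho z) (x - y)).comp (-(ContinuousLinearMap.id ℝ R3)))) y := by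
    have h4 := (h1.comp y h2).neg
    have h5 : (fun y => pd k (th x) y) = -((fun z => pd k rho z) ∘ fun y : R3 => x - y) := by
      funext y
      rw [pd_th]
      rfl
    rw [h5]
    exact h4
  have h6 : pd k (fun y => pd k (th x) y) y = pd k (fun z => pd k rho z) (x - y) := by
    rw [pd, h3.fderiv, pd]
    simp only [ContinuousLinearMap.comp_neg, ContinuousLinearMap.comp_id, neg_neg]
  rw [h6]

end

end Vale.Agent.P363.KX
end
end

section

section

namespace Vale.Agent.P363.KX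

open MeasureTheory Set Filter Topology
open scoped ENNReal ContDiff

noncomputable section

/-! Upper bound for the average of the logarithm over the thin slab. -/

/-- `2 log t ≤ t² / A - 1 + log A`. -/
lemma two_log_le {t A : ℝ} (ht : 0 < t) (hA : 0 < A) :
    2 * Real.log t ≤ t ^ 2 / A - 1 + Real.log A := by
  have h1 : Real.log (t ^ 2 / A) ≤ t ^ 2 / A - 1 :=
    Real.log_le_sub_one_of_pos (div_pos (pow_pos ht 2) hA)
  rw [Real.log_div (pow_pos ht 2).ne' hA.ne', Real.log_pow] at h1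
  push_cast at h1
  linarith only [h1]

theorem slab_upper {v : R3 → ℝ} {e : ℝ} {φ H : R3 → ℝ} {g : Fin 3 → R3 → ℝ} {n : R3 → ℝ}
    (hL : LogOut (1 / 2) v e φ H g) (hφ : MemLp φ 2 volume) (hni : Integrable n volume)
    (hn0 : ∀ᵐ x : R3, 0 ≤ n x) (hle : ∃ C : ℝ, ∀ᵐ x : R3, φ x ^ 2 ≤ C * n x) {κ p : ℝ}
    (hslab : ∃ R1 C : ℝ, ∀ r : ℝ, R1 < r →
      ∫ x in {x : R3 | |x 0 - r| < 1 ∧ |x 1| < 1 ∧ |x 2| < r ^ (-4 : ℝ)}, n x ≤
        C * r ^ (-4 : ℝ) * (r ^ p * Real.exp (-(κ * r))) ^ 2) :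
    ∃ R C : ℝ, 0 < R ∧ ∀ r : ℝ, R ≤ r →
      ∫ y, ker r (r ^ (-4 : ℝ)) y * H y ≤ p * Real.log r - κ * r + C := by
  obtain ⟨C0, hC0⟩ := hle
  obtain ⟨R1, C1, hS⟩ := hslab
  obtain ⟨K, hK, hKb⟩ := ker_bound
  set c0 : ℝ := |C0| + 1 with hc0
  set c1 : ℝ := |C1| + 1 with hc1
  have hc0p : 0 < c0 := by positivity
  have hc1p : 0 < c1 := by (clear * -; positivity)
  refine ⟨max 2 (R1 + 1), (1 / 2) * Real.log (K * c0 * c1), lt_max_of_lt_left (by norm_num), ?_⟩
  intro r hr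
  have hr2 : 2 ≤ r := (le_max_left _ _).trans hr
  have hrR : R1 < r := by
    have := (le_max_right 2 (R1 + 1)).trans hr
    linarith only [this]
  have hr0 : 0 < r := by linarith only [hr2]
  set ε : ℝ := r ^ (-4 : ℝ) with hεd
  have hε : 0 < ε := Real.rpow_pos_of_pos hr0 _
  set E : ℝ := r ^ p * Real.exp (-(κ * r)) with hE
  have hEp : 0 < E := mul_pos (Real.rpow_pos_of_pos hr0 _) (Real.exp_pos _)
  set S : Set R3 := {x : R3 | |x 0 - r| < 1 ∧ |x 1| < 1 ∧ |x 2| < ε} with hSd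
  have hSn : ∫ x in S, n x ≤ c1 * ε * E ^ 2 := by
    refine (hS r hrR).trans ?_
    have h1 : C1 ≤ c1 := by
      have := le_abs_self C1
      linarith only [this, hc1]
    have h2 : 0 ≤ ε * E ^ 2 := by positivity
    have h3 := mul_le_mul_of_nonneg_right h1 h2
    calc C1 * ε * E ^ 2 = C1 * (ε * E ^ 2) := by ring
      _ ≤ c1 * (ε * E ^ 2) := h3
      _ = c1 * ε * E ^ 2 := by ring
  have hSm : MeasurableSet S := by
    have h0 : IsOpen {x : R3 | |x 0 - r| < 1} :=
      isOpen_lt (by fun_prop) continuous_const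
    have h1 : IsOpen {x : R3 | |x 1| < 1} := isOpen_lt (by fun_prop) continuous_const
    have h2 : IsOpen {x : R3 | |x 2| < ε} := isOpen_lt (by fun_prop) continuous_const
    exact (h0.inter (h1.inter h2)).measurableSet
  set k : R3 → ℝ := ker r ε with hkd
  have hkc : Continuous k := (ker_contDiff r ε).continuous
  have hks : HasCompactSupport k := ker_hasCompactSupport hε
  have hk0 : ∀ y, 0 ≤ k y := ker_nonneg hε
  have hk1 : ∫ y, k y = 1 := ker_integral hε
  have hki : Integrable k volume := hkc.integrable_of_hasCompactSupport hks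
  have hφ2 : Integrable (fun y => φ y ^ 2) volume := hφ.integrable_sq
  have hkφ : Integrable (fun y => k y * φ y ^ 2) volume := by
    have := hφ2.locallyIntegrable.integrable_smul_left_of_hasCompactSupport hkc hks
    simpa only [smul_eq_mul] using this
  have hkH : Integrable (fun y => k y * H y) volume := by
    have := hL.locH.integrable_smul_left_of_hasCompactSupport hkc hks
    simpa only [smul_eq_mul] using this
  set A : ℝ := K * c0 * c1 * E ^ 2 with hA
  have hAp : 0 < A := by (clear * - hK hr2; positivity)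
  -- the integral of `k φ²`
  have hint : ∫ y, k y * φ y ^ 2 ≤ A := by
    have hle1 : ∀ᵐ y, k y * φ y ^ 2 ≤ S.indicator (fun y => K / ε * c0 * n y) y := by
      filter_upwards [hC0, hn0] with y hy hy0
      by_cases hyS : y ∈ S
      · rw [indicator_of_mem hyS]
        have h1 : φ y ^ 2 ≤ c0 * n y := by
          refine hy.trans (mul_le_mul_of_nonneg_right ?_ hy0)
          have := le_abs_self C0
          linarith only [this, hc0]
        have h2 : k y ≤ K / ε := hKb r ε hε y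
        calc k y * φ y ^ 2 ≤ K / ε * (c0 * n y) :=
              mul_le_mul h2 h1 (sq_nonneg _) (by positivity)
          _ = K / ε * c0 * n y := by ring
      · rw [indicator_of_notMem hyS]
        have : k y = 0 := by
          by_contra hne
          obtain ⟨h0, h1, h2⟩ := ker_ne_zero hε hne
          exact hyS ⟨by linarith only [h0], by linarith only [h1], h2⟩
        rw [this, zero_mul]
    have hi : Integrable (S.indicator (fun y => K / ε * c0 * n y)) volume :=
      (hni.const_mul _).indicator hSm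
    calc ∫ y, k y * φ y ^ 2 ≤ ∫ y, S.indicator (fun y => K / ε * c0 * n y) y :=
          integral_mono_ae hkφ hi hle1
      _ = K / ε * c0 * ∫ y in S, n y := by
          rw [integral_indicator hSm, integral_const_mul]
      _ ≤ K / ε * c0 * (c1 * ε * E ^ 2) :=
          mul_le_mul_of_nonneg_left hSn (by (clear * - hK hr2; positivity))
      _ = A := by
          rw [hA]; (clear * - hε hEp hc1p hc0p hK; field_simp)
  -- pointwise bound
  have hpt : ∀ᵐ y, k y * H y ≤ (1 / 2) * ((1 / A) * (k y * φ y ^ 2) - k y + Real.log A * k y) := by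
    filter_upwards [hL.pos] with y hy
    by_cases hky : k y = 0
    · rw [hky]; simp
    · obtain ⟨h0, -, -⟩ := ker_ne_zero hε hky
      have hyO : y ∈ Om (1 / 2) := by
        change (1 / 2 : ℝ) < y 0
        have := (abs_lt.mp h0).1
        linarith only [this, hr2]
      obtain ⟨hp, hH⟩ := hy hyO
      have h1 := mul_le_mul_of_nonneg_left (two_log_le hp hAp) (hk0 y)
      rw [hH]
      have h2 : k y * (φ y ^ 2 / A - 1 + Real.log A) =
          (1 / A) * (k y * φ y ^ 2) - k y + Real.log A * k y := by ring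
      rw [h2] at h1
      linarith only [h1]
  have hi2 : Integrable (fun y => (1 / 2) * ((1 / A) * (k y * φ y ^ 2) - k y +
      Real.log A * k y)) volume :=
    (((hkφ.const_mul _).sub hki).add (hki.const_mul _)).const_mul _
  have hmono := integral_mono_ae hkH hi2 hpt
  have hcalc : ∫ y, (1 / 2) * ((1 / A) * (k y * φ y ^ 2) - k y + Real.log A * k y) =
      (1 / 2) * ((1 / A) * (∫ y, k y * φ y ^ 2) - 1 + Real.log A) := by
    rw [integral_const_mul, integral_add, integral_sub, integral_const_mul, integral_const_mul,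
      hk1, mul_one]
    · exact hkφ.const_mul _
    · exact hki
    · exact (hkφ.const_mul _).sub hki
    · exact hki.const_mul _
  rw [hcalc] at hmono
  have hA1 : (1 / A) * (∫ y, k y * φ y ^ 2) ≤ 1 := by
    rw [one_div, inv_mul_le_iff₀ hAp, mul_one]
    exact hint
  have hlogA : Real.log A = Real.log (K * c0 * c1) + 2 * (p * Real.log r - κ * r) := by
    rw [hA, Real.log_mul (by (clear * - hK; positivity)) (by positivity), Real.log_pow, hE,
      Real.log_mul (Real.rpow_pos_of_pos hr0 _).ne' (Real.exp_pos _).ne', Real.log_rpow hr0,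
      Real.log_exp]
    push_cast
    ring
  rw [hlogA] at hmono
  linarith only [hmono, hA1]

end

end Vale.Agent.P363.KX
end
end

section

section

/-!
# P363, block X: core of the weak comparison principle
-/

namespace Vale.Agent.P363.D

open MeasureTheory Set Filter Topology
open scoped ENNReal ContDiff

noncomputable section

/-- Product of a function which is square integrable on `Ω` with an `Ω`-supported one. -/
theorem XCore_int_ind {Ω : Set R3} {f h : R3 → ℝ} (hf : MemLp (Ω.indicator f) 2 volume)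
    (hh : MemLp (Ω.indicator h) 2 volume) :
    Integrable (fun x => f x * Ω.indicator h x) volume := by
  have h1 := hf.integrable_mul hh
  refine h1.congr (Eventually.of_forall fun x => ?_)
  simp only [Pi.mul_apply]
  by_cases hx : x ∈ Ω
  · rw [indicator_of_mem hx, indicator_of_mem hx]
  · rw [indicator_of_notMem hx, indicator_of_notMem hx]; simp

/-- XCore. Weak comparison, once the truncated difference is known to be an `H¹` function. -/
theorem compare_core {Ω : Set R3} (hΩ : MeasurableSet Ω) {V f u b : R3 → ℝ}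
    {ug : Fin 3 → R3 → ℝ} (hu : H1o u ug) (hb : Barr b) (hVm : Measurable V) {K : ℝ}
    (hVK : ∀ x ∈ Ω, |V x| ≤ K) (hV0 : ∀ x ∈ Ω, 0 < V x) (hf : MemLp (Ω.indicator f) 2 volume)
    (hh : H1o (Ω.indicator (fun x => gf (u x - b x)))
      (fun k => Ω.indicator (fun x => gf' (u x - b x) * (ug k x - pdv k b x))))
    (hweak : (1 / 2) * (∑ k, ∫ x, ug k x *
        Ω.indicator (fun x => gf' (u x - b x) * (ug k x - pdv k b x)) x) +
      ∫ x, V x * u x * Ω.indicator (fun x => gf (u x - b x)) x ≤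
      ∫ x, f x * Ω.indicator (fun x => gf (u x - b x)) x)
    (hclass : ∀ᵐ x : R3, x ∈ Ω → f x ≤ -(1 / 2) * lap b x + V x * b x) :
    ∀ᵐ x : R3, x ∈ Ω → u x ≤ b x := by
  set h : R3 → ℝ := Ω.indicator (fun x => gf (u x - b x)) with hdef
  set hg : Fin 3 → R3 → ℝ :=
    fun k => Ω.indicator (fun x => gf' (u x - b x) * (ug k x - pdv k b x)) with hgdef
  have h0 : ∀ x, 0 ≤ h x := fun x => by
    simp only [hdef]; exact indicator_nonneg (fun y _ => gf_nonneg _) x
  -- bounded potential times L2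
  have hVu : ∀ w : R3 → ℝ, MemLp w 2 volume →
      Integrable (fun x => V x * w x * h x) volume := by
    intro w hw
    have h1 : Integrable (fun x => w x * h x) volume := hw.integrable_mul hh.memLp
    have h2 : Integrable (fun x => Ω.indicator V x * (w x * h x)) volume := by
      refine h1.bdd_mul (c := |K|) (hVm.indicator hΩ).aestronglyMeasurable ?_
      refine Eventually.of_forall fun x => ?_
      by_cases hx : x ∈ Ω
      · rw [indicator_of_mem hx, Real.norm_eq_abs]; exact (hVK x hx).trans (le_abs_self _)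
      · rw [indicator_of_notMem hx]; simp
    refine h2.congr (Eventually.of_forall fun x => ?_)
    by_cases hx : x ∈ Ω
    · simp only [hdef, indicator_of_mem hx]; ring
    · simp only [hdef, indicator_of_notMem hx]; ring
  have hVuI := hVu u hu.memLp
  have hVbI := hVu b hb.memLp
  have hfI : Integrable (fun x => f x * h x) volume := XCore_int_ind hf hh.memLp
  obtain ⟨hibp, hlapI, hpdI⟩ := hb.ibp hh
  have hugI : ∀ k, Integrable (fun x => ug k x * hg k x) volume :=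
    fun k => (hu.memLp' k).integrable_mul (hh.memLp' k)
  -- classical inequality integrated
  have hcl : ∫ x, f x * h x ≤ (1 / 2) * (∑ k, ∫ x, pdv k b x * hg k x) +
      ∫ x, V x * b x * h x := by
    have e1 : (1 / 2) * (∑ k, ∫ x, pdv k b x * hg k x) + ∫ x, V x * b x * h x =
        ∫ x, (-(1 / 2) * (lap b x * h x) + V x * b x * h x) := by
      rw [integral_add (hlapI.const_mul _) hVbI, integral_const_mul, hibp]; ring
    rw [e1]
    refine integral_mono_ae hfI ((hlapI.const_mul _).add hVbI) ?_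
    filter_upwards [hclass] with x hx
    by_cases hxΩ : x ∈ Ω
    · have := mul_le_mul_of_nonneg_right (hx hxΩ) (h0 x)
      linarith only [this]
    · have hz : h x = 0 := by simp only [hdef, indicator_of_notMem hxΩ]
      simp [hz]
  have hgr : ∀ k, 0 ≤ (∫ x, ug k x * hg k x) - ∫ x, pdv k b x * hg k x := by
    intro k
    rw [← integral_sub (hugI k) (hpdI k)]
    refine integral_nonneg fun x => ?_
    show 0 ≤ ug k x * hg k x - pdv k b x * hg k x
    by_cases hxΩ : x ∈ Ω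
    · simp only [hgdef, indicator_of_mem hxΩ]
      have := mul_nonneg (gf'_nonneg (u x - b x)) (sq_nonneg (ug k x - pdv k b x))
      nlinarith only [this]
    · simp only [hgdef, indicator_of_notMem hxΩ]; simp
  have hsum : 0 ≤ (∑ k, ∫ x, ug k x * hg k x) - ∑ k, ∫ x, pdv k b x * hg k x := by
    rw [← Finset.sum_sub_distrib]; exact Finset.sum_nonneg fun k _ => hgr k
  have hle : (∫ x, V x * u x * h x) - ∫ x, V x * b x * h x ≤ 0 := by
    linarith
  rw [← integral_sub hVuI hVbI] at hle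
  have hnn : ∀ x, 0 ≤ V x * u x * h x - V x * b x * h x := by
    intro x
    by_cases hxΩ : x ∈ Ω
    · simp only [hdef, indicator_of_mem hxΩ]
      have := mul_nonneg (hV0 x hxΩ).le (mul_gf_nonneg (u x - b x))
      nlinarith only [this]
    · simp only [hdef, indicator_of_notMem hxΩ]; simp
  have hz : ∫ x, (V x * u x * h x - V x * b x * h x) = 0 :=
    le_antisymm hle (integral_nonneg hnn)
  rw [integral_eq_zero_iff_of_nonneg hnn (hVuI.sub hVbI)] at hz
  filter_upwards [hz] with x hx hxΩ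
  simp only [hdef, indicator_of_mem hxΩ, Pi.zero_apply] at hx
  have h3 : V x * ((u x - b x) * gf (u x - b x)) = 0 := by linarith only [hx]
  rcases mul_eq_zero.mp h3 with h4 | h4
  · exact absurd h4 (hV0 x hxΩ).ne'
  · linarith only [nonpos_of_mul_gf h4]

end

end Vale.Agent.P363.D
end
end

section

section

/-!
# P363, block X: functions odd in the third coordinate: trace on the plane
-/

namespace Vale.Agent.P363.D

open MeasureTheory Set Filter Topology
open scoped ENNReal ContDiff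

noncomputable section

lemma XOdd_coord (x : R3) (t : ℝ) : (x + t • dir3 2) 2 = x 2 + t := by
  simp [dir3]

lemma XOdd_coord_other {k : Fin 3} (hk : k ≠ 2) (x : R3) (t : ℝ) :
    (x + t • dir3 k) 2 = x 2 := by
  simp [dir3, hk.symm]

lemma XOdd_refl (x : R3) (t : ℝ) :
    refl 2 (x + t • dir3 2) = x + (-(2 * x 2) - t) • dir3 2 := by
  unfold refl
  rw [XOdd_coord]
  change x + t • dir3 2 - (2 * (x 2 + t)) • dir3 2 = _
  rw [add_sub_assoc, ← sub_smul]
  congr 2
  ring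

lemma XOdd_meas : MeasurableSet {x : R3 | 0 < x 2} :=
  (isOpen_lt continuous_const (by fun_prop)).measurableSet

/-- Integral of a function cut off at `a`. -/
lemma XOdd_cut {c : ℝ} {f : ℝ → ℝ} (hf : LocallyIntegrable f) (a b : ℝ) :
    ∫ s in a..b, (if a < s then f s else 0) = prim c f (max b a) - prim c f a := by
  rcases le_or_gt a b with h | h
  · rw [max_eq_left h, prim_sub hf]
    refine intervalIntegral.integral_congr_ae (Eventually.of_forall fun s hs => ?_)
    rw [uIoc_of_le h] at hs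
    rw [if_pos hs.1]
  · rw [max_eq_right h.le, sub_self]
    have e : ∫ s in a..b, (if a < s then f s else 0) = ∫ _ in a..b, (0 : ℝ) := by
      refine intervalIntegral.integral_congr_ae (Eventually.of_forall fun s hs => ?_)
      rw [uIoc_of_ge h.le] at hs
      rw [if_neg (not_lt.2 hs.2)]
    rw [e]
    simp

/-- The primitive of a function vanishing at `a`, extended by zero to the left of `a`. -/
lemma XOdd_prim {c : ℝ} {f : ℝ → ℝ} (hf : LocallyIntegrable f) {a : ℝ} (h0 : prim c f a = 0)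
    (t : ℝ) : (if a < t then prim c f t else 0) =
      prim (if a < 0 then c else 0) (fun s => if a < s then f s else 0) t := by
  have hg : LocallyIntegrable (fun s => if a < s then f s else 0) := by
    have h1 := hf.indicator (s := Ioi a) measurableSet_Ioi
    refine h1.congr (Eventually.of_forall fun s => ?_)
    simp only [indicator, mem_Ioi]
  have e1 : ∀ b : ℝ, (if a < b then prim c f b else 0) = prim c f (max b a) := by
    intro b
    split_ifs with h
    · rw [max_eq_left h.le]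
    · rw [max_eq_right (not_lt.1 h), h0]
  have e2 : (if a < 0 then c else 0) = prim c f (max 0 a) := by
    rw [← e1 0, prim_zero]
  rw [e1, e2]
  conv_rhs => rw [prim]
  have e3 := intervalIntegral.integral_interval_sub_left (LocInt.ii hg a t) (LocInt.ii hg a 0)
  rw [XOdd_cut (c := c) hf, XOdd_cut (c := c) hf] at e3
  rw [← e3]
  ring

/-- XOdd. The trace of a function odd in the third coordinate vanishes on the plane. -/
theorem odd_line {u u' : R3 → ℝ} (hu : ACL volume (dir3 2) u u')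
    (ho : ∀ᵐ x : R3, u (refl 2 x) = - u x) :
    ∀ᵐ x : R3, prim (u x) (fun s => u' (x + s • dir3 2)) (-(x 2)) = 0 := by
  filter_upwards [hu.locInt, hu.ftc, line_ae (dir3 2) ho] with x h1 h2 h3
  set φ := prim (u x) (fun s => u' (x + s • dir3 2)) with hφ
  have hc : Continuous φ := prim_continuous h1
  have h4 : ∀ᵐ t : ℝ, u (x + (-(2 * x 2) - t) • dir3 2) = φ (-(2 * x 2) - t) :=
    (Measure.measurePreserving_sub_left volume (-(2 * x 2))).quasiMeasurePreserving.ae h2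
  have h5 : (fun t : ℝ => φ (-(2 * x 2) - t)) =ᵐ[volume] fun t => -φ t := by
    filter_upwards [h2, h3, h4] with t h6 h7 h8
    rw [← h8, ← h6, ← h7, XOdd_refl]
  have h6 := (Continuous.ae_eq_iff_eq volume (hc.comp (continuous_const.sub continuous_id))
    hc.neg).1 h5
  have h7 : φ (-(2 * x 2) - -(x 2)) = -φ (-(x 2)) := congrFun h6 (-(x 2))
  have e : -(2 * x 2) - -(x 2) = -(x 2) := by ring
  rw [e] at h7
  linarith

/-- XOdd. Extension by zero through the plane. -/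
theorem acl_half {w w' : R3 → ℝ} (hw : ACL volume (dir3 2) w w')
    (h0 : ∀ᵐ x : R3, prim (w x) (fun s => w' (x + s • dir3 2)) (-(x 2)) = 0) :
    ACL volume (dir3 2) ({x : R3 | 0 < x 2}.indicator w) ({x : R3 | 0 < x 2}.indicator w') := by
  have hm := XOdd_meas
  have key : ∀ (v : R3 → ℝ) (x : R3) (t : ℝ),
      {x : R3 | 0 < x 2}.indicator v (x + t • dir3 2) =
        if -(x 2) < t then v (x + t • dir3 2) else 0 := by
    intro v x t
    simp only [indicator, mem_ofPred_eq, XOdd_coord]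
    refine if_congr ?_ rfl rfl
    constructor <;> intro h <;> linarith
  refine ⟨hw.meas.indicator hm, hw.meas'.indicator hm, ?_, ?_⟩
  · filter_upwards [hw.locInt] with x h1
    have h2 := h1.indicator (s := Ioi (-(x 2))) measurableSet_Ioi
    refine h2.congr (Eventually.of_forall fun t => ?_)
    refine Eq.trans ?_ (key w' x t).symm
    simp only [indicator, mem_Ioi]
  · filter_upwards [hw.locInt, hw.ftc, h0] with x h1 h2 h3
    filter_upwards [h2] with t h4
    have h5 := XOdd_prim h1 h3 t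
    have h6 : {x : R3 | 0 < x 2}.indicator w x = if -(x 2) < 0 then w x else 0 := by
      have := key w x 0
      simpa only [Fin.isValue, Left.neg_neg_iff, zero_smul, add_zero] using this
    rw [key, h4, h5, h6]
    simp only [key]

/-- XOdd. The same in the other directions. -/
theorem acl_half_other {k : Fin 3} (hk : k ≠ 2) {w w' : R3 → ℝ} (hw : ACL volume (dir3 k) w w') :
    ACL volume (dir3 k) ({x : R3 | 0 < x 2}.indicator w) ({x : R3 | 0 < x 2}.indicator w') := by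
  have hm := XOdd_meas
  have key : ∀ (v : R3 → ℝ) (x : R3) (t : ℝ),
      {x : R3 | 0 < x 2}.indicator v (x + t • dir3 k) =
        if 0 < x 2 then v (x + t • dir3 k) else 0 := by
    intro v x t
    simp only [indicator, mem_ofPred_eq, XOdd_coord_other hk]
  refine ⟨hw.meas.indicator hm, hw.meas'.indicator hm, ?_, ?_⟩
  · filter_upwards [hw.locInt] with x h1
    simp only [key]
    by_cases h : 0 < x 2
    · simpa only [if_pos h] using h1
    · simp only [if_neg h]
      exact locallyIntegrable_const 0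
  · filter_upwards [hw.ftc] with x h2
    filter_upwards [h2] with t h4
    have h6 : {x : R3 | 0 < x 2}.indicator w x = if 0 < x 2 then w x else 0 := by
      simp only [indicator, mem_ofPred_eq]
    simp only [key]
    rw [h6]
    by_cases h : 0 < x 2
    · simp only [if_pos h]
      exact h4
    · simp only [if_neg h]
      simp [prim]

end

end Vale.Agent.P363.D
end
end

section

section

/-!
# P363, block X: truncation in the exterior of a ball
-/

namespace Vale.Agent.P363.D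

open MeasureTheory Set Filter Topology
open scoped ENNReal ContDiff

noncomputable section

/-- XCut. The truncated difference in the exterior of a ball is an `H¹` function. -/
theorem ext_cut {R : ℝ} (hR : 0 < R) {u b : R3 → ℝ} {ug : Fin 3 → R3 → ℝ} (hu : H1o u ug)
    (hb : Barr b) (hcol : ∀ᵐ x : R3, R < ‖x‖ → ‖x‖ < R + 1 → u x ≤ b x) :
    H1o ({x : R3 | R < ‖x‖}.indicator (fun x => gf (u x - b x)))
      (fun k => {x : R3 | R < ‖x‖}.indicator
        (fun x => gf' (u x - b x) * (ug k x - pdv k b x))) := by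
  -- the smooth cut-off
  let f : ContDiffBump (0 : R3) := ⟨R, R + 1, hR, by linarith⟩
  have hfs : ContDiff ℝ 1 (fun x : R3 => 1 - f x) := contDiff_const.sub f.contDiff
  have hd : ∀ x : R3, DifferentiableAt ℝ (fun x : R3 => 1 - f x) x := fun x =>
    (hfs.differentiable (by norm_num)) x
  have h0 : ∀ x : R3, ‖x‖ ≤ R → f x = 1 := fun x hx =>
    f.one_of_mem_closedBall (by simpa [mem_closedBall_zero_iff] using hx)
  have h1 : ∀ x : R3, R + 1 ≤ ‖x‖ → f x = 0 := fun x hx =>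
    f.zero_of_le_dist (by simpa [dist_zero_right] using hx)
  have g0 : ∀ x : R3, ‖x‖ ≤ R → fderiv ℝ (fun x : R3 => 1 - f x) x = 0 := by
    intro x hx
    refine IsLocalMin.fderiv_eq_zero (Eventually.of_forall fun y => ?_)
    have := f.le_one (x := y)
    simp only [h0 x hx]
    linarith
  have g1 : ∀ x : R3, R + 1 ≤ ‖x‖ → fderiv ℝ (fun x : R3 => 1 - f x) x = 0 := by
    intro x hx
    refine IsLocalMax.fderiv_eq_zero (Eventually.of_forall fun y => ?_)
    have := f.nonneg (x := y)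
    simp only [h1 x hx]
    linarith
  have hS : MeasurableSet {x : R3 | R < ‖x‖} := measurableSet_lt measurable_const measurable_norm
  -- the difference
  have hw2 : MemLp (fun x => u x - b x) 2 volume := hu.memLp.sub hb.memLp
  have hwg2 : ∀ k, MemLp (fun x => ug k x - pdv k b x) 2 volume := fun k =>
    (hu.memLp' k).sub (hb.memLp1 k)
  have hm : AEStronglyMeasurable (fun x => gf (u x - b x)) volume :=
    continuous_gf.comp_aestronglyMeasurable hw2.1
  have hm' : AEStronglyMeasurable (fun x => gf' (u x - b x)) volume :=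
    continuous_gf'.comp_aestronglyMeasurable hw2.1
  have hacl : ∀ k, ACL volume (dir3 k) (fun x => gf (u x - b x))
      (fun x => gf' (u x - b x) * (ug k x - pdv k b x)) := by
    intro k
    have hb1 : ACL volume (dir3 k) b (pdv k b) :=
      ACL.of_contDiff (hb.smooth.of_le (by exact_mod_cast le_top))
    exact ((hu.acl k).sub hb1).comp (Φ := gf) (Φ' := gf') (Ω := univ)
      (fun y _ => hasDerivAt_gf y) continuous_gf'.continuousOn hm hm'
      (Eventually.of_forall fun x t => mem_univ _)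
  refine ⟨?_, ?_, ?_⟩
  · refine MemLp.indicator hS (hw2.mono hm (Eventually.of_forall fun x => ?_))
    rw [Real.norm_eq_abs, abs_of_nonneg (gf_nonneg _)]
    exact gf_le_abs _
  · intro k
    refine MemLp.indicator hS ((hwg2 k).mono (hm'.mul (hwg2 k).1)
      (Eventually.of_forall fun x => ?_))
    rw [norm_mul, Real.norm_eq_abs, abs_of_nonneg (gf'_nonneg _)]
    exact mul_le_of_le_one_left (norm_nonneg _) (gf'_le_one _)
  · intro k
    refine ((ACL.of_contDiff hfs).mul (hacl k)).congr ?_ ?_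
    · filter_upwards [hcol] with x hx
      rcases le_or_gt ‖x‖ R with h | h
      · rw [indicator_of_notMem (by simpa using h), h0 x h]
        ring
      · rw [indicator_of_mem (by simpa using h)]
        rcases lt_or_ge ‖x‖ (R + 1) with h' | h'
        · rw [gf_of_nonpos (by linarith [hx h h'])]
          ring
        · rw [h1 x h']
          ring
    · filter_upwards [hcol] with x hx
      rcases le_or_gt ‖x‖ R with h | h
      · rw [indicator_of_notMem (by simpa using h), g0 x h, h0 x h]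
        simp
      · rw [indicator_of_mem (by simpa using h)]
        rcases lt_or_ge ‖x‖ (R + 1) with h' | h'
        · rw [gf_of_nonpos (by linarith [hx h h']), gf'_of_nonpos (by linarith [hx h h'])]
          ring
        · rw [g1 x h', h1 x h']
          simp

end

end Vale.Agent.P363.D
end
end

section

section

/-!
# P363, block X: truncation in the half space
-/

namespace Vale.Agent.P363.D

open MeasureTheory Set Filter Topology
open scoped ENNReal ContDiff

noncomputable section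

/-- The trace on the plane of the truncated difference times a cut-off vanishes. -/
lemma XHalf_trace {R : ℝ} {u b c : R3 → ℝ} {u' w' : R3 → ℝ} (hu : ACL volume (dir3 2) u u')
    (hbc : Continuous b) (hc : Continuous c) (hc0 : ∀ x : R3, ‖x‖ ≤ R → c x = 0)
    (ho : ∀ᵐ x : R3, u (refl 2 x) = - u x)
    (hb0 : ∀ x : R3, R ≤ ‖x‖ → x 2 = 0 → 0 ≤ b x)
    (hw : ACL volume (dir3 2) (fun x => c x * gf (u x - b x)) w') :
    ∀ᵐ x : R3, prim (c x * gf (u x - b x)) (fun s => w' (x + s • dir3 2)) (-(x 2)) = 0 := by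
  filter_upwards [odd_line hu ho, hu.locInt, hu.ftc, hw.locInt, hw.ftc] with x h0 h1 h2 h3 h4
  have hl : Continuous fun t : ℝ => x + t • dir3 2 := by fun_prop
  have key : prim (c x * gf (u x - b x)) (fun s => w' (x + s • dir3 2)) =
      fun t => c (x + t • dir3 2) *
        gf (prim (u x) (fun s => u' (x + s • dir3 2)) t - b (x + t • dir3 2)) := by
    refine Measure.eq_of_ae_eq (μ := (volume : Measure ℝ)) ?_ (prim_continuous h3)
      ((hc.comp hl).mul (continuous_gf.comp ((prim_continuous h1).sub (hbc.comp hl))))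
    filter_upwards [h2, h4] with t h5 h6
    rw [← h6, ← h5]
  rw [key]
  simp only [h0]
  have hy : (x + (-(x 2)) • dir3 2) 2 = 0 := by rw [XOdd_coord]; ring
  rcases le_or_gt ‖x + (-(x 2)) • dir3 2‖ R with h | h
  · rw [hc0 _ h, zero_mul]
  · rw [gf_of_nonpos (by linarith [hb0 _ h.le hy]), mul_zero]

/-- XHalf. The truncated difference in the half space outside a ball is an `H¹` function. -/
theorem half_cut {R : ℝ} (hR : 0 < R) {u b : R3 → ℝ} {ug : Fin 3 → R3 → ℝ} (hu : H1o u ug)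
    (hb : Barr b) (ho : ∀ᵐ x : R3, u (refl 2 x) = - u x)
    (hb0 : ∀ x : R3, R ≤ ‖x‖ → x 2 = 0 → 0 ≤ b x)
    (hcol : ∀ᵐ x : R3, R < ‖x‖ → ‖x‖ < R + 1 → 0 < x 2 → u x ≤ b x) :
    H1o ({x : R3 | R < ‖x‖ ∧ 0 < x 2}.indicator (fun x => gf (u x - b x)))
      (fun k => {x : R3 | R < ‖x‖ ∧ 0 < x 2}.indicator
        (fun x => gf' (u x - b x) * (ug k x - pdv k b x))) := by
  -- the smooth cut-off
  let f : ContDiffBump (0 : R3) := ⟨R, R + 1, hR, by linarith⟩
  have hfs : ContDiff ℝ 1 (fun x : R3 => 1 - f x) := contDiff_const.sub f.contDiff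
  have h0 : ∀ x : R3, ‖x‖ ≤ R → f x = 1 := fun x hx =>
    f.one_of_mem_closedBall (by simpa only [Metric.mem_closedBall, dist_zero_right] using hx)
  have h1 : ∀ x : R3, R + 1 ≤ ‖x‖ → f x = 0 := fun x hx =>
    f.zero_of_le_dist (by simpa [dist_zero_right] using hx)
  have g0 : ∀ x : R3, ‖x‖ ≤ R → fderiv ℝ (fun x : R3 => 1 - f x) x = 0 := by
    intro x hx
    refine IsLocalMin.fderiv_eq_zero (Eventually.of_forall fun y => ?_)
    have := f.le_one (x := y)
    simp only [h0 x hx]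
    linarith
  have g1 : ∀ x : R3, R + 1 ≤ ‖x‖ → fderiv ℝ (fun x : R3 => 1 - f x) x = 0 := by
    intro x hx
    refine IsLocalMax.fderiv_eq_zero (Eventually.of_forall fun y => ?_)
    have := f.nonneg (x := y)
    simp only [h1 x hx]
    linarith
  have hS : MeasurableSet {x : R3 | R < ‖x‖ ∧ 0 < x 2} :=
    (measurableSet_lt measurable_const measurable_norm).inter XOdd_meas
  -- the difference
  have hw2 : MemLp (fun x => u x - b x) 2 volume := hu.memLp.sub hb.memLp
  have hwg2 : ∀ k, MemLp (fun x => ug k x - pdv k b x) 2 volume := fun k =>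
    (hu.memLp' k).sub (hb.memLp1 k)
  have hm : AEStronglyMeasurable (fun x => gf (u x - b x)) volume :=
    continuous_gf.comp_aestronglyMeasurable hw2.1
  have hm' : AEStronglyMeasurable (fun x => gf' (u x - b x)) volume :=
    continuous_gf'.comp_aestronglyMeasurable hw2.1
  have hacl : ∀ k, ACL volume (dir3 k) (fun x => gf (u x - b x))
      (fun x => gf' (u x - b x) * (ug k x - pdv k b x)) := by
    intro k
    have hb1 : ACL volume (dir3 k) b (pdv k b) :=
      ACL.of_contDiff (hb.smooth.of_le (by exact_mod_cast le_top))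
    exact ((hu.acl k).sub hb1).comp (Φ := gf) (Φ' := gf') (Ω := univ)
      (fun y _ => hasDerivAt_gf y) continuous_gf'.continuousOn hm hm'
      (Eventually.of_forall fun x t => mem_univ _)
  refine ⟨?_, ?_, ?_⟩
  · refine MemLp.indicator hS (hw2.mono hm (Eventually.of_forall fun x => ?_))
    rw [Real.norm_eq_abs, abs_of_nonneg (gf_nonneg _)]
    exact gf_le_abs _
  · intro k
    refine MemLp.indicator hS ((hwg2 k).mono (hm'.mul (hwg2 k).1)
      (Eventually.of_forall fun x => ?_))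
    rw [norm_mul, Real.norm_eq_abs, abs_of_nonneg (gf'_nonneg _)]
    exact mul_le_of_le_one_left (norm_nonneg _) (gf'_le_one _)
  · intro k
    have hw := (ACL.of_contDiff hfs).mul (hacl k)
    have hhalf : ACL volume (dir3 k) ({x : R3 | 0 < x 2}.indicator
        fun x => (1 - f x) * gf (u x - b x)) ({x : R3 | 0 < x 2}.indicator
        fun x => fderiv ℝ (fun x : R3 => 1 - f x) x (dir3 k) * gf (u x - b x) +
          (1 - f x) * (gf' (u x - b x) * (ug k x - pdv k b x))) := by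
      rcases eq_or_ne k 2 with rfl | hk
      · exact acl_half hw ((XHalf_trace (hu.acl 2) hb.smooth.continuous hfs.continuous
          (fun x hx => by rw [h0 x hx, sub_self]) ho hb0 hw :))
      · exact acl_half_other hk hw
    refine hhalf.congr ?_ ?_
    · filter_upwards [hcol] with x hx
      by_cases h2 : 0 < x 2
      · rw [indicator_of_mem (show x ∈ {x : R3 | 0 < x 2} from h2)]
        rcases le_or_gt ‖x‖ R with h | h
        · rw [indicator_of_notMem (show x ∉ {x : R3 | R < ‖x‖ ∧ 0 < x 2} from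
            fun h' => absurd h'.1 (not_lt.2 h)), h0 x h]
          ring
        · rw [indicator_of_mem (show x ∈ {x : R3 | R < ‖x‖ ∧ 0 < x 2} from ⟨h, h2⟩)]
          rcases lt_or_ge ‖x‖ (R + 1) with h' | h'
          · rw [gf_of_nonpos (by linarith [hx h h' h2])]
            ring
          · rw [h1 x h']
            ring
      · rw [indicator_of_notMem (show x ∉ {x : R3 | 0 < x 2} from h2), indicator_of_notMem
          (show x ∉ {x : R3 | R < ‖x‖ ∧ 0 < x 2} from fun h' => h2 h'.2)]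
    · filter_upwards [hcol] with x hx
      by_cases h2 : 0 < x 2
      · rw [indicator_of_mem (show x ∈ {x : R3 | 0 < x 2} from h2)]
        rcases le_or_gt ‖x‖ R with h | h
        · rw [indicator_of_notMem (show x ∉ {x : R3 | R < ‖x‖ ∧ 0 < x 2} from
            fun h' => absurd h'.1 (not_lt.2 h)), g0 x h, h0 x h]
          simp
        · rw [indicator_of_mem (show x ∈ {x : R3 | R < ‖x‖ ∧ 0 < x 2} from ⟨h, h2⟩)]
          rcases lt_or_ge ‖x‖ (R + 1) with h' | h'
          · rw [gf_of_nonpos (by linarith [hx h h' h2]), gf'_of_nonpos (by linarith [hx h h' h2])]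
            ring
          · rw [g1 x h', h1 x h']
            simp
      · rw [indicator_of_notMem (show x ∉ {x : R3 | 0 < x 2} from h2), indicator_of_notMem
          (show x ∉ {x : R3 | R < ‖x‖ ∧ 0 < x 2} from fun h' => h2 h'.2)]

end

end Vale.Agent.P363.D
end
end

section

section

/-!
# P363, block X: the two weak comparison principles
-/

namespace Vale.Agent.P363.D

open MeasureTheory Set Filter Topology
open scoped ENNReal ContDiff

noncomputable section

theorem xcomp_test {ρ R : ℝ} (hρ : ρ ≤ R) {Ω : Set R3} (hΩ : ∀ x ∈ Ω, R < ‖x‖) {u b : R3 → ℝ}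
    {hg : Fin 3 → R3 → ℝ} (hh : H1o (Ω.indicator (fun x => gf (u x - b x))) hg) :
    Test ρ (Ω.indicator (fun x => gf (u x - b x))) hg ∧
      ∀ᵐ x : R3, 0 ≤ Ω.indicator (fun x => gf (u x - b x)) x := by
  have h0 : ∀ x : R3, 0 ≤ Ω.indicator (fun x => gf (u x - b x)) x := fun x =>
    Set.indicator_nonneg (fun y _ => gf_nonneg _) x
  refine ⟨⟨hh, ⟨1, Eventually.of_forall fun x => ?_⟩, Eventually.of_forall fun x hx => ?_⟩,
    Eventually.of_forall h0⟩
  · rw [abs_of_nonneg (h0 x)]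
    exact Set.indicator_le' (f := fun x => gf (u x - b x)) (g := fun _ => (1 : ℝ))
      (fun y _ => gf_le_one _) (fun y _ => zero_le_one) x
  · exact Set.indicator_of_notMem (fun hm => absurd (hΩ x hm) (not_lt.2 (hx.trans hρ))) _

/-- XComp. Comparison in the exterior of a ball. -/
theorem compare_ext {ρ R K : ℝ} (hR : 0 < R) (hρ : ρ ≤ R) {V f u b : R3 → ℝ}
    {ug : Fin 3 → R3 → ℝ} (hu : H1o u ug) (hb : Barr b) (hVm : Measurable V)
    (hVK : ∀ x : R3, R < ‖x‖ → |V x| ≤ K) (hV0 : ∀ x : R3, R < ‖x‖ → 0 < V x)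
    (hf : MemLp ({x : R3 | R < ‖x‖}.indicator f) 2 volume)
    (hweak : ∀ h hg, Test ρ h hg → (∀ᵐ x : R3, 0 ≤ h x) →
      (1 / 2) * (∑ k, ∫ x, ug k x * hg k x) + ∫ x, V x * u x * h x ≤ ∫ x, f x * h x)
    (hclass : ∀ᵐ x : R3, R < ‖x‖ → f x ≤ -(1 / 2) * lap b x + V x * b x)
    (hcol : ∀ᵐ x : R3, R < ‖x‖ → ‖x‖ < R + 1 → u x ≤ b x) :
    ∀ᵐ x : R3, R < ‖x‖ → u x ≤ b x := by
  have hh := ext_cut hR hu hb hcol
  obtain ⟨ht, h0⟩ := xcomp_test hρ (Ω := {x : R3 | R < ‖x‖}) (fun x hx => hx) hh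
  exact compare_core (measurableSet_lt measurable_const measurable_norm) hu hb hVm hVK hV0 hf hh
    (hweak _ _ ht h0) hclass

/-- XComp. Comparison of odd functions in the half space. -/
theorem compare_half {ρ R K : ℝ} (hR : 0 < R) (hρ : ρ ≤ R) {V f u b : R3 → ℝ}
    {ug : Fin 3 → R3 → ℝ} (hu : H1o u ug) (hb : Barr b) (hVm : Measurable V)
    (ho : ∀ᵐ x : R3, u (refl 2 x) = - u x) (hb0 : ∀ x : R3, R ≤ ‖x‖ → x 2 = 0 → 0 ≤ b x)
    (hVK : ∀ x : R3, R < ‖x‖ → |V x| ≤ K) (hV0 : ∀ x : R3, R < ‖x‖ → 0 < V x)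
    (hf : MemLp ({x : R3 | R < ‖x‖ ∧ 0 < x 2}.indicator f) 2 volume)
    (hweak : ∀ h hg, Test ρ h hg → (∀ᵐ x : R3, 0 ≤ h x) →
      (1 / 2) * (∑ k, ∫ x, ug k x * hg k x) + ∫ x, V x * u x * h x ≤ ∫ x, f x * h x)
    (hclass : ∀ᵐ x : R3, R < ‖x‖ → 0 < x 2 → f x ≤ -(1 / 2) * lap b x + V x * b x)
    (hcol : ∀ᵐ x : R3, R < ‖x‖ → ‖x‖ < R + 1 → 0 < x 2 → u x ≤ b x) :
    ∀ᵐ x : R3, R < ‖x‖ → 0 < x 2 → u x ≤ b x := by
  have hh := half_cut hR hu hb ho hb0 hcol
  obtain ⟨ht, h0⟩ := xcomp_test hρ (Ω := {x : R3 | R < ‖x‖ ∧ 0 < x 2}) (fun x hx => hx.1) hh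
  have h2 : Measurable fun x : R3 => x 2 := by fun_prop
  have hm : MeasurableSet {x : R3 | R < ‖x‖ ∧ 0 < x 2} :=
    (measurableSet_lt measurable_const measurable_norm).inter (measurableSet_lt measurable_const h2)
  have := compare_core hm hu hb hVm (fun x hx => hVK x hx.1) (fun x hx => hV0 x hx.1) hf hh
    (hweak _ _ ht h0) (hclass.mono fun x h hx => h hx.1 hx.2)
  exact this.mono fun x h h1 h2 => h ⟨h1, h2⟩

end

end Vale.Agent.P363.D
end
end

section

section

/-!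
# P363, block X: Poincare inequality on a thin slab
-/

namespace Vale.Agent.P363.D

open MeasureTheory Set Filter Topology
open scoped ENNReal ContDiff

noncomputable section

lemma xso_cs (S : Set ℝ) {f : ℝ → ℝ≥0∞} (hf : AEMeasurable f (volume.restrict S)) :
    (∫⁻ s in S, f s) ^ 2 ≤ volume S * ∫⁻ s in S, f s ^ 2 := by
  have h := ENNReal.lintegral_mul_le_Lp_mul_Lq (volume.restrict S) (p := 2) (q := 2)
    (Real.holderConjugate_iff.mpr ⟨by norm_num, by norm_num⟩) hf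
    (g := fun _ => 1) measurable_const.aemeasurable
  have e1 : ∫⁻ s in S, ((f * (fun _ => 1) : ℝ → ℝ≥0∞) s) = ∫⁻ s in S, f s := by
    refine lintegral_congr fun s => ?_
    simp
  have e2 : ∫⁻ s in S, f s ^ (2 : ℝ) = ∫⁻ s in S, f s ^ 2 := by
    refine lintegral_congr fun s => ?_
    exact ENNReal.rpow_two _
  have e3 : ∫⁻ _ in S, (1 : ℝ≥0∞) ^ (2 : ℝ) = volume S := by simp
  rw [e1, e2, e3] at h
  have hsq : ∀ x : ℝ≥0∞, (x ^ (1 / 2 : ℝ)) ^ 2 = x := fun x => by
    rw [← ENNReal.rpow_natCast, ← ENNReal.rpow_mul]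
    norm_num
  calc (∫⁻ s in S, f s) ^ 2
      ≤ ((∫⁻ s in S, f s ^ 2) ^ (1 / 2 : ℝ) * volume S ^ (1 / 2 : ℝ)) ^ 2 :=
        pow_le_pow_left₀ zero_le h 2
    _ = volume S * ∫⁻ s in S, f s ^ 2 := by rw [mul_pow, hsq, hsq, mul_comm]

lemma xso_coord (x : R3) (s : ℝ) (k : Fin 3) :
    (x - s • dir3 2) k = x k - if k = 2 then s else 0 := by
  simp only [dir3, PiLp.sub_apply, PiLp.smul_apply, PiLp.single_apply, smul_eq_mul]
  split_ifs <;> simp

/-- XSlabOdd. An odd function is small in `L²` on a thin slab around the plane. -/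
theorem slab_odd {u u' : R3 → ℝ} (hu : ACL volume (dir3 2) u u') (hu2 : MemLp u 2 volume)
    (hu2' : MemLp u' 2 volume) (ho : ∀ᵐ x : R3, u (refl 2 x) = - u x) (r : ℝ) {a : ℝ}
    (ha : 0 < a) :
    ∫ x in {x : R3 | |x 0 - r| < 1 ∧ |x 1| < 1 ∧ |x 2| < a}, u x ^ 2 ≤
      a ^ 2 * ∫ x in {x : R3 | |x 0 - r| < 1 ∧ |x 1| < 1 ∧ |x 2| < a}, u' x ^ 2 := by
  obtain ⟨B, hB⟩ : ∃ B : Set R3, B = {x : R3 | |x 0 - r| < 1 ∧ |x 1| < 1 ∧ |x 2| < a} := ⟨_, rfl⟩
  rw [← hB]
  have hco : ∀ k : Fin 3, Measurable fun x : R3 => x k := fun k => by fun_prop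
  have hBm : MeasurableSet B := by
    rw [hB]
    refine (measurableSet_lt ((hco 0).sub_const r).abs measurable_const).inter
      ((measurableSet_lt (hco 1).abs measurable_const).inter
        (measurableSet_lt (hco 2).abs measurable_const))
  obtain ⟨g, hg⟩ : ∃ g : R3 → ℝ≥0∞, g = fun y => ‖u' y‖ₑ ^ 2 := ⟨_, rfl⟩
  have hgm : AEMeasurable g volume := by
    rw [hg]
    exact hu.meas'.enorm.pow_const 2
  have hT : MeasurableSet {p : R3 × ℝ | p.2 ∈ uIoc 0 (-(p.1 2))} := by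
    have h1 : Measurable fun p : R3 × ℝ => -(p.1 2) := ((hco 2).comp measurable_fst).neg
    exact (measurableSet_lt (measurable_const.min h1) measurable_snd).inter
      (measurableSet_le measurable_snd (measurable_const.max h1))
  obtain ⟨K, hK⟩ : ∃ K : R3 → ℝ → ℝ≥0∞, K = fun x s =>
      {p : R3 × ℝ | p.2 ∈ uIoc 0 (-(p.1 2))}.indicator (fun p => g (p.1 + p.2 • dir3 2)) (x, s) :=
    ⟨_, rfl⟩
  have hKm : AEMeasurable (Function.uncurry K) ((volume : Measure R3).prod volume) := by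
    rw [hK]
    exact (hgm.comp_quasiMeasurePreserving (qmp_line (dir3 2))).indicator hT
  have hK1 : ∀ x s, K x s = (uIoc 0 (-(x 2))).indicator (fun s => g (x + s • dir3 2)) s := by
    intro x s
    rw [hK]
    rfl
  -- pointwise bound
  have hpt : ∀ᵐ x : R3, x ∈ B → ‖u x‖ₑ ^ 2 ≤ ENNReal.ofReal a * ∫⁻ s in Ioo (-a) a, K x s := by
    filter_upwards [odd_line hu ho, hu.locInt] with x hx hm hxB
    rw [hB] at hxB
    have hx2 : |x 2| < a := hxB.2.2
    have h1 : ‖u x‖ₑ ≤ ∫⁻ s in uIoc 0 (-(x 2)), ‖u' (x + s • dir3 2)‖ₑ := by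
      have h2 : ‖u x‖ = ‖∫ s in uIoc 0 (-(x 2)), u' (x + s • dir3 2)‖ := by
        rw [← intervalIntegral.norm_integral_eq_norm_integral_uIoc]
        unfold prim at hx
        have h3 : u x = -∫ s in (0:ℝ)..(-(x 2)), u' (x + s • dir3 2) := by linarith only [hx]
        rw [h3, norm_neg]
      have h3 : ‖u x‖ₑ = ‖∫ s in uIoc 0 (-(x 2)), u' (x + s • dir3 2)‖ₑ := by
        rw [← ofReal_norm, h2, ofReal_norm]
      rw [h3]
      exact enorm_integral_le_lintegral_enorm _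
    have h4 : AEMeasurable (fun s : ℝ => ‖u' (x + s • dir3 2)‖ₑ)
        (volume.restrict (uIoc 0 (-(x 2)))) := hm.aestronglyMeasurable.enorm.restrict
    have h5 : ∫⁻ s in Ioo (-a) a, K x s = ∫⁻ s in uIoc 0 (-(x 2)), ‖u' (x + s • dir3 2)‖ₑ ^ 2 := by
      simp only [hK1]
      rw [setLIntegral_indicator measurableSet_uIoc, inter_eq_left.mpr, hg]
      intro s hs
      rw [uIoc, mem_Ioc] at hs
      rw [abs_lt] at hx2
      constructor
      · refine lt_of_le_of_lt ?_ hs.1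
        exact le_min (by linarith only [ha]) (by linarith only [hx2])
      · refine lt_of_le_of_lt hs.2 ?_
        exact max_lt ha (by linarith only [hx2])
    rw [h5]
    calc ‖u x‖ₑ ^ 2 ≤ (∫⁻ s in uIoc 0 (-(x 2)), ‖u' (x + s • dir3 2)‖ₑ) ^ 2 :=
          pow_le_pow_left₀ zero_le h1 2
      _ ≤ volume (uIoc 0 (-(x 2))) * ∫⁻ s in uIoc 0 (-(x 2)), ‖u' (x + s • dir3 2)‖ₑ ^ 2 :=
          xso_cs _ h4
      _ ≤ _ := by
          gcongr
          rw [Real.volume_uIoc]
          apply ENNReal.ofReal_le_ofReal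
          rw [sub_zero, abs_neg]
          exact hx2.le
  -- the two halves
  obtain ⟨G1, hG1⟩ : ∃ G1, G1 = ∫⁻ y in B ∩ {y : R3 | y 2 ≤ 0}, g y := ⟨_, rfl⟩
  obtain ⟨G2, hG2⟩ : ∃ G2, G2 = ∫⁻ y in B \ {y : R3 | y 2 ≤ 0}, g y := ⟨_, rfl⟩
  have hHm : MeasurableSet {y : R3 | y 2 ≤ 0} := measurableSet_le (hco 2) measurable_const
  have hG : G1 + G2 = ∫⁻ y in B, g y := by
    rw [hG1, hG2]
    exact lintegral_inter_add_sdiff _ _ hHm
  have hs : ∀ s ∈ Ioo (-a) a, ∫⁻ x in B, K x s ≤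
      (Ioi (0 : ℝ)).indicator (fun _ => G1) s + (Iic (0 : ℝ)).indicator (fun _ => G2) s := by
    intro s hsa
    rw [← lintegral_indicator hBm,
      ← lintegral_sub_right_eq_self (fun x => B.indicator (fun x => K x s) x) (s • dir3 2)]
    have hval : ∀ y : R3, B.indicator (fun x => K x s) (y - s • dir3 2) ≤
        if 0 < s then (B ∩ {y : R3 | y 2 ≤ 0}).indicator g y else
          (B \ {y : R3 | y 2 ≤ 0}).indicator g y := by
      intro y
      by_cases hy : y - s • dir3 2 ∈ B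
      swap
      · rw [indicator_of_notMem hy]
        exact zero_le
      rw [indicator_of_mem hy, hK1]
      by_cases hs2 : s ∈ uIoc 0 (-((y - s • dir3 2) 2))
      swap
      · rw [indicator_of_notMem hs2]
        exact zero_le
      rw [indicator_of_mem hs2, sub_add_cancel]
      rw [hB] at hy
      obtain ⟨hy0, hy1, hy2⟩ := hy
      rw [xso_coord, if_neg (by decide), sub_zero] at hy0
      rw [xso_coord, if_neg (by decide), sub_zero] at hy1
      rw [xso_coord, if_pos rfl, abs_lt] at hy2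
      rw [xso_coord, if_pos rfl, uIoc, mem_Ioc] at hs2
      split_ifs with h0
      · have h3 : y 2 ≤ 0 := by
          rcases le_max_iff.mp hs2.2 with h | h <;> linarith only [h0, h]
        rw [indicator_of_mem]
        refine ⟨?_, h3⟩
        rw [hB]
        exact ⟨hy0, hy1, abs_lt.mpr ⟨by linarith only [hy2, h0], by linarith only [hy2, h3]⟩⟩
      · have h3 : 0 < y 2 := by
          rcases min_lt_iff.mp hs2.1 with h | h <;> linarith only [h0, h]
        rw [indicator_of_mem]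
        refine ⟨?_, not_le.mpr h3⟩
        rw [hB]
        exact ⟨hy0, hy1, abs_lt.mpr ⟨by linarith only [hy2, h3], by linarith only [hy2, h0]⟩⟩
    refine (lintegral_mono hval).trans ?_
    by_cases h0 : 0 < s
    · simp only [if_pos h0]
      rw [lintegral_indicator (hBm.inter hHm), ← hG1, indicator_of_mem (mem_Ioi.mpr h0)]
      exact le_self_add
    · simp only [if_neg h0]
      rw [lintegral_indicator (hBm.diff hHm), ← hG2,
        indicator_of_mem (mem_Iic.mpr (not_lt.mp h0))]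
      exact le_add_self
  have hsum : ∫⁻ s in Ioo (-a) a, ((Ioi (0 : ℝ)).indicator (fun _ => G1) s +
      (Iic (0 : ℝ)).indicator (fun _ => G2) s) ≤ ENNReal.ofReal a * (G1 + G2) := by
    rw [lintegral_add_left (measurable_const.indicator measurableSet_Ioi),
      setLIntegral_indicator measurableSet_Ioi, setLIntegral_indicator measurableSet_Iic,
      setLIntegral_const, setLIntegral_const, mul_add, mul_comm (ENNReal.ofReal a) G1,
      mul_comm (ENNReal.ofReal a) G2]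
    have v1 : volume (Ioi (0 : ℝ) ∩ Ioo (-a) a) ≤ ENNReal.ofReal a := by
      calc volume (Ioi (0 : ℝ) ∩ Ioo (-a) a) ≤ volume (Ioo 0 a) :=
            measure_mono fun s hs => ⟨hs.1, hs.2.2⟩
        _ = ENNReal.ofReal a := by rw [Real.volume_Ioo, sub_zero]
    have v2 : volume (Iic (0 : ℝ) ∩ Ioo (-a) a) ≤ ENNReal.ofReal a := by
      calc volume (Iic (0 : ℝ) ∩ Ioo (-a) a) ≤ volume (Ioc (-a) 0) :=
            measure_mono fun s hs => ⟨hs.2.1, hs.1⟩
        _ = ENNReal.ofReal a := by rw [Real.volume_Ioc, zero_sub, neg_neg]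
    (clear * - v1 v2; gcongr)
  have main : ∫⁻ x in B, ‖u x‖ₑ ^ 2 ≤
      ENNReal.ofReal (a ^ 2) * ∫⁻ x in B, ‖u' x‖ₑ ^ 2 := by
    calc ∫⁻ x in B, ‖u x‖ₑ ^ 2
        ≤ ∫⁻ x in B, ENNReal.ofReal a * ∫⁻ s in Ioo (-a) a, K x s := by
          refine lintegral_mono_ae ?_
          rw [ae_restrict_iff' hBm]
          exact hpt
      _ = ENNReal.ofReal a * ∫⁻ x in B, ∫⁻ s in Ioo (-a) a, K x s :=
          lintegral_const_mul' _ _ ENNReal.ofReal_ne_top
      _ = ENNReal.ofReal a * ∫⁻ s in Ioo (-a) a, ∫⁻ x in B, K x s := by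
          rw [lintegral_lintegral_swap]
          rw [Measure.prod_restrict]
          exact hKm.restrict
      _ ≤ ENNReal.ofReal a * (ENNReal.ofReal a * (G1 + G2)) := by
          gcongr
          exact (setLIntegral_mono' measurableSet_Ioo hs).trans hsum
      _ = _ := by
          rw [hG, hg, sq, ENNReal.ofReal_mul ha.le, mul_assoc]
  -- back to Bochner integrals
  have conv : ∀ {f : R3 → ℝ}, MemLp f 2 volume →
      ∫ x in B, f x ^ 2 = (∫⁻ x in B, ‖f x‖ₑ ^ 2).toReal ∧ ∫⁻ x in B, ‖f x‖ₑ ^ 2 ≠ ⊤ := by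
    intro f hf
    have e1 : ∀ x, ENNReal.ofReal (f x ^ 2) = ‖f x‖ₑ ^ 2 := fun x => by
      rw [Real.enorm_eq_ofReal_abs, ← ENNReal.ofReal_pow (abs_nonneg _), sq_abs]
    have h1 : Integrable (fun x => f x ^ 2) (volume.restrict B) := hf.integrable_sq.restrict
    constructor
    · rw [integral_eq_lintegral_of_nonneg_ae (Eventually.of_forall fun x => sq_nonneg _)
        h1.aestronglyMeasurable]
      simp only [e1]
    · have h2 := h1.2
      rw [hasFiniteIntegral_iff_ofReal (Eventually.of_forall fun x => sq_nonneg _)] at h2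
      simp only [e1] at h2
      exact h2.ne
  obtain ⟨c1, c2⟩ := conv hu2
  obtain ⟨d1, d2⟩ := conv hu2'
  rw [c1, d1]
  have h1 := ENNReal.toReal_mono (ENNReal.mul_ne_top ENNReal.ofReal_ne_top d2) main
  rwa [ENNReal.toReal_mul, ENNReal.toReal_ofReal (by positivity)] at h1

end

end Vale.Agent.P363.D
end
end

section

section

namespace Vale.Agent.P363

open MeasureTheory Filter Set
open scoped ContDiff Topology ENNReal

variable {M : ℕ}

/-- constant bounding the potential -/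
noncomputable def c0 (Z : Fin M → ℕ) (E : ℝ) : ℝ := 1 + |E| + ∑ j, (Z j : ℝ)

lemma c0_pos (Z : Fin M → ℕ) (E : ℝ) : 0 < c0 Z E := by unfold c0; positivity

lemma one_le_c0 (Z : Fin M → ℕ) (E : ℝ) : 1 ≤ c0 Z E := by
  unfold c0
  have h1 := abs_nonneg E
  have h2 : 0 ≤ ∑ j, (Z j : ℝ) := by positivity
  linarith

lemma E_le_c0 (Z : Fin M → ℕ) (E : ℝ) : |E| ≤ c0 Z E := by
  unfold c0
  have h2 : 0 ≤ ∑ j, (Z j : ℝ) := by positivity
  linarith

lemma Z_le_c0 (Z : Fin M → ℕ) (E : ℝ) (j : Fin M) : (Z j : ℝ) ≤ c0 Z E := by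
  unfold c0
  have h1 := abs_nonneg E
  have h2 : (Z j : ℝ) ≤ ∑ j, (Z j : ℝ) :=
    Finset.single_le_sum (f := fun j => (Z j : ℝ)) (fun _ _ => Nat.cast_nonneg _) (Finset.mem_univ j)
  linarith

lemma sum_pot_le (Z : Fin M → ℕ) (E : ℝ) (R : Fin M → R3) (w : R3) :
    |∑ j, -((Z j : ℝ) / ‖w - R j‖)| ≤ c0 Z E * ∑ j, ‖w - R j‖⁻¹ := by
  refine (Finset.abs_sum_le_sum_abs _ _).trans ?_
  rw [Finset.mul_sum]
  apply Finset.sum_le_sum
  intro j _
  rw [abs_neg, abs_of_nonneg (by positivity), div_eq_mul_inv]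
  gcongr
  exact Z_le_c0 Z E j

lemma pot_le (Z : Fin M → ℕ) (E : ℝ) (R : Fin M → R3) (y : X6) :
    ‖pot Z R y - E‖ₑ ≤ UE (c0 Z E) R y := by
  have hc := c0_pos Z E
  unfold UE
  have f1 : (1 : ℝ≥0∞) = ENNReal.ofReal 1 := by simp
  rw [f1, ← ENNReal.ofReal_sum_of_nonneg (fun j _ => by positivity),
    ← ENNReal.ofReal_sum_of_nonneg (fun j _ => by positivity),
    ← ENNReal.ofReal_add (by positivity) (by positivity),
    ← ENNReal.ofReal_add (by positivity) (by positivity),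
    ← ENNReal.ofReal_add (by positivity) (by positivity), ← ENNReal.ofReal_mul hc.le,
    ← ofReal_norm]
  apply ENNReal.ofReal_le_ofReal
  rw [Real.norm_eq_abs]
  unfold pot
  have h1 := sum_pot_le Z E R y.1
  have h2 := sum_pot_le Z E R y.2
  have h3 : |1 / ‖y.1 - y.2‖| ≤ c0 Z E * ‖y.1 - y.2‖⁻¹ := by
    rw [abs_of_nonneg (by positivity), one_div]
    exact le_mul_of_one_le_left (by positivity) (one_le_c0 Z E)
  have h4 := E_le_c0 Z E
  calc |(∑ j, -((Z j : ℝ) / ‖y.1 - R j‖)) + (∑ j, -((Z j : ℝ) / ‖y.2 - R j‖)) + 1 / ‖y.1 - y.2‖ - E|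
      ≤ |∑ j, -((Z j : ℝ) / ‖y.1 - R j‖)| + |∑ j, -((Z j : ℝ) / ‖y.2 - R j‖)| + |1 / ‖y.1 - y.2‖| + |E| := by
        refine (abs_sub _ _).trans ?_
        gcongr
        refine (abs_add_le _ _).trans ?_
        gcongr
        exact abs_add_le _ _
    _ ≤ _ := by linarith

lemma VW0 {Z : Fin M → ℕ} {R : Fin M → R3} {E : ℝ} {u : X6 → ℝ} {ux uy : Fin 3 → X6 → ℝ}
    (hu : H1 u ux uy) (hw : WeakSol Z R E u ux uy) {s : ℝ} (hs : 0 < s) (x : X6) :
    ∫ y, u y * d0 s x y = ∫ y, (pot Z R y - E) * u y * hk s (x - y) := by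
  have h1 := VW hu hw (contDiff_hk_sub s x) (contDiff_k1 s x) (fderiv_k0 s x)
    (η2 := fun i => k2 s x i i) (fun i y => fderiv_k1 s x i i y) (memLp_hk_sub hs x)
    (memLp_k1 hs x) (fun i => memLp_k2 hs x i i)
  have h2 : ∫ y, ∑ i, u y * k2 s x i i y = ∑ i, ∫ y, u y * k2 s x i i y :=
    integral_finsetSum _ (fun i _ => hu.memLp.integrable_mul (memLp_k2 hs x i i))
  rw [← h1, ← h2, ← integral_const_mul]
  congr 1; ext y
  rw [← Finset.mul_sum, sum_k2]
  unfold d0
  field_simp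
  ring

lemma VW1 {Z : Fin M → ℕ} {R : Fin M → R3} {E : ℝ} {u : X6 → ℝ} {ux uy : Fin 3 → X6 → ℝ}
    (hu : H1 u ux uy) (hw : WeakSol Z R E u ux uy) {s : ℝ} (hs : 0 < s) (x : X6) (j : Fin 3 ⊕ Fin 3) :
    ∫ y, u y * d1 s x j y = ∫ y, (pot Z R y - E) * u y * k1 s x j y := by
  have h1 := VW hu hw (contDiff_k1 s x j) (contDiff_k2 s x j) (fderiv_k1 s x j)
    (η2 := fun i => k3 s x j i) (fun i y => fderiv_k2 s x j i y) (memLp_k1 hs x j)
    (memLp_k2 hs x j) (fun i => memLp_k3 hs x j i)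
  have h2 : ∫ y, ∑ i, u y * k3 s x j i y = ∑ i, ∫ y, u y * k3 s x j i y :=
    integral_finsetSum _ (fun i _ => hu.memLp.integrable_mul (memLp_k3 hs x j i))
  rw [← h1, ← h2, ← integral_const_mul]
  congr 1; ext y
  rw [← Finset.mul_sum, sum_k3]
  unfold d1
  field_simp
  ring

lemma duh0 {Z : Fin M → ℕ} {R : Fin M → R3} {E : ℝ} {u : X6 → ℝ} {ux uy : Fin 3 → X6 → ℝ}
    (hu : H1 u ux uy) (hw : WeakSol Z R E u ux uy) {s0 t : ℝ} (hs0 : 0 < s0) (hst : s0 ≤ t) (x : X6) :
    ‖PR t u x - PR s0 u x‖ₑ ≤ AE (c0 Z E) R t (fun y => ‖u y‖ₑ) x := by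
  obtain ⟨D, hD, hdom⟩ := dom_d0 hs0 hst x
  have h := duhamel_abs (W := fun y => pot Z R y - E) hu.memLp (K := fun s y => hk s (x - y))
    (K' := fun s y => d0 s x y) hst
    (fun s hs y => hasDerivAt_hk (hs0.trans_le hs.1) (x - y)) (measurable_d0 x) hD hdom
    (fun s hs => memLp_hk_sub (hs0.trans_le hs.1) x) (fun s hs => VW0 hu hw (hs0.trans_le hs.1) x)
  have e1 : ∀ t, PR t u x = ∫ y, u y * hk t (x - y) := fun t => by
    unfold PR; congr 1; ext y; ring
  rw [e1, e1]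
  refine h.trans ?_
  unfold AE PE
  calc ∫⁻ s in Ioo s0 t, ∫⁻ y, ‖pot Z R y - E‖ₑ * ‖u y‖ₑ * ‖hk s (x - y)‖ₑ
      ≤ ∫⁻ s in Ioo s0 t, ∫⁻ y, hE s (x - y) * (UE (c0 Z E) R y * ‖u y‖ₑ) := by
        apply setLIntegral_mono' measurableSet_Ioo
        intro s hs
        apply lintegral_mono
        intro y
        simp only
        rw [Real.enorm_eq_ofReal (hk_nonneg (hs0.trans hs.1) _), mul_comm]
        unfold hE
        gcongr
        exact pot_le Z E R y
    _ ≤ _ := lintegral_mono_set (Ioo_subset_Ioo_left hs0.le)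

lemma duh0_ae {Z : Fin M → ℕ} {R : Fin M → R3} {E : ℝ} {u : X6 → ℝ} {ux uy : Fin 3 → X6 → ℝ}
    (hu : H1 u ux uy) (hw : WeakSol Z R E u ux uy) {t : ℝ} (ht : 0 < t) :
    ∀ᵐ x, ‖PR t u x - u x‖ₑ ≤ AE (c0 Z E) R t (fun y => ‖u y‖ₑ) x := by
  obtain ⟨s, hs, hs0, hae⟩ := exists_seq_heat hu.memLp
  filter_upwards [hae] with x hx
  have h1 : Tendsto (fun k => ‖PR t u x - PR (s k) u x‖ₑ) atTop (𝓝 ‖PR t u x - u x‖ₑ) :=
    ((continuous_enorm.tendsto _).comp (tendsto_const_nhds.sub hx))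
  refine le_of_tendsto h1 ?_
  have h2 : ∀ᶠ k in atTop, s k < t := hs0.eventually_lt_const ht
  filter_upwards [h2] with k hk
  exact duh0 hu hw (hs k) hk.le x

lemma PR_eq_PE {s : ℝ} (hs : 0 < s) {g : X6 → ℝ} (hg : MemLp g 2 volume) (hg0 : ∀ x, 0 ≤ g x) (x : X6) :
    ‖PR s g x‖ₑ = PE s (fun y => ‖g y‖ₑ) x := by
  have h0 : ∀ y, 0 ≤ hk s (x - y) * g y := fun y => mul_nonneg (hk_nonneg hs _) (hg0 y)
  unfold PR PE
  rw [Real.enorm_eq_ofReal (integral_nonneg h0),
    ofReal_integral_eq_lintegral_ofReal (integrable_hk_mul hs hg x) (Eventually.of_forall h0)]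
  congr 1; ext y
  simp only
  rw [ENNReal.ofReal_mul (hk_nonneg hs _), Real.enorm_eq_ofReal (hg0 y)]; rfl

lemma PE_finite {s : ℝ} (hs : 0 < s) {g : X6 → ℝ} (hg : MemLp g 2 volume) (x : X6) :
    PE s (fun y => ‖g y‖ₑ) x < ⊤ := by
  have h := (integrable_hk_mul hs hg x).2
  rw [hasFiniteIntegral_iff_enorm] at h
  refine lt_of_le_of_lt (le_of_eq ?_) h
  unfold PE
  congr 1; ext y
  rw [enorm_mul, Real.enorm_eq_ofReal (hk_nonneg hs _)]; rfl

lemma duh_pair {Z : Fin M → ℕ} {R : Fin M → R3} {E : ℝ} {g : X6 → ℝ} {gx gy : Fin 3 → X6 → ℝ}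
    (hg : H1 g gx gy) (hw : WeakSol Z R E g gx gy) (hg0 : ∀ x, 0 ≤ g x) {t : ℝ} (ht : 0 < t) :
    ∀ᵐ x, ‖g x‖ₑ ≤ PE t (fun y => ‖g y‖ₑ) x + AE (c0 Z E) R t (fun y => ‖g y‖ₑ) x ∧
      PE t (fun y => ‖g y‖ₑ) x ≤ ‖g x‖ₑ + AE (c0 Z E) R t (fun y => ‖g y‖ₑ) x := by
  filter_upwards [duh0_ae hg hw ht] with x hx
  rw [← PR_eq_PE ht hg.memLp hg0 x]
  constructor
  · calc ‖g x‖ₑ = ‖PR t g x - (PR t g x - g x)‖ₑ := by congr 1; ring
      _ ≤ ‖PR t g x‖ₑ + ‖PR t g x - g x‖ₑ := enorm_sub_le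
      _ ≤ _ := by gcongr
  · calc ‖PR t g x‖ₑ = ‖g x + (PR t g x - g x)‖ₑ := by congr 1; ring
      _ ≤ ‖g x‖ₑ + ‖PR t g x - g x‖ₑ := enorm_add_le _ _
      _ ≤ _ := by (clear * - hx; gcongr)

lemma sq_enorm_ne_top {g : X6 → ℝ} (hg : MemLp g 2 volume) : ∫⁻ y, ‖g y‖ₑ ^ 2 ≠ ⊤ := by
  rw [lintegral_sq_eq]
  exact ENNReal.pow_ne_top hg.2.ne

/-- The two-sided comparison of `g` with its heat evolution at small times. -/
lemma sandwich {Z : Fin M → ℕ} {R : Fin M → R3} {E : ℝ} {g : X6 → ℝ} {gx gy : Fin 3 → X6 → ℝ}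
    (hg : H1 g gx gy) (hw : WeakSol Z R E g gx gy) (hg0 : ∀ x, 0 ≤ g x) {t : ℝ} (ht : 0 < t) (ht1 : t ≤ 1)
    (hε : epsE M (c0 Z E) t ≤ ENNReal.ofReal (1 / 4)) :
    ∀ᵐ x, 3 * ‖g x‖ₑ ≤ 4 * PE t (fun y => ‖g y‖ₑ) x ∧ 2 * PE t (fun y => ‖g y‖ₑ) x ≤ 3 * ‖g x‖ₑ := by
  have hfm : AEMeasurable (fun y => ‖g y‖ₑ) := hg.memLp.1.enorm
  have hfin := AE_finite (C0 := c0 Z E) (R := R) ht1 hfm (sq_enorm_ne_top hg.memLp)
  have hD : ∀ r ∈ Ioo 0 t, ∀ᵐ z, ‖g z‖ₑ ≤ PE r (fun y => ‖g y‖ₑ) z + AE (c0 Z E) R r (fun y => ‖g y‖ₑ) z := by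
    intro r hr
    filter_upwards [duh_pair hg hw hg0 hr.1] with z hz
    exact hz.1
  filter_upwards [duh_pair hg hw hg0 ht, hfin] with x hx hAfin
  have hab := AE_absorb (R := R) ht hfm hD x
  have hPfin := PE_finite ht hg.memLp x
  set A := AE (c0 Z E) R t (fun y => ‖g y‖ₑ) x
  set P := PE t (fun y => ‖g y‖ₑ) x
  set f := ‖g x‖ₑ
  have h4 : 4 * A ≤ P + A := by
    calc 4 * A ≤ 4 * (epsE M (c0 Z E) t * P + epsE M (c0 Z E) t * A) := by (clear * - hab; gcongr)
      _ = 4 * epsE M (c0 Z E) t * P + 4 * epsE M (c0 Z E) t * A := by ring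
      _ ≤ 1 * P + 1 * A := by
          have : 4 * epsE M (c0 Z E) t ≤ 1 := by
            calc 4 * epsE M (c0 Z E) t ≤ ENNReal.ofReal 4 * ENNReal.ofReal (1 / 4) := by
                  rw [show ENNReal.ofReal 4 = 4 by norm_num]
                  (clear * - hε; gcongr)
              _ = 1 := by rw [← ENNReal.ofReal_mul (by norm_num)]; norm_num
          (clear * - this; gcongr)
      _ = _ := by ring
  have h3 : 3 * A ≤ P := by
    have e : 4 * A = 3 * A + A := by ring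
    rw [e] at h4
    exact (ENNReal.add_le_add_iff_right hAfin.ne).1 h4
  constructor
  · calc 3 * f ≤ 3 * (P + A) := by gcongr; exact hx.1
      _ = 3 * P + 3 * A := by ring
      _ ≤ 3 * P + P := by gcongr
      _ = _ := by ring
  · have h5 : 2 * P + P ≤ 3 * f + P := by
      calc 2 * P + P = 3 * P := by ring
        _ ≤ 3 * (f + A) := by gcongr; exact hx.2
        _ = 3 * f + 3 * A := by ring
        _ ≤ _ := by gcongr
    exact (ENNReal.add_le_add_iff_right hPfin.ne).1 h5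

end Vale.Agent.P363
end
end

section

section

namespace Vale.Agent.P363

open MeasureTheory Filter Set
open scoped ContDiff Topology ENNReal

variable {M : ℕ}

lemma nsq_add_le (a b : X6) : nsq (a + b) ≤ 2 * nsq a + 2 * nsq b := by
  unfold nsq
  simp only [Prod.fst_add, Prod.snd_add]
  have h : ∀ v w : R3, ‖v + w‖ ^ 2 ≤ 2 * ‖v‖ ^ 2 + 2 * ‖w‖ ^ 2 := by
    intro v w
    have h1 := norm_add_le v w
    have h2 : ‖v + w‖ ^ 2 ≤ (‖v‖ + ‖w‖) ^ 2 := by gcongr
    linarith only [sq_nonneg (‖v‖ - ‖w‖), h2]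
  have h1 := h a.1 b.1
  have h2 := h a.2 b.2
  linarith

lemma hk_shift {t : ℝ} (ht : 0 < t) (p q y : X6) :
    hk t (p - y) ≤ 8 * Real.exp (nsq (p - q) / (2 * t)) * hk (2 * t) (q - y) := by
  unfold hk
  have h1 : ((2 * Real.pi * t) ^ 3)⁻¹ = 8 * ((2 * Real.pi * (2 * t)) ^ 3)⁻¹ := by
    have := Real.pi_pos
    field_simp; norm_num
  have h2 : Real.exp (-(nsq (p - y) / (2 * t))) ≤ Real.exp (nsq (p - q) / (2 * t)) *
      Real.exp (-(nsq (q - y) / (2 * (2 * t)))) := by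
    rw [← Real.exp_add]
    apply Real.exp_le_exp.2
    have h3 : nsq (q - y) ≤ 2 * nsq (p - q) + 2 * nsq (p - y) := by
      have := nsq_add_le (q - p) (p - y)
      rw [sub_add_sub_cancel, nsq_sub_comm q p] at this
      exact this
    have h4 : nsq (q - y) / (2 * (2 * t)) ≤ nsq (p - q) / (2 * t) + nsq (p - y) / (2 * t) := by
      calc _ ≤ (2 * nsq (p - q) + 2 * nsq (p - y)) / (2 * (2 * t)) := by gcongr
        _ = _ := by field_simp
    linarith only [h4]
  rw [h1]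
  calc _ ≤ 8 * ((2 * Real.pi * (2 * t)) ^ 3)⁻¹ * (Real.exp (nsq (p - q) / (2 * t)) *
      Real.exp (-(nsq (q - y) / (2 * (2 * t))))) := by gcongr
    _ = _ := by ring

lemma PE_shift {t : ℝ} (ht : 0 < t) (f : X6 → ℝ≥0∞) (p q : X6) :
    PE t f p ≤ ENNReal.ofReal (8 * Real.exp (nsq (p - q) / (2 * t))) * PE (2 * t) f q := by
  unfold PE
  rw [← lintegral_const_mul' _ _ ENNReal.ofReal_ne_top]
  apply lintegral_mono
  intro y
  simp only
  rw [← mul_assoc]
  gcongr
  unfold hE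
  rw [← ENNReal.ofReal_mul (by positivity)]
  exact ENNReal.ofReal_le_ofReal (hk_shift ht p q y)

lemma exists_t0 (M : ℕ) (C0 : ℝ) :
    ∃ t0 : ℝ, 0 < t0 ∧ 2 * t0 ≤ 1 ∧ ∀ t, t ≤ 2 * t0 → epsE M C0 t ≤ ENNReal.ofReal (1 / 4) := by
  have h0 : Tendsto (epsE M C0) (𝓝 0) (𝓝 (epsE M C0 0)) := by
    have : Continuous (epsE M C0) := by
      unfold epsE
      have h1 : Continuous (fun t : ℝ => ENNReal.ofReal t + (2 * M + 1) * ENNReal.ofReal (4 * cG * √t)) := by
        refine ENNReal.continuous_ofReal.add ?_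
        refine ENNReal.continuous_const_mul ?_ |>.comp ?_
        · exact ENNReal.add_ne_top.2 ⟨ENNReal.mul_ne_top (by simp) (by simp), by simp⟩
        · exact ENNReal.continuous_ofReal.comp (by fun_prop)
      exact (ENNReal.continuous_const_mul (by simp)).comp h1
    exact this.tendsto 0
  have h1 : epsE M C0 0 = 0 := by unfold epsE; simp
  rw [h1] at h0
  have h2 := (ENNReal.tendsto_nhds_zero.1 h0) (ENNReal.ofReal (1 / 4)) (by simp only [one_div, Nat.ofNat_pos, ENNReal.ofReal_inv_of_pos, ENNReal.ofReal_ofNat, gt_iff_lt, ENNReal.inv_pos, ne_eq, ENNReal.ofNat_ne_top, not_false_eq_true])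
  rw [Metric.eventually_nhds_iff] at h2
  obtain ⟨d, hd, h3⟩ := h2
  refine ⟨min (1 / 2) (d / 4), by positivity, ?_, ?_⟩
  · have := min_le_left (1 / 2) (d / 4); linarith only [this]
  · intro t ht
    refine (epsE_mono M C0 ht).trans (h3 ?_)
    have h4 := min_le_right (1 / 2) (d / 4)
    have h5 : 0 < min (1 / 2) (d / 4) := by positivity
    rw [Real.dist_eq, sub_zero, abs_of_pos (by positivity)]
    linarith only [h4, h5]

/-- Harnack inequality for the heat evolution -/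
lemma harnack_PE {f : X6 → ℝ≥0∞} (hfm : AEMeasurable f) {t : ℝ} (ht : 0 < t)
    (h : ∀ᵐ x, 2 * PE t f x ≤ 3 * f x) (p q : X6) :
    2 * PE t f p ≤ ENNReal.ofReal (24 * Real.exp (nsq (p - q) / (2 * t))) * PE t f q := by
  have h1 : 2 * PE (2 * t) f q ≤ 3 * PE t f q := by
    have e : PE t (PE t f) q = PE (2 * t) f q := by
      rw [PE_PE ht ht hfm]; congr 1; ring
    rw [← e]
    have e2 : ∀ (c : ℝ≥0∞) (hc : c ≠ ⊤) (k : X6 → ℝ≥0∞), c * PE t k q = PE t (fun y => c * k y) q := by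
      intro c hc k
      unfold PE
      rw [← lintegral_const_mul' _ _ hc]
      congr 1; ext y; ring
    rw [e2 2 (by simp), e2 3 (by simp)]
    exact PE_mono h q
  calc 2 * PE t f p ≤ 2 * (ENNReal.ofReal (8 * Real.exp (nsq (p - q) / (2 * t))) * PE (2 * t) f q) := by
        gcongr; exact PE_shift ht f p q
    _ = ENNReal.ofReal (8 * Real.exp (nsq (p - q) / (2 * t))) * (2 * PE (2 * t) f q) := by ring
    _ ≤ ENNReal.ofReal (8 * Real.exp (nsq (p - q) / (2 * t))) * (3 * PE t f q) := by gcongr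
    _ = _ := by
        rw [← mul_assoc]
        congr 1
        rw [show (3 : ℝ≥0∞) = ENNReal.ofReal 3 by norm_num, ← ENNReal.ofReal_mul (by positivity)]
        congr 1; ring

lemma PE_pos {g : X6 → ℝ} (hgm : AEStronglyMeasurable g volume) (hg0 : ¬ (g =ᵐ[volume] 0)) {t : ℝ}
    (ht : 0 < t) (x : X6) : 0 < PE t (fun y => ‖g y‖ₑ) x := by
  rw [pos_iff_ne_zero]
  intro h
  apply hg0
  unfold PE at h
  have hm := measurable_hE' t
  rw [lintegral_eq_zero_iff' (by have := hgm.enorm; fun_prop)] at h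
  filter_upwards [h] with y hy
  simp only [Pi.zero_apply, mul_eq_zero] at hy
  rcases hy with hy | hy
  · unfold hE at hy
    rw [ENNReal.ofReal_eq_zero] at hy
    have := hk_pos ht (x - y)
    linarith only [hy, this]
  · simpa using hy

end Vale.Agent.P363
end
end

section

section

namespace Vale.Agent.P363

open MeasureTheory Filter Set
open scoped ContDiff Topology ENNReal

variable {M : ℕ}

lemma hk_double {s : ℝ} (hs : 0 < s) (z : X6) :
    hk s z = 8 * hk (2 * s) z * Real.exp (-(nsq z / (4 * s))) := by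
  unfold hk
  have h1 : ((2 * Real.pi * s) ^ 3)⁻¹ = 8 * ((2 * Real.pi * (2 * s)) ^ 3)⁻¹ := by
    have := Real.pi_pos
    field_simp; norm_num
  have h2 : Real.exp (-(nsq z / (2 * s))) = Real.exp (-(nsq z / (2 * (2 * s)))) *
      Real.exp (-(nsq z / (4 * s))) := by
    rw [← Real.exp_add]; congr 1; field_simp; ring
  rw [h1, h2]; ring

lemma abs_k1_le {s : ℝ} (hs : 0 < s) (x : X6) (j : Fin 3 ⊕ Fin 3) (y : X6) :
    |k1 s x j y| ≤ 8 * (√s)⁻¹ * hk (2 * s) (x - y) := by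
  unfold k1
  set z := x - y
  have hn := nsq_nonneg z
  have h0 : |co j z| ≤ √(nsq z) := by
    apply Real.abs_le_sqrt
    rw [← sum_co_sq]
    exact Finset.single_le_sum (f := fun i => co i z ^ 2) (fun j _ => sq_nonneg _) (Finset.mem_univ j)
  set a := √(nsq z / s) with ha
  have ha0 : 0 ≤ a := Real.sqrt_nonneg _
  have ha2 : a ^ 2 = nsq z / s := Real.sq_sqrt (by positivity)
  have h1 : √(nsq z) = √s * a := by
    rw [ha, ← Real.sqrt_mul hs.le]; congr 1; (clear * - hs; field_simp)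
  have h2 : a ≤ Real.exp (nsq z / (4 * s)) := by
    have h3 : a ≤ a ^ 2 / 4 + 1 := by linarith only [sq_nonneg (a / 2 - 1)]
    have h4 : a ^ 2 / 4 = nsq z / (4 * s) := by rw [ha2]; (clear * - hs; field_simp)
    rw [h4] at h3
    exact h3.trans (Real.add_one_le_exp _)
  have hk0 := hk_nonneg (by positivity : 0 < 2 * s) z
  rw [abs_mul, abs_div, abs_of_pos hs, abs_of_nonneg (hk_nonneg hs z), hk_double hs z]
  have hs2 : √s / s = (√s)⁻¹ := Real.sqrt_div_self
  calc |co j z| / s * (8 * hk (2 * s) z * Real.exp (-(nsq z / (4 * s))))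
      ≤ (√s * Real.exp (nsq z / (4 * s))) / s * (8 * hk (2 * s) z * Real.exp (-(nsq z / (4 * s)))) := by
        gcongr
        calc |co j z| ≤ √(nsq z) := h0
          _ = √s * a := h1
          _ ≤ _ := by gcongr
    _ = (√s / s) * 8 * hk (2 * s) z * (Real.exp (nsq z / (4 * s)) * Real.exp (-(nsq z / (4 * s)))) := by
        ring
    _ = _ := by
        rw [← Real.exp_add, add_neg_cancel, Real.exp_zero, hs2]; ring

lemma PR_grad {u : X6 → ℝ} {ux uy : Fin 3 → X6 → ℝ} (hu : H1 u ux uy) {s : ℝ} (hs : 0 < s) (x : X6)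
    (j : Fin 3 ⊕ Fin 3) : PR s (Sum.elim ux uy j) x = - ∫ y, u y * k1 s x j y := by
  have hA : ACL volume (e6 j) (fun y => hk s (x - y)) (k1 s x j) := by
    have := ACL.of_contDiff (μ := (volume : Measure X6)) (e := e6 j) (contDiff_hk_sub s x)
    have h3 : (fun y => fderiv ℝ (fun y => hk s (x - y)) y (e6 j)) = k1 s x j :=
      funext (fderiv_k0 s x j)
    rw [h3] at this
    exact this
  have e0 : PR s (Sum.elim ux uy j) x = ∫ y, Sum.elim ux uy j y * hk s (x - y) := by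
    unfold PR; congr 1; ext y; ring
  rw [e0]
  rcases j with k | k
  · rw [(hu.aclx k).integral_mul hA (hu.memLp.integrable_mul (memLp_hk_sub hs x))
      ((hu.memLpx k).integrable_mul (memLp_hk_sub hs x)) (hu.memLp.integrable_mul (memLp_k1 hs x _))]
    simp
  · rw [(hu.acly k).integral_mul hA (hu.memLp.integrable_mul (memLp_hk_sub hs x))
      ((hu.memLpy k).integrable_mul (memLp_hk_sub hs x)) (hu.memLp.integrable_mul (memLp_k1 hs x _))]
    simp

lemma enorm_int_k1_le {u : X6 → ℝ} {t : ℝ} (ht : 0 < t) (x : X6) (j : Fin 3 ⊕ Fin 3) :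
    ‖∫ y, u y * k1 t x j y‖ₑ ≤ ENNReal.ofReal (8 * (√t)⁻¹) * PE (2 * t) (fun y => ‖u y‖ₑ) x := by
  refine (enorm_integral_le_lintegral_enorm _).trans ?_
  unfold PE
  rw [← lintegral_const_mul' _ _ ENNReal.ofReal_ne_top]
  apply lintegral_mono
  intro y
  simp only
  rw [enorm_mul, ← mul_assoc, mul_comm]
  gcongr
  unfold hE
  rw [← ENNReal.ofReal_mul (by (clear * - ht; positivity)), ← ofReal_norm]
  exact ENNReal.ofReal_le_ofReal (abs_k1_le ht x j y)

/-- Duhamel term for the gradient -/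
noncomputable def BE (C0 : ℝ) (R : Fin M → R3) (t : ℝ) (f : X6 → ℝ≥0∞) (x : X6) : ℝ≥0∞ :=
  ∫⁻ s in Ioo 0 t, ENNReal.ofReal (8 * (√s)⁻¹) * PE (2 * s) (fun z => UE C0 R z * f z) x

lemma duh1 {Z : Fin M → ℕ} {R : Fin M → R3} {E : ℝ} {u : X6 → ℝ} {ux uy : Fin 3 → X6 → ℝ}
    (hu : H1 u ux uy) (hw : WeakSol Z R E u ux uy) {s0 t : ℝ} (hs0 : 0 < s0) (hst : s0 ≤ t) (x : X6)
    (j : Fin 3 ⊕ Fin 3) :
    ‖PR s0 (Sum.elim ux uy j) x‖ₑ ≤ ENNReal.ofReal (8 * (√t)⁻¹) * PE (2 * t) (fun y => ‖u y‖ₑ) x +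
      BE (c0 Z E) R t (fun y => ‖u y‖ₑ) x := by
  have ht : 0 < t := hs0.trans_le hst
  obtain ⟨D, hD, hdom⟩ := dom_d1 hs0 hst x j
  have h := duhamel_abs (W := fun y => pot Z R y - E) hu.memLp (K := fun s y => k1 s x j y)
    (K' := fun s y => d1 s x j y) hst
    (fun s hs y => hasDerivAt_k1 (hs0.trans_le hs.1) x j y) (measurable_d1 x j) hD hdom
    (fun s hs => memLp_k1 (hs0.trans_le hs.1) x j) (fun s hs => VW1 hu hw (hs0.trans_le hs.1) x j)
  have h2 : ∫⁻ s in Ioo s0 t, ∫⁻ y, ‖pot Z R y - E‖ₑ * ‖u y‖ₑ * ‖k1 s x j y‖ₑ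
      ≤ BE (c0 Z E) R t (fun y => ‖u y‖ₑ) x := by
    unfold BE PE
    calc _ ≤ ∫⁻ s in Ioo s0 t, ENNReal.ofReal (8 * (√s)⁻¹) *
          ∫⁻ y, hE (2 * s) (x - y) * (UE (c0 Z E) R y * ‖u y‖ₑ) := by
          apply setLIntegral_mono' measurableSet_Ioo
          intro s hs
          rw [← lintegral_const_mul' _ _ ENNReal.ofReal_ne_top]
          apply lintegral_mono
          intro y
          simp only
          rw [← mul_assoc, mul_comm]
          gcongr
          · unfold hE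
            have := hs0.trans hs.1
            rw [← ENNReal.ofReal_mul (by (clear * - this; positivity)), ← ofReal_norm]
            exact ENNReal.ofReal_le_ofReal (abs_k1_le this x j y)
          · exact pot_le Z E R y
      _ ≤ _ := lintegral_mono_set (Ioo_subset_Ioo_left hs0.le)
  rw [PR_grad hu hs0 x j, enorm_neg]
  calc ‖∫ y, u y * k1 s0 x j y‖ₑ
      = ‖(∫ y, u y * k1 t x j y) - ((∫ y, u y * k1 t x j y) - ∫ y, u y * k1 s0 x j y)‖ₑ := by
        congr 1; ring
    _ ≤ ‖∫ y, u y * k1 t x j y‖ₑ + ‖(∫ y, u y * k1 t x j y) - ∫ y, u y * k1 s0 x j y‖ₑ := enorm_sub_le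
    _ ≤ _ := add_le_add (enorm_int_k1_le ht x j) (h.trans h2)

lemma duh1_ae {Z : Fin M → ℕ} {R : Fin M → R3} {E : ℝ} {u : X6 → ℝ} {ux uy : Fin 3 → X6 → ℝ}
    (hu : H1 u ux uy) (hw : WeakSol Z R E u ux uy) {t : ℝ} (ht : 0 < t) (j : Fin 3 ⊕ Fin 3) :
    ∀ᵐ x, ‖Sum.elim ux uy j x‖ₑ ≤ ENNReal.ofReal (8 * (√t)⁻¹) * PE (2 * t) (fun y => ‖u y‖ₑ) x +
      BE (c0 Z E) R t (fun y => ‖u y‖ₑ) x := by
  have hm : MemLp (Sum.elim ux uy j) 2 volume := by
    rcases j with k | k
    · exact hu.memLpx k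
    · exact hu.memLpy k
  obtain ⟨s, hs, hs0, hae⟩ := exists_seq_heat hm
  filter_upwards [hae] with x hx
  have h1 : Tendsto (fun k => ‖PR (s k) (Sum.elim ux uy j) x‖ₑ) atTop (𝓝 ‖Sum.elim ux uy j x‖ₑ) :=
    ((continuous_enorm.tendsto _).comp hx)
  refine le_of_tendsto h1 ?_
  have h2 : ∀ᶠ k in atTop, s k < t := hs0.eventually_lt_const ht
  filter_upwards [h2] with k hk
  exact duh1 hu hw (hs k) hk.le x j

end Vale.Agent.P363
end
end

section

section

namespace Vale.Agent.P363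

open MeasureTheory Filter Set
open scoped ContDiff Topology ENNReal

variable {M : ℕ}

lemma lintegral_inv_34 {t : ℝ} (ht : 0 < t) :
    ∫⁻ s in Ioo 0 t, ENNReal.ofReal ((√s)⁻¹ * √((√s)⁻¹)) = ENNReal.ofReal (4 * t ^ (1 / 4 : ℝ)) := by
  have h0 : ∀ s ∈ Ioo 0 t, ENNReal.ofReal ((√s)⁻¹ * √((√s)⁻¹)) = ENNReal.ofReal (s ^ (-(3 / 4) : ℝ)) := by
    intro s hs
    have hs0 := hs.1
    congr 1
    rw [Real.sqrt_eq_rpow, Real.sqrt_eq_rpow, ← Real.rpow_neg hs0.le, ← Real.rpow_mul hs0.le,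
      ← Real.rpow_add hs0]
    (clear * -; norm_num)
  rw [setLIntegral_congr_fun measurableSet_Ioo h0]
  have h1 : IntegrableOn (fun s : ℝ => s ^ (-(3 / 4) : ℝ)) (Ioo 0 t) := by
    have := intervalIntegral.intervalIntegrable_rpow' (a := 0) (b := t) (r := (-(3 / 4) : ℝ)) (by norm_num)
    rw [intervalIntegrable_iff_integrableOn_Ioo_of_le ht.le] at this
    exact this
  rw [← ofReal_integral_eq_lintegral_ofReal h1]
  · congr 1
    rw [← integral_Ioc_eq_integral_Ioo, ← intervalIntegral.integral_of_le ht.le,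
      integral_rpow (by left; norm_num)]
    norm_num
    ring
  · rw [EventuallyLE, ae_restrict_iff' measurableSet_Ioo]
    refine Eventually.of_forall fun s hs => ?_
    have := hs.1
    simp only [Pi.zero_apply]
    positivity

lemma hk_absorb {s t : ℝ} (hs : 0 < s) (hst : 4 * s ≤ t) (z : X6) :
    hk (2 * s) z * Real.exp (nsq z / (2 * t)) ≤ 8 * hk (4 * s) z := by
  have hn := nsq_nonneg z
  have h1 := hk_double (by positivity : 0 < 2 * s) z
  have h2 : (2 * (2 * s)) = 4 * s := by ring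
  have h3 : (4 * (2 * s)) = 8 * s := by ring
  rw [h2, h3] at h1
  rw [h1]
  have hk0 := hk_nonneg (by positivity : 0 < 4 * s) z
  have h4 : Real.exp (-(nsq z / (8 * s))) * Real.exp (nsq z / (2 * t)) ≤ 1 := by
    rw [← Real.exp_add, Real.exp_le_one_iff]
    have : nsq z / (2 * t) ≤ nsq z / (8 * s) :=
      div_le_div_of_nonneg_left hn (by positivity) (by linarith only [hst])
    linarith only [this]
  calc _ = 8 * hk (4 * s) z * (Real.exp (-(nsq z / (8 * s))) * Real.exp (nsq z / (2 * t))) := by ring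
    _ ≤ 8 * hk (4 * s) z * 1 := by (clear * - h4 hk0; gcongr)
    _ = _ := by ring

lemma ae_offdiag (R : Fin M → R3) : ∀ᵐ m : X6, (∀ j, m.1 ≠ R j) ∧ (∀ j, m.2 ≠ R j) ∧ m.1 ≠ m.2 := by
  have h1 : ∀ j, ∀ᵐ m : X6, m.1 ≠ R j := by
    intro j
    have h : ∀ᵐ b : R3, b ≠ R j := by
      filter_upwards [ae_ne_R3 (R j)] with b hb using hb.symm
    exact (Measure.quasiMeasurePreserving_fst (μ := (volume : Measure R3))
      (ν := (volume : Measure R3))).ae h
  have h2 : ∀ j, ∀ᵐ m : X6, m.2 ≠ R j := by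
    intro j
    have h : ∀ᵐ b : R3, b ≠ R j := by
      filter_upwards [ae_ne_R3 (R j)] with b hb using hb.symm
    exact (Measure.quasiMeasurePreserving_snd (μ := (volume : Measure R3))
      (ν := (volume : Measure R3))).ae h
  have h3 : ∀ᵐ m : X6, m.1 ≠ m.2 := by
    have hs : MeasurableSet {p : X6 | p.1 = p.2} := measurableSet_eq_fun measurable_fst measurable_snd
    rw [ae_iff]
    have : {a : X6 | ¬ a.1 ≠ a.2} = {p : X6 | p.1 = p.2} := by ext; simp
    rw [this, Measure.volume_eq_prod, Measure.measure_prod_null hs]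
    filter_upwards with a
    have : Prod.mk a ⁻¹' {p : X6 | p.1 = p.2} = {a} := by
      ext b; simp [eq_comm]
    rw [this]; simp
  filter_upwards [ae_all_iff.2 h1, ae_all_iff.2 h2, h3] with m a b c using ⟨a, b, c⟩

lemma BE_le {C0 : ℝ} (hC0 : 0 < C0) {R : Fin M → R3} {f : X6 → ℝ≥0∞} {t : ℝ} (ht : 0 < t) (ht1 : t ≤ 1)
    {x : X6} (hx1 : ∀ j, x.1 ≠ R j) (hx2 : ∀ j, x.2 ≠ R j) (hx3 : x.1 ≠ x.2)
    (hH : ∀ᵐ y, f y ≤ ENNReal.ofReal (24 * Real.exp (nsq (x - y) / (2 * t))) * f x) :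
    BE C0 R (t / 4) f x ≤
      ENNReal.ofReal (1536 * C0 * (1 + cH) * (4 * (t / 4) ^ (1 / 4 : ℝ)) * (1 + dsum R x)) * f x := by
  have hD := dsum_nonneg R x
  have hcH := cH_pos
  unfold BE
  have key : ∀ s ∈ Ioo 0 (t / 4), ENNReal.ofReal (8 * (√s)⁻¹) * PE (2 * s) (fun z => UE C0 R z * f z) x
      ≤ ENNReal.ofReal (1536 * C0 * (1 + cH) * (1 + dsum R x)) *
        ENNReal.ofReal ((√s)⁻¹ * √((√s)⁻¹)) * f x := by
    intro s hs
    have hs0 := hs.1
    have hs4 : 4 * s ≤ t := by linarith [hs.2]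
    have hs1 : s ≤ 1 := by linarith only [ht1, hs4]
    have hm := measurable_hE' (4 * s)
    have hU := measurable_UE C0 R
    have e1 : PE (2 * s) (fun z => UE C0 R z * f z) x
        ≤ ENNReal.ofReal 192 * (∫⁻ y, hE (4 * s) (y - x) * UE C0 R y) * f x := by
      unfold PE
      calc ∫⁻ y, hE (2 * s) (x - y) * (UE C0 R y * f y)
          ≤ ∫⁻ y, (ENNReal.ofReal 192 * (hE (4 * s) (y - x) * UE C0 R y)) * f x := by
            apply lintegral_mono_ae
            filter_upwards [hH] with y hy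
            calc hE (2 * s) (x - y) * (UE C0 R y * f y)
                ≤ hE (2 * s) (x - y) * (UE C0 R y *
                  (ENNReal.ofReal (24 * Real.exp (nsq (x - y) / (2 * t))) * f x)) := by (clear * - hy; gcongr)
              _ = (hE (2 * s) (x - y) * ENNReal.ofReal (24 * Real.exp (nsq (x - y) / (2 * t)))) *
                  (UE C0 R y * f x) := by ring
              _ ≤ (ENNReal.ofReal 192 * hE (4 * s) (y - x)) * (UE C0 R y * f x) := by
                  apply mul_le_mul_left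
                  rw [hE_sub_comm _ y x]
                  unfold hE
                  rw [← ENNReal.ofReal_mul (hk_nonneg (by positivity) _),
                    ← ENNReal.ofReal_mul (by norm_num)]
                  apply ENNReal.ofReal_le_ofReal
                  have := hk_absorb hs0 hs4 (x - y)
                  calc _ = 24 * (hk (2 * s) (x - y) * Real.exp (nsq (x - y) / (2 * t))) := by ring
                    _ ≤ 24 * (8 * hk (4 * s) (x - y)) := by (clear * - this; gcongr)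
                    _ = _ := by ring
              _ = _ := by ring
        _ ≤ _ := by
            rw [lintegral_mul_const'' _ (by (clear * - hm hU; exact Measurable.aemeasurable (by fun_prop))), lintegral_const_mul' _ _ ENNReal.ofReal_ne_top]
    have e2 := lintegral_hE_UE_le' (by (clear * - hs0; positivity) : 0 < 4 * s) hC0.le R x hx1 hx2 hx3
    set q := √((√s)⁻¹) with hq
    have hss : 0 < √s := Real.sqrt_pos.2 hs0
    have hq1 : 1 ≤ q := by
      rw [hq]
      have : √s ≤ 1 := by rw [show (1:ℝ) = √1 by simp]; exact Real.sqrt_le_sqrt hs1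
      exact Real.one_le_sqrt.2 ((one_le_inv₀ hss).2 this)
    have e3 : C0 * (1 + cH * √((√(4 * s))⁻¹) * dsum R x) ≤ C0 * ((1 + cH) * (1 + dsum R x) * q) := by
      have h1 : √((√(4 * s))⁻¹) ≤ q := by
        rw [hq]
        gcongr
        linarith only [hs0]
      apply mul_le_mul_of_nonneg_left _ hC0.le
      have h2 : cH * √((√(4 * s))⁻¹) * dsum R x ≤ cH * q * dsum R x := by (clear * - h1 hcH hD; gcongr)
      have h3 : 1 + cH * q * dsum R x ≤ (1 + cH) * (1 + dsum R x) * q := by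
        have e : (1 + cH) * (1 + dsum R x) * q = q + cH * q * dsum R x + (dsum R x * q + cH * q) := by ring
        rw [e]
        have : 0 ≤ dsum R x * q + cH * q := by (clear * - hD hs0 hcH; positivity)
        linarith only [hq1, this]
      linarith only [h3, h2]
    calc ENNReal.ofReal (8 * (√s)⁻¹) * PE (2 * s) (fun z => UE C0 R z * f z) x
        ≤ ENNReal.ofReal (8 * (√s)⁻¹) * (ENNReal.ofReal 192 *
          ENNReal.ofReal (C0 * ((1 + cH) * (1 + dsum R x) * q)) * f x) := by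
          apply mul_le_mul_right
          refine e1.trans ?_
          apply mul_le_mul_left
          apply mul_le_mul_right
          exact e2.trans (ENNReal.ofReal_le_ofReal e3)
      _ = _ := by
          rw [← mul_assoc, ← ENNReal.ofReal_mul (by norm_num), ← ENNReal.ofReal_mul (by (clear * - hs0; positivity)),
            ← ENNReal.ofReal_mul (by (clear * - hC0 hcH hD; positivity))]
          congr 2; ring
  refine (setLIntegral_mono' measurableSet_Ioo key).trans ?_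
  rw [lintegral_mul_const _ (by fun_prop), lintegral_const_mul _ (by fun_prop),
    lintegral_inv_34 (by (clear * - ht; positivity)), ← ENNReal.ofReal_mul (by positivity)]
  apply mul_le_mul_left
  apply ENNReal.ofReal_le_ofReal
  apply le_of_eq; ring

/-- constant in the gradient bound -/
noncomputable def cGrad (C0 t : ℝ) : ℝ :=
  12 * (√(t / 4))⁻¹ + 1536 * C0 * (1 + cH) * (4 * (t / 4) ^ (1 / 4 : ℝ))

lemma cGrad_nonneg {C0 t : ℝ} (hC0 : 0 < C0) (ht : 0 < t) : 0 ≤ cGrad C0 t := by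
  have := cH_pos
  unfold cGrad; positivity

lemma grad_bound {Z : Fin M → ℕ} {R : Fin M → R3} {E : ℝ} {u : X6 → ℝ} {ux uy : Fin 3 → X6 → ℝ}
    (hu : H1 u ux uy) (hw : WeakSol Z R E u ux uy) {f : X6 → ℝ≥0∞}
    (huf : ∀ y, ‖u y‖ₑ ≤ f y) {t : ℝ} (ht : 0 < t) (ht1 : t ≤ 1)
    (hP : ∀ᵐ x, 2 * PE (t / 2) f x ≤ 3 * f x)
    (hH : ∀ᵐ x, ∀ᵐ y, f y ≤ ENNReal.ofReal (24 * Real.exp (nsq (x - y) / (2 * t))) * f x)
    (j : Fin 3 ⊕ Fin 3) :
    ∀ᵐ x, ‖Sum.elim ux uy j x‖ₑ ≤ ENNReal.ofReal (cGrad (c0 Z E) t * dsing R x) * f x := by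
  have hC0 := c0_pos Z E
  filter_upwards [duh1_ae hu hw (by positivity : 0 < t / 4) j, hP, hH, ae_offdiag R] with x h1 h2 h3 h4
  have hD := dsum_nonneg R x
  have hcH := cH_pos
  have hB := BE_le hC0 ht ht1 h4.1 h4.2.1 h4.2.2 h3
  have hmono : BE (c0 Z E) R (t / 4) (fun y => ‖u y‖ₑ) x ≤ BE (c0 Z E) R (t / 4) f x := by
    unfold BE
    apply lintegral_mono
    intro s
    apply mul_le_mul_right
    apply PE_mono
    refine Eventually.of_forall fun y => ?_
    apply mul_le_mul_right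
    exact huf y
  have hP2 : PE (2 * (t / 4)) (fun y => ‖u y‖ₑ) x ≤ ENNReal.ofReal (3 / 2) * f x := by
    have e : 2 * (t / 4) = t / 2 := by ring
    rw [e]
    have h5 : PE (t / 2) (fun y => ‖u y‖ₑ) x ≤ PE (t / 2) f x := PE_mono (Eventually.of_forall huf) x
    refine h5.trans ?_
    have h6 : 2 * PE (t / 2) f x ≤ 2 * (ENNReal.ofReal (3 / 2) * f x) := by
      refine h2.trans (le_of_eq ?_)
      rw [← mul_assoc]
      congr 1
      rw [show (3 : ℝ≥0∞) = ENNReal.ofReal 3 by norm_num, show (2 : ℝ≥0∞) = ENNReal.ofReal 2 by norm_num,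
        ← ENNReal.ofReal_mul (by norm_num)]
      norm_num
    exact (ENNReal.mul_le_mul_iff_right (by norm_num) (by norm_num)).1 h6
  calc ‖Sum.elim ux uy j x‖ₑ
      ≤ ENNReal.ofReal (8 * (√(t / 4))⁻¹) * (ENNReal.ofReal (3 / 2) * f x) +
        ENNReal.ofReal (1536 * c0 Z E * (1 + cH) * (4 * (t / 4) ^ (1 / 4 : ℝ)) * (1 + dsum R x)) * f x := by
        refine h1.trans (add_le_add ?_ (hmono.trans hB))
        exact mul_le_mul_right hP2 _
    _ = ENNReal.ofReal (12 * (√(t / 4))⁻¹ +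
        1536 * c0 Z E * (1 + cH) * (4 * (t / 4) ^ (1 / 4 : ℝ)) * (1 + dsum R x)) * f x := by
        rw [← mul_assoc, ← ENNReal.ofReal_mul (by (clear * - ht; positivity)), ← add_mul,
          ← ENNReal.ofReal_add (by positivity) (by positivity)]
        congr 2; ring
    _ ≤ _ := by
        apply mul_le_mul_left
        apply ENNReal.ofReal_le_ofReal
        rw [dsing_eq]
        unfold cGrad
        have : 12 * (√(t / 4))⁻¹ ≤ 12 * (√(t / 4))⁻¹ * (1 + dsum R x) := by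
          apply le_mul_of_one_le_right (by positivity)
          linarith only [hD]
        linarith only [this]

lemma nsq_le_of_dist {p q : X6} (h : dist p q ≤ 1) : nsq (p - q) ≤ 2 := by
  rw [dist_eq_norm, Prod.norm_def, sup_le_iff] at h
  unfold nsq
  have h1 : ‖(p - q).1‖ ^ 2 ≤ 1 := pow_le_one₀ (norm_nonneg _) h.1
  have h2 : ‖(p - q).2‖ ^ 2 ≤ 1 := pow_le_one₀ (norm_nonneg _) h.2
  linarith

/-- Harnack inequality and gradient bound for weak solutions. -/
theorem harnackGradient : HarnackGradient := by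
  intro M Z R E ι _ u ux uy g gx gy hu huw hg hg1 hgw hgne
  have hg0 : ∀ x, 0 ≤ g x := fun x => by rw [hg]; exact Real.sqrt_nonneg _
  have hC0 := c0_pos Z E
  obtain ⟨t0, ht0, ht01, hε⟩ := exists_t0 M (c0 Z E)
  set f : X6 → ℝ≥0∞ := fun y => ‖g y‖ₑ with hf
  have hfm : AEMeasurable f := hg1.memLp.1.enorm
  have hS := sandwich hg1 hgw hg0 ht0 (by linarith only [ht01]) (hε t0 (by linarith only [ht0]))
  have hS2 := sandwich hg1 hgw hg0 (by (clear * - ht0; positivity) : 0 < t0 / 2) (by linarith only [ht01]) (hε (t0 / 2) (by linarith only [ht0]))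
  have hP : ∀ᵐ x, 2 * PE t0 f x ≤ 3 * f x := by filter_upwards [hS] with x hx using hx.2
  have hP2 : ∀ᵐ x, 2 * PE (t0 / 2) f x ≤ 3 * f x := by filter_upwards [hS2] with x hx using hx.2
  have hQ : ∀ᵐ x, 3 * f x ≤ 4 * PE t0 f x := by filter_upwards [hS] with x hx using hx.1
  have hHar := harnack_PE hfm ht0 hP
  have hH : ∀ᵐ x, ∀ᵐ y, f y ≤ ENNReal.ofReal (24 * Real.exp (nsq (x - y) / (2 * t0))) * f x := by
    filter_upwards [hP] with x hx
    filter_upwards [hQ] with y hy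
    have h1 : 3 * f y ≤ 3 * (ENNReal.ofReal (24 * Real.exp (nsq (x - y) / (2 * t0))) * f x) := by
      calc 3 * f y ≤ 4 * PE t0 f y := hy
        _ = 2 * (2 * PE t0 f y) := by ring
        _ ≤ 2 * (ENNReal.ofReal (24 * Real.exp (nsq (y - x) / (2 * t0))) * PE t0 f x) :=
            mul_le_mul_right (hHar y x) _
        _ = ENNReal.ofReal (24 * Real.exp (nsq (x - y) / (2 * t0))) * (2 * PE t0 f x) := by
            rw [nsq_sub_comm]; ring
        _ ≤ ENNReal.ofReal (24 * Real.exp (nsq (x - y) / (2 * t0))) * (3 * f x) :=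
            mul_le_mul_right hx _
        _ = _ := by ring
    exact (ENNReal.mul_le_mul_iff_right (by norm_num) (by norm_num)).1 h1
  have hfin : ∀ x, PE t0 f x < ⊤ := fun x => PE_finite ht0 hg1.memLp x
  have hpos : ∀ x, 0 < PE t0 f x := fun x => PE_pos hg1.memLp.1 hgne ht0 x
  have hGr : ∀ i (j : Fin 3 ⊕ Fin 3), ∀ᵐ x, |Sum.elim (ux i) (uy i) j x|
      ≤ cGrad (c0 Z E) t0 * dsing R x * g x := by
    intro i j
    have huf : ∀ y, ‖u i y‖ₑ ≤ f y := by
      intro y
      rw [hf]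
      simp only
      rw [← ofReal_norm, ← ofReal_norm]
      apply ENNReal.ofReal_le_ofReal
      rw [Real.norm_eq_abs, Real.norm_eq_abs, abs_of_nonneg (hg0 y), hg y]
      apply Real.abs_le_sqrt
      exact Finset.single_le_sum (f := fun i => u i y ^ 2) (fun j _ => sq_nonneg _) (Finset.mem_univ i)
    filter_upwards [grad_bound (hu i) (huw i) huf ht0 (by linarith only [ht01]) hP2 hH j] with x hx
    have hc := cGrad_nonneg (t := t0) hC0 ht0
    have hd : 0 ≤ dsing R x := by rw [dsing_eq]; have := dsum_nonneg R x; linarith only [this]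
    have hgx := hg0 x
    have h1 : f x = ENNReal.ofReal (g x) := Real.enorm_eq_ofReal hgx
    rw [h1, ← ENNReal.ofReal_mul (by (clear * - hc hd; positivity)), ← ofReal_norm,
      ENNReal.ofReal_le_ofReal_iff (by (clear * - hc hd hgx; positivity))] at hx
    exact hx
  refine ⟨fun p => (PE t0 f p).toReal, max (12 * Real.exp (1 / t0)) (max 2 (cGrad (c0 Z E) t0)), 1,
    one_pos, by positivity, (measurable_PE' hfm t0).ennreal_toReal, fun p =>
      ENNReal.toReal_pos (hpos p).ne' (hfin p).ne, ?_, ?_, ?_, ?_, ?_⟩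
  · intro p q hpq
    have h1 := hHar p q
    have h2 := nsq_le_of_dist hpq
    have h3 : 2 * PE t0 f p ≤ ENNReal.ofReal (24 * Real.exp (1 / t0)) * PE t0 f q := by
      refine h1.trans ?_
      apply mul_le_mul_left
      apply ENNReal.ofReal_le_ofReal
      have h7 : nsq (p - q) / (2 * t0) ≤ 1 / t0 := by
        calc nsq (p - q) / (2 * t0) ≤ 2 / (2 * t0) := by (clear * - h2 ht0; gcongr)
          _ = 1 / t0 := by (clear * - ht0; field_simp)
      exact mul_le_mul_of_nonneg_left (Real.exp_le_exp.2 h7) (by norm_num)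
    have h4 := ENNReal.toReal_mono (ENNReal.mul_ne_top ENNReal.ofReal_ne_top (hfin q).ne) h3
    rw [ENNReal.toReal_mul, ENNReal.toReal_mul, ENNReal.toReal_ofReal (by positivity)] at h4
    have h5 : (PE t0 f p).toReal ≤ 12 * Real.exp (1 / t0) * (PE t0 f q).toReal := by
      simp only [ENNReal.toReal_ofNat] at h4
      linarith only [h4]
    refine h5.trans ?_
    have : 0 ≤ (PE t0 f q).toReal := ENNReal.toReal_nonneg
    gcongr
    exact le_max_left _ _
  · filter_upwards [hP] with x hx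
    have h1 : f x = ENNReal.ofReal (g x) := Real.enorm_eq_ofReal (hg0 x)
    have h4 := ENNReal.toReal_mono (ENNReal.mul_ne_top (by (clear * -; norm_num)) (by rw [h1]; simp)) hx
    rw [ENNReal.toReal_mul, ENNReal.toReal_mul, h1, ENNReal.toReal_ofReal (hg0 x)] at h4
    simp only [ENNReal.toReal_ofNat] at h4
    have h5 : (PE t0 f x).toReal ≤ 2 * g x := by linarith only [h4, hg0 x]
    refine h5.trans ?_
    have := hg0 x
    gcongr
    exact (le_max_left _ _).trans (le_max_right _ _)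
  · filter_upwards [hQ] with x hx
    have h1 : f x = ENNReal.ofReal (g x) := Real.enorm_eq_ofReal (hg0 x)
    have h4 := ENNReal.toReal_mono (ENNReal.mul_ne_top (by norm_num) (hfin x).ne) hx
    rw [ENNReal.toReal_mul, ENNReal.toReal_mul, h1, ENNReal.toReal_ofReal (hg0 x)] at h4
    simp only [ENNReal.toReal_ofNat] at h4
    have h6 : 0 ≤ (PE t0 f x).toReal := ENNReal.toReal_nonneg
    have h5 : g x ≤ 2 * (PE t0 f x).toReal := by linarith only [h4, h6]
    refine h5.trans ?_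
    gcongr
    exact (le_max_left _ _).trans (le_max_right _ _)
  · intro i k
    filter_upwards [hGr i (Sum.inl k)] with x hx
    have hd : 0 ≤ dsing R x := by rw [dsing_eq]; have := dsum_nonneg R x; linarith only [this]
    have := hg0 x
    refine hx.trans ?_
    gcongr
    exact (le_max_right _ _).trans (le_max_right _ _)
  · intro i k
    filter_upwards [hGr i (Sum.inr k)] with x hx
    have hd : 0 ≤ dsing R x := by rw [dsing_eq]; have := dsum_nonneg R x; linarith only [this]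
    have := hg0 x
    refine hx.trans ?_
    gcongr
    exact (le_max_right _ _).trans (le_max_right _ _)

end Vale.Agent.P363
end
end

section

section

namespace Vale.Agent.P363.KX

open MeasureTheory Set Filter Topology
open scoped ENNReal ContDiff

noncomputable section

/-! Uniform local `L²` and `L¹` bounds for the gradient of the regularized logarithm. -/

variable {c : ℝ} {v : R3 → ℝ} {e : ℝ} {ψ : R3 → ℝ} {ψ' : Fin 3 → R3 → ℝ}

/-- A smooth cut-off adapted to the half space and the ball. -/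
lemma exists_cutoff {c c' : ℝ} (hc : c < c') (R : ℝ) :
    ∃ θ : R3 → ℝ, ContDiff ℝ ∞ θ ∧ HasCompactSupport θ ∧ tsupport θ ⊆ Om c ∧
      (∀ x, 0 ≤ θ x) ∧ (∀ x, θ x ≤ 1) ∧ ∀ x ∈ Om c' ∩ Metric.ball (0 : R3) R, θ x = 1 := by
  set a : ℝ := (c + c') / 2 with ha
  have hac : c < a := by rw [ha]; linarith only [hc]
  have hac' : 0 < c' - a := by rw [ha]; linarith only [hc]
  set b : ContDiffBump (0 : R3) :=
    ⟨|R| + 1, |R| + 2, by (clear * -; positivity), by linarith only []⟩ with hb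
  set s : R3 → ℝ := fun x => Real.smoothTransition ((x 0 - a) / (c' - a)) with hs
  have hx0 : ContDiff ℝ ∞ (fun x : R3 => x 0) := by fun_prop
  have hsd : ContDiff ℝ ∞ s :=
    Real.smoothTransition.contDiff.comp ((hx0.sub contDiff_const).div_const _)
  refine ⟨fun x => s x * b x, hsd.mul b.contDiff, b.hasCompactSupport.mul_left, ?_,
    fun x => mul_nonneg (Real.smoothTransition.nonneg _) b.nonneg, ?_, ?_⟩
  · have hcl : IsClosed {x : R3 | a ≤ x 0} :=
      isClosed_le continuous_const hx0.continuous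
    have h1 : tsupport (fun x => s x * b x) ⊆ {x : R3 | a ≤ x 0} := by
      apply closure_minimal _ hcl
      intro x hx
      by_contra hx0'
      apply hx
      have : s x = 0 := by
        apply Real.smoothTransition.zero_of_nonpos
        rw [mem_ofPred_eq, not_le] at hx0'
        exact div_nonpos_of_nonpos_of_nonneg (by linarith only [hx0']) hac'.le
      simp [this]
    intro x hx
    have := h1 hx
    rw [mem_ofPred_eq] at this
    show c < x 0
    linarith only [hac, this]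
  · intro x
    have h1 : s x ≤ 1 := Real.smoothTransition.le_one _
    have h2 : b x ≤ 1 := b.le_one
    have h3 : 0 ≤ b x := b.nonneg
    nlinarith only [h2, h1, h3]
  · intro x hx
    have h1 : s x = 1 := by
      apply Real.smoothTransition.one_of_one_le
      rw [one_le_div hac']
      have : c' < x 0 := hx.1
      linarith only [this]
    have h2 : b x = 1 := by
      apply b.one_of_mem_closedBall
      rw [mem_closedBall_zero_iff]
      have h3 : ‖x‖ < R := mem_ball_zero_iff.mp hx.2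
      have h4 : R ≤ |R| := le_abs_self R
      show ‖x‖ ≤ |R| + 1
      linarith only [h3, h4]
    simp [h1, h2]

theorem grad_unif (h : Cut c v e ψ ψ') {c' : ℝ} (hc : c < c') (R : ℝ) :
    ∃ C : ℝ, ∀ δ : ℝ, 0 < δ → ∀ k,
      ∫⁻ x in Om c' ∩ Metric.ball (0 : R3) R, ‖ψ' k x / (ψ x + δ)‖ₑ ^ 2 ≤ ENNReal.ofReal C := by
  obtain ⟨θ, hθ, hθc, hθs, h0, h1, h2⟩ := exists_cutoff hc R
  refine ⟨4 * (∑ k, ∫ x, pd k θ x ^ 2) + 4 * ∫ x, |v x - e| * θ x ^ 2, ?_⟩
  intro δ hδ k
  have hmain := cacc_delta h hδ hθ hθc hθs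
  have hmψ : AEStronglyMeasurable ψ volume := h.h1.memLp.1
  have hint : ∀ j, Integrable (fun x => θ x ^ 2 * (ψ' j x / (ψ x + δ)) ^ 2) volume := by
    intro j
    have hI : Integrable (fun x => (δ⁻¹) ^ 2 * (ψ' j x) ^ 2) volume :=
      (h.h1.memLp' j).integrable_sq.const_mul _
    refine hI.mono' ?_ ?_
    · have hm1 : AEStronglyMeasurable (fun x => ψ' j x / (ψ x + δ)) volume := by
        have := (h.h1.memLp' j).1.aemeasurable.div (hmψ.aemeasurable.add_const δ)
        exact this.aestronglyMeasurable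
      exact (hθ.continuous.aestronglyMeasurable.pow 2).mul (hm1.pow 2)
    · filter_upwards [h.nonneg] with x hx
      have hden : 0 < ψ x + δ := by linarith only [hδ, hx]
      have e1 : (ψ' j x / (ψ x + δ)) ^ 2 ≤ (δ⁻¹) ^ 2 * (ψ' j x) ^ 2 := by
        rw [div_pow, div_eq_mul_inv, mul_comm, ← inv_pow]
        apply mul_le_mul_of_nonneg_right _ (sq_nonneg _)
        apply pow_le_pow_left₀ (by (clear * - hx hδ; positivity))
        exact inv_anti₀ hδ (by linarith only [hx])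
      have e2 : θ x ^ 2 ≤ 1 := pow_le_one₀ (h0 x) (h1 x)
      rw [Real.norm_of_nonneg (by (clear * -; positivity))]
      calc θ x ^ 2 * (ψ' j x / (ψ x + δ)) ^ 2 ≤ 1 * (ψ' j x / (ψ x + δ)) ^ 2 :=
            mul_le_mul_of_nonneg_right e2 (sq_nonneg _)
        _ ≤ _ := by rw [one_mul]; exact e1
  have hmeasS : MeasurableSet (Om c' ∩ Metric.ball (0 : R3) R) := by
    have : IsOpen (Om c') := isOpen_lt continuous_const (by fun_prop)
    exact (this.inter Metric.isOpen_ball).measurableSet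
  calc ∫⁻ x in Om c' ∩ Metric.ball (0 : R3) R, ‖ψ' k x / (ψ x + δ)‖ₑ ^ 2
      ≤ ∫⁻ x in Om c' ∩ Metric.ball (0 : R3) R,
          ENNReal.ofReal (θ x ^ 2 * (ψ' k x / (ψ x + δ)) ^ 2) := by
        apply setLIntegral_mono' hmeasS
        intro x hx
        rw [h2 x hx, one_pow, one_mul, ← sq_abs, ENNReal.ofReal_pow (abs_nonneg _),
          ← Real.norm_eq_abs, ofReal_norm]
    _ ≤ ∫⁻ x, ENNReal.ofReal (θ x ^ 2 * (ψ' k x / (ψ x + δ)) ^ 2) := setLIntegral_le_lintegral _ _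
    _ = ENNReal.ofReal (∫ x, θ x ^ 2 * (ψ' k x / (ψ x + δ)) ^ 2) := by
        rw [ofReal_integral_eq_lintegral_ofReal (hint k)]
        filter_upwards with x
        (clear * -; positivity)
    _ ≤ _ := by
        apply ENNReal.ofReal_le_ofReal
        refine le_trans ?_ hmain
        exact Finset.single_le_sum (f := fun j => ∫ x, θ x ^ 2 * (ψ' j x / (ψ x + δ)) ^ 2)
          (fun j _ => integral_nonneg (fun x => by (clear * -; positivity))) (Finset.mem_univ k)

theorem grad_unif1 (h : Cut c v e ψ ψ') {c' : ℝ} (hc : c < c') (R : ℝ) :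
    ∃ C : ℝ, ∀ δ : ℝ, 0 < δ → ∀ k,
      ∫⁻ x in Om c' ∩ Metric.ball (0 : R3) R, ‖ψ' k x / (ψ x + δ)‖ₑ ≤ ENNReal.ofReal C := by
  obtain ⟨C, hC⟩ := grad_unif h hc R
  have hfin : volume (Om c' ∩ Metric.ball (0 : R3) R) ≠ ⊤ :=
    ((measure_mono inter_subset_right).trans_lt Metric.isBounded_ball.measure_lt_top).ne
  refine ⟨(volume (Om c' ∩ Metric.ball (0 : R3) R)).toReal + max C 0, ?_⟩
  intro δ hδ k
  calc ∫⁻ x in Om c' ∩ Metric.ball (0 : R3) R, ‖ψ' k x / (ψ x + δ)‖ₑ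
      ≤ ∫⁻ x in Om c' ∩ Metric.ball (0 : R3) R, (1 + ‖ψ' k x / (ψ x + δ)‖ₑ ^ 2) := by
        apply lintegral_mono
        intro x
        rcases le_total (‖ψ' k x / (ψ x + δ)‖ₑ) 1 with h1 | h1
        · exact h1.trans le_self_add
        · calc ‖ψ' k x / (ψ x + δ)‖ₑ = ‖ψ' k x / (ψ x + δ)‖ₑ * 1 := (mul_one _).symm
            _ ≤ ‖ψ' k x / (ψ x + δ)‖ₑ * ‖ψ' k x / (ψ x + δ)‖ₑ := by (clear * - h1; gcongr)
            _ = ‖ψ' k x / (ψ x + δ)‖ₑ ^ 2 := (sq _).symm
            _ ≤ _ := le_add_self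
    _ = volume (Om c' ∩ Metric.ball (0 : R3) R) +
          ∫⁻ x in Om c' ∩ Metric.ball (0 : R3) R, ‖ψ' k x / (ψ x + δ)‖ₑ ^ 2 := by
        rw [lintegral_add_left measurable_const]
        simp only [lintegral_const, MeasurableSet.univ, Measure.restrict_apply, univ_inter, one_mul]
    _ ≤ volume (Om c' ∩ Metric.ball (0 : R3) R) + ENNReal.ofReal C := by
        gcongr
        exact hC δ hδ k
    _ ≤ ENNReal.ofReal ((volume (Om c' ∩ Metric.ball (0 : R3) R)).toReal) +
          ENNReal.ofReal (max C 0) := by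
        rw [ENNReal.ofReal_toReal hfin]
        gcongr
        exact le_max_left _ _
    _ = _ := (ENNReal.ofReal_add ENNReal.toReal_nonneg (le_max_right _ _)).symm

end

end Vale.Agent.P363.KX
end
end

section

section

namespace Vale.Agent.P363.KX

open MeasureTheory Set Filter Topology
open scoped ENNReal ContDiff

noncomputable section

/-! Limits `δ → 0`: the gradient. -/

variable {c : ℝ} {v : R3 → ℝ} {e : ℝ} {ψ : R3 → ℝ} {ψ' : Fin 3 → R3 → ℝ}

theorem grad_loc (h : Cut c v e ψ ψ') {c' : ℝ} (hc : c < c')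
    (hpos : ∀ᵐ x : R3, x ∈ Om c' → 0 < ψ x) (R : ℝ) (k : Fin 3) :
    IntegrableOn (fun x => (ψ' k x / ψ x) ^ 2) (Om c' ∩ Metric.ball (0 : R3) R) volume := by
  obtain ⟨C, hC⟩ := grad_unif h hc R
  have hmψ : AEMeasurable ψ volume := h.h1.memLp.1.aemeasurable
  have hmψ' : AEMeasurable (ψ' k) volume := (h.h1.memLp' k).1.aemeasurable
  have hmeasS : MeasurableSet (Om c' ∩ Metric.ball (0 : R3) R) := by
    have : IsOpen (Om c') := isOpen_lt continuous_const (by fun_prop)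
    exact (this.inter Metric.isOpen_ball).measurableSet
  set S : Set R3 := Om c' ∩ Metric.ball (0 : R3) R with hS
  set d : ℕ → ℝ := fun n => 1 / ((n : ℝ) + 1) with hd
  have hd0 : ∀ n, 0 < d n := fun n => by rw [hd]; positivity
  have hdlim : Tendsto d atTop (𝓝 0) := tendsto_one_div_add_atTop_nhds_zero_nat
  have hm : ∀ n : ℕ, AEMeasurable (fun x => ‖ψ' k x / (ψ x + d n)‖ₑ ^ 2) (volume.restrict S) := by
    intro n
    exact ((hmψ'.div (hmψ.add_const (d n))).enorm.pow_const 2).restrict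
  have hfat := lintegral_liminf_le' (u := atTop) hm
  have hposS : ∀ᵐ x ∂(volume.restrict S), 0 < ψ x := by
    rw [ae_restrict_iff' hmeasS]
    filter_upwards [hpos] with x hx hxS
    exact hx hxS.1
  have hlim : ∀ᵐ x ∂(volume.restrict S),
      liminf (fun n : ℕ => ‖ψ' k x / (ψ x + d n)‖ₑ ^ 2) atTop = ‖(ψ' k x / ψ x) ^ 2‖ₑ := by
    filter_upwards [hposS] with x hx
    apply Tendsto.liminf_eq
    have h1 : Tendsto (fun n : ℕ => (ψ' k x / (ψ x + d n)) ^ 2) atTop
        (𝓝 ((ψ' k x / ψ x) ^ 2)) := by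
      have h2 : Tendsto (fun n : ℕ => ψ x + d n) atTop (𝓝 (ψ x)) := by
        simpa only [add_zero] using hdlim.const_add (ψ x)
      exact (tendsto_const_nhds.div h2 hx.ne').pow 2
    have h3 := (continuous_enorm.tendsto ((ψ' k x / ψ x) ^ 2)).comp h1
    refine h3.congr ?_
    intro n
    simp only [Function.comp_apply]
    rw [enorm_pow]
  refine ⟨((hmψ'.div hmψ).pow_const 2).aestronglyMeasurable.restrict, ?_⟩
  rw [hasFiniteIntegral_iff_enorm, ← lintegral_congr_ae hlim]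
  refine lt_of_le_of_lt hfat ?_
  refine lt_of_le_of_lt ?_ (ENNReal.ofReal_lt_top (r := C))
  refine liminf_le_of_le (by isBoundedDefault) ?_
  intro b hb
  obtain ⟨n, hn⟩ := hb.exists
  exact hn.trans (hC (d n) (hd0 n) k)

end

end Vale.Agent.P363.KX
end
end

section

section

namespace Vale.Agent.P363.KX

open MeasureTheory Set Filter Topology
open scoped ENNReal ContDiff

noncomputable section

/-! Positivity of the orbital. -/

variable {c : ℝ} {v : R3 → ℝ} {e : ℝ} {ψ : R3 → ℝ} {ψ' : Fin 3 → R3 → ℝ}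

theorem log_osc (h : Cut c v e ψ ψ') {c' : ℝ} (hc : c < c') {R : ℝ} (hR : 0 < R) :
    ∃ C : ℝ, ∀ δ : ℝ, 0 < δ →
      ∫⁻ x in Om c' ∩ Metric.ball (0 : R3) R, ∫⁻ y in Om c' ∩ Metric.ball (0 : R3) R,
        ‖Real.log (ψ y + δ) - Real.log (ψ x + δ)‖ₑ ≤ ENNReal.ofReal C := by
  obtain ⟨C0, hC0⟩ := grad_unif1 h hc (9 * R)
  have hfin : volume (Metric.ball (0 : R3) (2 * R)) ≠ ⊤ := measure_ball_lt_top.ne
  refine ⟨(volume (Metric.ball (0 : R3) (2 * R))).toReal * (2 * R * (3 * max C0 0)),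
    fun δ hδ => ?_⟩
  have h1 := osc_integral (fun k => acl_log h hδ k) c' hR
  refine h1.trans ?_
  have h2 : ∑ k, ∫⁻ x in Om c' ∩ Metric.ball (0 : R3) (9 * R), ‖ψ' k x / (ψ x + δ)‖ₑ ≤
      ENNReal.ofReal (3 * max C0 0) := by
    calc ∑ k, ∫⁻ x in Om c' ∩ Metric.ball (0 : R3) (9 * R), ‖ψ' k x / (ψ x + δ)‖ₑ
        ≤ ∑ _k : Fin 3, ENNReal.ofReal (max C0 0) :=
          Finset.sum_le_sum fun k _ => (hC0 δ hδ k).trans
            (ENNReal.ofReal_le_ofReal (le_max_left _ _))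
      _ = ENNReal.ofReal (3 * max C0 0) := by
          rw [Finset.sum_const, Finset.card_univ, Fintype.card_fin, nsmul_eq_mul,
            ENNReal.ofReal_mul (by norm_num)]
          norm_num
  have h3 : ENNReal.ofReal (2 * R * (3 * max C0 0)) =
      ENNReal.ofReal (2 * R) * ENNReal.ofReal (3 * max C0 0) :=
    ENNReal.ofReal_mul (by positivity)
  rw [ENNReal.ofReal_mul ENNReal.toReal_nonneg, ENNReal.ofReal_toReal hfin, h3]
  (clear * - h2; gcongr)

/-- A set on which a measurable function vanishes is null, if the oscillation of the logarithm is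
bounded and the function is positive somewhere. -/
theorem x7a_null {U P Z : Set R3} (hP : MeasurableSet P) (hZ : MeasurableSet Z) (hPU : P ⊆ U)
    (hZU : Z ⊆ U) (hU : volume U ≠ ⊤) (hP0 : volume P ≠ 0) {g : R3 → ℝ} {ε : ℝ} (hε : 0 < ε)
    (hg : ∀ x ∈ P, ε ≤ g x) (hz : ∀ x ∈ Z, g x = 0) {C : ℝ}
    (hC : ∀ δ : ℝ, 0 < δ → ∫⁻ x in U, ∫⁻ y in U,
      ‖Real.log (g y + δ) - Real.log (g x + δ)‖ₑ ≤ ENNReal.ofReal C) : volume Z = 0 := by
  by_contra hZ0
  set w : ℝ≥0∞ := volume Z * volume P with hw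
  have hPf : volume P ≠ ⊤ := ((measure_mono hPU).trans_lt (lt_top_iff_ne_top.2 hU)).ne
  have hZf : volume Z ≠ ⊤ := ((measure_mono hZU).trans_lt (lt_top_iff_ne_top.2 hU)).ne
  have hw0 : w ≠ 0 := mul_ne_zero hZ0 hP0
  have hwf : w ≠ ⊤ := ENNReal.mul_ne_top hZf hPf
  have hwr : 0 < w.toReal := ENNReal.toReal_pos hw0 hwf
  have key : ∀ M : ℝ, 0 < M → ENNReal.ofReal M * w ≤ ENNReal.ofReal C := by
    intro M hM
    set δ : ℝ := ε * Real.exp (-M) with hδ
    have hδ0 : 0 < δ := by positivity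
    refine le_trans ?_ (hC δ hδ0)
    calc ENNReal.ofReal M * w = ∫⁻ _x in P, ∫⁻ _y in Z, ENNReal.ofReal M := by
          rw [setLIntegral_const, setLIntegral_const, hw]
          ring
      _ ≤ ∫⁻ x in P, ∫⁻ y in Z, ‖Real.log (g y + δ) - Real.log (g x + δ)‖ₑ := by
          refine setLIntegral_mono' hP fun x hx => setLIntegral_mono' hZ fun y hy => ?_
          rw [← ofReal_norm]
          refine ENNReal.ofReal_le_ofReal ?_
          rw [hz y hy, zero_add, Real.norm_eq_abs, abs_sub_comm]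
          refine le_trans ?_ (le_abs_self _)
          have h1 : Real.log ε ≤ Real.log (g x + δ) :=
            Real.log_le_log hε (by linarith only [hδ0, hg x hx])
          have h2 : Real.log δ = Real.log ε + -M := by
            rw [hδ, Real.log_mul hε.ne' (Real.exp_pos _).ne', Real.log_exp]
          linarith only [h1, h2]
      _ ≤ ∫⁻ x in U, ∫⁻ y in U, ‖Real.log (g y + δ) - Real.log (g x + δ)‖ₑ := by
          refine le_trans (lintegral_mono_set hPU) (lintegral_mono fun x => ?_)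
          exact lintegral_mono_set hZU
  have h1 := key ((max C 0 + 1) / w.toReal) (by (clear * - hwr; positivity))
  have h2 : ENNReal.ofReal ((max C 0 + 1) / w.toReal) * w = ENNReal.ofReal (max C 0 + 1) := by
    have e1 : w = ENNReal.ofReal w.toReal := (ENNReal.ofReal_toReal hwf).symm
    calc ENNReal.ofReal ((max C 0 + 1) / w.toReal) * w
        = ENNReal.ofReal ((max C 0 + 1) / w.toReal) * ENNReal.ofReal w.toReal :=
          congrArg _ e1
      _ = ENNReal.ofReal (max C 0 + 1) := by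
          rw [← ENNReal.ofReal_mul (by (clear * - hwr; positivity))]
          congr 1
          (clear * - hwr; field_simp)
  rw [h2] at h1
  have h3 : ENNReal.ofReal C < ENNReal.ofReal (max C 0 + 1) := by
    rw [ENNReal.ofReal_lt_ofReal_iff (by (clear * -; positivity))]
    have := le_max_left C 0
    linarith only [this]
  exact absurd h1 (not_le.2 h3)

theorem pos_of_ne (h : Cut c v e ψ ψ') {c' : ℝ} (hc : c < c')
    (hne : ¬ ∀ᵐ x : R3, x ∈ Om c' → ψ x = 0) : ∀ᵐ x : R3, x ∈ Om c' → 0 < ψ x := by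
  have hOm : MeasurableSet (Om c') :=
    measurableSet_lt measurable_const (by fun_prop : Measurable fun x : R3 => x 0)
  have hψm : AEStronglyMeasurable ψ volume := h.h1.memLp.aestronglyMeasurable
  set g : R3 → ℝ := hψm.mk ψ with hgdef
  have hg : Measurable g := hψm.stronglyMeasurable_mk.measurable
  have hae : ψ =ᵐ[volume] g := hψm.ae_eq_mk
  have hg0 : ∀ᵐ x, 0 ≤ g x := by
    filter_upwards [hae, h.nonneg] with x h1 h2
    rwa [← h1]
  -- a set of positive measure on which `g` is bounded below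
  set P : ℕ → Set R3 := fun n =>
    (Om c' ∩ Metric.ball (0 : R3) n) ∩ {x | 1 / ((n : ℝ) + 1) ≤ g x} with hP
  have hPm : ∀ n, MeasurableSet (P n) := fun n =>
    (hOm.inter measurableSet_ball).inter (measurableSet_le measurable_const hg)
  obtain ⟨n0, hn0⟩ : ∃ n, volume (P n) ≠ 0 := by
    by_contra hcon
    push Not at hcon
    apply hne
    have h1 : ∀ᵐ x, ∀ n, x ∉ P n := ae_all_iff.2 fun n => measure_eq_zero_iff_ae_notMem.1 (hcon n)
    filter_upwards [h1, hg0, hae] with x hx h0 he hxO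
    rw [he]
    by_contra hx0
    have hpos : 0 < g x := lt_of_le_of_ne h0 (Ne.symm hx0)
    obtain ⟨n1, hn1⟩ := exists_nat_gt ‖x‖
    obtain ⟨n2, hn2⟩ := exists_nat_one_div_lt hpos
    refine hx (max n1 n2) ⟨⟨hxO, ?_⟩, ?_⟩
    · rw [mem_ball_zero_iff]
      exact hn1.trans_le (by exact_mod_cast le_max_left _ _)
    · change 1 / (((max n1 n2 : ℕ) : ℝ) + 1) ≤ g x
      refine le_trans ?_ hn2.le
      refine one_div_le_one_div_of_le (by (clear * -; positivity)) ?_
      have : (n2 : ℝ) ≤ ((max n1 n2 : ℕ) : ℝ) := by exact_mod_cast le_max_right _ _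
      linarith only [this]
  have hε : (0 : ℝ) < 1 / ((n0 : ℝ) + 1) := by (clear * -; positivity)
  have hnull : ∀ k : ℕ, volume ((Om c' ∩ Metric.ball (0 : R3) ((n0 : ℝ) + (k + 1))) ∩
      {x | g x = 0}) = 0 := by
    intro k
    have hR : (0 : ℝ) < (n0 : ℝ) + (k + 1) := by (clear * -; positivity)
    obtain ⟨C, hC⟩ := log_osc h hc hR
    have hU : volume (Om c' ∩ Metric.ball (0 : R3) ((n0 : ℝ) + (k + 1))) ≠ ⊤ :=
      ((measure_mono inter_subset_right).trans_lt measure_ball_lt_top).ne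
    refine x7a_null (P := P n0) (hPm n0) ((hOm.inter measurableSet_ball).inter
      (measurableSet_eq_fun hg measurable_const)) ?_ inter_subset_left hU hn0 hε
      (fun x hx => hx.2) (fun x hx => hx.2) (C := C) ?_
    · intro x hx
      refine ⟨hx.1.1, Metric.ball_subset_ball ?_ hx.1.2⟩
      have : (0 : ℝ) ≤ k := Nat.cast_nonneg k
      linarith only []
    · intro δ hδ
      refine le_trans (le_of_eq ?_) (hC δ hδ)
      refine lintegral_congr_ae ?_
      filter_upwards [ae_restrict_of_ae hae] with x hx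
      refine lintegral_congr_ae ?_
      filter_upwards [ae_restrict_of_ae hae] with y hy
      rw [hx, hy]
  have h1 : ∀ᵐ x, ∀ k : ℕ, x ∉ (Om c' ∩ Metric.ball (0 : R3) ((n0 : ℝ) + (k + 1))) ∩
      {x | g x = 0} := ae_all_iff.2 fun k => measure_eq_zero_iff_ae_notMem.1 (hnull k)
  filter_upwards [h1, hg0, hae] with x hx h0 he hxO
  rw [he]
  refine lt_of_le_of_ne h0 fun hx0 => ?_
  obtain ⟨k, hk⟩ := exists_nat_gt ‖x‖
  refine hx k ⟨⟨hxO, ?_⟩, hx0.symm⟩
  rw [mem_ball_zero_iff]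
  have : (0 : ℝ) ≤ n0 := Nat.cast_nonneg n0
  linarith only [hk]

end

end Vale.Agent.P363.KX
end
end

section

section

namespace Vale.Agent.P363.KX

open MeasureTheory Set Filter Topology
open scoped ENNReal ContDiff

noncomputable section

/-! Local integrability of the logarithm. -/

variable {c : ℝ} {v : R3 → ℝ} {e : ℝ} {ψ : R3 → ℝ} {ψ' : Fin 3 → R3 → ℝ}

/-- Passing to the limit `δ → 0` in the bound for the oscillation of the logarithm. -/
theorem x7b_fatou {μ : Measure R3} [IsFiniteMeasure μ] {g : R3 → ℝ} (hg : Measurable g)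
    (hpos : ∀ᵐ x ∂μ, 0 < g x) {C : ℝ}
    (hC : ∀ δ : ℝ, 0 < δ →
      ∫⁻ x, ∫⁻ y, ‖Real.log (g y + δ) - Real.log (g x + δ)‖ₑ ∂μ ∂μ ≤ ENNReal.ofReal C) :
    ∫⁻ x, ∫⁻ y, ‖Real.log (g y) - Real.log (g x)‖ₑ ∂μ ∂μ ≤ ENNReal.ofReal C := by
  set d : ℕ → ℝ := fun n => 1 / ((n : ℝ) + 1) with hd
  have hd0 : Tendsto d atTop (𝓝 0) := tendsto_one_div_add_atTop_nhds_zero_nat
  have hdp : ∀ n, 0 < d n := fun n => by (clear * -; positivity)
  have hlog : ∀ x, 0 < g x → Tendsto (fun n => Real.log (g x + d n)) atTop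
      (𝓝 (Real.log (g x))) := by
    intro x hx
    have h1 : Tendsto (fun n => g x + d n) atTop (𝓝 (g x)) := by
      simpa only [add_zero] using hd0.const_add (g x)
    exact h1.log hx.ne'
  have hm : ∀ n, Measurable fun p : R3 × R3 =>
      ‖Real.log (g p.2 + d n) - Real.log (g p.1 + d n)‖ₑ := fun n =>
    (((hg.comp measurable_snd).add_const _).log.sub
      ((hg.comp measurable_fst).add_const _).log).enorm
  have hm2 : ∀ n, Measurable fun x : R3 =>
      ∫⁻ y, ‖Real.log (g y + d n) - Real.log (g x + d n)‖ₑ ∂μ := fun n =>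
    (hm n).lintegral_prod_right'
  have h1 : ∀ᵐ x ∂μ, ∫⁻ y, ‖Real.log (g y) - Real.log (g x)‖ₑ ∂μ ≤
      liminf (fun n => ∫⁻ y, ‖Real.log (g y + d n) - Real.log (g x + d n)‖ₑ ∂μ) atTop := by
    filter_upwards [hpos] with x hx
    have h2 : ∀ n, Measurable fun y : R3 =>
        ‖Real.log (g y + d n) - Real.log (g x + d n)‖ₑ := fun n =>
      ((hg.add_const _).log.sub_const _).enorm
    refine le_trans (lintegral_mono_ae ?_) (lintegral_liminf_le h2)
    filter_upwards [hpos] with y hy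
    have h3 : Tendsto (fun n => ‖Real.log (g y + d n) - Real.log (g x + d n)‖ₑ) atTop
        (𝓝 ‖Real.log (g y) - Real.log (g x)‖ₑ) :=
      ((hlog y hy).sub (hlog x hx)).enorm
    exact h3.liminf_eq.ge
  calc ∫⁻ x, ∫⁻ y, ‖Real.log (g y) - Real.log (g x)‖ₑ ∂μ ∂μ
      ≤ ∫⁻ x, liminf (fun n =>
          ∫⁻ y, ‖Real.log (g y + d n) - Real.log (g x + d n)‖ₑ ∂μ) atTop ∂μ :=
        lintegral_mono_ae h1
    _ ≤ liminf (fun n => ∫⁻ x, ∫⁻ y, ‖Real.log (g y + d n) - Real.log (g x + d n)‖ₑ ∂μ ∂μ)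
          atTop := lintegral_liminf_le hm2
    _ ≤ ENNReal.ofReal C :=
        liminf_le_of_le (by isBoundedDefault) fun b hb => by
          obtain ⟨n, hn⟩ := hb.exists
          exact hn.trans (hC _ (hdp n))

theorem x7b_int {μ : Measure R3} [IsFiniteMeasure μ] {g : R3 → ℝ} (hg : Measurable g)
    (hpos : ∀ᵐ x ∂μ, 0 < g x) {C : ℝ}
    (hC : ∀ δ : ℝ, 0 < δ →
      ∫⁻ x, ∫⁻ y, ‖Real.log (g y + δ) - Real.log (g x + δ)‖ₑ ∂μ ∂μ ≤ ENNReal.ofReal C) :
    Integrable (fun x => Real.log (g x)) μ := by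
  rcases eq_zero_or_neZero μ with hμ | hμ
  · rw [hμ]
    exact integrable_zero_measure
  have h1 := x7b_fatou hg hpos hC
  have hm : Measurable fun p : R3 × R3 => ‖Real.log (g p.2) - Real.log (g p.1)‖ₑ :=
    ((hg.comp measurable_snd).log.sub (hg.comp measurable_fst).log).enorm
  have h2 : ∀ᵐ x ∂μ, ∫⁻ y, ‖Real.log (g y) - Real.log (g x)‖ₑ ∂μ < ⊤ :=
    ae_lt_top hm.lintegral_prod_right' (ne_top_of_le_ne_top ENNReal.ofReal_ne_top h1)
  obtain ⟨x, hx⟩ := h2.exists
  have h3 : Integrable (fun y => Real.log (g y) - Real.log (g x)) μ :=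
    ⟨(hg.log.sub_const _).aestronglyMeasurable, hx⟩
  have h4 := h3.add (integrable_const (Real.log (g x)))
  refine h4.congr (Eventually.of_forall fun y => ?_)
  simp only [Pi.add_apply]
  ring

theorem log_loc (h : Cut c v e ψ ψ') {c' : ℝ} (hc : c < c')
    (hpos : ∀ᵐ x : R3, x ∈ Om c' → 0 < ψ x) (R : ℝ) :
    IntegrableOn (fun x => Real.log (ψ x)) (Om c' ∩ Metric.ball (0 : R3) R) volume := by
  rcases le_or_gt R 0 with hR | hR
  · rw [Metric.ball_eq_empty.2 hR, inter_empty]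
    exact integrableOn_empty
  obtain ⟨C, hC⟩ := log_osc h hc hR
  have hU : MeasurableSet (Om c' ∩ Metric.ball (0 : R3) R) := by
    have h1 : MeasurableSet (Om c') :=
      measurableSet_lt measurable_const (by fun_prop : Measurable fun x : R3 => x 0)
    exact h1.inter measurableSet_ball
  have hfin : IsFiniteMeasure (volume.restrict (Om c' ∩ Metric.ball (0 : R3) R)) := by
    refine ⟨?_⟩
    rw [Measure.restrict_apply_univ]
    exact (measure_mono inter_subset_right).trans_lt measure_ball_lt_top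
  have hψm : AEStronglyMeasurable ψ volume := h.h1.memLp.aestronglyMeasurable
  set g : R3 → ℝ := hψm.mk ψ with hgdef
  have hg : Measurable g := hψm.stronglyMeasurable_mk.measurable
  have hae : ψ =ᵐ[volume.restrict (Om c' ∩ Metric.ball (0 : R3) R)] g :=
    ae_restrict_of_ae hψm.ae_eq_mk
  have hp : ∀ᵐ x ∂(volume.restrict (Om c' ∩ Metric.ball (0 : R3) R)), 0 < g x := by
    filter_upwards [hae, ae_restrict_mem hU, ae_restrict_of_ae hpos] with x h1 h2 h3
    rw [← h1]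
    exact h3 h2.1
  have hC' : ∀ δ : ℝ, 0 < δ → ∫⁻ x, ∫⁻ y, ‖Real.log (g y + δ) - Real.log (g x + δ)‖ₑ
      ∂(volume.restrict (Om c' ∩ Metric.ball (0 : R3) R))
      ∂(volume.restrict (Om c' ∩ Metric.ball (0 : R3) R)) ≤ ENNReal.ofReal C := by
    intro δ hδ
    refine le_trans (le_of_eq ?_) (hC δ hδ)
    refine lintegral_congr_ae ?_
    filter_upwards [hae] with x hx
    refine lintegral_congr_ae ?_
    filter_upwards [hae] with y hy
    rw [hx, hy]
  have h5 := x7b_int hg hp hC'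
  refine h5.congr ?_
  filter_upwards [hae] with x hx
  rw [hx]

end

end Vale.Agent.P363.KX
end
end

section

section

namespace Vale.Agent.P363.KX

open MeasureTheory Set Filter Topology
open scoped ENNReal ContDiff

noncomputable section

/-! Limits `δ → 0`: the weak derivative. -/

variable {c : ℝ} {v : R3 → ℝ} {e : ℝ} {ψ : R3 → ℝ} {ψ' : Fin 3 → R3 → ℝ}

/-- A continuous function supported in a compact set times an integrable function on that set. -/
lemma integrable_mul_of_supp {K : Set R3} (hK : IsCompact K) {φ F : R3 → ℝ} (hφ : Continuous φ)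
    (h0 : ∀ x, x ∉ K → φ x = 0) (hF : IntegrableOn F K volume) :
    Integrable (fun x => φ x * F x) volume := by
  have h1 : IntegrableOn (fun x => φ x * F x) K volume :=
    hF.continuousOn_mul hφ.continuousOn hK
  refine (integrableOn_iff_integrable_of_support_subset ?_).mp h1
  intro x hx
  by_contra hxK
  exact hx (by simp only [h0 x hxK, zero_mul])

/-- Domination of `log (ψ + δ)` for `0 < ψ`, `0 < δ ≤ 1`. -/
lemma abs_log_add_le {a δ : ℝ} (ha : 0 < a) (hδ : 0 < δ) (hδ1 : δ ≤ 1) :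
    |Real.log (a + δ)| ≤ |Real.log a| + a := by
  have h1 : Real.log a ≤ Real.log (a + δ) := Real.log_le_log ha (by (clear * - hδ; linarith))
  have h2 : Real.log (a + δ) ≤ a + δ - 1 := Real.log_le_sub_one_of_pos (by linarith only [ha, hδ])
  rw [abs_le]
  constructor
  · have := neg_abs_le (Real.log a)
    linarith only [ha, h1, this]
  · have := abs_nonneg (Real.log a)
    linarith only [hδ1, h2, this]

/-- Bound of `log (ψ + δ)` for `0 ≤ ψ`, `0 < δ ≤ 1`. -/
lemma abs_log_add_le' {a δ : ℝ} (ha : 0 ≤ a) (hδ : 0 < δ) (hδ1 : δ ≤ 1) :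
    |Real.log (a + δ)| ≤ |Real.log δ| + a := by
  have h1 : Real.log δ ≤ Real.log (a + δ) := Real.log_le_log hδ (by linarith)
  have h2 : Real.log (a + δ) ≤ a + δ - 1 := Real.log_le_sub_one_of_pos (by linarith only [ha, hδ])
  rw [abs_le]
  constructor
  · have := neg_abs_le (Real.log δ)
    linarith
  · have := abs_nonneg (Real.log δ)
    linarith

theorem lim_deriv (h : Cut c v e ψ ψ') {c' : ℝ} (hc : c < c')
    (hpos : ∀ᵐ x : R3, x ∈ Om c' → 0 < ψ x) {χ : R3 → ℝ}
    (hχ : ContDiff ℝ ∞ χ) (hs : HasCompactSupport χ) (ht : tsupport χ ⊆ Om c') (k : Fin 3) :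
    ∫ x, pd k χ x * Real.log (ψ x) = - ∫ x, χ x * (ψ' k x / ψ x) := by
  set K := tsupport χ with hKdef
  have hK : IsCompact K := hs
  have hχ1 : ContDiff ℝ 1 χ := hχ.of_le (by exact_mod_cast le_top)
  have hpdc : Continuous (pd k χ) :=
    (hχ1.continuous_fderiv (by norm_num)).clm_apply continuous_const
  have hpd0 : ∀ x, x ∉ K → pd k χ x = 0 := by
    intro x hx
    unfold pd
    have : x ∉ tsupport (fderiv ℝ χ) := fun hx' => hx (tsupport_fderiv_subset ℝ hx')
    rw [image_eq_zero_of_notMem_tsupport this]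
    rfl
  have hχ0 : ∀ x, x ∉ K → χ x = 0 := fun x hx => image_eq_zero_of_notMem_tsupport hx
  -- the compact set is contained in a ball
  obtain ⟨R, hR⟩ : ∃ R : ℝ, K ⊆ Metric.ball (0 : R3) R := hK.isBounded.subset_ball 0
  have hsub : K ⊆ Om c' ∩ Metric.ball (0 : R3) R := fun x hx => ⟨ht hx, hR hx⟩
  have hlog : IntegrableOn (fun x => Real.log (ψ x)) K volume :=
    (log_loc h hc hpos R).mono_set hsub
  have hgr : IntegrableOn (fun x => (ψ' k x / ψ x) ^ 2) K volume :=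
    (grad_loc h hc hpos R k).mono_set hsub
  have hψli : LocallyIntegrable ψ volume := h.h1.memLp.locallyIntegrable (by norm_num)
  have hψ'li : LocallyIntegrable (ψ' k) volume := (h.h1.memLp' k).locallyIntegrable (by norm_num)
  have hψK : IntegrableOn ψ K volume := hψli.integrableOn_isCompact hK
  -- the sequence
  set d : ℕ → ℝ := fun n => 1 / ((n : ℝ) + 1) with hd
  have hd0 : ∀ n, 0 < d n := fun n => by simp only [hd]; (clear * -; positivity)
  have hd1 : ∀ n, d n ≤ 1 := by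
    intro n
    simp only [hd]
    rw [div_le_one (by (clear * -; positivity))]
    have : (0 : ℝ) ≤ n := n.cast_nonneg
    linarith only []
  have hdlim : Tendsto d atTop (𝓝 0) := tendsto_one_div_add_atTop_nhds_zero_nat
  -- the identity for positive `δ`
  have hid : ∀ n, ∫ x, pd k χ x * Real.log (ψ x + d n) =
      - ∫ x, χ x * (ψ' k x / (ψ x + d n)) := by
    intro n
    have hacl := acl_log h (hd0 n) k
    have l1 : LocallyIntegrable (fun x => Real.log (ψ x + d n)) volume := by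
      have l0 : LocallyIntegrable (fun x => |Real.log (d n)| + ψ x) volume :=
        (locallyIntegrable_const _).add hψli
      refine l0.mono hacl.meas ?_
      filter_upwards [h.nonneg] with x hx
      rw [Real.norm_eq_abs, Real.norm_eq_abs]
      exact (abs_log_add_le' hx (hd0 n) (hd1 n)).trans (le_abs_self _)
    have l2 : LocallyIntegrable (fun x => ψ' k x / (ψ x + d n)) volume := by
      have l0 : LocallyIntegrable (fun x => (d n)⁻¹ * ψ' k x) volume := hψ'li.smul ((d n)⁻¹)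
      refine l0.mono hacl.meas' ?_
      filter_upwards [h.nonneg] with x hx
      have hx1 : 0 < ψ x + d n := by have := hd0 n; linarith only [hx, this]
      rw [norm_div, norm_mul, norm_inv, Real.norm_of_nonneg hx1.le, Real.norm_of_nonneg (hd0 n).le,
        div_eq_inv_mul]
      refine mul_le_mul_of_nonneg_right ?_ (norm_nonneg _)
      exact inv_anti₀ (hd0 n) (by linarith only [hx])
    exact hacl.to_weak l1 l2 hχ hs
  -- left limit
  have hL : Tendsto (fun n => ∫ x, pd k χ x * Real.log (ψ x + d n)) atTop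
      (𝓝 (∫ x, pd k χ x * Real.log (ψ x))) := by
    refine tendsto_integral_of_dominated_convergence
      (fun x => |pd k χ x| * (|Real.log (ψ x)| + ψ x)) ?_ ?_ ?_ ?_
    · intro n
      exact hpdc.aestronglyMeasurable.mul (acl_log h (hd0 n) k).meas
    · exact integrable_mul_of_supp hK hpdc.abs (fun x hx => by rw [hpd0 x hx, abs_zero])
        (hlog.abs.add hψK)
    · intro n
      filter_upwards [hpos] with x hx
      rw [norm_mul, Real.norm_eq_abs, Real.norm_eq_abs]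
      by_cases hxK : x ∈ K
      · exact mul_le_mul_of_nonneg_left (abs_log_add_le (hx (ht hxK)) (hd0 n) (hd1 n))
          (abs_nonneg _)
      · rw [hpd0 x hxK, abs_zero, zero_mul, zero_mul]
    · filter_upwards [hpos] with x hx
      by_cases hxK : x ∈ K
      · have hx0 := hx (ht hxK)
        refine Tendsto.const_mul _ ?_
        have h1 : Tendsto (fun n => ψ x + d n) atTop (𝓝 (ψ x)) := by
          simpa using hdlim.const_add (ψ x)
        exact (Real.continuousAt_log hx0.ne').tendsto.comp h1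
      · simp only [hpd0 x hxK, zero_mul]
        exact tendsto_const_nhds
  -- right limit
  have hRt : Tendsto (fun n => ∫ x, χ x * (ψ' k x / (ψ x + d n))) atTop
      (𝓝 (∫ x, χ x * (ψ' k x / ψ x))) := by
    refine tendsto_integral_of_dominated_convergence
      (fun x => |χ x| * (1 + (ψ' k x / ψ x) ^ 2)) ?_ ?_ ?_ ?_
    · intro n
      exact hχ.continuous.aestronglyMeasurable.mul (acl_log h (hd0 n) k).meas'
    · refine integrable_mul_of_supp hK hχ.continuous.abs
        (fun x hx => by rw [hχ0 x hx, abs_zero]) ?_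
      have h1 : IntegrableOn (fun _ : R3 => (1 : ℝ)) K volume :=
        integrableOn_const hK.measure_ne_top
      exact h1.add hgr
    · intro n
      filter_upwards [hpos] with x hx
      rw [norm_mul, Real.norm_eq_abs, Real.norm_eq_abs]
      by_cases hxK : x ∈ K
      · have hx0 := hx (ht hxK)
        refine mul_le_mul_of_nonneg_left ?_ (abs_nonneg _)
        have hdn := hd0 n
        have h1 : |ψ' k x / (ψ x + d n)| ≤ |ψ' k x / ψ x| := by
          rw [abs_div, abs_div, abs_of_pos hx0, abs_of_pos (by linarith only [hx0, hdn] : (0:ℝ) < ψ x + d n)]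
          exact div_le_div_of_nonneg_left (abs_nonneg _) hx0 (by linarith only [hdn])
        refine h1.trans ?_
        have h2 := sq_nonneg (|ψ' k x / ψ x| - 1)
        have h3 := sq_abs (ψ' k x / ψ x)
        have h4 := abs_nonneg (ψ' k x / ψ x)
        nlinarith only [h3]
      · rw [hχ0 x hxK, abs_zero, zero_mul, zero_mul]
    · filter_upwards [hpos] with x hx
      by_cases hxK : x ∈ K
      · have hx0 := hx (ht hxK)
        refine Tendsto.const_mul _ ?_
        have h1 : Tendsto (fun n => ψ x + d n) atTop (𝓝 (ψ x)) := by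
          simpa only [add_zero] using hdlim.const_add (ψ x)
        exact tendsto_const_nhds.div h1 hx0.ne'
      · simp only [hχ0 x hxK, zero_mul]
        exact tendsto_const_nhds
  have hL2 : Tendsto (fun n => ∫ x, pd k χ x * Real.log (ψ x + d n)) atTop
      (𝓝 (- ∫ x, χ x * (ψ' k x / ψ x))) := by
    simp only [hid]
    exact hRt.neg
  exact tendsto_nhds_unique hL hL2

end

end Vale.Agent.P363.KX
end
end

section

section

namespace Vale.Agent.P363.KX

open MeasureTheory Set Filter Topology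
open scoped ENNReal ContDiff

noncomputable section

/-! Limits `δ → 0`: the equation. -/

variable {c : ℝ} {v : R3 → ℝ} {e : ℝ} {ψ : R3 → ℝ} {ψ' : Fin 3 → R3 → ℝ}

theorem X8c_int {S : Set R3} (hS : MeasurableSet S) {η g : R3 → ℝ} (hη : Continuous η)
    {B : ℝ} (hB : ∀ x, ‖η x‖ ≤ B) (h0 : ∀ x, x ∉ S → η x = 0) (hg : IntegrableOn g S) :
    Integrable (fun x => η x * g x) := by
  have h1 : Integrable (S.indicator g) := hg.integrable_indicator hS
  have h2 : Integrable (fun x => η x * S.indicator g x) :=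
    h1.bdd_mul (c := B) hη.aestronglyMeasurable (Eventually.of_forall hB)
  refine h2.congr (Eventually.of_forall fun x => ?_)
  by_cases hx : x ∈ S
  · simp only [indicator_of_mem hx]
  · simp only [indicator_of_notMem hx, h0 x hx, mul_zero, zero_mul]

theorem X8c_tend (ε : ℝ) (hε : 0 < ε) (a : ℝ) :
    Tendsto (fun n : ℕ => a / (ε + 1 / ((n : ℝ) + 1))) atTop (𝓝 (a / ε)) := by
  have h1 : Tendsto (fun n : ℕ => ε + 1 / ((n : ℝ) + 1)) atTop (𝓝 (ε + 0)) :=
    tendsto_const_nhds.add tendsto_one_div_add_atTop_nhds_zero_nat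
  rw [add_zero] at h1
  exact tendsto_const_nhds.div h1 hε.ne'

theorem lim_eqn (h : Cut c v e ψ ψ') {c' : ℝ} (hc : c < c')
    (hpos : ∀ᵐ x : R3, x ∈ Om c' → 0 < ψ x) {χ : R3 → ℝ}
    (hχ : ContDiff ℝ ∞ χ) (hs : HasCompactSupport χ) (ht : tsupport χ ⊆ Om c') :
    (1 / 2) * (∑ k, ∫ x, pd k χ x * (ψ' k x / ψ x)) -
      (1 / 2) * (∑ k, ∫ x, χ x * (ψ' k x / ψ x) ^ 2) + ∫ x, (v x - e) * χ x = 0 := by
  obtain ⟨R, hR⟩ := hs.isCompact.isBounded.subset_ball (0 : R3)
  set S : Set R3 := Om c' ∩ Metric.ball (0 : R3) R with hSdef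
  have hSsub : tsupport χ ⊆ S := fun x hx => ⟨ht hx, hR hx⟩
  have hOm : MeasurableSet (Om c') := by
    unfold Om
    exact measurableSet_lt measurable_const (by fun_prop)
  have hS : MeasurableSet S := hOm.inter Metric.isOpen_ball.measurableSet
  have hSfin : volume S < ⊤ :=
    lt_of_le_of_lt (measure_mono inter_subset_right) Metric.isBounded_ball.measure_lt_top
  have hχ0 : ∀ x, x ∉ S → χ x = 0 := fun x hx => image_eq_zero_of_notMem_tsupport fun h' =>
    hx (hSsub h')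
  have hpd0 : ∀ k x, x ∉ S → pd k χ x = 0 := by
    intro k x hx
    unfold pd
    have h1 : fderiv ℝ χ x = 0 := fderiv_of_notMem_tsupport (𝕜 := ℝ) fun h' => hx (hSsub h')
    rw [h1]
    simp
  have hχc : Continuous χ := hχ.continuous
  have hpdc : ∀ k, Continuous (pd k χ) := by
    intro k
    unfold pd
    exact (hχ.continuous_fderiv (by simp)).clm_apply continuous_const
  obtain ⟨B, hB⟩ := hs.exists_bound_of_continuous hχc
  have hBk : ∀ k, ∃ B : ℝ, ∀ x, ‖pd k χ x‖ ≤ B := by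
    intro k
    have hsk : HasCompactSupport (pd k χ) := by
      apply HasCompactSupport.intro (K := tsupport χ) hs.isCompact
      intro x hx
      unfold pd
      have h1 : fderiv ℝ χ x = 0 := fderiv_of_notMem_tsupport (𝕜 := ℝ) hx
      rw [h1]
      simp
    exact hsk.exists_bound_of_continuous (hpdc k)
  choose Bk hBk using hBk
  -- the functions at level `n`
  have hid := fun n : ℕ => ident_delta h (δ := 1 / ((n : ℝ) + 1)) (by (clear * -; positivity)) hχ hs
    (ht.trans fun x hx => lt_trans hc hx)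
  have mψ : AEStronglyMeasurable ψ volume := h.h1.memLp.aestronglyMeasurable
  have mψ' : ∀ k, AEStronglyMeasurable (ψ' k) volume := fun k => (h.h1.memLp' k).aestronglyMeasurable
  have hg2 : ∀ k, IntegrableOn (fun x => (ψ' k x / ψ x) ^ 2) S := fun k => grad_loc h hc hpos R k
  have mq : ∀ k, AEStronglyMeasurable (fun x => ψ' k x / ψ x) volume := fun k =>
    ((mψ' k).aemeasurable.div mψ.aemeasurable).aestronglyMeasurable
  have mqn : ∀ k (n : ℕ), AEStronglyMeasurable (fun x => ψ' k x / (ψ x + 1 / ((n : ℝ) + 1)))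
      volume := fun k n =>
    ((mψ' k).aemeasurable.div (mψ.aemeasurable.add_const _)).aestronglyMeasurable
  have hg1 : ∀ k, IntegrableOn (fun x => ψ' k x / ψ x) S := by
    intro k
    have h1 : IntegrableOn (fun x => 1 + (ψ' k x / ψ x) ^ 2) S :=
      (integrableOn_const hSfin.ne).add (hg2 k)
    refine h1.mono' (mq k).restrict (Eventually.of_forall fun x => ?_)
    rw [Real.norm_eq_abs]
    nlinarith only [sq_abs (ψ' k x / ψ x)]
  have hv : IntegrableOn (fun x => v x - e) S := by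
    have h1 : IntegrableOn v (Metric.closedBall (0 : R3) R) :=
      h.vloc.integrableOn_isCompact (isCompact_closedBall _ _)
    have h2 : IntegrableOn v S := h1.mono_set
      (inter_subset_right.trans Metric.ball_subset_closedBall)
    exact h2.sub (integrableOn_const hSfin.ne)
  -- pointwise comparison
  have hcmp : ∀ᵐ x : R3, x ∈ S → ∀ n : ℕ, 0 < ψ x ∧ 0 < ψ x + 1 / ((n : ℝ) + 1) ∧
      ψ x ≤ ψ x + 1 / ((n : ℝ) + 1) := by
    filter_upwards [hpos] with x hx hxS n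
    have h1 := hx hxS.1
    have h2 : (0 : ℝ) < 1 / ((n : ℝ) + 1) := by (clear * -; positivity)
    exact ⟨h1, by linarith only [h1, h2], by linarith only [h2]⟩
  -- first term
  have t1 : ∀ k, Tendsto (fun n : ℕ => ∫ x, pd k χ x * (ψ' k x / (ψ x + 1 / ((n : ℝ) + 1)))) atTop
      (𝓝 (∫ x, pd k χ x * (ψ' k x / ψ x))) := by
    intro k
    apply tendsto_integral_of_dominated_convergence (fun x => ‖pd k χ x * (ψ' k x / ψ x)‖)
    · intro n
      exact (hpdc k).aestronglyMeasurable.mul (mqn k n)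
    · exact (X8c_int hS (hpdc k) (hBk k) (hpd0 k) (hg1 k)).norm
    · intro n
      filter_upwards [hcmp] with x hx
      by_cases hxS : x ∈ S
      · obtain ⟨h1, h2, h3⟩ := hx hxS n
        rw [norm_mul, norm_mul, norm_div, norm_div, Real.norm_of_nonneg h1.le,
          Real.norm_of_nonneg h2.le]
        (clear * - h1 h3; gcongr)
      · rw [hpd0 k x hxS]
        simp only [one_div, zero_mul, norm_zero, Std.le_refl]
    · filter_upwards [hcmp] with x hx
      by_cases hxS : x ∈ S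
      · exact (X8c_tend (ψ x) (hx hxS 0).1 (ψ' k x)).const_mul _
      · simp only [hpd0 k x hxS, zero_mul]
        exact tendsto_const_nhds
  -- second term
  have t2 : ∀ k, Tendsto (fun n : ℕ => ∫ x, χ x * (ψ' k x / (ψ x + 1 / ((n : ℝ) + 1))) ^ 2) atTop
      (𝓝 (∫ x, χ x * (ψ' k x / ψ x) ^ 2)) := by
    intro k
    apply tendsto_integral_of_dominated_convergence (fun x => ‖χ x * (ψ' k x / ψ x) ^ 2‖)
    · intro n
      exact hχc.aestronglyMeasurable.mul ((mqn k n).pow 2)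
    · exact (X8c_int hS hχc hB hχ0 (hg2 k)).norm
    · intro n
      filter_upwards [hcmp] with x hx
      by_cases hxS : x ∈ S
      · obtain ⟨h1, h2, h3⟩ := hx hxS n
        rw [norm_mul, norm_mul, norm_pow, norm_pow, norm_div, norm_div, Real.norm_of_nonneg h1.le,
          Real.norm_of_nonneg h2.le]
        (clear * - h1 h3; gcongr)
      · rw [hχ0 x hxS]
        simp
    · filter_upwards [hcmp] with x hx
      by_cases hxS : x ∈ S
      · exact ((X8c_tend (ψ x) (hx hxS 0).1 (ψ' k x)).pow 2).const_mul _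
      · simp only [hχ0 x hxS, zero_mul]
        exact tendsto_const_nhds
  -- third term
  have t3 : Tendsto (fun n : ℕ => ∫ x, (v x - e) * (χ x * (ψ x / (ψ x + 1 / ((n : ℝ) + 1))))) atTop
      (𝓝 (∫ x, (v x - e) * χ x)) := by
    apply tendsto_integral_of_dominated_convergence (fun x => ‖χ x * (v x - e)‖)
    · intro n
      have h1 : AEStronglyMeasurable (fun x => ψ x / (ψ x + 1 / ((n : ℝ) + 1))) volume :=
        (mψ.aemeasurable.div (mψ.aemeasurable.add_const _)).aestronglyMeasurable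
      have h2 : AEStronglyMeasurable v volume := h.vloc.aestronglyMeasurable
      exact (h2.sub aestronglyMeasurable_const).mul (hχc.aestronglyMeasurable.mul h1)
    · exact (X8c_int hS hχc hB hχ0 hv).norm
    · intro n
      filter_upwards [hcmp] with x hx
      by_cases hxS : x ∈ S
      · obtain ⟨h1, h2, h3⟩ := hx hxS n
        rw [norm_mul, norm_mul, norm_mul, mul_comm ‖χ x‖ ‖v x - e‖]
        apply mul_le_mul_of_nonneg_left _ (norm_nonneg _)
        apply mul_le_of_le_one_right (norm_nonneg _)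
        rw [norm_div, Real.norm_of_nonneg h1.le, Real.norm_of_nonneg h2.le]
        exact div_le_one_of_le₀ h3 h2.le
      · rw [hχ0 x hxS]
        simp only [one_div, zero_mul, mul_zero, norm_zero, Std.le_refl]
    · filter_upwards [hcmp] with x hx
      by_cases hxS : x ∈ S
      · have h1 := X8c_tend (ψ x) (hx hxS 0).1 (ψ x)
        rw [div_self (hx hxS 0).1.ne'] at h1
        have h2 := (h1.const_mul (χ x)).const_mul (v x - e)
        rwa [mul_one] at h2
      · simp only [hχ0 x hxS, zero_mul, mul_zero]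
        exact tendsto_const_nhds
  have hlim : Tendsto (fun n : ℕ =>
      (1 / 2) * (∑ k, ∫ x, pd k χ x * (ψ' k x / (ψ x + 1 / ((n : ℝ) + 1)))) -
      (1 / 2) * (∑ k, ∫ x, χ x * (ψ' k x / (ψ x + 1 / ((n : ℝ) + 1))) ^ 2) +
      ∫ x, (v x - e) * (χ x * (ψ x / (ψ x + 1 / ((n : ℝ) + 1))))) atTop
      (𝓝 ((1 / 2) * (∑ k, ∫ x, pd k χ x * (ψ' k x / ψ x)) -
      (1 / 2) * (∑ k, ∫ x, χ x * (ψ' k x / ψ x) ^ 2) + ∫ x, (v x - e) * χ x)) :=
    (((tendsto_finsetSum _ fun k _ => t1 k).const_mul _).sub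
      ((tendsto_finsetSum _ fun k _ => t2 k).const_mul _)).add t3
  simp_rw [hid] at hlim
  exact (tendsto_nhds_unique hlim tendsto_const_nhds)

end

end Vale.Agent.P363.KX
end
end

section

section

namespace Vale.Agent.P363.KX

open MeasureTheory Set Filter Topology
open scoped ENNReal ContDiff

noncomputable section

/-! The logarithm of the orbital. -/

lemma x9_measOm (c : ℝ) : MeasurableSet (Om c) := by
  have h1 : Measurable fun x : R3 => x 0 := (EuclideanSpace.proj (𝕜 := ℝ) (0 : Fin 3)).measurable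
  exact measurableSet_lt measurable_const h1

lemma x9_Om_anti {a b : ℝ} (h : a ≤ b) : Om b ⊆ Om a := fun _ hx => lt_of_le_of_lt h hx

/-- local integrability of the extension by zero. -/
lemma x9_loc {c c' : ℝ} (hc : c' ≤ c) {f : R3 → ℝ}
    (h : ∀ R : ℝ, IntegrableOn f (Om c' ∩ Metric.ball (0 : R3) R) volume) :
    LocallyIntegrable ((Om c).indicator f) volume := by
  rw [locallyIntegrable_iff]
  intro K hK
  obtain ⟨R, hR⟩ := hK.isBounded.subset_ball (0 : R3)
  unfold IntegrableOn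
  rw [integrable_indicator_iff (x9_measOm c)]
  unfold IntegrableOn
  rw [Measure.restrict_restrict (x9_measOm c)]
  exact (h R).mono_set (inter_subset_inter (x9_Om_anti hc) hR)

lemma x9_pd_zero {χ : R3 → ℝ} {c : ℝ} (ht : tsupport χ ⊆ Om c) (k : Fin 3) {x : R3}
    (hx : x ∉ Om c) : pd k χ x = 0 := by
  have h1 : x ∉ tsupport χ := fun h => hx (ht h)
  unfold pd
  have h2 : fderiv ℝ χ x = 0 := by
    by_contra h
    exact h1 (tsupport_fderiv_subset ℝ (subset_tsupport _ (by simpa using h)))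
  rw [h2]
  simp

lemma x9_zero {χ : R3 → ℝ} {c : ℝ} (ht : tsupport χ ⊆ Om c) {x : R3} (hx : x ∉ Om c) :
    χ x = 0 := image_eq_zero_of_notMem_tsupport fun h => hx (ht h)

/-- indicators disappear against functions which vanish off the half space. -/
lemma x9_int {c : ℝ} {f g : R3 → ℝ} (hf : ∀ x, x ∉ Om c → f x = 0) :
    ∫ x, f x * (Om c).indicator g x = ∫ x, f x * g x := by
  congr 1
  funext x
  by_cases hx : x ∈ Om c
  · rw [indicator_of_mem hx]
  · rw [indicator_of_notMem hx, hf x hx]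
    simp

lemma x9_int_sq {c : ℝ} {f g : R3 → ℝ} (hf : ∀ x, x ∉ Om c → f x = 0) :
    ∫ x, f x * (Om c).indicator g x ^ 2 = ∫ x, f x * g x ^ 2 := by
  congr 1
  funext x
  by_cases hx : x ∈ Om c
  · rw [indicator_of_mem hx]
  · rw [indicator_of_notMem hx, hf x hx]
    simp

lemma x9_exists_m {v : R3 → ℝ} {e : ℝ} {φ : R3 → ℝ} {φ' : Fin 3 → R3 → ℝ}
    (h : Orb v e φ φ') : ∃ c' : ℝ, 0 < c' ∧ c' ≤ 1 / 2 ∧ ¬ ∀ᵐ x : R3, x ∈ Om c' → φ x = 0 := by
  by_contra hcon
  push Not at hcon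
  apply h.ne
  have h1 : ∀ m : ℕ, ∀ᵐ x : R3, x ∈ Om (1 / ((m : ℝ) + 2)) → φ x = 0 := fun m =>
    hcon _ (by positivity) (by
      apply one_div_le_one_div_of_le (by norm_num)
      have : (0 : ℝ) ≤ m := Nat.cast_nonneg m
      linarith)
  filter_upwards [ae_all_iff.2 h1] with x hx h0
  obtain ⟨m, hm⟩ := exists_nat_one_div_lt h0
  refine hx m ?_
  change 1 / ((m : ℝ) + 2) < x 0
  refine lt_of_le_of_lt ?_ hm
  exact one_div_le_one_div_of_le (by positivity) (by linarith only [])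

theorem exists_logOut {v : R3 → ℝ} {e : ℝ} {φ : R3 → ℝ} {φ' : Fin 3 → R3 → ℝ}
    (h : Orb v e φ φ') : ∃ (H : R3 → ℝ) (g : Fin 3 → R3 → ℝ), LogOut (1 / 2) v e φ H g := by
  obtain ⟨c', hc0, hc2, hne⟩ := x9_exists_m h
  have hc : c' / 2 < c' := by linarith only [hc0]
  obtain ⟨ψ, ψ', hcut, heq⟩ := exists_cut h (c := c' / 2) (by positivity)
  have hsub : Om c' ⊆ Om (c' / 2) := x9_Om_anti hc.le
  have hsub2 : Om (1 / 2) ⊆ Om c' := x9_Om_anti hc2
  have hpos : ∀ᵐ x : R3, x ∈ Om c' → 0 < ψ x := by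
    refine pos_of_ne hcut hc fun hz => hne ?_
    filter_upwards [hz] with x hx hxm
    rw [← heq x (hsub hxm)]
    exact hx hxm
  have m0 : AEMeasurable ψ volume := hcut.h1.memLp.aestronglyMeasurable.aemeasurable
  have mk : ∀ k, AEMeasurable (ψ' k) volume := fun k =>
    (hcut.h1.memLp' k).aestronglyMeasurable.aemeasurable
  refine ⟨(Om (1 / 2)).indicator fun x => Real.log (ψ x),
    fun k => (Om (1 / 2)).indicator fun x => ψ' k x / ψ x, ?_, ?_, ?_, ?_, ?_, ?_⟩
  · filter_upwards [hpos] with x hx hxm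
    have h1 : ψ x = φ x := heq x (hsub (hsub2 hxm))
    refine ⟨?_, ?_⟩
    · rw [← h1]
      exact hx (hsub2 hxm)
    · rw [indicator_of_mem hxm, h1]
  · exact x9_loc hc2 fun R => log_loc hcut hc hpos R
  · intro k
    exact ((mk k).div m0).aestronglyMeasurable.indicator (x9_measOm _)
  · intro k
    have h1 := x9_loc hc2 fun R => grad_loc hcut hc hpos R k
    have h2 : (fun x => (Om (1 / 2)).indicator (fun x => ψ' k x / ψ x) x ^ 2) =
        (Om (1 / 2)).indicator fun x => (ψ' k x / ψ x) ^ 2 := by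
      funext x
      by_cases hx : x ∈ Om (1 / 2)
      · rw [indicator_of_mem hx, indicator_of_mem hx]
      · rw [indicator_of_notMem hx, indicator_of_notMem hx]
        simp
    rw [h2]
    exact h1
  · intro χ hχ hs ht k
    rw [x9_int fun x hx => x9_pd_zero ht k hx, x9_int fun x hx => x9_zero ht hx]
    exact lim_deriv hcut hc hpos hχ hs (ht.trans hsub2) k
  · intro χ hχ hs ht
    have e1 : ∀ k, ∫ x, pd k χ x * (Om (1 / 2)).indicator (fun x => ψ' k x / ψ x) x =
        ∫ x, pd k χ x * (ψ' k x / ψ x) := fun k => x9_int fun x hx => x9_pd_zero ht k hx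
    have e2 : ∀ k, ∫ x, χ x * (Om (1 / 2)).indicator (fun x => ψ' k x / ψ x) x ^ 2 =
        ∫ x, χ x * (ψ' k x / ψ x) ^ 2 := fun k => x9_int_sq fun x hx => x9_zero ht hx
    simp only [e1, e2]
    exact lim_eqn hcut hc hpos hχ hs (ht.trans hsub2)

end

end Vale.Agent.P363.KX
end
end

section

section

namespace Vale.Agent.P363.KX

open MeasureTheory Set Filter Topology
open scoped ENNReal ContDiff

noncomputable section

/-! Differential inequality for the mollified logarithm. -/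

lemma X12_jensen {θ u : R3 → ℝ} (h0 : ∀ y, 0 ≤ θ y) (h1 : ∫ y, θ y = 1) (hθ : Integrable θ)
    (hu : Integrable (fun y => θ y * u y)) (hu2 : Integrable (fun y => θ y * u y ^ 2)) :
    (∫ y, θ y * u y) ^ 2 ≤ ∫ y, θ y * u y ^ 2 := by
  set m := ∫ y, θ y * u y with hm
  have e1 : 0 ≤ ∫ y, θ y * (u y - m) ^ 2 :=
    integral_nonneg fun y => mul_nonneg (h0 y) (sq_nonneg _)
  have e2 : ∫ y, θ y * (u y - m) ^ 2 =
      (∫ y, θ y * u y ^ 2) - 2 * m * (∫ y, θ y * u y) + m ^ 2 * ∫ y, θ y := by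
    have a1 : Integrable (fun y => 2 * m * (θ y * u y)) := hu.const_mul _
    have a2 : Integrable (fun y => m ^ 2 * θ y) := hθ.const_mul _
    have a3 : Integrable (fun y => θ y * u y ^ 2 - 2 * m * (θ y * u y)) := hu2.sub a1
    have a4 : ∫ y, θ y * (u y - m) ^ 2 =
        ∫ y, ((θ y * u y ^ 2 - 2 * m * (θ y * u y)) + m ^ 2 * θ y) := by
      congr 1
      funext y
      ring
    rw [a4, integral_add a3 a2, integral_sub hu2 a1, integral_const_mul, integral_const_mul]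
  rw [e2, h1, ← hm] at e1
  linarith

theorem moll_ineq {v : R3 → ℝ} {e : ℝ} {φ H : R3 → ℝ} {g : Fin 3 → R3 → ℝ}
    (hL : LogOut (1 / 2) v e φ H g) {x : R3} (hx : 3 / 4 < x 0) :
    lap (moll H) x + ∑ k, pd k (moll H) x ^ 2 ≤ 2 * ∫ y, (v y - e) * th x y := by
  have hc : Continuous (th x) := (th_contDiff x).continuous
  have hs : HasCompactSupport (th x) := th_hasCompactSupport x
  have hts : tsupport (th x) ⊆ Om (1 / 2) := by
    intro y hy
    have h1 := (tsupport_th x hy).1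
    simp only [mem_ofPred_eq] at h1
    simp only [Om, mem_ofPred_eq]
    linarith
  have hE := hL.eqn (th x) (th_contDiff x) hs hts
  have hint2 : ∀ k, Integrable (fun y => th x y * g k y ^ 2) := fun k => by
    have := (hL.locg k).integrable_smul_left_of_hasCompactSupport hc hs
    simpa only [smul_eq_mul] using this
  have hlocg : ∀ k, LocallyIntegrable (g k) volume := by
    intro k
    have h1 : LocallyIntegrable (fun y => 1 + g k y ^ 2) volume :=
      (continuous_const.locallyIntegrable).add (hL.locg k)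
    refine h1.mono (hL.meas k) ?_
    filter_upwards with y
    rw [Real.norm_eq_abs, Real.norm_eq_abs, abs_of_nonneg (by (clear * -; positivity) : 0 ≤ 1 + g k y ^ 2)]
    rw [abs_le]
    constructor <;> nlinarith only []
  have hint1 : ∀ k, Integrable (fun y => th x y * g k y) := fun k => by
    have := (hlocg k).integrable_smul_left_of_hasCompactSupport hc hs
    simpa only [smul_eq_mul] using this
  have hth : Integrable (th x) := hc.integrable_of_hasCompactSupport hs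
  have hsq : ∀ k, pd k (moll H) x ^ 2 ≤ ∫ y, th x y * g k y ^ 2 := by
    intro k
    rw [moll_pd_g hL k hx]
    exact X12_jensen (th_nonneg x) (th_integral x) hth (hint1 k) (hint2 k)
  have hlap : lap (moll H) x = - ∑ k, ∫ y, pd k (th x) y * g k y := by
    unfold lap
    rw [← Finset.sum_neg_distrib]
    exact Finset.sum_congr rfl fun k _ => moll_pd2_g hL k hx
  have hsum : ∑ k, pd k (moll H) x ^ 2 ≤ ∑ k, ∫ y, th x y * g k y ^ 2 :=
    Finset.sum_le_sum fun k _ => hsq k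
  rw [hlap]
  linarith only [hE, hsum]

end

end Vale.Agent.P363.KX
end
end

section

section

set_option linter.all false

namespace Vale.Agent.P363.KX

open MeasureTheory Set Filter Topology
open scoped ENNReal ContDiff

noncomputable section

/-! Lower bound along the first axis. -/

theorem lower_bound {κ γ q T R₂ : ℝ} (hκ : 0 < κ) (hq : κ * (γ + 3) < q)
    {h : R3 → ℝ} (hh : ContDiff ℝ ∞ h)
    (hle : ∀ x : R3, 1 ≤ x 0 → T ≤ x 2 → R₂ ≤ ‖x‖ →
      lap h x + ∑ k, pd k h x ^ 2 ≤ κ ^ 2 - 2 * q / ‖x‖) :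
    ∃ R C : ℝ, 0 < R ∧ ∀ r : ℝ, R ≤ r → (γ + 1) * Real.log r - κ * r - C ≤ h (pt r (T + 1)) := by
  obtain ⟨R, C, hC, hcmp⟩ := compare hκ hq hh hle
  obtain ⟨c, hc, hlow⟩ := bar_lower (γ := γ) (T := T) hκ
  refine ⟨max 2 (|R| + 1), Real.log C - Real.log c, lt_max_of_lt_left two_pos, fun r hr => ?_⟩
  have hr2 : 2 ≤ r := (le_max_left _ _).trans hr
  have hrR : |R| + 1 ≤ r := (le_max_right _ _).trans hr
  have hr0 : 0 < r := by linarith only [hr2]
  have h0 : (pt r (T + 1)) 0 = r := by simp [pt]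
  have h2 : (pt r (T + 1)) 2 = T + 1 := by simp [pt]
  have hn : R ≤ ‖pt r (T + 1) - cor T‖ := by
    have h3 : ‖(pt r (T + 1) - cor T) 0‖ ≤ ‖pt r (T + 1) - cor T‖ := PiLp.norm_apply_le _ _
    have h4 : (pt r (T + 1) - cor T) 0 = r - 1 := by simp [pt, cor]
    rw [h4, Real.norm_eq_abs, abs_of_nonneg (by linarith only [hr2])] at h3
    linarith only [hrR, h3, le_abs_self R]
  have h5 := (hlow r hr2).trans (hcmp (pt r (T + 1)) (by rw [h0]; linarith only [hr2])
    (by rw [h2]; linarith only []) hn)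
  have hpos : 0 < c * r ^ (γ + 1) * Real.exp (-κ * r) := by (clear * - hc hr2; positivity)
  have h6 := Real.log_le_log hpos h5
  rw [Real.log_mul (by positivity) (by positivity), Real.log_mul (by positivity) (by positivity),
    Real.log_rpow hr0, Real.log_exp, Real.log_mul (by positivity) (by positivity),
    Real.log_exp] at h6
  linarith only [h6]

end

end Vale.Agent.P363.KX
end
end

section

section

namespace Vale.Agent.P363.KX

open MeasureTheory Set Filter Topology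
open scoped ENNReal ContDiff

noncomputable section

/-! BLOCK F: the final contradiction (the version for `KD.KSOut` is in `D/Main.lean`). -/

theorem final_contradiction {n : R3 → ℝ} {G : Fin 3 → R3 → ℝ} {v : R3 → ℝ} {e : ℝ}
    {φ : R3 → ℝ} {φ' : Fin 3 → R3 → ℝ} {κ q p : ℝ} (hX : D.ExOut n G κ q p) (hV : MemV v)
    (hO : Orb v e φ φ') (hle : ∀ᵐ x, φ x ^ 2 ≤ n x) (hI : VIneq n v e) : False := by
  obtain ⟨H, g, hL⟩ := exists_logOut hO
  obtain ⟨T, R2, hT, hup⟩ := v_up hX hV hI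
  have hκ := hX.κ_pos
  have hgu : ∀ r : ℝ, 0 < r → ∃ C : ℝ, ∀ x : R3, 1 + 2 * r ≤ x 0 → ∀ k,
      ∫ y in Metric.ball x r, g k y ^ 2 ≤ C := fun r hr => g_unif hL hO.vloc hr
  have hh : ContDiff ℝ ∞ (moll H) := moll_contDiff hL.locH
  have hineq : ∀ x : R3, 1 ≤ x 0 → T ≤ x 2 → R2 ≤ ‖x‖ →
      lap (moll H) x + ∑ k, pd k (moll H) x ^ 2 ≤ κ ^ 2 - 2 * q / ‖x‖ := by
    intro x hx0 hx2 hxn
    have h1 := moll_ineq hL (x := x) (by linarith only [hx0])
    have h2 := hup x hx2 hxn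
    have h3 : 2 * q / ‖x‖ = 2 * (q / ‖x‖) := by ring
    rw [h3]
    linarith
  have hp := hX.p_lt
  obtain ⟨γ, hγ1, hγ2⟩ : ∃ γ : ℝ, p - 1 < γ ∧ γ < q / κ - 3 :=
    exists_between (by linarith)
  have hq : κ * (γ + 3) < q := by
    have h1 : γ + 3 < q / κ := by linarith
    rw [lt_div_iff₀ hκ] at h1
    linarith only [h1]
  obtain ⟨Ra, Ca, hRa, hlow⟩ := lower_bound hκ hq hh hineq
  obtain ⟨Rb, Cb, hcmp⟩ := slab_compare hL (z := T + 1) (by linarith only [hT]) hgu
  obtain ⟨Rc, Cc, hRc, hupp⟩ := slab_upper hL hO.h1.memLp hX.int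
    (Eventually.of_forall hX.nonneg) ⟨1, by simpa only [one_mul] using hle⟩ hX.slab
  have hc : 0 < γ + 1 - p := by linarith only [hγ1]
  -- large radius
  set r : ℝ := max (max Ra Rb) (max Rc (max 1 (Real.exp ((Ca + Cb + Cc + 1) / (γ + 1 - p)))))
    with hr
  have hra : Ra ≤ r := le_trans (le_max_left _ _) (le_max_left _ _)
  have hrb : Rb ≤ r := le_trans (le_max_right _ _) (le_max_left _ _)
  have hrc : Rc ≤ r := le_trans (le_max_left _ _) (le_max_right _ _)
  have hr1 : 1 ≤ r := le_trans (le_trans (le_max_left _ _) (le_max_right _ _)) (le_max_right _ _)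
  have hre : Real.exp ((Ca + Cb + Cc + 1) / (γ + 1 - p)) ≤ r :=
    le_trans (le_trans (le_max_right _ _) (le_max_right _ _)) (le_max_right _ _)
  have hr0 : 0 < r := by linarith only [hRa, hra]
  have hlog : (Ca + Cb + Cc + 1) / (γ + 1 - p) ≤ Real.log r :=
    (Real.le_log_iff_exp_le hr0).2 hre
  rw [div_le_iff₀ hc] at hlog
  have hε0 : 0 < r ^ (-4 : ℝ) := Real.rpow_pos_of_pos hr0 _
  have hε1 : r ^ (-4 : ℝ) ≤ 1 := Real.rpow_le_one_of_one_le_of_nonpos hr1 (by norm_num)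
  have e1 := hlow r hra
  have e2 := hcmp r (r ^ (-4 : ℝ)) hrb hε0 hε1
  have e3 := hupp r hrc
  have e4 := (abs_le.1 e2).2
  nlinarith only [hlog, e1, e3, e4]

end

end Vale.Agent.P363.KX
end
end

section

section

/-! The final contradiction from the outputs of the exact side and of the Kohn-Sham side. -/

namespace Vale.Agent.P363.KX

open MeasureTheory Set Filter Topology
open scoped ENNReal ContDiff

noncomputable section

/-- The final contradiction, with the interface of `D/Main.lean`. -/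
theorem final_ks {n n' : R3 → ℝ} {G : Fin 3 → R3 → ℝ} {v : R3 → ℝ} {e : ℝ}
    {φ : R3 → ℝ} {φ' : Fin 3 → R3 → ℝ} {κ q p : ℝ} (hn : ∀ᵐ x, n' x = n x)
    (hX : D.ExOut n G κ q p) (hK : KD.KSOut n' v e φ φ') : False := by
  have hnn : n' =ᵐ[volume] n := hn
  refine final_contradiction (e := e) hX hK.memV
    (orb_of (e := e) hK.memV hK.h1 hK.nonneg hK.ne (fun ζ ζ' h _ => ?_)) ?_ ?_
  · have h1 := hK.weak ζ ζ' h
    have h2 : (fun x => (v x - e) * φ x * ζ x) = fun x => (v x - e) * (φ x * ζ x) := by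
      funext x
      ring
    rw [h2]
    exact h1
  · filter_upwards [hn, hK.le] with x h1 h2
    rwa [← h1]
  · intro D hD δ hδ θ hθ hc h0
    have h1 := hK.ineq D (fun k => (hD k).congr hnn.symm EventuallyEq.rfl) δ hδ θ hθ hc h0
    have e1 : ∫ x, (v x - e) * (θ x * (n' x / (n' x + δ))) =
        ∫ x, (v x - e) * (θ x * (n x / (n x + δ))) :=
      integral_congr_ae (by filter_upwards [hn] with x hx; rw [hx])
    have e2 : ∀ k, ∫ x, D k x / (n' x + δ) * fderiv ℝ θ x (dir3 k) =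
        ∫ x, D k x / (n x + δ) * fderiv ℝ θ x (dir3 k) := fun k =>
      integral_congr_ae (by filter_upwards [hn] with x hx; rw [hx])
    have e3 : ∀ k, ∫ x, θ x * (D k x / (n' x + δ)) ^ 2 =
        ∫ x, θ x * (D k x / (n x + δ)) ^ 2 := fun k =>
      integral_congr_ae (by filter_upwards [hn] with x hx; rw [hx])
    simp only [e1, e2, e3] at h1
    exact h1

end

end Vale.Agent.P363.KX
end
end

section

section

/-! # Transport to `ℝ³ × (ℝ³)³`, limits -/

namespace Vale.Agent.P363.D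

open MeasureTheory Set Filter Topology
open scoped ENNReal ContDiff

noncomputable section

/-- a function of four electrons as a function of one and three electrons -/
def toX4 (f : Conf 4 → ℝ) (p : X4) : ℝ := f (Fin.cons p.1 p.2)

/-- inverse -/
def ofX4 (u : X4 → ℝ) (x : Conf 4) : ℝ := u (x 0, Fin.tail x)

theorem tr_uncons_eq : (MeasurableEquiv.piFinSuccAbove (fun _ : Fin 4 => R3) 0 : Conf 4 → X4) =
    fun x : Conf 4 => ((x 0, Fin.tail x) : X4) := by
  funext x
  rfl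

theorem tr_cons_eq : ((MeasurableEquiv.piFinSuccAbove (fun _ : Fin 4 => R3) 0).symm : X4 → Conf 4) =
    fun p : X4 => (Fin.cons p.1 p.2 : Conf 4) := by
  funext p
  change Fin.insertNth (α := fun _ : Fin 4 => R3) 0 p.1 p.2 = _
  rw [Fin.insertNth_zero]
  rfl

theorem mp_uncons : MeasurePreserving (fun x : Conf 4 => ((x 0, Fin.tail x) : X4)) volume volume := by
  have h := MeasureTheory.volume_preserving_piFinSuccAbove (fun _ : Fin 4 => R3) 0
  rw [tr_uncons_eq] at h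
  exact h

theorem mp_cons : MeasurePreserving (fun p : X4 => (Fin.cons p.1 p.2 : Conf 4)) volume volume := by
  have h := (MeasureTheory.volume_preserving_piFinSuccAbove (fun _ : Fin 4 => R3) 0).symm
  rw [tr_cons_eq] at h
  exact h

theorem tr_me_cons : MeasurableEmbedding (fun p : X4 => (Fin.cons p.1 p.2 : Conf 4)) := by
  rw [← tr_cons_eq]
  exact MeasurableEquiv.measurableEmbedding _

theorem integral_toX4 (f : Conf 4 → ℝ) : ∫ p, toX4 f p = ∫ x, f x :=
  mp_cons.integral_comp tr_me_cons f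

theorem tr_cons_add (p : X4) (t : ℝ) (e : X4) :
    (Fin.cons (p + t • e).1 (p + t • e).2 : Conf 4) =
      Fin.cons p.1 p.2 + t • (Fin.cons e.1 e.2 : Conf 4) := by
  funext i
  refine Fin.cases ?_ (fun j => ?_) i <;> simp

theorem tr_uncons_add (x : Conf 4) (t : ℝ) (e : Conf 4) :
    (((x + t • e) 0, Fin.tail (x + t • e)) : X4) =
      ((x 0, Fin.tail x) : X4) + t • ((e 0, Fin.tail e) : X4) := by
  refine Prod.ext ?_ ?_
  · simp
  · funext i
    simp [Fin.tail]

theorem tr_axis_zero (k : Fin 3) : (Fin.cons (dir3 k) 0 : Conf 4) = axisDir 0 k := by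
  funext i
  refine Fin.cases ?_ (fun j => ?_) i <;> simp [axisDir, dir3]

theorem tr_axis_succ (i k : Fin 3) : (Fin.cons 0 (axisDir i k) : Conf 4) = axisDir i.succ k := by
  funext l
  refine Fin.cases ?_ (fun j => ?_) l
  · simp [axisDir, Fin.succ_ne_zero]
  · by_cases h : j = i
    · subst h; simp [axisDir]
    · simp [axisDir, h]

theorem HX_toX4 {f : Conf 4 → ℝ} {g : Fin 4 → Fin 3 → Conf 4 → ℝ} (h : HN f g) :
    HX (toX4 f) (fun k => toX4 (g 0 k)) (fun i k => toX4 (g i.succ k)) := by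
  have hq := mp_cons.quasiMeasurePreserving
  refine ⟨h.memLp.comp_measurePreserving mp_cons,
    fun k => (h.memLp' 0 k).comp_measurePreserving mp_cons,
    fun i k => (h.memLp' i.succ k).comp_measurePreserving mp_cons, fun k => ?_, fun i k => ?_⟩
  · refine ACL.comp_qmp (e' := axisDir 0 k) hq (fun p t => ?_) (h.acl 0 k)
    rw [tr_cons_add, tr_axis_zero]
  · refine ACL.comp_qmp (e' := axisDir i.succ k) hq (fun p t => ?_) (h.acl i.succ k)
    rw [tr_cons_add, tr_axis_succ]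

theorem HN_ofX4 {u : X4 → ℝ} {gx : Fin 3 → X4 → ℝ} {gy : Fin 3 → Fin 3 → X4 → ℝ}
    (h : HX u gx gy) :
    HN (ofX4 u) (fun i k => ofX4 (Fin.cases (gx k) (fun j => gy j k) i)) := by
  have hq := mp_uncons.quasiMeasurePreserving
  refine ⟨h.memLp.comp_measurePreserving mp_uncons, fun i k => ?_, fun i k => ?_⟩
  · refine Fin.cases ?_ (fun j => ?_) i
    · exact (h.memLpx k).comp_measurePreserving mp_uncons
    · exact (h.memLpy j k).comp_measurePreserving mp_uncons
  · refine Fin.cases ?_ (fun j => ?_) i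
    · refine ACL.comp_qmp (e' := ((dir3 k, 0) : X4)) hq (fun x t => ?_) (h.aclx k)
      rw [tr_uncons_add, ← tr_axis_zero]
      simp
    · refine ACL.comp_qmp (e' := ((0, axisDir j k) : X4)) hq (fun x t => ?_) (h.acly j k)
      rw [tr_uncons_add, ← tr_axis_succ]
      simp only [Fin.isValue, Nat.reduceAdd, Fin.cons_zero, Fin.tail_cons, Prod.smul_mk, smul_zero, Prod.mk_add_mk, add_zero]

theorem vX_eq (ε A L : ℝ) (p : X4) : vX ε A L p = vN ε A L (Fin.cons p.1 p.2 : Conf 4) := by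
  have h1 : ∀ i : Fin 3, ∑ j ∈ Finset.Ioi i.succ, 1 / ‖(Fin.cons p.1 p.2 : Conf 4) i.succ -
      (Fin.cons p.1 p.2 : Conf 4) j‖ = ∑ j ∈ Finset.Ioi i, 1 / ‖p.2 i - p.2 j‖ := by
    intro i
    rw [Fin.Ioi_succ, Finset.sum_map]
    simp only [Fin.cons_succ, Nat.reduceAdd, Fin.coe_succEmb, one_div]
  have h2 : ∑ j ∈ Finset.Ioi (0 : Fin 4), 1 / ‖(Fin.cons p.1 p.2 : Conf 4) 0 -
      (Fin.cons p.1 p.2 : Conf 4) j‖ = ∑ j, 1 / ‖p.1 - p.2 j‖ := by
    rw [Fin.Ioi_zero_eq_map, Finset.sum_map]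
    simp only [Fin.isValue, Fin.cons_zero, Fin.coe_succEmb, Fin.cons_succ, one_div]
  have h3 : ∑ i, v1 ε A L ((Fin.cons p.1 p.2 : Conf 4) i) = v1 ε A L p.1 + ∑ i, v1 ε A L (p.2 i) := by
    rw [Fin.sum_univ_succ]
    simp only [Fin.isValue, Fin.cons_zero, Fin.cons_succ]
  have h4 : ∑ i, ∑ j ∈ Finset.Ioi i,
      1 / ‖(Fin.cons p.1 p.2 : Conf 4) i - (Fin.cons p.1 p.2 : Conf 4) j‖ =
      (∑ j, 1 / ‖p.1 - p.2 j‖) + ∑ i, ∑ j ∈ Finset.Ioi i, 1 / ‖p.2 i - p.2 j‖ := by
    rw [Fin.sum_univ_succ, h2, Finset.sum_congr rfl fun i _ => h1 i]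
  unfold vX vN rep
  rw [h3, h4]
  ring

/-- the equation on `ℝ³ × (ℝ³)³` -/
theorem F_eq_of {ε A L E : ℝ} {f : Conf 4 → ℝ} {g : Fin 4 → Fin 3 → Conf 4 → ℝ} (h : HN f g)
    (heq : ∀ f' g', HN f' g' → bN (vN ε A L) f g f' g' = E * ∫ x, f x * f' x) :
    ∀ u hx hy, HX u hx hy →
    (1 / 2) * ((∑ k, ∫ p, toX4 (g 0 k) p * hx k p) +
        ∑ i, ∑ k, ∫ p, toX4 (g (Fin.succ i) k) p * hy i k p) +
      ∫ p, (vX ε A L p - E) * toX4 f p * u p = 0 := by
  intro u hx hy hu
  have h1 := HN_ofX4 hu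
  have h2 := heq _ _ h1
  have hto : ∀ (w : X4 → ℝ) (p : X4), toX4 (ofX4 w) p = w p := by
    intro w p
    simp [toX4, ofX4]
  have hI : ∀ (a : Conf 4 → ℝ) (w : X4 → ℝ), ∫ x, a x * ofX4 w x = ∫ p, toX4 a p * w p := by
    intro a w
    rw [← integral_toX4 (fun x => a x * ofX4 w x)]
    refine integral_congr_ae (Filter.Eventually.of_forall fun p => ?_)
    change toX4 a p * toX4 (ofX4 w) p = _
    rw [hto]
  have hV : ∫ x, vN ε A L x * (f x * ofX4 u x) = ∫ p, vX ε A L p * (toX4 f p * u p) := by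
    rw [← integral_toX4 (fun x => vN ε A L x * (f x * ofX4 u x))]
    refine integral_congr_ae (Filter.Eventually.of_forall fun p => ?_)
    change vN ε A L (Fin.cons p.1 p.2 : Conf 4) * (toX4 f p * toX4 (ofX4 u) p) = _
    rw [hto, ← vX_eq]
  have hint1 : Integrable (fun x => vN ε A L x * (f x * ofX4 u x)) :=
    (fbd_vN 4 ε A L).integrable_mul h h1
  have hint1' : Integrable (fun p => vX ε A L p * (toX4 f p * u p)) := by
    have h3 := (mp_cons.integrable_comp_emb tr_me_cons).2 hint1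
    refine h3.congr ?_
    filter_upwards with p
    change vN ε A L (Fin.cons p.1 p.2 : Conf 4) * (toX4 f p * toX4 (ofX4 u) p) = _
    rw [hto, vX_eq]
  have hint2 : Integrable (fun p => toX4 f p * u p) :=
    MemLp.integrable_mul (HX_toX4 h).memLp hu.memLp
  have hsplit : ∫ p, (vX ε A L p - E) * toX4 f p * u p =
      (∫ p, vX ε A L p * (toX4 f p * u p)) - E * ∫ p, toX4 f p * u p := by
    rw [← integral_const_mul, ← integral_sub hint1' (hint2.const_mul E)]
    congr 1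
    funext p
    ring
  unfold bN at h2
  rw [Fin.sum_univ_succ] at h2
  rw [hV, hI f u] at h2
  simp only [Fin.cases_zero, hI, Fin.cases_succ] at h2
  rw [hsplit]
  linarith only [h2]

theorem anti_toX4 {f : Conf 4 → ℝ} (h : Sec4 f) :
    ∀ᵐ p : X4, toX4 f (p.1, p.2 ∘ Equiv.swap 1 2) = - toX4 f p := by
  have h1 := mp_cons.quasiMeasurePreserving.ae h.2
  filter_upwards [h1] with p hp
  unfold toX4
  rw [← hp]
  congr 1
  funext i
  fin_cases i <;> rfl

theorem refl_toX4 {f : Conf 4 → ℝ} {k : Fin 3} (h : ∀ᵐ x, f (reflN k x) = f x) :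
    ∀ᵐ p : X4, toX4 f (refl k p.1, reflN k p.2) = toX4 f p := by
  have h1 := mp_cons.quasiMeasurePreserving.ae h
  filter_upwards [h1] with p hp
  unfold toX4
  rw [← hp]
  congr 1
  funext i
  fin_cases i <;> rfl

end

end Vale.Agent.P363.D
end
end

section

section

/-! # P363, exact side: the conditional energy -/

namespace Vale.Agent.P363.D

open MeasureTheory Set Filter Topology
open scoped ENNReal ContDiff

noncomputable section

variable {F : X4 → ℝ} {Φ : Conf 3 → ℝ}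
variable {A R ε δ M E4 E3 : ℝ} {Fx : Fin 3 → X4 → ℝ} {Fy : Fin 3 → Fin 3 → X4 → ℝ}
  {Φy : Fin 3 → Fin 3 → Conf 3 → ℝ}

/-- Expansion of the integral of a square. -/
theorem e8b_sq {X : Type*} [MeasurableSpace X] {μ : Measure X} {w f g : X → ℝ} (d : ℝ)
    (h1 : Integrable (fun x => w x * (f x * f x)) μ)
    (h2 : Integrable (fun x => w x * (f x * g x)) μ)
    (h3 : Integrable (fun x => w x * (g x * g x)) μ) :
    ∫ x, w x * (d * f x + g x) ^ 2 ∂μ = d ^ 2 * (∫ x, w x * (f x * f x) ∂μ) +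
      2 * d * (∫ x, w x * (f x * g x) ∂μ) + ∫ x, w x * (g x * g x) ∂μ := by
  have e : ∀ x, w x * (d * f x + g x) ^ 2 = (d ^ 2 * (w x * (f x * f x)) +
      2 * d * (w x * (f x * g x))) + w x * (g x * g x) := by
    intro x
    ring
  simp only [e]
  have i1 : Integrable (fun x => d ^ 2 * (w x * (f x * f x)) +
      2 * d * (w x * (f x * g x))) μ := (h1.const_mul _).add (h2.const_mul _)
  rw [integral_add i1 h3, integral_add (h1.const_mul _) (h2.const_mul _), integral_const_mul,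
    integral_const_mul]

/-- The quadratic form of a sum. -/
theorem e8b_qN {w : Conf 3 → ℝ} {f g : Conf 3 → ℝ} {fg gg : Fin 3 → Fin 3 → Conf 3 → ℝ}
    (hf : HN f fg) (hg : HN g gg) (d : ℝ)
    (h1 : Integrable (fun x => w x * (f x * f x)) volume)
    (h2 : Integrable (fun x => w x * (f x * g x)) volume)
    (h3 : Integrable (fun x => w x * (g x * g x)) volume) :
    qN w (fun y => d * f y + g y) (fun i k y => d * fg i k y + gg i k y) =
      d ^ 2 * bN w f fg f fg + 2 * d * bN w f fg g gg + bN w g gg g gg := by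
  have hk : ∀ i k, ∫ x, (d * fg i k x + gg i k x) ^ 2 = d ^ 2 * (∫ x, fg i k x * fg i k x) +
      2 * d * (∫ x, fg i k x * gg i k x) + ∫ x, gg i k x * gg i k x := by
    intro i k
    have j1 : Integrable (fun x => (1 : ℝ) * (fg i k x * fg i k x)) volume :=
      ((hf.memLp' i k).integrable_mul (hf.memLp' i k)).const_mul 1
    have j2 : Integrable (fun x => (1 : ℝ) * (fg i k x * gg i k x)) volume :=
      ((hf.memLp' i k).integrable_mul (hg.memLp' i k)).const_mul 1
    have j3 : Integrable (fun x => (1 : ℝ) * (gg i k x * gg i k x)) volume :=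
      ((hg.memLp' i k).integrable_mul (hg.memLp' i k)).const_mul 1
    have h := e8b_sq (w := fun _ => (1 : ℝ)) d j1 j2 j3
    simpa only [one_mul] using h
  unfold qN bN
  rw [e8b_sq d h1 h2 h3]
  simp only [hk, Finset.sum_add_distrib, ← Finset.mul_sum]
  ring

theorem e8b_self {w : Conf 3 → ℝ} (g : Conf 3 → ℝ) (gg : Fin 3 → Fin 3 → Conf 3 → ℝ) :
    bN w g gg g gg = qN w g gg := by
  unfold bN qN
  simp only [sq]

/-- The form with the repulsion added. -/
theorem e8b_bN {f g : Conf 3 → ℝ} {fg gg : Fin 3 → Fin 3 → Conf 3 → ℝ}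
    (hf : HN f fg) (hg : HN g gg) (x : R3) (ε A R : ℝ) :
    bN (fun y => vN ε A R y + ε * rep x y) f fg g gg =
      bN (vN ε A R) f fg g gg + ε * ∫ y, rep x y * (f y * g y) := by
  unfold bN
  have e : ∀ y, (vN ε A R y + ε * rep x y) * (f y * g y) =
      vN ε A R y * (f y * g y) + ε * (rep x y * (f y * g y)) := by
    intro y
    ring
  simp only [e]
  rw [integral_add (hf.int_vN hg ε A R) ((hf.int_rep hg x).const_mul ε), integral_const_mul]
  ring

theorem e8b_int {f g : Conf 3 → ℝ} {fg gg : Fin 3 → Fin 3 → Conf 3 → ℝ}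
    (hf : HN f fg) (hg : HN g gg) (x : R3) (ε A R : ℝ) :
    Integrable (fun y => (vN ε A R y + ε * rep x y) * (f y * g y)) volume := by
  have e : (fun y => (vN ε A R y + ε * rep x y) * (f y * g y)) =
      fun y => vN ε A R y * (f y * g y) + ε * (rep x y * (f y * g y)) := by
    funext y
    ring
  rw [e]
  exact (hf.int_vN hg ε A R).add ((hf.int_rep hg x).const_mul ε)

/-- The equation of the ion state. -/
theorem Sys.e8b_eq (hS : Sys A R ε δ M E4 E3 F Fx Fy Φ Φy) {u : Conf 3 → ℝ}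
    {g : Fin 3 → Fin 3 → Conf 3 → ℝ} (hu : HN u g) :
    bN (vN ε A R) Φ Φy u g = E3 * ∫ y, Φ y * u y := by
  have h := hS.Φ_eq u g hu
  unfold bN at h ⊢
  have e : ∀ y, (vN ε A R y - E3) * (Φ y * u y) = vN ε A R y * (Φ y * u y) -
      E3 * (Φ y * u y) := by
    intro y
    ring
  simp only [e] at h
  have hi : Integrable (fun y => Φ y * u y) volume := hS.Φ_H1.memLp.integrable_mul hu.memLp
  rw [integral_sub (hS.Φ_H1.int_vN hu ε A R) (hi.const_mul E3), integral_const_mul] at h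
  linarith

/-- Splitting of the conditional energy. -/
theorem Sys.cen_split (hS : Sys A R ε δ M E4 E3 F Fx Fy Φ Φy) :
    ∀ᵐ x : R3, cen ε A R F Fy x = dys F Φ x ^ 2 * (E3 + ε * Uf Φ x) +
      2 * (dys F Φ x * Sf ε F Φ x) + cen ε A R (Pf F Φ) (Pfy F Fy Φ Φy) x := by
  filter_upwards [hS.P_HX.slice, Pf_orth hS.F_H1.memLp hS.Φ_H1.memLp hS.Φ_norm] with x hP ho
  have e1 : (fun y => F (x, y)) = fun y => dys F Φ x * Φ y + Pf F Φ (x, y) := by
    funext y
    unfold Pf
    ring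
  have e2 : (fun i k y => Fy i k (x, y)) =
      fun i k y => dys F Φ x * Φy i k y + Pfy F Fy Φ Φy i k (x, y) := by
    funext i k y
    unfold Pfy
    ring
  have n1 : ∫ y, Φ y * Φ y = 1 := by
    have h := hS.Φ_norm
    simp only [sq] at h
    exact h
  unfold cen
  rw [e1, e2, e8b_qN hS.Φ_H1 hP (dys F Φ x) (e8b_int hS.Φ_H1 hS.Φ_H1 x ε A R)
    (e8b_int hS.Φ_H1 hP x ε A R) (e8b_int hP hP x ε A R), e8b_bN hS.Φ_H1 hS.Φ_H1,
    e8b_bN hS.Φ_H1 hP, hS.e8b_eq hS.Φ_H1, hS.e8b_eq hP, ho, n1, e8b_self]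
  unfold Uf Sf
  ring

/-- The gap of the ion. -/
theorem Sys.cen_ge (hS : Sys A R ε δ M E4 E3 F Fx Fy Φ Φy) (hε : 0 ≤ ε) :
    ∀ᵐ x : R3, (E3 + ε * δ) * nsq (Pf F Φ) x ≤ cen ε A R (Pf F Φ) (Pfy F Fy Φ Φy) x := by
  filter_upwards [hS.P_HX.slice, Pf_orth hS.F_H1.memLp hS.Φ_H1.memLp hS.Φ_norm, hS.P_anti]
    with x hP ho ha
  have h1 := hS.gap _ _ hP ha
  rw [ho] at h1
  have h2 : cen ε A R (Pf F Φ) (Pfy F Fy Φ Φy) x =
      qN (vN ε A R) (fun y => Pf F Φ (x, y)) (fun i k y => Pfy F Fy Φ Φy i k (x, y)) +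
        ε * ∫ y, rep x y * (Pf F Φ (x, y) * Pf F Φ (x, y)) := by
    unfold cen
    rw [← e8b_self, e8b_bN hP hP, e8b_self]
  have h3 : 0 ≤ ∫ y, rep x y * (Pf F Φ (x, y) * Pf F Φ (x, y)) := by
    refine integral_nonneg fun y => mul_nonneg ?_ (mul_self_nonneg _)
    exact Finset.sum_nonneg fun i _ => by positivity
  rw [h2]
  unfold nsq
  linarith only [mul_nonneg (sub_nonneg.2 hε) (sub_nonneg.2 h3), h1]

end

end Vale.Agent.P363.D
end
end

section

section

/-! # P363, exact side: the norm of the slices is an `H¹` function -/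

namespace Vale.Agent.P363.D

open MeasureTheory Set Filter Topology
open scoped ENNReal ContDiff

noncomputable section

/-- Cauchy-Schwarz for the gradient of the norm. -/
theorem e2_bound {u : X4 → ℝ} {ux : Fin 3 → X4 → ℝ} {uy : Fin 3 → Fin 3 → X4 → ℝ}
    (h : HX u ux uy) (k : Fin 3) : ∀ᵐ x : R3, |nrmg u ux k x| ≤ nrm (ux k) x := by
  filter_upwards [ipy_cs h.memLp (h.memLpx k)] with x hx
  unfold nrmg
  rw [abs_div, abs_of_nonneg (nrm_nonneg u x)]
  rcases (nrm_nonneg u x).eq_or_lt with h0 | h0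
  · rw [← h0, div_zero]
    exact nrm_nonneg _ _
  · rw [div_le_iff₀ h0, mul_comm]
    exact hx

/-- The squared norm of the slices is absolutely continuous on lines. -/
theorem e2_nsq {u : X4 → ℝ} {ux : Fin 3 → X4 → ℝ} {uy : Fin 3 → Fin 3 → X4 → ℝ}
    (h : HX u ux uy) (k : Fin 3) :
    ACL volume (dir3 k) (nsq u) (fun x => 2 * ipy u (ux k) x) := by
  have m1 := (h.aclx k).mul (h.aclx k)
  have i1 : Integrable (fun p : X4 => u p * u p) (volume.prod volume) :=
    h.memLp.integrable_mul h.memLp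
  have i2 : Integrable (fun p : X4 => ux k p * u p + u p * ux k p) (volume.prod volume) :=
    ((h.memLpx k).integrable_mul h.memLp).add (h.memLp.integrable_mul (h.memLpx k))
  have m2 := ACL.marginal (μ := (volume : Measure R3)) (ν := (volume : Measure (Conf 3))) m1 i1 i2
  refine m2.congr (ae_of_all _ fun x => ?_) ?_
  · change ∫ y, u (x, y) * u (x, y) = ∫ y, u (x, y) ^ 2
    simp only [sq]
  · filter_upwards [slice_memLp h.memLp, slice_memLp (h.memLpx k)] with x h1 h2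
    have j1 : Integrable (fun y => ux k (x, y) * u (x, y)) := h2.integrable_mul h1
    have j2 : Integrable (fun y => u (x, y) * ux k (x, y)) := h1.integrable_mul h2
    change ∫ y, (ux k (x, y) * u (x, y) + u (x, y) * ux k (x, y)) =
      2 * ∫ y, u (x, y) * ux k (x, y)
    rw [integral_add j1 j2]
    simp only [mul_comm (ux k _) (u _)]
    ring

/-- The norm of the slices of an `H¹` function is an `H¹` function (diamagnetic inequality). -/
theorem HX.norm {u : X4 → ℝ} {ux : Fin 3 → X4 → ℝ} {uy : Fin 3 → Fin 3 → X4 → ℝ}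
    (h : HX u ux uy) : H1o (nrm u) (nrmg u ux) ∧
      ∀ k, ∀ᵐ x : R3, nrmg u ux k x ^ 2 ≤ nsq (ux k) x := by
  have hacl : ∀ k, ACL volume (dir3 k) (nrm u) (nrmg u ux k) := by
    intro k
    have hl : LocallyIntegrable (nrm (ux k)) (volume : Measure R3) :=
      (nrm_memLp (h.memLpx k)).locallyIntegrable (by norm_num)
    have m4 := (e2_nsq h k).sqrt (κ := nrm (ux k)) (ae_of_all _ (nsq_nonneg u))
      (locInt_line _ hl) (by
        filter_upwards [ipy_cs h.memLp (h.memLpx k)] with x hx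
        rw [abs_mul, abs_two, mul_assoc]
        exact mul_le_mul_of_nonneg_left hx (by norm_num))
    refine m4.congr (ae_of_all _ fun x => rfl) (ae_of_all _ fun x => ?_)
    exact mul_div_mul_left _ _ two_ne_zero
  refine ⟨⟨nrm_memLp h.memLp, fun k => ?_, hacl⟩, fun k => ?_⟩
  · refine (nrm_memLp (h.memLpx k)).mono (hacl k).meas' ?_
    filter_upwards [e2_bound h k] with x hx
    rw [Real.norm_eq_abs, Real.norm_eq_abs]
    exact hx.trans (le_abs_self _)
  · filter_upwards [e2_bound h k] with x hx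
    rw [← nrm_sq]
    exact sq_le_sq' (by linarith only [abs_le.1 hx]) (abs_le.1 hx).2

end

end Vale.Agent.P363.D
end
end

section

section

/-! # P363, exact side: the effective potential -/

namespace Vale.Agent.P363.D

open MeasureTheory Set Filter Topology
open scoped ENNReal ContDiff

noncomputable section

/-- Pointwise algebra for the kinetic part. -/
theorem ept_kin {e T v d p s : ℝ} (hs : s = d ^ 2 + p) (hs0 : 0 < s) (hp : 0 ≤ p) (hT : 0 ≤ T)
    (hv : v ^ 2 ≤ p * T) :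
    (e ^ 2 + T) - (d * e + v) ^ 2 / s ≤ 2 * T + 2 * (e ^ 2 * p) / s := by
  have key : (e ^ 2 + T) * s - (d * e + v) ^ 2 ≤ 2 * T * s + 2 * (e ^ 2 * p) := by
    have ha : 0 ≤ e ^ 2 * p := mul_nonneg (sq_nonneg e) hp
    have hb : 0 ≤ d ^ 2 * T := mul_nonneg (sq_nonneg d) hT
    have h1 : (2 * (d * e * v)) ^ 2 ≤ (e ^ 2 * p + d ^ 2 * T) ^ 2 := by
      have h2 : (d * e) ^ 2 * v ^ 2 ≤ (d * e) ^ 2 * (p * T) :=
        mul_le_mul_of_nonneg_left hv (sq_nonneg _)
      have h3 := sq_nonneg (e ^ 2 * p - d ^ 2 * T)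
      have h4 : (2 * (d * e * v)) ^ 2 = 4 * ((d * e) ^ 2 * v ^ 2) := by ring
      have h5 : (e ^ 2 * p + d ^ 2 * T) ^ 2 =
          (e ^ 2 * p - d ^ 2 * T) ^ 2 + 4 * ((d * e) ^ 2 * (p * T)) := by ring
      rw [h4, h5]
      linarith only [h2, h3]
    have h2 := abs_le_of_sq_le_sq h1 (add_nonneg ha hb)
    have h3 := neg_abs_le (2 * (d * e * v))
    have h4 : (d * e + v) ^ 2 = d ^ 2 * e ^ 2 + 2 * (d * e * v) + v ^ 2 := by ring
    have h5 : (e ^ 2 + T) * s = d ^ 2 * e ^ 2 + e ^ 2 * p + T * s := by rw [hs]; ring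
    have h6 : T * s = d ^ 2 * T + T * p := by rw [hs]; ring
    have h7 : 0 ≤ T * p := mul_nonneg hT hp
    have h8 := sq_nonneg v
    linarith only [h2, h3, h5, h6, h7, h8]
  have h1 : (e ^ 2 + T) - (d * e + v) ^ 2 / s = ((e ^ 2 + T) * s - (d * e + v) ^ 2) / s := by
    rw [sub_div, mul_div_cancel_right₀ _ hs0.ne']
  have h2 : 2 * T + 2 * (e ^ 2 * p) / s = (2 * T * s + 2 * (e ^ 2 * p)) / s := by
    rw [add_div, mul_div_cancel_right₀ _ hs0.ne']
  rw [h1, h2]
  exact div_le_div_of_nonneg_right key hs0.le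

/-- Pointwise algebra for the potential part. -/
theorem ept_pot {d p q L s U S cP v V E3 E4 ε a b c1 Y TP t : ℝ} (hs : s = d ^ 2 + p ^ 2)
    (hL : 0 < L) (hε : 0 ≤ ε) (hb : 0 ≤ b)
    (hq : q = t - 3 * ε) (hv : |v + t / L| ≤ a / L ^ 2)
    (hU : |U - 3 / L| ≤ b / L ^ 2) (hS : |S| ≤ ε * b / L ^ 2 * p)
    (hcP : cP ≤ c1 * (Y + p ^ 2)) (hc1 : 0 ≤ c1) (hY : Y + p ^ 2 ≤ TP) (hp2 : p ^ 2 ≤ TP)
    (hV : V = d ^ 2 * (E3 + ε * U) + 2 * (d * S) + cP) :
    4 * (V + (v - E4) * s) ≤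
      (E3 - E4 - q / L + (a + 2 * (ε * b)) / L ^ 2) * (4 * s) + (4 * c1 + 4 * |E3|) * TP := by
  have hL2 : 0 < L ^ 2 := by positivity
  have h1 : v ≤ - (t / L) + a / L ^ 2 := by linarith only [(abs_le.1 hv).2]
  have h2 : U ≤ 3 / L + b / L ^ 2 := by linarith only [(abs_le.1 hU).2]
  have h3 : 2 * (d * S) ≤ ε * b / L ^ 2 * s := by
    have h4 : d * S ≤ |d| * (ε * b / L ^ 2 * p) := by
      calc d * S ≤ |d * S| := le_abs_self _
        _ = |d| * |S| := abs_mul _ _
        _ ≤ _ := mul_le_mul_of_nonneg_left hS (abs_nonneg _)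
    have h5 : 2 * (|d| * p) ≤ s := by
      have := sq_nonneg (|d| - p)
      have h6 : |d| ^ 2 = d ^ 2 := sq_abs d
      linarith
    have h7 : 0 ≤ ε * b / L ^ 2 := by (clear * - hε hb hL; positivity)
    have h8 := mul_le_mul_of_nonneg_left h5 h7
    have h9 : ε * b / L ^ 2 * (2 * (|d| * p)) = 2 * (|d| * (ε * b / L ^ 2 * p)) := by ring
    linarith only [h4, h8]
  have hd2 := sq_nonneg d
  have hpp := sq_nonneg p
  have h4 : d ^ 2 * (v + ε * U) ≤ d ^ 2 * (- (q / L) + (a + ε * b) / L ^ 2) := by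
    apply mul_le_mul_of_nonneg_left _ hd2
    have h5 : ε * U ≤ ε * (3 / L + b / L ^ 2) := mul_le_mul_of_nonneg_left h2 hε
    have h6 : - (q / L) + (a + ε * b) / L ^ 2 =
        (- (t / L) + a / L ^ 2) + ε * (3 / L + b / L ^ 2) := by rw [hq]; ring
    linarith only [h1, h5, h6]
  have h5 : p ^ 2 * v ≤ p ^ 2 * (- (q / L) + (a + ε * b) / L ^ 2) := by
    apply mul_le_mul_of_nonneg_left _ hpp
    have h6 : - (q / L) + (a + ε * b) / L ^ 2 =
        (- (t / L) + a / L ^ 2) + (3 * ε / L + ε * b / L ^ 2) := by rw [hq]; ring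
    have h7 : 0 ≤ 3 * ε / L + ε * b / L ^ 2 := by (clear * - hε hL hb; positivity)
    linarith only [h1, h6, h7]
  have h6 : cP ≤ c1 * TP := hcP.trans (mul_le_mul_of_nonneg_left hY hc1)
  have h7 : - (E3 * p ^ 2) ≤ |E3| * TP := by
    have h8 : - (E3 * p ^ 2) ≤ |E3| * p ^ 2 := by
      have := mul_le_mul_of_nonneg_right (neg_abs_le E3) hpp
      linarith only [this]
    exact h8.trans (mul_le_mul_of_nonneg_left hp2 (abs_nonneg _))
  have h8 : (E3 - E4 - q / L + (a + 2 * (ε * b)) / L ^ 2) * (4 * s) =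
      4 * (d ^ 2 * (- (q / L) + (a + ε * b) / L ^ 2)) +
      4 * (p ^ 2 * (- (q / L) + (a + ε * b) / L ^ 2)) + 4 * (ε * b / L ^ 2 * s) +
      4 * (E3 * d ^ 2) + 4 * (E3 * p ^ 2) - 4 * (E4 * s) := by
    rw [hs]; ring
  have h9 : 4 * (V + (v - E4) * s) = 4 * (d ^ 2 * (v + ε * U)) + 4 * (p ^ 2 * v) +
      4 * (2 * (d * S)) + 4 * cP + 4 * (E3 * d ^ 2) - 4 * (E4 * s) := by
    rw [hV, hs]; ring
  rw [h8, h9]
  linarith only [h3, h4, h5, h6, h7]

variable {F : X4 → ℝ} {Φ : Conf 3 → ℝ}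
variable {A R ε δ M E4 E3 : ℝ} {Fx : Fin 3 → X4 → ℝ} {Fy : Fin 3 → Fin 3 → X4 → ℝ}
  {Φy : Fin 3 → Fin 3 → Conf 3 → ℝ}

theorem nsq_eq_ipy (u : X4 → ℝ) (x : R3) : nsq u x = ipy u u x := by
  unfold nsq ipy
  exact integral_congr_ae (Eventually.of_forall fun y => by simp only [pow_two])

/-- Pointwise bound of the integrand of the energy identity. -/
theorem Sys.energy_pt (hS : Sys A R ε δ M E4 E3 F Fx Fy Φ Φy) (hA : 0 ≤ A) (hR : 0 < R)
    (hε : 0 < ε) (hε1 : ε ≤ 1) {ρ : ℝ} (hρ : 2 * R + 1 ≤ ρ) : ∃ C : ℝ, 0 ≤ C ∧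
    ∀ᵐ x : R3, ρ < ‖x‖ → 0 < dens F x →
      2 * (∑ k, nsq (Fx k) x) - (1 / 2) * (∑ k, densD F Fx k x ^ 2 / dens F x) +
        4 * (cen ε A R F Fy x + (v1 ε A R x - E4) * nsq F x) ≤
      (E3 - E4 - (1 + ε * (2 * A - 3)) / ‖x‖ + C / ‖x‖ ^ 2) * dens F x +
        C * TPf F Fx Fy Φ Φy x +
        C * ((∑ k, dys (Fx k) Φ x ^ 2) * nrm (Pf F Φ) x ^ 2 / dens F x) := by
  obtain ⟨C1, hC1, hco⟩ := HX.cen_coercive hS.P_HX ε A R hε.le
  have hUf := (Sys.Uf_bound hS).2.2
  have hSf := (Sys.Sf_bound hS hε.le).2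
  have hFm := hS.F_H1.memLp
  have hΦm := hS.Φ_H1.memLp
  have hFx : ∀ k, MemLp (Fx k) 2 volume := hS.F_H1.memLpx
  have s1 := ipy_split hFm hFm hΦm hS.Φ_norm
  have s2 := ae_all_iff.2 fun k => ipy_split hFm (hFx k) hΦm hS.Φ_norm
  have s3 := ae_all_iff.2 fun k => ipy_split (hFx k) (hFx k) hΦm hS.Φ_norm
  have s4 := ae_all_iff.2 fun k => ipy_cs (Pf_memLp hFm hΦm) (Pf_memLp (hFx k) hΦm)
  have s5 := Sys.cen_split hS
  have hsM : 0 ≤ √M := Real.sqrt_nonneg M
  have hb : 0 ≤ 21 * √M := by (clear * -; positivity)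
  refine ⟨20 + (4 * C1 + 4 * |E3|) + (ε * (4 * A * R) + 2 * (ε * (21 * √M))),
    by (clear * - hC1 hε hA hR; positivity), ?_⟩
  filter_upwards [hco, hSf, s1, s2, s3, s4, s5] with x hco hSf s1 s2 s3 s4 s5
  intro hx hd
  have hx0 : x ≠ 0 := by
    rintro rfl
    rw [norm_zero] at hx
    linarith only [hR, hρ, hx]
  have hL : 0 < ‖x‖ := norm_pos_iff.2 hx0
  have hv1 := v1_far hA hR hε.le (x := x) (by linarith only [hρ, hx])
  have hdens : dens F x = 4 * nsq F x := rfl
  have hns : nsq F x = dys F Φ x ^ 2 + nrm (Pf F Φ) x ^ 2 := by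
    rw [nrm_sq, nsq_eq_ipy F, nsq_eq_ipy (Pf F Φ), s1.1]; ring
  have hs0 : 0 < nsq F x := by
    rw [hdens] at hd; linarith only [hd]
  have hT0 : ∀ k, 0 ≤ nsq (Pf (Fx k) Φ) x := fun k => nsq_nonneg _ _
  -- the pieces of `TPf`
  have hTP1 : (∑ k, nsq (Pf (Fx k) Φ) x) ≤ TPf F Fx Fy Φ Φy x := by
    unfold TPf
    have h1 : 0 ≤ ∑ i, ∑ k, nsq (Pfy F Fy Φ Φy i k) x :=
      Finset.sum_nonneg fun i _ => Finset.sum_nonneg fun k _ => nsq_nonneg _ _
    have h2 := nsq_nonneg (Pf F Φ) x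
    linarith only [h1, h2]
  have hTP2 : (∑ i, ∑ k, nsq (Pfy F Fy Φ Φy i k) x) + nrm (Pf F Φ) x ^ 2 ≤
      TPf F Fx Fy Φ Φy x := by
    unfold TPf
    have h1 : 0 ≤ ∑ k, nsq (Pf (Fx k) Φ) x := Finset.sum_nonneg fun k _ => nsq_nonneg _ _
    rw [nrm_sq]
    linarith only [h1]
  have hTP3 : nrm (Pf F Φ) x ^ 2 ≤ TPf F Fx Fy Φ Φy x := by
    have h1 : 0 ≤ ∑ i, ∑ k, nsq (Pfy F Fy Φ Φy i k) x :=
      Finset.sum_nonneg fun i _ => Finset.sum_nonneg fun k _ => nsq_nonneg _ _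
    linarith only [hTP2, h1]
  have hTP0 : 0 ≤ TPf F Fx Fy Φ Φy x := (sq_nonneg _).trans hTP3
  -- kinetic part
  have hkin : 2 * (∑ k, nsq (Fx k) x) - (1 / 2) * (∑ k, densD F Fx k x ^ 2 / dens F x) ≤
      4 * (∑ k, nsq (Pf (Fx k) Φ) x) +
        16 * ((∑ k, dys (Fx k) Φ x ^ 2) * nrm (Pf F Φ) x ^ 2 / dens F x) := by
    have hk : ∀ k, 2 * nsq (Fx k) x - (1 / 2) * (densD F Fx k x ^ 2 / dens F x) ≤
        4 * nsq (Pf (Fx k) Φ) x +
          16 * (dys (Fx k) Φ x ^ 2 * nrm (Pf F Φ) x ^ 2 / dens F x) := by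
      intro k
      have h1 : nsq (Fx k) x = dys (Fx k) Φ x ^ 2 + nsq (Pf (Fx k) Φ) x := by
        rw [nsq_eq_ipy (Fx k), nsq_eq_ipy (Pf (Fx k) Φ), (s3 k).1]; ring
      have h2 : densD F Fx k x = 4 * (dys F Φ x * dys (Fx k) Φ x +
          ipy (Pf F Φ) (Pf (Fx k) Φ) x) := by
        rw [← (s2 k).1]; rfl
      have h3 : ipy (Pf F Φ) (Pf (Fx k) Φ) x ^ 2 ≤
          nrm (Pf F Φ) x ^ 2 * nsq (Pf (Fx k) Φ) x := by
        have h4 := s4 k
        rw [← nrm_sq (Pf (Fx k) Φ) x, ← mul_pow, ← sq_abs]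
        exact pow_le_pow_left₀ (abs_nonneg _) h4 2
      have h4 := ept_kin (e := dys (Fx k) Φ x) hns hs0 (sq_nonneg _) (hT0 k) h3
      rw [h1, h2, hdens]
      have h5 : (4 * (dys F Φ x * dys (Fx k) Φ x + ipy (Pf F Φ) (Pf (Fx k) Φ) x)) ^ 2 /
          (4 * nsq F x) =
          4 * ((dys F Φ x * dys (Fx k) Φ x + ipy (Pf F Φ) (Pf (Fx k) Φ) x) ^ 2 / nsq F x) := by
        (clear * - hs0; field_simp)
      have h6 : 16 * (dys (Fx k) Φ x ^ 2 * nrm (Pf F Φ) x ^ 2 / (4 * nsq F x)) =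
          2 * (2 * (dys (Fx k) Φ x ^ 2 * nrm (Pf F Φ) x ^ 2) / nsq F x) := by
        field_simp
        ring
      rw [h5, h6]
      linarith only [h4]
    have hsum := Finset.sum_le_sum fun k (_ : k ∈ (Finset.univ : Finset (Fin 3))) => hk k
    rw [Finset.sum_sub_distrib, Finset.sum_add_distrib, ← Finset.mul_sum, ← Finset.mul_sum,
      ← Finset.mul_sum, ← Finset.mul_sum] at hsum
    rw [Finset.sum_mul, Finset.sum_div (s := Finset.univ)
      (f := fun k => dys (Fx k) Φ x ^ 2 * nrm (Pf F Φ) x ^ 2)]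
    exact hsum
  -- potential part
  have hcoe : cen ε A R (Pf F Φ) (Pfy F Fy Φ Φy) x ≤
      C1 * ((∑ i, ∑ k, nsq (Pfy F Fy Φ Φy i k) x) + nrm (Pf F Φ) x ^ 2) := by
    rw [nrm_sq]; exact hco.2
  have hpot := ept_pot (q := 1 + ε * (2 * A - 3)) (t := 1 + 2 * ε * A) hns hL
    hε.le hb (by ring) hv1 (hUf x hx0) hSf.2 hcoe hC1 hTP2 hTP3 s5 (E4 := E4)
  rw [← hdens] at hpot
  -- combine
  have hdL : 0 ≤ dens F x / ‖x‖ ^ 2 := div_nonneg hd.le (by positivity)
  have hr0 : 0 ≤ (∑ k, dys (Fx k) Φ x ^ 2) * nrm (Pf F Φ) x ^ 2 / dens F x :=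
    div_nonneg (mul_nonneg (Finset.sum_nonneg fun k _ => sq_nonneg _) (sq_nonneg _)) hd.le
  have hE : 0 ≤ 4 * C1 + 4 * |E3| := by (clear * - hC1; positivity)
  have hab : 0 ≤ ε * (4 * A * R) + 2 * (ε * (21 * √M)) := by (clear * - hε hA hR; positivity)
  set c2 := 4 * C1 + 4 * |E3| with hc2
  set c3 := ε * (4 * A * R) + 2 * (ε * (21 * √M)) with hc3
  set TP := TPf F Fx Fy Φ Φy x with hTP
  set rr := (∑ k, dys (Fx k) Φ x ^ 2) * nrm (Pf F Φ) x ^ 2 / dens F x with hrr
  have e1 : (E3 - E4 - (1 + ε * (2 * A - 3)) / ‖x‖ + (20 + c2 + c3) / ‖x‖ ^ 2) * dens F x =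
      (E3 - E4 - (1 + ε * (2 * A - 3)) / ‖x‖ + c3 / ‖x‖ ^ 2) * dens F x +
        (20 + c2) * (dens F x / ‖x‖ ^ 2) := by ring
  have e2 : 0 ≤ (20 + c2) * (dens F x / ‖x‖ ^ 2) := mul_nonneg (by linarith only [hE]) hdL
  have e3 : (4 + c2) * TP ≤ (20 + c2 + c3) * TP :=
    mul_le_mul_of_nonneg_right (by linarith only [hab]) hTP0
  have e4 : 16 * rr ≤ (20 + c2 + c3) * rr := mul_le_mul_of_nonneg_right (by linarith only [hE, hab]) hr0
  rw [e1]
  linarith only [hTP1, hpot, hkin, e2, e3, e4]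

end

end Vale.Agent.P363.D
end
end

section

section

/-! # P363, exact side: the effective potential -/

namespace Vale.Agent.P363.D

open MeasureTheory Set Filter Topology
open scoped ENNReal ContDiff

noncomputable section

variable {F : X4 → ℝ} {Φ : Conf 3 → ℝ}
variable {A R ε δ M E4 E3 : ℝ} {Fx : Fin 3 → X4 → ℝ} {Fy : Fin 3 → Fin 3 → X4 → ℝ}
  {Φy : Fin 3 → Fin 3 → Conf 3 → ℝ}

theorem e14b_dens (F : X4 → ℝ) (x : R3) : dens F x = 4 * nsq F x := rfl

theorem e14b_densD (F : X4 → ℝ) (Fx : Fin 3 → X4 → ℝ) (k : Fin 3) (x : R3) :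
    densD F Fx k x = 4 * ipy F (Fx k) x := rfl

/-- multiplication by a bounded function -/
theorem e14b_mul {g f : R3 → ℝ} {B : ℝ} (hg : AEStronglyMeasurable g volume)
    (hb : ∀ᵐ x : R3, |g x| ≤ B) (hf : Integrable f volume) :
    Integrable (fun x => g x * f x) volume := by
  refine hf.bdd_mul hg (c := B) ?_
  filter_upwards [hb] with x hx
  rwa [Real.norm_eq_abs]

/-- Cauchy-Schwarz for the density. -/
theorem e14b_cs (hS : Sys A R ε δ M E4 E3 F Fx Fy Φ Φy) (k : Fin 3) :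
    Integrable (fun x => densD F Fx k x ^ 2 / dens F x) volume := by
  have h1 := nsq_integrable hS.F_H1.memLp
  have h2 := nsq_integrable (hS.F_H1.memLpx k)
  have h3 := ipy_integrable hS.F_H1.memLp (hS.F_H1.memLpx k)
  refine (h2.1.const_mul 4).mono' ?_ ?_
  · have m1 : AEMeasurable (fun x => densD F Fx k x ^ 2) volume :=
      ((h3.1.const_mul 4).aestronglyMeasurable.aemeasurable).pow_const 2
    have m2 : AEMeasurable (dens F) volume := (h1.1.const_mul 4).aestronglyMeasurable.aemeasurable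
    exact (m1.div m2).aestronglyMeasurable
  · filter_upwards [ipy_cs hS.F_H1.memLp (hS.F_H1.memLpx k)] with x hx
    have n1 := nsq_nonneg F x
    have n2 := nsq_nonneg (Fx k) x
    have hd : 0 ≤ dens F x := by rw [e14b_dens]; (clear * - n1; positivity)
    rw [Real.norm_eq_abs, abs_of_nonneg (div_nonneg (sq_nonneg _) hd)]
    have h4 : ipy F (Fx k) x ^ 2 ≤ nsq F x * nsq (Fx k) x := by
      rw [← nrm_sq F, ← nrm_sq (Fx k), ← mul_pow, ← sq_abs (ipy F (Fx k) x)]
      exact pow_le_pow_left₀ (abs_nonneg _) hx 2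
    rcases hd.eq_or_lt with h0 | h0
    · rw [← h0, div_zero]; (clear * - n2; positivity)
    · rw [div_le_iff₀ h0, e14b_dens, e14b_densD]
      linarith

/-- The energy identity tested with `g(x) F(x,y)`. -/
theorem Sys.energy (hS : Sys A R ε δ M E4 E3 F Fx Fy Φ Φy) (hA : 0 ≤ A) (hR : 0 < R)
    (hε : 0 < ε) (hε1 : ε ≤ 1) {ρ : ℝ} (hρ : 2 * R + 1 ≤ ρ) : ∃ C0 : ℝ, 0 ≤ C0 ∧ ∀ C : ℝ, C0 ≤ C →
    ∀ (g : R3 → ℝ) (gg : Fin 3 → R3 → ℝ), H1o g gg → (∀ᵐ x : R3, 0 ≤ g x) →
    (∃ B : ℝ, ∀ᵐ x : R3, g x ≤ B) → (∀ x : R3, ‖x‖ ≤ ρ → g x = 0) →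
    (∀ᵐ x : R3, g x ≠ 0 → 0 < dens F x) →
    (∀ k, Integrable (fun x => gg k x ^ 2 * dens F x) volume) →
    -(1 / 2) * (∑ k, ∫ x, densD F Fx k x * gg k x) -
      (1 / 2) * (∑ k, ∫ x, g x * (densD F Fx k x ^ 2 / dens F x)) ≤
      ∫ x, g x * ((E3 - E4 - (1 + ε * (2 * A - 3)) / ‖x‖ + C / ‖x‖ ^ 2) * dens F x +
        C * TPf F Fx Fy Φ Φy x +
        C * ((∑ k, dys (Fx k) Φ x ^ 2) * nrm (Pf F Φ) x ^ 2 / dens F x)) := by
  obtain ⟨C0, hC0, hpt0⟩ := hS.energy_pt hA hR hε hε1 hρ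
  refine ⟨C0, hC0, fun C hCC g gg hg hg0 hgB hgρ hgd hgg => ?_⟩
  have hC : 0 ≤ C := hC0.trans hCC
  have hpt : ∀ᵐ x : R3, ρ < ‖x‖ → 0 < dens F x →
      2 * (∑ k, nsq (Fx k) x) - (1 / 2) * (∑ k, densD F Fx k x ^ 2 / dens F x) +
        4 * (cen ε A R F Fy x + (v1 ε A R x - E4) * nsq F x) ≤
      (E3 - E4 - (1 + ε * (2 * A - 3)) / ‖x‖ + C / ‖x‖ ^ 2) * dens F x +
        C * TPf F Fx Fy Φ Φy x +
        C * ((∑ k, dys (Fx k) Φ x ^ 2) * nrm (Pf F Φ) x ^ 2 / dens F x) := by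
    filter_upwards [hpt0] with x hx h1 h2
    refine (hx h1 h2).trans ?_
    have t1 : C0 / ‖x‖ ^ 2 ≤ C / ‖x‖ ^ 2 :=
      div_le_div_of_nonneg_right hCC (by (clear * -; positivity))
    have t2 : 0 ≤ TPf F Fx Fy Φ Φy x := by
      unfold TPf
      have h1 : ∀ u : X4 → ℝ, 0 ≤ nsq u x := fun u => nsq_nonneg u x
      exact add_nonneg (add_nonneg (Finset.sum_nonneg fun _ _ => h1 _)
        (Finset.sum_nonneg fun _ _ => Finset.sum_nonneg fun _ _ => h1 _)) (h1 _)
    have t3 : 0 ≤ (∑ k, dys (Fx k) Φ x ^ 2) * nrm (Pf F Φ) x ^ 2 / dens F x := by (clear * - h2; positivity)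
    have t4 : (E3 - E4 - (1 + ε * (2 * A - 3)) / ‖x‖ + C0 / ‖x‖ ^ 2) * dens F x ≤
        (E3 - E4 - (1 + ε * (2 * A - 3)) / ‖x‖ + C / ‖x‖ ^ 2) * dens F x :=
      mul_le_mul_of_nonneg_right (by linarith only [t1]) h2.le
    exact add_le_add (add_le_add t4 (mul_le_mul_of_nonneg_right hCC t2))
      (mul_le_mul_of_nonneg_right hCC t3)
  obtain ⟨B, hB⟩ := hgB
  have hb : ∀ᵐ x : R3, |g x| ≤ B := by
    filter_upwards [hg0, hB] with x h1 h2
    rwa [abs_of_nonneg h1]
  have gm : AEStronglyMeasurable g volume := hg.memLp.aestronglyMeasurable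
  have hnF := nsq_integrable hS.F_H1.memLp
  have hnFx := fun k => nsq_integrable (hS.F_H1.memLpx k)
  have hdi : Integrable (dens F) volume := hnF.1.const_mul 4
  have hgF : ∀ k, MemLp (fun x => gg k x * nrm F x) 2 volume := fun k => by
    have m : AEStronglyMeasurable (fun x => gg k x * nrm F x) volume :=
      (hg.memLp' k).aestronglyMeasurable.mul (nrm_memLp hS.F_H1.memLp).aestronglyMeasurable
    rw [memLp_two_iff_integrable_sq m]
    refine ((hgg k).const_mul (1 / 4)).congr (Eventually.of_forall fun x => ?_)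
    simp only [e14b_dens]
    rw [mul_pow, nrm_sq]
    ring
  obtain ⟨hi, hid⟩ := hS.F_identity hg.acl hb hgF
  -- integrability
  have i1 : ∀ k, Integrable (fun x => g x * nsq (Fx k) x) volume := fun k =>
    e14b_mul gm hb (hnFx k).1
  have i2 : Integrable (fun x => g x * (cen ε A R F Fy x + (v1 ε A R x - E4) * nsq F x)) volume := by
    refine e14b_mul gm hb ?_
    refine (hS.F_H1.cen_integrable ε A R).add ?_
    have := (hS.F_H1.v1_nsq_integrable ε A R).sub (hnF.1.const_mul E4)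
    refine this.congr (Eventually.of_forall fun x => ?_)
    simp only [Pi.sub_apply]
    ring
  have i3 : ∀ k, Integrable (fun x => g x * (densD F Fx k x ^ 2 / dens F x)) volume := fun k =>
    e14b_mul gm hb (e14b_cs hS k)
  -- left side as one integral
  have e1 : ∀ k, ∫ x, densD F Fx k x * gg k x = 4 * ∫ x, gg k x * ipy F (Fx k) x := fun k => by
    rw [← integral_const_mul]
    refine integral_congr_ae (Eventually.of_forall fun x => ?_)
    simp only [e14b_densD]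
    ring
  have e2 : -(1 / 2) * (∑ k, ∫ x, densD F Fx k x * gg k x) -
      (1 / 2) * (∑ k, ∫ x, g x * (densD F Fx k x ^ 2 / dens F x)) =
      ∫ x, g x * (2 * (∑ k, nsq (Fx k) x) - (1 / 2) * (∑ k, densD F Fx k x ^ 2 / dens F x) +
        4 * (cen ε A R F Fy x + (v1 ε A R x - E4) * nsq F x)) := by
    have e3 : ∀ x, g x * (2 * (∑ k, nsq (Fx k) x) -
        (1 / 2) * (∑ k, densD F Fx k x ^ 2 / dens F x) +
        4 * (cen ε A R F Fy x + (v1 ε A R x - E4) * nsq F x)) =
        (2 * (∑ k, g x * nsq (Fx k) x) -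
          (1 / 2) * ∑ k, g x * (densD F Fx k x ^ 2 / dens F x)) +
        4 * (g x * (cen ε A R F Fy x + (v1 ε A R x - E4) * nsq F x)) := fun x => by
      rw [← Finset.mul_sum, ← Finset.mul_sum]
      ring
    have j1 : Integrable (fun x => 2 * (∑ k, g x * nsq (Fx k) x)) volume :=
      (integrable_finsetSum _ fun k _ => i1 k).const_mul 2
    have j2 : Integrable (fun x => (1 / 2) * ∑ k, g x * (densD F Fx k x ^ 2 / dens F x)) volume :=
      (integrable_finsetSum _ fun k _ => i3 k).const_mul (1 / 2)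
    have j3 := i2.const_mul 4
    have j4 : Integrable (fun x => 2 * (∑ k, g x * nsq (Fx k) x) -
        (1 / 2) * ∑ k, g x * (densD F Fx k x ^ 2 / dens F x)) volume := j1.sub j2
    simp only [e3]
    rw [integral_add j4 j3, integral_sub j1 j2, integral_const_mul, integral_const_mul,
      integral_const_mul, integral_finsetSum _ fun k _ => i1 k,
      integral_finsetSum _ fun k _ => i3 k]
    simp only [e1]
    rw [← Finset.mul_sum]
    linarith
  rw [e2]
  -- integrability of the right side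
  have k1 : Integrable (fun x => (g x * (E3 - E4 - (1 + ε * (2 * A - 3)) / ‖x‖ + C / ‖x‖ ^ 2)) *
      dens F x) volume := by
    refine e14b_mul (B := B * (|E3 - E4| + |1 + ε * (2 * A - 3)| + C)) ?_ ?_ hdi
    · refine gm.mul (Measurable.aestronglyMeasurable ?_)
      fun_prop
    · filter_upwards [hg0, hB] with x h1 h2
      have hB0 : 0 ≤ B := h1.trans h2
      by_cases hx : ‖x‖ ≤ ρ
      · rw [hgρ x hx, zero_mul, abs_zero]; (clear * - hB0 hC; positivity)
      · have hx1 : 1 ≤ ‖x‖ := by linarith only [hR, hρ, hx]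
        have hx0 : 0 < ‖x‖ := by linarith only [hR, hρ, hx]
        rw [abs_mul, abs_of_nonneg h1]
        refine mul_le_mul h2 ?_ (abs_nonneg _) hB0
        have a1 : |(1 + ε * (2 * A - 3)) / ‖x‖| ≤ |1 + ε * (2 * A - 3)| := by
          rw [abs_div, abs_of_pos hx0]
          exact div_le_self (abs_nonneg _) hx1
        have a2 : |C / ‖x‖ ^ 2| ≤ C := by
          rw [abs_of_nonneg (by (clear * - hC hx1; positivity))]
          exact div_le_self hC (one_le_pow₀ hx1)
        calc |E3 - E4 - (1 + ε * (2 * A - 3)) / ‖x‖ + C / ‖x‖ ^ 2|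
            ≤ |E3 - E4 - (1 + ε * (2 * A - 3)) / ‖x‖| + |C / ‖x‖ ^ 2| := abs_add_le _ _
          _ ≤ (|E3 - E4| + |(1 + ε * (2 * A - 3)) / ‖x‖|) + |C / ‖x‖ ^ 2| :=
            add_le_add_left (abs_sub _ _) _
          _ ≤ _ := by linarith only [a1, a2]
  have k2 : Integrable (fun x => g x * (C * TPf F Fx Fy Φ Φy x)) volume :=
    e14b_mul gm hb ((TPf_integrable hS).const_mul C)
  have hdy := hS.dys_H1
  have k3 : Integrable (fun x => g x *
      (C * ((∑ k, dys (Fx k) Φ x ^ 2) * nrm (Pf F Φ) x ^ 2 / dens F x))) volume := by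
    refine e14b_mul gm hb (Integrable.const_mul ?_ C)
    have hPm : MemLp (Pf F Φ) 2 volume := Pf_memLp hS.F_H1.memLp hS.Φ_H1.memLp
    have hd2 : Integrable (fun x => ∑ k, dys (Fx k) Φ x ^ 2) volume :=
      integrable_finsetSum _ fun k _ => (hdy.memLp' k).integrable_sq
    refine (hd2.const_mul (1 / 4)).mono' ?_ ?_
    · have m1 := hd2.aestronglyMeasurable.aemeasurable
      have m2 := ((nrm_memLp hPm).aestronglyMeasurable.aemeasurable).pow_const 2
      exact ((m1.mul m2).div hdi.aestronglyMeasurable.aemeasurable).aestronglyMeasurable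
    · filter_upwards [ipy_split hS.F_H1.memLp hS.F_H1.memLp hS.Φ_H1.memLp hS.Φ_norm] with x hx
      have n1 := nsq_nonneg F x
      have n2 := nsq_nonneg (Pf F Φ) x
      have hd : 0 ≤ dens F x := by rw [e14b_dens]; (clear * - n1; positivity)
      have hs : 0 ≤ ∑ k, dys (Fx k) Φ x ^ 2 := Finset.sum_nonneg fun k _ => sq_nonneg _
      have q1 : ∀ u : X4 → ℝ, ipy u u x = nsq u x := fun u => by
        unfold ipy nsq
        simp only [sq]
      have h4 : nsq (Pf F Φ) x ≤ nsq F x := by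
        have := hx.1
        rw [q1, q1] at this
        nlinarith only [this]
      rw [Real.norm_eq_abs, abs_of_nonneg (div_nonneg (mul_nonneg hs (sq_nonneg _)) hd), nrm_sq]
      rcases hd.eq_or_lt with h0 | h0
      · rw [← h0, div_zero]; (clear * -; positivity)
      · rw [div_le_iff₀ h0, e14b_dens]
        nlinarith only [h4, hs]
  have k4 : Integrable (fun x => g x * ((E3 - E4 - (1 + ε * (2 * A - 3)) / ‖x‖ + C / ‖x‖ ^ 2) *
      dens F x + C * TPf F Fx Fy Φ Φy x +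
      C * ((∑ k, dys (Fx k) Φ x ^ 2) * nrm (Pf F Φ) x ^ 2 / dens F x))) volume := by
    refine ((k1.add k2).add k3).congr (Eventually.of_forall fun x => ?_)
    simp only [Pi.add_apply]
    ring
  have k5 : Integrable (fun x => g x * (2 * (∑ k, nsq (Fx k) x) -
      (1 / 2) * (∑ k, densD F Fx k x ^ 2 / dens F x) +
      4 * (cen ε A R F Fy x + (v1 ε A R x - E4) * nsq F x))) volume := by
    have j1 : Integrable (fun x => 2 * (∑ k, g x * nsq (Fx k) x)) volume :=
      (integrable_finsetSum _ fun k _ => i1 k).const_mul 2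
    have j2 : Integrable (fun x => (1 / 2) * ∑ k, g x * (densD F Fx k x ^ 2 / dens F x)) volume :=
      (integrable_finsetSum _ fun k _ => i3 k).const_mul (1 / 2)
    refine ((j1.sub j2).add (i2.const_mul 4)).congr (Eventually.of_forall fun x => ?_)
    simp only [Pi.add_apply, Pi.sub_apply]
    rw [← Finset.mul_sum, ← Finset.mul_sum]
    ring
  refine integral_mono_ae k5 k4 ?_
  filter_upwards [hg0, hgd, hpt] with x h1 h2 h3
  by_cases h0 : g x = 0
  · simp only [h0, zero_mul, le_refl]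
  · have hx : ρ < ‖x‖ := by
      by_contra hc
      exact h0 (hgρ x (not_lt.1 hc))
    exact mul_le_mul_of_nonneg_left (h3 hx (h2 h0)) h1

end

end Vale.Agent.P363.D
end
end

section

section

/-! KD3a: the Slater determinant is an electron state. -/

namespace Vale.Agent.P363.KD

open MeasureTheory Set Filter Topology
open scoped ENNReal ContDiff

noncomputable section

lemma qmp_eval {N : ℕ} (i : Fin N) :
    Measure.QuasiMeasurePreserving (fun x : Fin N → R3 => x i) volume volume :=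
  Measure.quasiMeasurePreserving_eval (fun _ : Fin N => (volume : Measure R3)) i

lemma memLp_prod_coord {N : ℕ} (g : Fin N → R3 → ℝ) (hg : ∀ j, MemLp (g j) 2 volume) :
    MemLp (fun x : Fin N → R3 => ∏ j, g j (x j)) 2 volume := by
  have hm : AEStronglyMeasurable (fun x : Fin N → R3 => ∏ j, g j (x j)) volume :=
    Finset.aestronglyMeasurable_fun_prod _ fun j _ =>
      (hg j).aestronglyMeasurable.comp_quasiMeasurePreserving (qmp_eval j)
  rw [memLp_two_iff_integrable_sq hm]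
  have h1 : ∀ j, Integrable (fun y => g j y ^ 2) (volume : Measure R3) := fun j =>
    (hg j).integrable_sq
  have h2 := Integrable.fintype_prod (μ := fun _ : Fin N => (volume : Measure R3)) h1
  refine h2.congr ?_
  filter_upwards with x
  rw [Finset.prod_pow]

lemma memLp_grad_coord {N : ℕ} (g : Fin N → R3 → ℝ) (hg : ∀ j, MemLp (g j) 2 volume) (i : Fin N)
    {g' : R3 → ℝ} (hg' : MemLp g' 2 volume) :
    MemLp (fun x : Fin N → R3 => g' (x i) * ∏ j ∈ Finset.univ.erase i, g j (x j)) 2 volume := by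
  have h1 := memLp_prod_coord (Function.update g i g') (by
    intro j
    by_cases h : j = i
    · subst h; simpa only [Function.update_self] using hg'
    · rw [Function.update_of_ne h]; exact hg j)
  refine h1.ae_eq ?_
  filter_upwards with x
  rw [← Finset.mul_prod_erase Finset.univ _ (Finset.mem_univ i), Function.update_self]
  congr 1
  apply Finset.prod_congr rfl
  intro j hj
  rw [Function.update_of_ne (Finset.ne_of_mem_erase hj)]

lemma acl_coord_same {N : ℕ} (i : Fin N) (k : Fin 3) {f f' : R3 → ℝ}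
    (h : ACL volume (dir3 k) f f') :
    ACL (volume : Measure (Fin N → R3)) (axisDir i k) (fun x => f (x i)) (fun x => f' (x i)) := by
  apply ACL.comp_qmp (qmp_eval i) _ h
  intro x t
  simp [axisDir, dir3]

lemma acl_coord_ne {N : ℕ} {i j : Fin N} (hij : j ≠ i) (k : Fin 3) {f : R3 → ℝ}
    (h : AEStronglyMeasurable f volume) :
    ACL (volume : Measure (Fin N → R3)) (axisDir i k) (fun x => f (x j)) (fun _ => 0) := by
  apply ACL.comp_qmp (qmp_eval j) _ (ACL.zero_dir h)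
  intro x t
  simp [axisDir, hij]

lemma acl_prod_ne {N : ℕ} (g : Fin N → R3 → ℝ) (hg : ∀ j, AEStronglyMeasurable (g j) volume)
    (i : Fin N) (k : Fin 3) (s : Finset (Fin N)) (hs : i ∉ s) :
    ACL (volume : Measure (Fin N → R3)) (axisDir i k) (fun x => ∏ j ∈ s, g j (x j))
      (fun _ => 0) := by
  classical
  induction s using Finset.induction_on with
  | empty => simpa using ACL.const (μ := (volume : Measure (Fin N → R3))) (e := axisDir i k) 1
  | insert a s ha ih =>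
    rw [Finset.mem_insert, not_or] at hs
    have h1 := (acl_coord_ne (Ne.symm hs.1) k (hg a)).mul (ih hs.2)
    refine h1.congr ?_ ?_
    · filter_upwards with x
      rw [Finset.prod_insert ha]
    · filter_upwards with x
      simp

lemma acl_prod {N : ℕ} (g : Fin N → R3 → ℝ) (hg : ∀ j, AEStronglyMeasurable (g j) volume)
    (i : Fin N) (k : Fin 3) {g' : R3 → ℝ} (h : ACL volume (dir3 k) (g i) g') :
    ACL (volume : Measure (Fin N → R3)) (axisDir i k) (fun x => ∏ j, g j (x j))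
      (fun x => g' (x i) * ∏ j ∈ Finset.univ.erase i, g j (x j)) := by
  have h1 := (acl_coord_same i k h).mul
    (acl_prod_ne g hg i k (Finset.univ.erase i) (Finset.notMem_erase _ _))
  refine h1.congr ?_ ?_
  · filter_upwards with x
    exact Finset.mul_prod_erase Finset.univ (fun j => g j (x j)) (Finset.mem_univ i)
  · filter_upwards with x
    simp only [mul_zero, add_zero]

lemma slaterAmp_memLp {N : ℕ} (χ : Fin N → Fin 2 → R3 → ℝ)
    (h : ∀ m σ, MemLp (χ m σ) 2 volume) (s : Fin N → Fin 2) :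
    MemLp (slaterAmp χ s) 2 volume := by
  unfold slaterAmp
  apply MemLp.const_mul
  apply memLp_finsetSum
  intro σ _
  apply MemLp.const_mul
  exact memLp_prod_coord (fun i => χ (σ i) (s i)) fun j => h _ _

lemma slaterGrad_memLp {N : ℕ} (χ : Fin N → Fin 2 → R3 → ℝ) (χ' : Fin N → Fin 2 → Fin 3 → R3 → ℝ)
    (h : ∀ m σ, MemLp (χ m σ) 2 volume) (h' : ∀ m σ k, MemLp (χ' m σ k) 2 volume)
    (s : Fin N → Fin 2) (i : Fin N) (k : Fin 3) :
    MemLp (slaterGrad χ χ' s i k) 2 volume := by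
  unfold slaterGrad
  apply MemLp.const_mul
  apply memLp_finsetSum
  intro σ _
  apply MemLp.const_mul
  exact memLp_grad_coord (fun i => χ (σ i) (s i)) (fun j => h _ _) i (h' _ _ _)

lemma slater_acl {N : ℕ} (χ : Fin N → Fin 2 → R3 → ℝ) (χ' : Fin N → Fin 2 → Fin 3 → R3 → ℝ)
    (h1 : ∀ m σ, H1o (χ m σ) (χ' m σ)) (s : Fin N → Fin 2) (i : Fin N) (k : Fin 3) :
    ACL (volume : Measure (Fin N → R3)) (axisDir i k) (slaterAmp χ s)
      (slaterGrad χ χ' s i k) := by
  unfold slaterAmp slaterGrad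
  apply ACL.const_mul
  apply ACL.sum
  intro σ _
  apply ACL.const_mul
  exact acl_prod (fun i => χ (σ i) (s i)) (fun j => (h1 _ _).memLp.aestronglyMeasurable) i k
    ((h1 _ _).acl k)

lemma slaterAmp_antisymm {N : ℕ} (χ : Fin N → Fin 2 → R3 → ℝ) (σ : Equiv.Perm (Fin N))
    (s : Fin N → Fin 2) (x : Fin N → R3) :
    slaterAmp χ (s ∘ σ) (x ∘ σ) = ((Equiv.Perm.sign σ : ℤ) : ℝ) * slaterAmp χ s x := by
  unfold slaterAmp
  rw [mul_left_comm]
  congr 1
  rw [Finset.mul_sum]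
  refine Fintype.sum_equiv (Equiv.mulRight σ⁻¹) _ _ fun τ => ?_
  have h1 : ∏ i, χ (τ i) ((s ∘ σ) i) ((x ∘ σ) i) =
      ∏ i, χ ((τ * σ⁻¹) i) (s i) (x i) := by
    refine Fintype.prod_equiv σ _ _ fun i => ?_
    simp only [Function.comp_apply, Equiv.Perm.coe_mul, Equiv.Perm.coe_inv, Equiv.symm_apply_apply]
  rw [h1, Equiv.coe_mulRight, Equiv.Perm.sign_mul, Equiv.Perm.sign_inv, ← mul_assoc]
  congr 1
  push_cast
  rw [mul_left_comm, ← Int.cast_mul, ← Units.val_mul, Int.units_mul_self]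
  simp only [Units.val_one, Int.cast_one, mul_one]

/-- KD3a. The Slater determinant is an electron state. -/
theorem exists_slaterState {N : ℕ} (χ : Fin N → Fin 2 → R3 → ℝ)
    (χ' : Fin N → Fin 2 → Fin 3 → R3 → ℝ) (h1 : ∀ m σ, H1o (χ m σ) (χ' m σ)) :
    ∃ Φ : ElectronState N, (∀ s x, Φ.amp s x = (slaterAmp χ s x : ℂ)) ∧
      ∀ s i k x, Φ.grad s i k x = (slaterGrad χ χ' s i k x : ℂ) := by
  have hA := slaterAmp_memLp χ fun m σ => (h1 m σ).memLp
  have hG := slaterGrad_memLp χ χ' (fun m σ => (h1 m σ).memLp) fun m σ => (h1 m σ).memLp'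
  refine ⟨⟨fun s x => (slaterAmp χ s x : ℂ), fun s i k x => (slaterGrad χ χ' s i k x : ℂ),
    fun s => (hA s).ofReal, fun s i k => (hG s i k).ofReal,
    fun s i k => IsWeakDeriv.of_acl (slater_acl χ χ' h1 s i k) (hA s) (hG s i k), ?_⟩,
    fun _ _ => rfl, fun _ _ _ _ => rfl⟩
  intro σ s
  filter_upwards with x
  rw [slaterAmp_antisymm]
  push_cast
  rfl

end

end Vale.Agent.P363.KD
end
end

section

section

/-! KD3: Slater determinants. -/

namespace Vale.Agent.P363.KD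

open MeasureTheory Set Filter Topology
open scoped ENNReal ContDiff

noncomputable section

theorem slaterAmp_fin0 (χ : Fin 0 → Fin 2 → R3 → ℝ) (s : Fin 0 → Fin 2) (x : Fin 0 → R3) :
    slaterAmp χ s x = 1 := by
  unfold slaterAmp
  simp only [Nat.factorial_zero, Nat.cast_one, Real.sqrt_one, inv_one, Finset.univ_unique, Equiv.Perm.default_eq, Finset.univ_eq_empty, Finset.prod_empty, mul_one, Finset.sum_singleton, Equiv.Perm.sign_one, Units.val_one, Int.cast_one]

theorem slater_norm_zero (χ : Fin 0 → Fin 2 → R3 → ℝ) :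
    ∑ s, ∫ x : Fin 0 → R3, slaterAmp χ s x ^ 2 = 1 := by
  have h : ∀ s : Fin 0 → Fin 2, ∫ x : Fin 0 → R3, slaterAmp χ s x ^ 2 = 1 := by
    intro s
    have : (volume : Measure (Fin 0 → R3)) = Measure.dirac default := by
      rw [volume_pi]
      exact Measure.pi_of_empty _ default
    rw [this, integral_dirac]
    rw [slaterAmp_fin0]
    norm_num
  rw [Finset.sum_congr rfl fun s _ => h s]
  simp

/-- KD3. Slater determinant of orthonormal real spin orbitals. -/
theorem exists_slater {N : ℕ} (χ : Fin N → Fin 2 → R3 → ℝ) (χ' : Fin N → Fin 2 → Fin 3 → R3 → ℝ)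
    (h1 : ∀ m σ, H1o (χ m σ) (χ' m σ))
    (ho : ∀ m m', ∑ σ, ∫ x, χ m σ x * χ m' σ x = if m = m' then 1 else 0) :
    ∃ Φ : ElectronState N, normSq Φ = 1 ∧ ∀ v, MemV v →
      energy (sumPotential v) Φ = ∑ m, ∑ σ, hform v (χ m σ) (χ' m σ) := by
  obtain ⟨Φ, hA, hG⟩ := exists_slaterState χ χ' h1
  have hA2 : ∀ s x, ‖Φ.amp s x‖ ^ 2 = slaterAmp χ s x ^ 2 := by
    intro s x
    rw [hA, Complex.norm_real, Real.norm_eq_abs, sq_abs]
  have hG2 : ∀ s i k x, ‖Φ.grad s i k x‖ ^ 2 = slaterGrad χ χ' s i k x ^ 2 := by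
    intro s i k x
    rw [hG, Complex.norm_real, Real.norm_eq_abs, sq_abs]
  refine ⟨Φ, ?_, ?_⟩
  · unfold normSq
    simp only [hA2]
    rcases Nat.eq_zero_or_pos N with hN | hN
    · subst hN
      exact slater_norm_zero χ
    · have hN' : (N : ℝ) ≠ 0 := by (clear * - hN; positivity)
      have h := (slater_integral χ (fun m σ => (h1 m σ).memLp) ho ⟨0, hN⟩ (fun _ => 1)
        (fun m σ => by simpa only [one_mul] using (h1 m σ).memLp.integrable_sq)).2
      simp only [one_mul] at h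
      rw [h]
      have h2 : ∀ m, ∑ σ, ∫ x, χ m σ x ^ 2 = 1 := by
        intro m
        have := ho m m
        simp only [if_true] at this
        rw [← this]
        exact Finset.sum_congr rfl fun σ _ => by simp only [pow_two]
      rw [Finset.sum_congr rfl fun m _ => h2 m]
      simp only [Finset.sum_const, Finset.card_univ, Fintype.card_fin, nsmul_eq_mul, mul_one, ne_eq, hN', not_false_eq_true, inv_mul_cancel₀]
  · intro v hv
    rcases Nat.eq_zero_or_pos N with hN | hN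
    · subst hN
      unfold energy sumPotential
      simp only [one_div, Finset.univ_unique, Finset.univ_eq_empty, Finset.sum_empty, Finset.sum_const_zero, mul_zero, zero_mul, integral_zero, add_zero, Fin.sum_univ_two, Fin.isValue]
    have hN' : (N : ℝ) ≠ 0 := by positivity
    have hint : ∀ m σ, Integrable (fun x => v x * χ m σ x ^ 2) := by
      intro m σ
      obtain ⟨C, -, hC⟩ := form_bound hv (δ := 1) one_pos
      exact (hC _ _ (h1 m σ)).1
    have hp : ∀ i : Fin N, (∀ s, Integrable (fun x : Fin N → R3 => v (x i) * slaterAmp χ s x ^ 2)) ∧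
        ∑ s, ∫ x : Fin N → R3, v (x i) * slaterAmp χ s x ^ 2 =
          (N : ℝ)⁻¹ * ∑ m, ∑ σ, ∫ x, v x * χ m σ x ^ 2 := fun i =>
      slater_integral χ (fun m σ => (h1 m σ).memLp) ho i v hint
    have hk : ∀ (i : Fin N) (k : Fin 3),
        ∑ s, ∫ x : Fin N → R3, slaterGrad χ χ' s i k x ^ 2 =
          (N : ℝ)⁻¹ * ∑ m, ∑ σ, ∫ x, χ' m σ k x ^ 2 := fun i k =>
      slater_kinetic χ χ' (fun m σ => (h1 m σ).memLp) (fun m σ k => (h1 m σ).memLp' k) ho i k
    have hkin : ∑ s, ∑ i, ∑ k, ∫ x : Fin N → R3, ‖Φ.grad s i k x‖ ^ 2 =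
        ∑ m, ∑ σ, ∑ k, ∫ x, χ' m σ k x ^ 2 := by
      simp only [hG2]
      rw [Finset.sum_comm]
      have e1 : ∀ i : Fin N, ∑ s, ∑ k, ∫ x : Fin N → R3, slaterGrad χ χ' s i k x ^ 2 =
          (N : ℝ)⁻¹ * ∑ m, ∑ σ, ∑ k, ∫ x, χ' m σ k x ^ 2 := by
        intro i
        rw [Finset.sum_comm]
        rw [Finset.sum_congr rfl fun k _ => hk i k, ← Finset.mul_sum]
        congr 1
        rw [Finset.sum_comm]
        refine Finset.sum_congr rfl fun m _ => ?_
        rw [Finset.sum_comm]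
      rw [Finset.sum_congr rfl fun i _ => e1 i]
      rw [Finset.sum_const, Finset.card_univ, Fintype.card_fin, nsmul_eq_mul, ← mul_assoc,
        mul_inv_cancel₀ hN', one_mul]
    have hpot : ∑ s, ∫ x : Fin N → R3, sumPotential v x * ‖Φ.amp s x‖ ^ 2 =
        ∑ m, ∑ σ, ∫ x, v x * χ m σ x ^ 2 := by
      simp only [hA2]
      have e1 : ∀ s, ∫ x : Fin N → R3, sumPotential v x * slaterAmp χ s x ^ 2 =
          ∑ i, ∫ x : Fin N → R3, v (x i) * slaterAmp χ s x ^ 2 := by
        intro s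
        rw [← integral_finsetSum _ fun i _ => (hp i).1 s]
        refine integral_congr_ae (Eventually.of_forall fun x => ?_)
        simp only [sumPotential, Finset.sum_mul]
      rw [Finset.sum_congr rfl fun s _ => e1 s, Finset.sum_comm,
        Finset.sum_congr rfl fun i _ => (hp i).2]
      rw [Finset.sum_const, Finset.card_univ, Fintype.card_fin, nsmul_eq_mul, ← mul_assoc,
        mul_inv_cancel₀ hN', one_mul]
    unfold energy
    rw [hkin, hpot, Finset.mul_sum, ← Finset.sum_add_distrib]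
    refine Finset.sum_congr rfl fun m _ => ?_
    rw [Finset.mul_sum, ← Finset.sum_add_distrib]
    rfl

theorem h1o_zero : H1o (fun _ => 0) (fun _ _ => 0) where
  memLp := MemLp.zero
  memLp' := fun _ => MemLp.zero
  acl := fun _ => ACL.zero

theorem hform_zero (v : R3 → ℝ) : hform v (fun _ => 0) (fun _ _ => 0) = 0 := by
  unfold hform
  simp

/-- KD3b. Closed shell of four electrons. -/
theorem exists_closed_shell {v : R3 → ℝ} (hv : MemV v) {u w : R3 → ℝ} {u' w' : Fin 3 → R3 → ℝ}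
    (hu : H1o u u') (hw : H1o w w') (nu : ∫ x, u x ^ 2 = 1) (nw : ∫ x, w x ^ 2 = 1)
    (huw : ∫ x, u x * w x = 0) :
    ∃ Φ : ElectronState 4, normSq Φ = 1 ∧
      energy (sumPotential v) Φ = 2 * (hform v u u' + hform v w w') := by
  let χ : Fin 4 → Fin 2 → R3 → ℝ :=
    ![![u, fun _ => 0], ![fun _ => 0, u], ![w, fun _ => 0], ![fun _ => 0, w]]
  let χ' : Fin 4 → Fin 2 → Fin 3 → R3 → ℝ :=
    ![![u', fun _ _ => 0], ![fun _ _ => 0, u'], ![w', fun _ _ => 0], ![fun _ _ => 0, w']]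
  have h1 : ∀ m σ, H1o (χ m σ) (χ' m σ) := by
    intro m σ
    fin_cases m <;> fin_cases σ <;> simp [χ, χ', hu, hw, h1o_zero]
  have nu' : ∫ x, u x * u x = 1 := by simpa only [pow_two] using nu
  have nw' : ∫ x, w x * w x = 1 := by simpa only [pow_two] using nw
  have hwu : ∫ x, w x * u x = 0 := by
    rw [← huw]
    exact integral_congr_ae (Eventually.of_forall fun x => mul_comm _ _)
  have ho : ∀ m m', ∑ σ, ∫ x, χ m σ x * χ m' σ x = if m = m' then 1 else 0 := by
    intro m m'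
    fin_cases m <;> fin_cases m' <;> simp [χ, Fin.sum_univ_two, nu', nw', huw, hwu]
  obtain ⟨Φ, hn, hE⟩ := exists_slater χ χ' h1 ho
  refine ⟨Φ, hn, ?_⟩
  rw [hE v hv]
  simp only [Fin.sum_univ_four, Fin.sum_univ_two]
  simp only [χ, χ', Matrix.cons_val_zero, Matrix.cons_val_one, Matrix.cons_val, hform_zero]
  ring

end

end Vale.Agent.P363.KD
end
end

section

section

/-! KD8: variational principle, finite families. -/

namespace Vale.Agent.P363.KD

open MeasureTheory Set Filter Topology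
open scoped ENNReal ContDiff

noncomputable section

lemma K8_fin {K : ℕ} (μ a h : Fin K → ℝ) {E₀ : ℝ} (h0 : ∀ i, 0 ≤ μ i) (h2 : ∀ i, μ i ≤ 2)
    (hs : ∑ i, μ i = 4) (hz : ∀ i, μ i = 0 → 0 ≤ h i) (hp : ∀ i, 0 < μ i → h i = μ i * a i)
    (hE : ∀ i j, i ≠ j → 0 < μ i → 0 < μ j → E₀ ≤ 2 * (a i + a j)) :
    E₀ ≤ ∑ i, h i := by
  classical
  set S : Finset (Fin K) := Finset.univ.filter (fun i => 0 < μ i) with hS
  have hSsum : ∑ i ∈ S, μ i = 4 := by
    rw [← hs, hS, Finset.sum_filter]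
    refine Finset.sum_congr rfl fun i _ => ?_
    split_ifs with h
    · rfl
    · exact (le_antisymm (not_lt.mp h) (h0 i)).symm
  have hSne : S.Nonempty := by
    rw [Finset.nonempty_iff_ne_empty]
    intro h
    rw [h] at hSsum
    norm_num at hSsum
  obtain ⟨i₁, hi₁, hmin₁⟩ := S.exists_min_image a hSne
  have hsplit : μ i₁ + ∑ i ∈ S.erase i₁, μ i = 4 := by
    rw [Finset.add_sum_erase S μ hi₁, hSsum]
  have hSne2 : (S.erase i₁).Nonempty := by
    rw [Finset.nonempty_iff_ne_empty]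
    intro h
    rw [h] at hsplit
    have := h2 i₁
    simp at hsplit
    linarith only [this, hsplit]
  obtain ⟨i₂, hi₂, hmin₂⟩ := (S.erase i₁).exists_min_image a hSne2
  have hi₂S : i₂ ∈ S := Finset.mem_of_mem_erase hi₂
  have hne : i₂ ≠ i₁ := Finset.ne_of_mem_erase hi₂
  have e1 : ∑ i ∈ S, h i ≤ ∑ i, h i := by
    apply Finset.sum_le_sum_of_subset_of_nonneg (Finset.subset_univ S)
    intro i _ hi
    apply hz
    rw [hS, Finset.mem_filter] at hi
    have : ¬ 0 < μ i := fun hh => hi ⟨Finset.mem_univ _, hh⟩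
    exact le_antisymm (not_lt.mp this) (h0 i)
  have e2 : ∑ i ∈ S, h i = ∑ i ∈ S, μ i * a i := by
    refine Finset.sum_congr rfl fun i hi => ?_
    rw [hS, Finset.mem_filter] at hi
    exact hp i hi.2
  have e3 : ∑ i ∈ S, μ i * a i = μ i₁ * a i₁ + ∑ i ∈ S.erase i₁, μ i * a i := by
    rw [Finset.add_sum_erase S (fun i => μ i * a i) hi₁]
  have e4 : ∑ i ∈ S.erase i₁, μ i * a i₂ ≤ ∑ i ∈ S.erase i₁, μ i * a i := by
    refine Finset.sum_le_sum fun i hi => ?_
    exact mul_le_mul_of_nonneg_left (hmin₂ i hi) (h0 i)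
  rw [← Finset.sum_mul] at e4
  have e5 : ∑ i ∈ S.erase i₁, μ i = 4 - μ i₁ := by linarith only [hsplit]
  rw [e5] at e4
  have e6 : a i₁ ≤ a i₂ := hmin₁ i₂ hi₂S
  rw [hS, Finset.mem_filter] at hi₁ hi₂S
  have e7 := hE i₁ i₂ hne.symm hi₁.2 hi₂S.2
  have e8 : 0 ≤ (2 - μ i₁) * (a i₂ - a i₁) :=
    mul_nonneg (by linarith only [h2 i₁]) (by linarith only [e6])
  linarith

lemma K8_pars {K : ℕ} (b : OrthonormalBasis (Fin K) ℝ (EuclideanSpace ℝ (Fin K)))
    (c : Fin K → ℝ) : ∑ a, (∑ i, b a i * c i) ^ 2 = ∑ i, c i ^ 2 := by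
  have h := b.sum_sq_norm_inner_right (WithLp.toLp 2 c)
  have h1 : ∀ a, ‖inner ℝ (b a) (WithLp.toLp 2 c : EuclideanSpace ℝ (Fin K))‖ ^ 2
      = (∑ i, b a i * c i) ^ 2 := by
    intro a
    rw [Real.norm_eq_abs, sq_abs, PiLp.inner_apply]
    congr 1
    refine Finset.sum_congr rfl fun i _ => ?_
    simp only [RCLike.inner_apply, Real.ringHom_apply, mul_comm]
  rw [← Finset.sum_congr rfl (fun a _ => h1 a), h, EuclideanSpace.norm_sq_eq]
  refine Finset.sum_congr rfl fun i _ => ?_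
  simp

lemma K8_H1o_const_mul {f : R3 → ℝ} {f' : Fin 3 → R3 → ℝ} (c : ℝ) (h : H1o f f') :
    H1o (fun x => c * f x) (fun k x => c * f' k x) :=
  ⟨h.memLp.const_mul c, fun k => (h.memLp' k).const_mul c, fun k => (h.acl k).const_mul c⟩

lemma K8_H1o_sum {K : ℕ} {f : Fin K → R3 → ℝ} {f' : Fin K → Fin 3 → R3 → ℝ}
    (h : ∀ i, H1o (f i) (f' i)) :
    H1o (fun x => ∑ i, f i x) (fun k x => ∑ i, f' i k x) :=
  ⟨memLp_finsetSum _ fun i _ => (h i).memLp, fun k => memLp_finsetSum _ fun i _ => (h i).memLp' k,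
    fun k => ACL.sum _ fun i _ => (h i).acl k⟩

lemma K8_hform_const_mul (v : R3 → ℝ) (c : ℝ) (f : R3 → ℝ) (f' : Fin 3 → R3 → ℝ) :
    hform v (fun x => c * f x) (fun k x => c * f' k x) = c ^ 2 * hform v f f' := by
  have h1 : ∀ k, ∫ x, (c * f' k x) ^ 2 = c ^ 2 * ∫ x, f' k x ^ 2 := by
    intro k
    rw [← integral_const_mul]
    congr 1
    funext x
    ring
  have h2 : ∫ x, v x * (c * f x) ^ 2 = c ^ 2 * ∫ x, v x * f x ^ 2 := by
    rw [← integral_const_mul]
    congr 1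
    funext x
    ring
  unfold hform
  simp only [h1, h2, ← Finset.mul_sum]
  ring

/-- KD8. Finite families. -/
theorem fin_lower {v : R3 → ℝ} (hv : MemV v) {E₀ : ℝ}
    (hE₀ : ∀ (u w : R3 → ℝ) (u' w' : Fin 3 → R3 → ℝ), H1o u u' → H1o w w' →
      ∫ x, u x ^ 2 = 1 → ∫ x, w x ^ 2 = 1 → ∫ x, u x * w x = 0 →
      E₀ ≤ 2 * (hform v u u' + hform v w w'))
    {K : ℕ} (f : Fin K → R3 → ℝ) (f' : Fin K → Fin 3 → R3 → ℝ) (h1 : ∀ i, H1o (f i) (f' i))
    (hp : ∀ u : R3 → ℝ, MemLp u 2 volume → ∑ i, (∫ x, f i x * u x) ^ 2 ≤ 2 * ∫ x, u x ^ 2)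
    (ht : ∑ i, ∫ x, f i x ^ 2 = 4) :
    E₀ ≤ ∑ i, hform v (f i) (f' i) := by
  classical
  obtain ⟨C, -, hC⟩ := form_bound hv one_pos
  set G : Matrix (Fin K) (Fin K) ℝ := fun i j => ∫ x, f i x * f j x with hG
  have hGh : G.IsHermitian := by
    ext i j
    change (∫ x, f j x * f i x) = ∫ x, f i x * f j x
    congr 1
    funext x
    ring
  set b := hGh.eigenvectorBasis with hb
  set μ := hGh.eigenvalues with hμ
  have hint : ∀ i j, Integrable (fun x => f i x * f j x) := fun i j =>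
    (h1 i).memLp.integrable_mul (h1 j).memLp
  let g : Fin K → R3 → ℝ := fun a x => ∑ i, b a i * f i x
  let g' : Fin K → Fin 3 → R3 → ℝ := fun a k x => ∑ i, b a i * f' i k x
  have hg1 : ∀ a, H1o (g a) (g' a) := fun a => K8_H1o_sum fun i => K8_H1o_const_mul (b a i) (h1 i)
  have hint2 : ∀ i c, Integrable (fun x => f i x * g c x) := fun i c =>
    (h1 i).memLp.integrable_mul (hg1 c).memLp
  have hfg : ∀ (i : Fin K) (a : Fin K), ∫ x, f i x * g a x = μ a * b a i := by
    intro i a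
    have e1 : ∫ x, f i x * g a x = ∑ j, G i j * b a j := by
      have : ∀ x, f i x * g a x = ∑ j, b a j * (f i x * f j x) := by
        intro x
        simp only [Finset.mul_sum, g]
        refine Finset.sum_congr rfl fun j _ => ?_
        ring
      simp only [this]
      rw [integral_finsetSum _ (fun j _ => (hint i j).const_mul _)]
      refine Finset.sum_congr rfl fun j _ => ?_
      rw [integral_const_mul, mul_comm]
    have e2 := congrFun (hGh.mulVec_eigenvectorBasis a) i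
    rw [e1]
    simpa only [Matrix.mulVec, dotProduct, Pi.smul_apply, smul_eq_mul] using e2
  have hgg : ∀ a c, ∫ x, g a x * g c x = if a = c then μ c else 0 := by
    intro a c
    have e1 : ∫ x, g a x * g c x = ∑ i, b a i * (μ c * b c i) := by
      have : ∀ x, g a x * g c x = ∑ i, b a i * (f i x * g c x) := by
        intro x
        simp only [g, Finset.sum_mul]
        refine Finset.sum_congr rfl fun j _ => ?_
        ring
      simp only [this]
      rw [integral_finsetSum _ (fun j _ => (hint2 j c).const_mul _)]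
      refine Finset.sum_congr rfl fun j _ => ?_
      rw [integral_const_mul, hfg]
    have e2 : ∑ i, b a i * (μ c * b c i) = μ c * inner ℝ (b a) (b c) := by
      rw [PiLp.inner_apply, Finset.mul_sum]
      refine Finset.sum_congr rfl fun i _ => ?_
      simp only [RCLike.inner_apply, conj_trivial]
      ring
    rw [e1, e2, orthonormal_iff_ite.mp b.orthonormal a c]
    split_ifs <;> simp
  have hgsq : ∀ a, ∫ x, g a x ^ 2 = μ a := by
    intro a
    have := hgg a a
    simp only [if_true] at this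
    rw [← this]
    congr 1
    funext x
    ring
  have hμ0 : ∀ a, 0 ≤ μ a := by
    intro a
    rw [← hgsq a]
    exact integral_nonneg fun x => sq_nonneg _
  have hμ2 : ∀ a, μ a ≤ 2 := by
    intro a
    have e1 := hp (g a) (hg1 a).memLp
    rw [hgsq] at e1
    have e2 : ∑ i, (∫ x, f i x * g a x) ^ 2 = μ a ^ 2 := by
      have e3 := K8_pars b (fun i => μ a * b a i)
      simp only [hfg]
      rw [← e3]
      have e4 : ∀ c, ∑ i, b c i * (μ a * b a i) = if c = a then μ a else 0 := by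
        intro c
        have e5 : ∑ i, b c i * (μ a * b a i) = μ a * inner ℝ (b c) (b a) := by
          rw [PiLp.inner_apply, Finset.mul_sum]
          refine Finset.sum_congr rfl fun i _ => ?_
          simp only [RCLike.inner_apply, conj_trivial]
          ring
        rw [e5, orthonormal_iff_ite.mp b.orthonormal c a]
        split_ifs <;> simp
      simp only [e4]
      simp only [ite_pow, ne_eq, OfNat.ofNat_ne_zero, not_false_eq_true, zero_pow, Finset.sum_ite_eq', Finset.mem_univ, ↓reduceIte]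
    rw [e2] at e1
    by_contra hlt
    push Not at hlt
    linarith only [mul_pos (sub_pos.2 hlt) (sub_pos.2 hlt), hlt, e1]
  have hsum0 : ∀ x, ∑ a, g a x ^ 2 = ∑ i, f i x ^ 2 := fun x => K8_pars b (fun i => f i x)
  have hsum1 : ∀ k x, ∑ a, g' a k x ^ 2 = ∑ i, f' i k x ^ 2 :=
    fun k x => K8_pars b (fun i => f' i k x)
  have hμs : ∑ a, μ a = 4 := by
    rw [← ht]
    simp only [← hgsq]
    rw [← integral_finsetSum _ (fun a _ => (hg1 a).memLp.integrable_sq),
      ← integral_finsetSum _ (fun a _ => (h1 a).memLp.integrable_sq)]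
    simp only [hsum0]
  have hform_eq : ∑ i, hform v (f i) (f' i) = ∑ a, hform v (g a) (g' a) := by
    unfold hform
    rw [Finset.sum_add_distrib, Finset.sum_add_distrib, ← Finset.mul_sum, ← Finset.mul_sum,
      Finset.sum_comm, Finset.sum_comm (f := fun a k => ∫ x, g' a k x ^ 2)]
    congr 1
    · congr 1
      refine Finset.sum_congr rfl fun k _ => ?_
      rw [← integral_finsetSum _ (fun a _ => ((h1 a).memLp' k).integrable_sq),
        ← integral_finsetSum _ (fun a _ => ((hg1 a).memLp' k).integrable_sq)]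
      simp only [hsum1]
    · rw [← integral_finsetSum _ (fun a _ => (hC _ _ (h1 a)).1),
        ← integral_finsetSum _ (fun a _ => (hC _ _ (hg1 a)).1)]
      simp only [← Finset.mul_sum, hsum0]
  rw [hform_eq]
  refine K8_fin μ (fun a => (μ a)⁻¹ * hform v (g a) (g' a)) _ hμ0 hμ2 hμs ?_ ?_ ?_
  · intro a ha
    have e1 : ∫ x, g a x ^ 2 = 0 := by rw [hgsq, ha]
    rw [integral_eq_zero_iff_of_nonneg (fun x => sq_nonneg _) (hg1 a).memLp.integrable_sq] at e1
    have e2 : ∫ x, v x * g a x ^ 2 = 0 := by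
      apply integral_eq_zero_of_ae
      filter_upwards [e1] with x hx
      simp only [Pi.zero_apply] at hx ⊢
      rw [hx, mul_zero]
    unfold hform
    rw [e2, add_zero]
    apply mul_nonneg (by norm_num)
    exact Finset.sum_nonneg fun k _ => integral_nonneg fun x => sq_nonneg _
  · intro a ha
    (clear * - ha; field_simp)
  · intro a c hac ha hc
    have n1 : ∀ a, 0 < μ a → ∫ x, ((√(μ a))⁻¹ * g a x) ^ 2 = 1 := by
      intro a ha
      have : ∀ x, ((√(μ a))⁻¹ * g a x) ^ 2 = (μ a)⁻¹ * g a x ^ 2 := by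
        intro x
        rw [mul_pow, inv_pow, Real.sq_sqrt ha.le]
      simp only [this]
      rw [integral_const_mul, hgsq]
      (clear * - ha; field_simp)
    have n2 : ∫ x, ((√(μ a))⁻¹ * g a x) * ((√(μ c))⁻¹ * g c x) = 0 := by
      have : ∀ x, ((√(μ a))⁻¹ * g a x) * ((√(μ c))⁻¹ * g c x)
          = ((√(μ a))⁻¹ * (√(μ c))⁻¹) * (g a x * g c x) := by
        intro x
        ring
      simp only [this]
      rw [integral_const_mul, hgg, if_neg hac, mul_zero]
    have e1 := hE₀ _ _ _ _ (K8_H1o_const_mul ((√(μ a))⁻¹) (hg1 a))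
      (K8_H1o_const_mul ((√(μ c))⁻¹) (hg1 c)) (n1 a ha) (n1 c hc) n2
    rw [K8_hform_const_mul, K8_hform_const_mul, inv_pow, inv_pow, Real.sq_sqrt ha.le,
      Real.sq_sqrt hc.le] at e1
    exact e1

end

end Vale.Agent.P363.KD
end
end

section

section

/-! KD9: variational principle, all families. -/

namespace Vale.Agent.P363.KD

open MeasureTheory Set Filter Topology
open scoped ENNReal ContDiff

noncomputable section

namespace K9

/-- Cauchy-Schwarz. -/
lemma sq_integral_mul_le {f u : R3 → ℝ} (hf : MemLp f 2 volume) (hu : MemLp u 2 volume) :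
    (∫ x, f x * u x) ^ 2 ≤ (∫ x, f x ^ 2) * ∫ x, u x ^ 2 := by
  have hff := hf.integrable_sq
  have huu := hu.integrable_sq
  have hfu : Integrable (fun x => f x * u x) := hf.integrable_mul hu
  have key : ∀ t : ℝ, 0 ≤ (∫ x, u x ^ 2) * (t * t) + (-(2 * ∫ x, f x * u x)) * t
      + ∫ x, f x ^ 2 := by
    intro t
    have h1 : 0 ≤ ∫ x, (f x - t * u x) ^ 2 := integral_nonneg (fun x => sq_nonneg _)
    have h2 : ∫ x, (f x - t * u x) ^ 2 =
        ∫ x, (f x ^ 2 + (-(2 * t)) * (f x * u x) + t ^ 2 * u x ^ 2) := by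
      congr 1
      funext x
      ring
    have i1 : Integrable (fun x => (-(2 * t)) * (f x * u x)) := hfu.const_mul _
    have i2 : Integrable (fun x => t ^ 2 * u x ^ 2) := huu.const_mul _
    have i3 : Integrable (fun x => f x ^ 2 + (-(2 * t)) * (f x * u x)) := hff.add i1
    rw [h2, integral_add i3 i2, integral_add hff i1, integral_const_mul,
      integral_const_mul] at h1
    linarith
  have h3 := discrim_le_zero key
  unfold discrim at h3
  linarith

/-- Scaling. -/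
lemma H1o_const_mul {f : R3 → ℝ} {f' : Fin 3 → R3 → ℝ} (c : ℝ) (h : H1o f f') :
    H1o (fun x => c * f x) (fun k x => c * f' k x) :=
  ⟨h.memLp.const_mul c, fun k => (h.memLp' k).const_mul c, fun k => (h.acl k).const_mul c⟩

lemma hform_const_mul9 (v : R3 → ℝ) (c : ℝ) (f : R3 → ℝ) (f' : Fin 3 → R3 → ℝ) :
    hform v (fun x => c * f x) (fun k x => c * f' k x) = c ^ 2 * hform v f f' := by
  unfold hform
  have h1 : ∀ k, ∫ x, (c * f' k x) ^ 2 = c ^ 2 * ∫ x, f' k x ^ 2 := by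
    intro k
    rw [← integral_const_mul]
    congr 1
    funext x
    ring
  have h2 : ∫ x, v x * (c * f x) ^ 2 = c ^ 2 * ∫ x, v x * f x ^ 2 := by
    rw [← integral_const_mul]
    congr 1
    funext x
    ring
  simp only [h1]
  rw [h2, ← Finset.mul_sum]
  ring

/-- Smooth compactly supported functions. -/
lemma H1o_of_contDiff {f : R3 → ℝ} (hf : ContDiff ℝ 1 f) (hc : HasCompactSupport f) :
    H1o f (fun k x => fderiv ℝ f x (dir3 k)) := by
  refine ⟨hf.continuous.memLp_of_hasCompactSupport hc, fun k => ?_, fun k => ACL.of_contDiff hf⟩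
  have h1 : Continuous (fun x => fderiv ℝ f x (dir3 k)) :=
    (hf.continuous_fderiv (by norm_num)).clm_apply continuous_const
  apply h1.memLp_of_hasCompactSupport
  have h2 := hc.fderiv (𝕜 := ℝ)
  exact h2.comp_left (g := fun L : R3 →L[ℝ] ℝ => L (dir3 k)) (by simp)

/-- Three orthonormal functions of class `H¹`. -/
lemma exists_triple : ∃ (e : Fin 3 → R3 → ℝ) (e' : Fin 3 → Fin 3 → R3 → ℝ),
    (∀ m, H1o (e m) (e' m)) ∧
    ∀ m m', ∫ x, e m x * e m' x = if m = m' then 1 else 0 := by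
  let p : Fin 3 → R3 := fun m => (3 * (m : ℕ) : ℝ) • dir3 0
  let b : ∀ m, ContDiffBump (p m) := fun m => ⟨1 / 2, 1, by (clear * -; norm_num), by norm_num⟩
  have hb : ∀ m, ContDiff ℝ 1 (b m) := fun m => (b m).contDiff
  have hcs : ∀ m, HasCompactSupport (b m) := fun m => (b m).hasCompactSupport
  have hint : ∀ m, Integrable (fun x => (b m x) ^ 2) := fun m =>
    ((hb m).continuous.memLp_of_hasCompactSupport (hcs m)).integrable_sq
  have hpos : ∀ m, 0 < ∫ x, (b m x) ^ 2 := by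
    intro m
    rw [integral_pos_iff_support_of_nonneg (fun x => sq_nonneg _) (hint m)]
    have : Metric.ball (p m) 1 ⊆ Function.support (fun x => (b m x) ^ 2) := by
      intro x hx
      have h1 : x ∈ Function.support (b m) := by
        rw [(b m).support_eq]; exact hx
      simpa using h1
    exact lt_of_lt_of_le (Metric.measure_ball_pos volume _ one_pos) (measure_mono this)
  have hdis : ∀ m m', m ≠ m' → ∀ x, b m x * b m' x = 0 := by
    intro m m' hne x
    by_contra h0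
    have h1 : b m x ≠ 0 := fun h => h0 (by rw [h, zero_mul])
    have h2 : b m' x ≠ 0 := fun h => h0 (by rw [h, mul_zero])
    have h3 : x ∈ Metric.ball (p m) 1 := by
      have : x ∈ Function.support (b m) := h1
      rwa [(b m).support_eq] at this
    have h4 : x ∈ Metric.ball (p m') 1 := by
      have : x ∈ Function.support (b m') := h2
      rwa [(b m').support_eq] at this
    rw [Metric.mem_ball] at h3 h4
    have h5 : dist (p m) (p m') < 2 := by
      calc dist (p m) (p m') ≤ dist (p m) x + dist x (p m') := dist_triangle _ _ _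
        _ < 2 := by rw [dist_comm (p m) x]; linarith only [h3, h4]
    have h6 : dist (p m) (p m') = 3 * |((m : ℕ) : ℝ) - ((m' : ℕ) : ℝ)| := by
      rw [dist_eq_norm]
      simp only [p]
      rw [← sub_smul, norm_smul]
      have : ‖dir3 0‖ = 1 := by simp [dir3]
      rw [this, mul_one, ← mul_sub, norm_mul]
      simp only [Real.norm_ofNat, Real.norm_eq_abs]
    have h7 : (1 : ℝ) ≤ |((m : ℕ) : ℝ) - ((m' : ℕ) : ℝ)| := by
      have : ((m : ℕ) : ℤ) - ((m' : ℕ) : ℤ) ≠ 0 := by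
        intro h
        apply hne
        ext
        omega
      have h8 := Int.one_le_abs this
      have h9 : ((1 : ℤ) : ℝ) ≤ ((|((m : ℕ) : ℤ) - ((m' : ℕ) : ℤ)| : ℤ) : ℝ) := by
        exact_mod_cast h8
      simpa only [ge_iff_le, Int.cast_one, Int.cast_abs, Int.cast_sub, Int.cast_natCast] using h9
    rw [h6] at h5
    linarith only [h5, h7]
  refine ⟨fun m x => (√(∫ x, (b m x) ^ 2))⁻¹ * b m x,
    fun m k x => (√(∫ x, (b m x) ^ 2))⁻¹ * fderiv ℝ (b m) x (dir3 k),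
    fun m => H1o_const_mul _ (H1o_of_contDiff (hb m) (hcs m)), fun m m' => ?_⟩
  split_ifs with h
  · subst h
    have h1 : (fun x => (√(∫ x, (b m x) ^ 2))⁻¹ * b m x * ((√(∫ x, (b m x) ^ 2))⁻¹ * b m x)) =
        fun x => ((√(∫ x, (b m x) ^ 2))⁻¹) ^ 2 * (b m x) ^ 2 := by
      funext x; ring
    rw [h1, integral_const_mul, inv_pow, Real.sq_sqrt (hpos m).le]
    exact inv_mul_cancel₀ (hpos m).ne'
  · have h1 : (fun x => (√(∫ x, (b m x) ^ 2))⁻¹ * b m x *
        ((√(∫ x, (b m' x) ^ 2))⁻¹ * b m' x)) = fun _ => 0 := by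
      funext x
      have := hdis m m' h x
      calc _ = (√(∫ x, (b m x) ^ 2))⁻¹ * (√(∫ x, (b m' x) ^ 2))⁻¹ * (b m x * b m' x) := by ring
        _ = 0 := by rw [this, mul_zero]
    rw [h1, integral_zero]

/-- Bessel inequality. -/
lemma bessel {e : Fin 3 → R3 → ℝ} (he : ∀ m, MemLp (e m) 2 volume)
    (ho : ∀ m m', ∫ x, e m x * e m' x = if m = m' then 1 else 0)
    {u : R3 → ℝ} (hu : MemLp u 2 volume) : ∑ m, (∫ x, e m x * u x) ^ 2 ≤ ∫ x, u x ^ 2 := by
  set c : Fin 3 → ℝ := fun m => ∫ x, e m x * u x with hc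
  have hee : ∀ m m', Integrable (fun x => e m x * e m' x) := fun m m' => (he m).integrable_mul (he m')
  have heu : ∀ m, Integrable (fun x => e m x * u x) := fun m => (he m).integrable_mul hu
  have huu := hu.integrable_sq
  have h1 : 0 ≤ ∫ x, (u x - ∑ m, c m * e m x) ^ 2 := integral_nonneg (fun x => sq_nonneg _)
  have h2 : ∫ x, (u x - ∑ m, c m * e m x) ^ 2 =
      ∫ x, (u x ^ 2 - ((∑ m, (2 * c m) * (e m x * u x)) -
        ∑ m, ∑ m', (c m * c m') * (e m x * e m' x))) := by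
    congr 1
    funext x
    have : (∑ m, ∑ m', (c m * c m') * (e m x * e m' x)) =
        (∑ m, c m * e m x) * (∑ m, c m * e m x) := by
      rw [Finset.sum_mul_sum]
      apply Finset.sum_congr rfl
      intro m _
      apply Finset.sum_congr rfl
      intro m' _
      ring
    rw [this]
    have h3 : (∑ m, (2 * c m) * (e m x * u x)) = 2 * (∑ m, c m * e m x) * u x := by
      rw [Finset.mul_sum, Finset.sum_mul]
      apply Finset.sum_congr rfl
      intro m _
      ring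
    rw [h3]
    ring
  have i1 : Integrable (fun x => ∑ m, (2 * c m) * (e m x * u x)) :=
    integrable_finsetSum _ (fun m _ => (heu m).const_mul _)
  have i2 : Integrable (fun x => ∑ m, ∑ m', (c m * c m') * (e m x * e m' x)) :=
    integrable_finsetSum _ (fun m _ => integrable_finsetSum _ (fun m' _ => (hee m m').const_mul _))
  have i3 : Integrable (fun x => (∑ m, (2 * c m) * (e m x * u x)) -
        ∑ m, ∑ m', (c m * c m') * (e m x * e m' x)) := i1.sub i2
  rw [h2, integral_sub huu i3, integral_sub i1 i2,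
    integral_finsetSum _ (fun m _ => (heu m).const_mul _),
    integral_finsetSum _
      (fun m _ => integrable_finsetSum _ (fun m' _ => (hee m m').const_mul _))] at h1
  have h4 : ∀ m, ∫ x, ∑ m', (c m * c m') * (e m x * e m' x) = c m ^ 2 := by
    intro m
    rw [integral_finsetSum _ (fun m' _ => (hee m m').const_mul _)]
    simp only [integral_const_mul, ho, mul_ite, mul_one, mul_zero, Finset.sum_ite_eq, Finset.mem_univ, if_true]
    ring
  simp only [integral_const_mul, h4] at h1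
  have h5 : ∑ m, 2 * c m * ∫ x, e m x * u x = 2 * ∑ m, c m ^ 2 := by
    rw [Finset.mul_sum]
    apply Finset.sum_congr rfl
    intro m _
    rw [show (∫ x, e m x * u x) = c m from rfl]
    ring
  rw [h5] at h1
  linarith only [h1]

/-- `fin_lower` for a finite index type. -/
lemma fin_lower' {v : R3 → ℝ} (hv : MemV v) {E₀ : ℝ}
    (hE₀ : ∀ (u w : R3 → ℝ) (u' w' : Fin 3 → R3 → ℝ), H1o u u' → H1o w w' →
      ∫ x, u x ^ 2 = 1 → ∫ x, w x ^ 2 = 1 → ∫ x, u x * w x = 0 →
      E₀ ≤ 2 * (hform v u u' + hform v w w'))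
    {κ : Type} [Fintype κ] (f : κ → R3 → ℝ) (f' : κ → Fin 3 → R3 → ℝ) (h1 : ∀ i, H1o (f i) (f' i))
    (hp : ∀ u : R3 → ℝ, MemLp u 2 volume → ∑ i, (∫ x, f i x * u x) ^ 2 ≤ 2 * ∫ x, u x ^ 2)
    (ht : ∑ i, ∫ x, f i x ^ 2 = 4) :
    E₀ ≤ ∑ i, hform v (f i) (f' i) := by
  let q := (Fintype.equivFin κ).symm
  have h := fin_lower hv hE₀ (fun i => f (q i)) (fun i => f' (q i)) (fun i => h1 _)
    (fun u hu => by
      rw [Equiv.sum_comp q (fun i => (∫ x, f i x * u x) ^ 2)]
      exact hp u hu)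
    (by rw [Equiv.sum_comp q (fun i => ∫ x, f i x ^ 2)]; exact ht)
  rwa [Equiv.sum_comp q (fun i => hform v (f i) (f' i))] at h

end K9

open K9 in
/-- KD9. All families. -/
theorem fam_lower {v : R3 → ℝ} (hv : MemV v) {E₀ : ℝ}
    (hE₀ : ∀ (u w : R3 → ℝ) (u' w' : Fin 3 → R3 → ℝ), H1o u u' → H1o w w' →
      ∫ x, u x ^ 2 = 1 → ∫ x, w x ^ 2 = 1 → ∫ x, u x * w x = 0 →
      E₀ ≤ 2 * (hform v u u' + hform v w w'))
    {ι : Type} [Countable ι] {f : ι → R3 → ℝ} {f' : ι → Fin 3 → R3 → ℝ} (hF : IsFam f f')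
    (ht : tr f = 4) : E₀ ≤ hE v f f' := by
  obtain ⟨e, e', he, ho⟩ := exists_triple
  have hs0 := hF.sum0
  have hsum : HasSum (fun i => ∫ x, f i x ^ 2) 4 := by
    rw [← ht]; exact hs0.hasSum
  have hnn : ∀ i, 0 ≤ ∫ x, f i x ^ 2 := fun i => integral_nonneg (fun x => sq_nonneg _)
  set η : Finset ι → ℝ := fun S => 4 - ∑ i ∈ S, ∫ x, f i x ^ 2 with hη
  have hη0 : ∀ S, 0 ≤ η S := by
    intro S
    have := sum_le_hasSum S (fun i _ => hnn i) hsum
    simp only [hη]; linarith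
  set s : Finset ι → ℝ := fun S => η S / (2 + η S) with hs
  have hs_nonneg : ∀ S, 0 ≤ s S := fun S => div_nonneg (hη0 S) (by linarith only [hη0 S])
  have hs_le : ∀ S, s S ≤ 1 := fun S => by
    simp only [hs]
    rw [div_le_one (by linarith only [hη0 S])]; linarith only []
  have hbound : ∀ S : Finset ι, E₀ ≤ (1 - s S) * (∑ i ∈ S, hform v (f i) (f' i)) +
      2 * s S * ∑ m, hform v (e m) (e' m) := by
    intro S
    have a1 : √(1 - s S) ^ 2 = 1 - s S := Real.sq_sqrt (by linarith only [hs_le S])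
    have a2 : √(2 * s S) ^ 2 = 2 * s S := Real.sq_sqrt (by linarith only [hs_nonneg S])
    let g : (S ⊕ Fin 3) → R3 → ℝ := Sum.elim (fun i x => √(1 - s S) * f i x)
      (fun m x => √(2 * s S) * e m x)
    let g' : (S ⊕ Fin 3) → Fin 3 → R3 → ℝ := Sum.elim (fun i k x => √(1 - s S) * f' i k x)
      (fun m k x => √(2 * s S) * e' m k x)
    have h := fin_lower' hv hE₀ g g' (by
        rintro (i | m)
        · exact H1o_const_mul _ (hF.h1 i)
        · exact H1o_const_mul _ (he m))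
      (by
        intro u hu
        rw [Fintype.sum_sum_type]
        have b1 : ∀ i : S, (∫ x, g (Sum.inl i) x * u x) ^ 2 =
            (1 - s S) * (∫ x, f i x * u x) ^ 2 := by
          intro i
          have : (fun x => g (Sum.inl i) x * u x) = fun x => √(1 - s S) * (f i x * u x) := by
            funext x; simp only [g, Sum.elim_inl]; ring
          rw [this, integral_const_mul, mul_pow, a1]
        have b2 : ∀ m : Fin 3, (∫ x, g (Sum.inr m) x * u x) ^ 2 =
            (2 * s S) * (∫ x, e m x * u x) ^ 2 := by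
          intro m
          have : (fun x => g (Sum.inr m) x * u x) = fun x => √(2 * s S) * (e m x * u x) := by
            funext x; simp only [g, Sum.elim_inr]; ring
          rw [this, integral_const_mul, mul_pow, a2]
        simp only [b1, b2]
        rw [← Finset.mul_sum, ← Finset.mul_sum]
        have b3 : ∑ i : S, (∫ x, f i x * u x) ^ 2 ≤ 2 * ∫ x, u x ^ 2 := by
          have hsm : Summable (fun i => (∫ x, f i x * u x) ^ 2) := by
            apply Summable.of_nonneg_of_le (fun i => sq_nonneg _)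
              (fun i => sq_integral_mul_le (hF.h1 i).memLp hu)
            exact hs0.mul_right _
          calc ∑ i : S, (∫ x, f i x * u x) ^ 2 = ∑ i ∈ S, (∫ x, f i x * u x) ^ 2 :=
                Finset.sum_coe_sort S (fun i => (∫ x, f i x * u x) ^ 2)
            _ ≤ ∑' i, (∫ x, f i x * u x) ^ 2 := hsm.sum_le_tsum S (fun i _ => sq_nonneg _)
            _ ≤ _ := hF.pauli u hu
        have b4 := bessel (fun m => (he m).memLp) ho hu
        have b5 := mul_le_mul_of_nonneg_left b3 (sub_nonneg.mpr (hs_le S))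
        have b6 := mul_le_mul_of_nonneg_left b4 (mul_nonneg (zero_le_two) (hs_nonneg S))
        linarith only [b5, b6])
      (by
        rw [Fintype.sum_sum_type]
        have b1 : ∀ i : S, (∫ x, g (Sum.inl i) x ^ 2) = (1 - s S) * ∫ x, f i x ^ 2 := by
          intro i
          have : (fun x => g (Sum.inl i) x ^ 2) = fun x => √(1 - s S) ^ 2 * (f i x ^ 2) := by
            funext x; simp only [g, Sum.elim_inl]; ring
          rw [this, integral_const_mul, a1]
        have b2 : ∀ m : Fin 3, (∫ x, g (Sum.inr m) x ^ 2) = 2 * s S := by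
          intro m
          have : (fun x => g (Sum.inr m) x ^ 2) = fun x => √(2 * s S) ^ 2 * (e m x * e m x) := by
            funext x; simp only [g, Sum.elim_inr]; ring
          rw [this, integral_const_mul, a2, ho, if_pos rfl, mul_one]
        simp only [b1, b2]
        rw [← Finset.mul_sum, Finset.sum_coe_sort S (fun i => ∫ x, f i x ^ 2)]
        have b3 : ∑ i ∈ S, ∫ x, f i x ^ 2 = 4 - η S := by simp only [hη]; ring
        have b4 : s S * (2 + η S) = η S := by
          simp only [hs]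
          exact div_mul_cancel₀ _ (by linarith only [hη0 S] : (0:ℝ) < 2 + η S).ne'
        rw [b3]
        simp only [Finset.sum_const, Finset.card_univ, Fintype.card_fin, nsmul_eq_mul]
        push_cast
        nlinarith only [b4])
    rw [Fintype.sum_sum_type] at h
    have c1 : ∀ i : S, hform v (g (Sum.inl i)) (g' (Sum.inl i)) =
        (1 - s S) * hform v (f i) (f' i) := by
      intro i
      have := hform_const_mul9 v (√(1 - s S)) (f i) (f' i)
      rw [a1] at this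
      exact this
    have c2 : ∀ m : Fin 3, hform v (g (Sum.inr m)) (g' (Sum.inr m)) =
        (2 * s S) * hform v (e m) (e' m) := by
      intro m
      have := hform_const_mul9 v (√(2 * s S)) (e m) (e' m)
      rw [a2] at this
      exact this
    simp only [c1, c2] at h
    rw [← Finset.mul_sum, ← Finset.mul_sum,
      Finset.sum_coe_sort S (fun i => hform v (f i) (f' i))] at h
    exact h
  have hηt : Tendsto η atTop (𝓝 0) := by
    have : Tendsto η atTop (𝓝 (4 - 4)) := tendsto_const_nhds.sub hsum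
    simpa using this
  have hst : Tendsto s atTop (𝓝 0) := by
    have : Tendsto s atTop (𝓝 (0 / (2 + 0))) :=
      hηt.div (tendsto_const_nhds.add hηt) (by norm_num)
    simpa only [add_zero, zero_div] using this
  have hht : Tendsto (fun S : Finset ι => ∑ i ∈ S, hform v (f i) (f' i)) atTop
      (𝓝 (hE v f f')) := (summable_hform hv hF).hasSum
  have hlim : Tendsto (fun S : Finset ι => (1 - s S) * (∑ i ∈ S, hform v (f i) (f' i)) +
      2 * s S * ∑ m, hform v (e m) (e' m)) atTop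
      (𝓝 ((1 - 0) * hE v f f' + 2 * 0 * ∑ m, hform v (e m) (e' m))) :=
    ((tendsto_const_nhds.sub hst).mul hht).add
      ((tendsto_const_nhds.mul hst).mul tendsto_const_nhds)
  have := ge_of_tendsto' hlim hbound
  linarith only [this]

end

end Vale.Agent.P363.KD
end
end

section

section

/-! KD13: absolute value in the half space. -/

namespace Vale.Agent.P363.KD

open MeasureTheory Set Filter Topology
open scoped ENNReal ContDiff

noncomputable section

/-- On a line: the derivative vanishes almost everywhere on the zero set. -/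
lemma prim_zero_set {c : ℝ} {f h : ℝ → ℝ} (hf : LocallyIntegrable f) (hh : LocallyIntegrable h)
    (habs : ∀ t, |prim c f t| = prim |c| h t) (h0 : ∀ᵐ t, prim c f t = 0 → h t = 0) :
    ∀ᵐ t, prim c f t = 0 → f t = 0 := by
  filter_upwards [prim_hasDerivAt (c := c) hf, prim_hasDerivAt (c := |c|) hh, h0] with t h1 h2 h3 h4
  have h5 : h t = 0 := h3 h4
  rw [h5] at h2
  have h6 : HasDerivAt (prim c f) 0 t := by
    rw [hasDerivAt_iff_isLittleO] at h2 ⊢
    have h7 : prim |c| h = fun s => |prim c f s| := by funext s; rw [habs]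
    rw [h7] at h2
    simp only [h4, abs_zero, sub_zero, smul_zero] at h2 ⊢
    exact Asymptotics.isLittleO_abs_left.mp h2
  exact h1.unique h6

variable {X : Type*} [NormedAddCommGroup X] [NormedSpace ℝ X] [FiniteDimensional ℝ X]
  [MeasurableSpace X] [BorelSpace X] {μ : Measure X} [μ.IsAddHaarMeasure]

/-- Absolute value of an `ACL` function. -/
lemma ACL_abs {e : X} {f f' : X → ℝ} (hL : LocallyIntegrable f' μ) (hd : ACL μ e f f') :
    ACL μ e (fun p => |f p|) (fun p => (f p * f' p) / |f p|) := by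
  have h1 := ACL.euclid (μ := μ) (ι := Unit) (f := fun _ => f) (f' := fun _ => f')
    (fun _ => hL) (fun _ => hd)
  simpa only [Finset.univ_unique, PUnit.default_eq_unit, Finset.sum_const, Finset.card_singleton, one_smul,     Real.sqrt_sq_eq_abs] using h1

lemma all_eq_of_ae {f g : ℝ → ℝ} (hf : Continuous f) (hg : Continuous g) (h : ∀ᵐ t, f t = g t) :
    ∀ t, f t = g t := by
  have : f = g := by
    rw [← hf.ae_eq_iff_eq (μ := (volume : Measure ℝ)) hg]; exact h
  exact fun t => congrFun this t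

/-- The derivative vanishes almost everywhere on the zero set. -/
lemma ACL_zero_set {e : X} {f f' : X → ℝ} (hL : LocallyIntegrable f' μ) (hd : ACL μ e f f') :
    ∀ᵐ x ∂μ, f x = 0 → f' x = 0 := by
  have ha := ACL_abs hL hd
  have h1 : ∀ᵐ x ∂μ, ∀ᵐ t : ℝ, (f (x + t • e) = 0 → f' (x + t • e) = 0) := by
    filter_upwards [hd.locInt, hd.ftc, ha.locInt, ha.ftc] with x a1 a2 a3 a4
    have b1 : ∀ t, |prim (f x) (fun s => f' (x + s • e)) t| =
        prim |f x| (fun s => f (x + s • e) * f' (x + s • e) / |f (x + s • e)|) t := by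
      apply all_eq_of_ae (prim_continuous a1).abs (prim_continuous a3)
      filter_upwards [a2, a4] with t c1 c2
      rw [← c1, c2]
    have b2 := prim_zero_set a1 a3 b1 (by
      filter_upwards [a2] with t c1 c2
      rw [c1, c2]; simp only [zero_mul, abs_zero, div_zero])
    filter_upwards [a2, b2] with t c1 c2 c3
    exact c2 (by rw [← c1]; exact c3)
  have hm : NullMeasurableSet {x | f x = 0 → f' x = 0} μ := by
    have e1 : {x | f x = 0 → f' x = 0} = {x | f x = 0}ᶜ ∪ {x | f' x = 0} := by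
      ext x
      simp only [mem_ofPred_eq, mem_union, mem_compl_iff]
      (clear * -; tauto)
    rw [e1]
    exact (nullMeasurableSet_eq_fun hd.meas.aemeasurable aemeasurable_const).compl.union
      (nullMeasurableSet_eq_fun hd.meas'.aemeasurable aemeasurable_const)
  have hm2 : NullMeasurableSet {p : X × ℝ | f (p.1 + p.2 • e) = 0 → f' (p.1 + p.2 • e) = 0}
      (μ.prod volume) := hm.preimage (qmp_line e)
  have h2 := ae_prod_of_ae_ae (P := fun p : X × ℝ => f (p.1 + p.2 • e) = 0 → f' (p.1 + p.2 • e) = 0)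
    hm2 h1
  have h3 := swap_ae h2
  obtain ⟨t, ht⟩ := h3.exists
  have h4 := shift_ae e ht (-t)
  filter_upwards [h4] with x hx
  simpa only [neg_smul, neg_add_cancel_right] using hx

/-- Sign with value `1` at zero. -/
def sg (y : ℝ) : ℝ := if y < 0 then -1 else 1

lemma sg_sq (y : ℝ) : sg y ^ 2 = 1 := by
  unfold sg; split_ifs <;> norm_num

lemma abs_sg (y : ℝ) : |sg y| = 1 := by
  unfold sg; split_ifs <;> norm_num

lemma measurable_sg : Measurable sg := by
  unfold sg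
  exact Measurable.ite measurableSet_Iio measurable_const measurable_const

lemma sg_neg {y : ℝ} (h : y ≠ 0) : sg (-y) = - sg y := by
  unfold sg
  rcases lt_or_gt_of_ne h with h1 | h1
  · rw [if_neg (by linarith only [h1]), if_pos h1]; norm_num
  · rw [if_pos (by linarith only [h1]), if_neg (by linarith)]

/-- Changing the sign after a zero. -/
lemma prim_sg {c : ℝ} {h : ℝ → ℝ} (hh : LocallyIntegrable h) {a : ℝ} (ha : prim c h a = 0)
    (t : ℝ) : sg (t - a) * prim c h t = prim (sg (0 - a) * c) (fun s => sg (s - a) * h s) t := by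
  have hL : LocallyIntegrable (fun s => sg (s - a) * h s) := by
    refine hh.mono ?_ ?_
    · exact ((measurable_sg.comp (measurable_id.sub_const a)).aestronglyMeasurable).mul
        hh.aestronglyMeasurable
    · filter_upwards with s
      rw [norm_mul, Real.norm_eq_abs, abs_sg, one_mul]
  have key : ∀ t, ∫ s in a..t, sg (s - a) * h s = sg (t - a) * prim c h t := by
    intro t
    have h1 : ∫ s in a..t, sg (s - a) * h s = ∫ s in a..t, sg (t - a) * h s := by
      apply intervalIntegral.integral_congr_ae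
      have hne : ∀ᵐ s : ℝ, s ≠ a := by simp [ae_iff, measure_singleton]
      filter_upwards [hne] with s hs hs2
      congr 1
      unfold sg
      rcases le_total a t with h2 | h2
      · rw [uIoc_of_le h2] at hs2
        rw [if_neg (by linarith only [hs2.1]), if_neg (by linarith)]
      · rw [uIoc_of_ge h2] at hs2
        have h3 : s < a := lt_of_le_of_ne hs2.2 hs
        rw [if_pos (by linarith), if_pos (by linarith only [h3, hs2.1])]
    rw [h1, intervalIntegral.integral_const_mul, ← prim_sub (c := c) hh a t, ha, sub_zero]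
  have h2 := intervalIntegral.integral_interval_sub_left (LocInt.ii hL a t) (LocInt.ii hL a 0)
  unfold prim at *
  have k1 := key t
  have k2 := key 0
  simp only [intervalIntegral.integral_same, add_zero] at k2
  linarith only [h2, k1, k2]

lemma line_apply (x : R3) (k : Fin 3) (t : ℝ) (i : Fin 3) :
    (x + t • dir3 k) i = x i + if i = k then t else 0 := by
  simp only [dir3, PiLp.add_apply, PiLp.smul_apply, smul_eq_mul, PiLp.single_apply]
  split_ifs <;> simp

lemma refl_line0 (x : R3) (t : ℝ) :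
    refl 0 (x + t • dir3 0) = x + (-(2 * x 0) - t) • dir3 0 := by
  ext i
  rw [refl_apply, line_apply, line_apply]
  by_cases h : i = 0
  · subst h; simp only [Fin.isValue, ↓reduceIte, neg_add_rev]; ring
  · simp [h]

lemma measurable_coord (i : Fin 3) : Measurable (fun x : R3 => x i) := by
  fun_prop

lemma aesm_sg : AEStronglyMeasurable (fun x : R3 => sg (x 0)) volume :=
  (measurable_sg.comp (measurable_coord 0)).aestronglyMeasurable

lemma ae_ne_zero : ∀ᵐ x : R3, x 0 ≠ 0 := by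
  have h1 : ∀ᵐ t : ℝ, t ≠ 0 := by simp [ae_iff, measure_singleton]
  have h2 : Measure.QuasiMeasurePreserving (fun x : R3 => x 0) volume volume := by
    have h3 : Measure.QuasiMeasurePreserving (fun x : Fin 3 → ℝ => x 0) volume volume :=
      Measure.quasiMeasurePreserving_eval (μ := fun _ : Fin 3 => (volume : Measure ℝ)) 0
    have h4 := (EuclideanSpace.volume_preserving_symm_measurableEquiv_toLp (Fin 3))
    exact h3.comp h4.quasiMeasurePreserving
  exact h2.ae h1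

/-- The reflection symmetric absolute value along the direction `0`. -/
lemma ACL_sg_zero {w : R3 → ℝ} {w' : R3 → ℝ} (hL : LocallyIntegrable w' volume)
    (hd : ACL volume (dir3 0) w w') (ho : ∀ᵐ x, w (refl 0 x) = - w x) :
    ACL volume (dir3 0) (fun x => sg (x 0) * |w x|) (fun x => sg (x 0) * (w x * w' x / |w x|)) := by
  have ha := ACL_abs hL hd
  refine ⟨aesm_sg.mul ha.meas, aesm_sg.mul ha.meas', ?_, ?_⟩
  · filter_upwards [ha.locInt] with x hx
    refine hx.mono ?_ ?_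
    · refine AEStronglyMeasurable.mul ?_ hx.aestronglyMeasurable
      have : Measurable (fun t : ℝ => sg ((x + t • dir3 0) 0)) := by
        apply measurable_sg.comp
        fun_prop
      exact this.aestronglyMeasurable
    · filter_upwards with s
      rw [norm_mul, Real.norm_eq_abs, abs_sg, one_mul]
  · filter_upwards [hd.locInt, hd.ftc, ha.locInt, ha.ftc, line_ae (dir3 0) ho]
      with x a1 a2 a3 a4 a5
    set P := prim (w x) (fun s => w' (x + s • dir3 0)) with hP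
    have hPc : Continuous P := prim_continuous a1
    -- oddness on the line
    have b1 : ∀ t, P (-(2 * x 0) - t) = - P t := by
      apply all_eq_of_ae (by fun_prop) hPc.neg
      have c1 : ∀ᵐ t : ℝ, w (x + (-(2 * x 0) - t) • dir3 0) = P (-(2 * x 0) - t) := by
        have mp : MeasurePreserving (fun t : ℝ => -(2 * x 0) - t) volume volume :=
          Measure.measurePreserving_sub_left volume (-(2 * x 0))
        exact mp.quasiMeasurePreserving.ae a2
      filter_upwards [a2, a5, c1] with t d1 d2 d3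
      show P (-(2 * x 0) - t) = - P t
      rw [← d3, ← d1, ← d2, refl_line0]
    have b2 : P (- x 0) = 0 := by
      have := b1 (- x 0)
      have e1 : -(2 * x 0) - (- x 0) = - x 0 := by ring
      rw [e1] at this
      linarith
    set h : ℝ → ℝ := fun s => w (x + s • dir3 0) * w' (x + s • dir3 0) / |w (x + s • dir3 0)|
      with hh
    have b3 : ∀ t, |P t| = prim |w x| h t := by
      apply all_eq_of_ae hPc.abs (prim_continuous a3)
      filter_upwards [a2, a4] with t d1 d2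
      rw [← d1, ← d2]
    have b4 : prim |w x| h (- x 0) = 0 := by
      rw [← b3, b2, abs_zero]
    filter_upwards [a4] with t ht
    have b5 := prim_sg a3 b4 t
    have e2 : ∀ s : ℝ, (x + s • dir3 0) 0 = s - (- x 0) := by
      intro s
      rw [line_apply]; simp only [Fin.isValue, ↓reduceIte, sub_neg_eq_add]; ring
    rw [ht]
    simp only [e2]
    rw [b5]
    simp only [Fin.isValue, sub_neg_eq_add, zero_add, hh]

/-- The reflection symmetric absolute value along the other directions. -/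
lemma ACL_sg_other {g g' : R3 → ℝ} {k : Fin 3} (hk : k ≠ 0)
    (hd : ACL volume (dir3 k) g g') :
    ACL volume (dir3 k) (fun x => sg (x 0) * g x) (fun x => sg (x 0) * g' x) := by
  have e2 : ∀ (x : R3) (s : ℝ), (x + s • dir3 k) 0 = x 0 := by
    intro x s
    rw [line_apply, if_neg (Ne.symm hk), add_zero]
  refine ⟨aesm_sg.mul hd.meas, aesm_sg.mul hd.meas', ?_, ?_⟩
  · filter_upwards [hd.locInt] with x hx
    simp only [e2]
    exact hx.continuous_mul continuous_const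
  · filter_upwards [hd.ftc] with x hx
    filter_upwards [hx] with t ht
    simp only [e2]
    rw [ht, prim, prim, intervalIntegral.integral_const_mul]
    ring

/-- KD13. Absolute value in the half space: a class `x` function can be replaced by one of the
same absolute value which is nonnegative for `0 < x 0`. -/
theorem exists_abs {w : R3 → ℝ} {w' : Fin 3 → R3 → ℝ} (hw : H1o w w') (hc : ClsX w) :
    ∃ (φ : R3 → ℝ) (φ' : Fin 3 → R3 → ℝ), H1o φ φ' ∧ ClsX φ ∧ (∀ᵐ x, φ x ^ 2 = w x ^ 2) ∧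
      (∀ k, ∀ᵐ x, φ' k x ^ 2 = w' k x ^ 2) ∧ (∀ᵐ x, 0 < x 0 → 0 ≤ φ x) := by
  have hL : ∀ k, LocallyIntegrable (w' k) volume := fun k =>
    (hw.memLp' k).locallyIntegrable (by norm_num)
  have hA : ∀ k, ACL volume (dir3 k) (fun x => sg (x 0) * |w x|)
      (fun x => sg (x 0) * (w x * w' k x / |w x|)) := by
    intro k
    by_cases hk : k = 0
    · subst hk
      exact ACL_sg_zero (hL 0) (hw.acl 0) hc
    · exact ACL_sg_other hk (ACL_abs (hL k) (hw.acl k))
  refine ⟨fun x => sg (x 0) * |w x|, fun k x => sg (x 0) * (w x * w' k x / |w x|),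
    ⟨?_, ?_, hA⟩, ?_, ?_, ?_, ?_⟩
  · refine hw.memLp.mono (hA 0).meas ?_
    filter_upwards with x
    rw [norm_mul, Real.norm_eq_abs, abs_sg, one_mul, Real.norm_eq_abs, abs_abs, Real.norm_eq_abs]
  · intro k
    refine (hw.memLp' k).mono (hA k).meas' ?_
    filter_upwards with x
    rw [norm_mul, Real.norm_eq_abs, abs_sg, one_mul, Real.norm_eq_abs, Real.norm_eq_abs,
      abs_div, abs_mul, abs_abs]
    by_cases h0 : w x = 0
    · rw [h0]; simp only [abs_zero, zero_mul, div_zero, abs_nonneg]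
    · have : |w x| ≠ 0 := abs_ne_zero.mpr h0
      rw [mul_div_assoc, mul_comm, div_mul_cancel₀ _ this]
  · filter_upwards [hc, ae_ne_zero] with x h1 h2
    rw [h1, refl_apply, if_pos rfl, sg_neg h2, abs_neg]; ring
  · filter_upwards with x
    rw [mul_pow, sg_sq, one_mul, sq_abs]
  · intro k
    filter_upwards [ACL_zero_set (hL k) (hw.acl k)] with x h1
    rw [mul_pow, sg_sq, one_mul]
    by_cases h0 : w x = 0
    · rw [h0, h1 h0]; simp only [mul_zero, abs_zero, div_zero, ne_eq, OfNat.ofNat_ne_zero, not_false_eq_true, zero_pow]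
    · have : w x ^ 2 ≠ 0 := pow_ne_zero 2 h0
      rw [div_pow, mul_pow, sq_abs]
      (clear * - h0; field_simp)
  · filter_upwards with x h
    have : sg (x 0) = 1 := by unfold sg; rw [if_neg (by linarith only [h])]
    rw [this, one_mul]; exact abs_nonneg _

end

end Vale.Agent.P363.KD
end
end

section

section

/-! KD15b: multiplication of a density matrix, energy. -/

namespace Vale.Agent.P363.KD

open MeasureTheory Set Filter Topology
open scoped ENNReal ContDiff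

noncomputable section

/-- Pointwise bound of the square of the gradient of the multiplied function. -/
theorem K15b_pointwise {t γ B : ℝ} (ht : 0 ≤ t) (hγB : γ ≤ B) (htB : t * B ≤ 1 / 2)
    (a b c : ℝ) :
    (√(1 - t * γ) * a - t * b / (2 * √(1 - t * γ)) * c) ^ 2 ≤
      a ^ 2 - t * (γ * a ^ 2) - t * (c * a * b) + t ^ 2 / 2 * (b ^ 2 * c ^ 2) := by
  have h1 : 1 / 2 ≤ 1 - t * γ := by
    have : t * γ ≤ t * B := mul_le_mul_of_nonneg_left hγB ht
    linarith only [htB, this]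
  obtain ⟨s, hs⟩ : ∃ s, s = √(1 - t * γ) := ⟨_, rfl⟩
  have hs0 : 0 < s := hs ▸ Real.sqrt_pos.mpr (by linarith only [h1])
  have hs2 : s ^ 2 = 1 - t * γ := hs ▸ Real.sq_sqrt (by linarith only [h1])
  rw [← hs]
  have e1 : (s * a - t * b / (2 * s) * c) ^ 2 =
      s ^ 2 * a ^ 2 - t * (c * a * b) + t ^ 2 * (b ^ 2 * c ^ 2) * (1 / (4 * s ^ 2)) := by
    field_simp
    ring
  rw [e1]
  have h2 : 1 / (4 * s ^ 2) ≤ 1 / 2 := by
    rw [hs2]
    apply one_div_le_one_div_of_le (by norm_num)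
    linarith only [h1]
  have h3 : t ^ 2 * (b ^ 2 * c ^ 2) * (1 / (4 * s ^ 2)) ≤ t ^ 2 * (b ^ 2 * c ^ 2) * (1 / 2) :=
    mul_le_mul_of_nonneg_left h2 (by (clear * -; positivity))
  have h4 : s ^ 2 * a ^ 2 = a ^ 2 - t * (γ * a ^ 2) := by
    rw [hs2]
    ring
  linarith only [h3, h4]

/-- The square of a member of a family is almost everywhere at most the density. -/
theorem K15b_sq_le {ι : Type} {f : ι → R3 → ℝ} {x : R3} (h : Summable (fun i => f i x ^ 2))
    (i : ι) : f i x ^ 2 ≤ rho f x :=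
  h.le_tsum i fun _ _ => sq_nonneg _

/-- KD15b. Energy of the multiplied family. -/
theorem mul_energy {v : R3 → ℝ} (hv : MemV v) {ι : Type} [Countable ι] {f : ι → R3 → ℝ}
    {f' : ι → Fin 3 → R3 → ℝ}
    (hF : IsFam f f') {g : R3 → ℝ} {g' : Fin 3 → R3 → ℝ}
    (hg : ∀ k, ACL volume (dir3 k) g (g' k)) (hg0 : ∀ x, 0 ≤ g x) {B : ℝ} (hgB : ∀ x, g x ≤ B)
    (hgf : ∀ k, Integrable (fun x => g' k x ^ 2 * rho f x)) {t : ℝ} (ht : 0 ≤ t)
    (htB : t * B ≤ 1 / 2) :
    hE v (mulF t g f) (mulF' t g g' f f') ≤ hE v f f'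
      - t * ((1 / 2) * ∑ k, (∫ x, g x * ∑' i, f' i k x ^ 2) +
        (1 / 2) * ∑ k, (∫ x, (∑' i, f i x * f' i k x) * g' k x) + ∫ x, v x * (g x * rho f x))
      + t ^ 2 * ((1 / 4) * ∑ k, ∫ x, g' k x ^ 2 * rho f x) := by
  obtain ⟨hsum, hrho, hvrho, hEf⟩ := hE_eq hv hF
  obtain ⟨hFF, -⟩ := mul_fam hF hg hg0 hgB hgf ht htB
  obtain ⟨-, -, -, hEF⟩ := hE_eq hv hFF
  have hgm : AEStronglyMeasurable g volume := (hg 0).meas
  have hgm' : ∀ k, AEStronglyMeasurable (g' k) volume := fun k => (hg k).meas'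
  have hgb : ∀ x, ‖g x‖ ≤ B := fun x => by
    rw [Real.norm_eq_abs, abs_of_nonneg (hg0 x)]
    exact hgB x
  have hB0 : 0 ≤ B := (hg0 0).trans (hgB 0)
  have hfm : ∀ i, AEStronglyMeasurable (f i) volume := fun i => (hF.h1 i).memLp.1
  have hfm' : ∀ i k, AEStronglyMeasurable (f' i k) volume := fun i k => ((hF.h1 i).memLp' k).1
  -- the density of the new family
  have hrF : ∀ x, rho (mulF t g f) x = rho f x - t * (g x * rho f x) := by
    intro x
    have h1 : 0 ≤ 1 - t * g x := by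
      have : t * g x ≤ t * B := mul_le_mul_of_nonneg_left (hgB x) ht
      linarith only [htB, this]
    unfold rho mulF
    have h2 : ∀ i, (√(1 - t * g x) * f i x) ^ 2 = (1 - t * g x) * f i x ^ 2 := fun i => by
      rw [mul_pow, Real.sq_sqrt h1]
    simp only [h2]
    rw [tsum_mul_left]
    ring
  have hpot : ∫ x, v x * rho (mulF t g f) x =
      (∫ x, v x * rho f x) - t * ∫ x, v x * (g x * rho f x) := by
    have h1 : Integrable (fun x => v x * (g x * rho f x)) := by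
      have h2 := hvrho.bdd_mul hgm (ae_of_all _ hgb)
      refine h2.congr (ae_of_all _ fun x => ?_)
      simp only
      ring
    rw [← integral_const_mul, ← integral_sub hvrho (h1.const_mul t)]
    refine integral_congr_ae (ae_of_all _ fun x => ?_)
    simp only
    rw [hrF]
    ring
  -- integrability of the single terms
  have ia : ∀ i k, Integrable (fun x => f' i k x ^ 2) := fun i k =>
    ((hF.h1 i).memLp' k).integrable_sq
  have ib : ∀ i k, Integrable (fun x => g x * f' i k x ^ 2) := fun i k =>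
    (ia i k).bdd_mul hgm (ae_of_all _ hgb)
  have id : ∀ i k, Integrable (fun x => g' k x ^ 2 * f i x ^ 2) := by
    intro i k
    refine (hgf k).mono (((hgm' k).pow 2).mul ((hfm i).pow 2)) ?_
    filter_upwards [hsum] with x hx
    rw [Real.norm_eq_abs, Real.norm_eq_abs, abs_of_nonneg (by (clear * -; positivity))]
    refine le_trans ?_ (le_abs_self _)
    exact mul_le_mul_of_nonneg_left (K15b_sq_le hx i) (sq_nonneg _)
  have hcle : ∀ a b c : ℝ, |c * a * b| ≤ b ^ 2 * c ^ 2 + a ^ 2 := by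
    intro a b c
    rw [abs_le]
    constructor <;> nlinarith only [sq_nonneg (b * c)]
  have ic : ∀ i k, Integrable (fun x => f i x * f' i k x * g' k x) := by
    intro i k
    refine ((id i k).add (ia i k)).mono (((hfm i).mul (hfm' i k)).mul (hgm' k)) ?_
    refine ae_of_all _ fun x => ?_
    rw [Real.norm_eq_abs]
    exact (hcle _ _ _).trans (le_abs_self _)
  -- the sums
  have sa : ∀ k, HasSum (fun i => ∫ x, f' i k x ^ 2) (∑' i, ∫ x, f' i k x ^ 2) := fun k =>
    (hF.sum1 k).hasSum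
  have sb : ∀ k, HasSum (fun i => ∫ x, g x * f' i k x ^ 2) (∫ x, g x * ∑' i, f' i k x ^ 2) := by
    intro k
    have h1 := hasSum_integral_of_summable_integral_norm (F := fun i x => g x * f' i k x ^ 2)
      (fun i => ib i k) ?_
    · simpa only [tsum_mul_left] using h1
    · refine Summable.of_nonneg_of_le (fun i => integral_nonneg fun x => norm_nonneg _)
        (fun i => ?_) ((hF.sum1 k).mul_left B)
      rw [← integral_const_mul]
      refine integral_mono (ib i k).norm ((ia i k).const_mul B) fun x => ?_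
      simp only
      rw [norm_mul, Real.norm_eq_abs (f' i k x ^ 2), abs_of_nonneg (sq_nonneg _)]
      exact mul_le_mul_of_nonneg_right (hgb x) (sq_nonneg _)
  have sd0 : ∀ k, Summable (fun i => ∫ x, g' k x ^ 2 * f i x ^ 2) := by
    intro k
    refine summable_of_sum_le (c := ∫ x, g' k x ^ 2 * rho f x)
      (fun i => integral_nonneg fun x => by (clear * -; positivity)) fun s => ?_
    rw [← integral_finsetSum _ fun i _ => id i k]
    refine integral_mono_ae (integrable_finsetSum _ fun i _ => id i k) (hgf k) ?_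
    filter_upwards [hsum] with x hx
    rw [← Finset.mul_sum]
    exact mul_le_mul_of_nonneg_left (hx.sum_le_tsum s fun _ _ => sq_nonneg _) (sq_nonneg _)
  have sd : ∀ k, HasSum (fun i => ∫ x, g' k x ^ 2 * f i x ^ 2) (∫ x, g' k x ^ 2 * rho f x) := by
    intro k
    have h1 := hasSum_integral_of_summable_integral_norm
      (F := fun i x => g' k x ^ 2 * f i x ^ 2) (fun i => id i k) ?_
    · simp only [tsum_mul_left] at h1
      exact h1
    · refine (sd0 k).congr fun i => ?_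
      refine integral_congr_ae (ae_of_all _ fun x => ?_)
      simp only
      rw [Real.norm_eq_abs, abs_of_nonneg (by (clear * -; positivity))]
  have sc : ∀ k, HasSum (fun i => ∫ x, f i x * f' i k x * g' k x)
      (∫ x, (∑' i, f i x * f' i k x) * g' k x) := by
    intro k
    have h1 := hasSum_integral_of_summable_integral_norm
      (F := fun i x => f i x * f' i k x * g' k x) (fun i => ic i k) ?_
    · simpa only [tsum_mul_right] using h1
    · refine Summable.of_nonneg_of_le (fun i => integral_nonneg fun x => norm_nonneg _)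
        (fun i => ?_) ((sd0 k).add (hF.sum1 k))
      rw [← integral_add (id i k) (ia i k)]
      refine integral_mono (ic i k).norm ((id i k).add (ia i k)) fun x => ?_
      exact hcle _ _ _
  -- kinetic energies
  have hkf : kin f' = (1 / 2) * ∑ k, ∑' i, ∫ x, f' i k x ^ 2 := by
    unfold kin
    exact ((hasSum_sum fun k _ => sa k).mul_left (1 / 2)).tsum_eq
  have hkF : kin (mulF' t g g' f f') ≤ (1 / 2) * ∑ k, ((∑' i, ∫ x, f' i k x ^ 2)
      - t * (∫ x, g x * ∑' i, f' i k x ^ 2) - t * (∫ x, (∑' i, f i x * f' i k x) * g' k x)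
      + t ^ 2 / 2 * (∫ x, g' k x ^ 2 * rho f x)) := by
    have hR : HasSum (fun i => (1 / 2) * ∑ k, ((∫ x, f' i k x ^ 2)
        - t * (∫ x, g x * f' i k x ^ 2) - t * (∫ x, f i x * f' i k x * g' k x)
        + t ^ 2 / 2 * (∫ x, g' k x ^ 2 * f i x ^ 2))) ((1 / 2) * ∑ k, ((∑' i, ∫ x, f' i k x ^ 2)
      - t * (∫ x, g x * ∑' i, f' i k x ^ 2) - t * (∫ x, (∑' i, f i x * f' i k x) * g' k x)
      + t ^ 2 / 2 * (∫ x, g' k x ^ 2 * rho f x))) := by
      refine (hasSum_sum fun k _ => ?_).mul_left (1 / 2)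
      exact (((sa k).sub ((sb k).mul_left t)).sub ((sc k).mul_left t)).add
        ((sd k).mul_left (t ^ 2 / 2))
    have hL : HasSum (fun i => (1 / 2) * ∑ k, ∫ x, mulF' t g g' f f' i k x ^ 2)
        (kin (mulF' t g g' f f')) := by
      have h1 := ((hasSum_sum fun k (_ : k ∈ (Finset.univ : Finset (Fin 3))) =>
        (hFF.sum1 k).hasSum).mul_left (1 / 2))
      unfold kin
      exact h1.summable.hasSum
    refine hasSum_le (fun i => ?_) hL hR
    refine mul_le_mul_of_nonneg_left (Finset.sum_le_sum fun k _ => ?_) (by (clear * -; norm_num))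
    have q1 : Integrable (fun x => f' i k x ^ 2 - t * (g x * f' i k x ^ 2)) :=
      (ia i k).sub ((ib i k).const_mul t)
    have q2 : Integrable (fun x => f' i k x ^ 2 - t * (g x * f' i k x ^ 2)
        - t * (f i x * f' i k x * g' k x)) := q1.sub ((ic i k).const_mul t)
    have e1 : (∫ x, f' i k x ^ 2)
        - t * (∫ x, g x * f' i k x ^ 2) - t * (∫ x, f i x * f' i k x * g' k x)
        + t ^ 2 / 2 * (∫ x, g' k x ^ 2 * f i x ^ 2) =
        ∫ x, (f' i k x ^ 2 - t * (g x * f' i k x ^ 2) - t * (f i x * f' i k x * g' k x)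
          + t ^ 2 / 2 * (g' k x ^ 2 * f i x ^ 2)) := by
      rw [← integral_const_mul, ← integral_const_mul, ← integral_const_mul,
        ← integral_sub (ia i k) ((ib i k).const_mul t), ← integral_sub q1 ((ic i k).const_mul t),
        ← integral_add q2 ((id i k).const_mul _)]
    rw [e1]
    refine integral_mono ((hFF.h1 i).memLp' k).integrable_sq
      (q2.add ((id i k).const_mul _)) fun x => ?_
    exact K15b_pointwise ht (hgB x) htB _ _ _
  rw [hEF, hEf, hpot, hkf]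
  have e2 : (1 / 2) * ∑ k, ((∑' i, ∫ x, f' i k x ^ 2)
      - t * (∫ x, g x * ∑' i, f' i k x ^ 2) - t * (∫ x, (∑' i, f i x * f' i k x) * g' k x)
      + t ^ 2 / 2 * (∫ x, g' k x ^ 2 * rho f x)) =
      (1 / 2) * ∑ k, (∑' i, ∫ x, f' i k x ^ 2)
      - t * ((1 / 2) * ∑ k, (∫ x, g x * ∑' i, f' i k x ^ 2))
      - t * ((1 / 2) * ∑ k, (∫ x, (∑' i, f i x * f' i k x) * g' k x))
      + t ^ 2 * ((1 / 4) * ∑ k, (∫ x, g' k x ^ 2 * rho f x)) := by
    rw [Finset.sum_add_distrib, Finset.sum_sub_distrib, Finset.sum_sub_distrib,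
      ← Finset.mul_sum, ← Finset.mul_sum, ← Finset.mul_sum]
    ring
  rw [e2] at hkF
  linarith only [hkF]

end

end Vale.Agent.P363.KD
end
end

section

section

/-! KD15: first variation under multiplication. -/

namespace Vale.Agent.P363.KD

open MeasureTheory Set Filter Topology
open scoped ENNReal ContDiff

noncomputable section

/-- The multiplied family is adapted with the same parity data. -/
lemma adapted_mulF {ι : Type} {f : ι → R3 → ℝ} {c : ι → Bool} (hc : Adapted c f)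
    {g : R3 → ℝ} (hgs : ∀ᵐ x, g (refl 0 x) = g x) (t : ℝ) : Adapted c (mulF t g f) := by
  intro i
  filter_upwards [hc i, hgs] with x hx hgx
  unfold mulF
  rw [hgx, hx]
  split_ifs
  · ring
  · rfl

lemma integral_mulF_sq_le {ι : Type} {f : ι → R3 → ℝ} {f' : ι → Fin 3 → R3 → ℝ}
    (hF : IsFam f f') {g : R3 → ℝ} (hg0 : ∀ x, 0 ≤ g x) {t : ℝ} (ht : 0 ≤ t) (i : ι) :
    ∫ x, mulF t g f i x ^ 2 ≤ ∫ x, f i x ^ 2 := by
  refine integral_mono_of_nonneg (Eventually.of_forall fun x => sq_nonneg _)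
    ((hF.h1 i).memLp.integrable_sq) (Eventually.of_forall fun x => ?_)
  have h1 : √(1 - t * g x) ≤ 1 := by
    rw [Real.sqrt_le_one]
    have := mul_nonneg ht (hg0 x)
    linarith only [this]
  have h2 : √(1 - t * g x) ^ 2 ≤ 1 := pow_le_one₀ (Real.sqrt_nonneg _) h1
  simp only [mulF, mul_pow]
  exact mul_le_of_le_one_left (sq_nonneg _) h2

lemma summable_occX {ι : Type} {f : ι → R3 → ℝ} {f' : ι → Fin 3 → R3 → ℝ}
    (hF : IsFam f f') (c : ι → Bool) :
    Summable (fun i => if c i then ∫ x, f i x ^ 2 else 0) := by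
  refine Summable.of_nonneg_of_le (fun i => ?_) (fun i => ?_) hF.sum0
  · split_ifs
    · exact integral_nonneg fun x => sq_nonneg _
    · exact le_rfl
  · split_ifs
    · exact le_rfl
    · exact integral_nonneg fun x => sq_nonneg _

lemma occX_mulF_le {ι : Type} {f : ι → R3 → ℝ} {f' : ι → Fin 3 → R3 → ℝ}
    (hF : IsFam f f') (c : ι → Bool) {g : R3 → ℝ} (hg0 : ∀ x, 0 ≤ g x) {t : ℝ}
    (ht : 0 ≤ t) {F' : ι → Fin 3 → R3 → ℝ} (hF2 : IsFam (mulF t g f) F') :
    occX c (mulF t g f) ≤ occX c f := by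
  unfold occX
  refine Summable.tsum_le_tsum (fun i => ?_) (summable_occX hF2 c) (summable_occX hF c)
  split_ifs
  · exact integral_mulF_sq_le hF hg0 ht i
  · exact le_rfl

/-- A linear inequality with a quadratic remainder, for all small positive `t`. -/
lemma le_zero_of_quad {a C τ : ℝ} (hτ : 0 < τ) (h : ∀ t, 0 < t → t ≤ τ → t * a ≤ t ^ 2 * C) :
    a ≤ 0 := by
  by_contra hcon
  push Not at hcon
  set t := min τ (a / (2 * (|C| + 1))) with ht
  have hC : 0 < 2 * (|C| + 1) := by positivity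
  have ht0 : 0 < t := lt_min hτ (by (clear * - hcon; positivity))
  have h1 := h t ht0 (min_le_left _ _)
  have h2 : t ≤ a / (2 * (|C| + 1)) := min_le_right _ _
  rw [le_div_iff₀ hC] at h2
  have h3 : a ≤ t * C := by
    have h4 : t * a ≤ t * (t * C) := by
      calc t * a ≤ t ^ 2 * C := h1
        _ = t * (t * C) := by ring
    exact le_of_mul_le_mul_left h4 ht0
  have h5 : t * C ≤ t * |C| := mul_le_mul_of_nonneg_left (le_abs_self C) ht0.le
  linarith

/-- KD15. First variation with respect to multiplication of the density matrix by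
`√(1 - t g)`, symmetric `g`. -/
theorem mult_variation {v : R3 → ℝ} {ι : Type} [Countable ι] {f : ι → R3 → ℝ}
    {f' : ι → Fin 3 → R3 → ℝ} {n : R3 → ℝ} {c : ι → Bool} (h : IsMin v f f' n)
    (hc : Adapted c f) (h2 : occX c f < 2)
    {e : ℝ} {w : R3 → ℝ} {w' : Fin 3 → R3 → ℝ} (hw : H1o w w') (hwc : ClsX w)
    (hw0 : 0 < ∫ x, w x ^ 2) (he : hform v w w' = e * ∫ x, w x ^ 2)
    {g : R3 → ℝ} {g' : Fin 3 → R3 → ℝ} (hg : ∀ k, ACL volume (dir3 k) g (g' k))
    (hg0 : ∀ x, 0 ≤ g x) {B : ℝ} (hgB : ∀ x, g x ≤ B) (hgs : ∀ᵐ x, g (refl 0 x) = g x)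
    (hgf : ∀ k, Integrable (fun x => g' k x ^ 2 * n x)) :
    (1 / 2) * ∑ k, (∫ x, g x * ∑' i, f' i k x ^ 2) +
      (1 / 2) * ∑ k, (∫ x, (∑' i, f i x * f' i k x) * g' k x) + ∫ x, (v x - e) * (g x * n x) ≤ 0 := by
  have hF := h.fam
  obtain ⟨-, hri, hvri, -⟩ := hE_eq h.memV hF
  have hgf' : ∀ k, Integrable (fun x => g' k x ^ 2 * rho f x) := by
    intro k
    refine (hgf k).congr ?_
    filter_upwards [h.rho] with x hx
    rw [hx]
  have hB0 : 0 ≤ B := (hg0 0).trans (hgB 0)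
  have hgm : AEStronglyMeasurable g volume := (hg 0).meas
  have hgb : ∀ᵐ x, ‖g x‖ ≤ B := Eventually.of_forall fun x => by
    rw [Real.norm_of_nonneg (hg0 x)]
    exact hgB x
  have hgr : Integrable (fun x => g x * rho f x) := hri.bdd_mul hgm hgb
  have hvgr : Integrable (fun x => v x * (g x * rho f x)) := by
    refine (hvri.bdd_mul hgm hgb).congr (Eventually.of_forall fun x => ?_)
    simp only
    ring
  set A := ∫ x, g x * rho f x with hA
  have hA0 : 0 ≤ A := integral_nonneg fun x =>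
    mul_nonneg (hg0 x) (tsum_nonneg fun i => sq_nonneg _)
  set W := ∫ x, w x ^ 2 with hW
  set K := (1 / 2) * ∑ k, (∫ x, g x * ∑' i, f' i k x ^ 2) +
    (1 / 2) * ∑ k, (∫ x, (∑' i, f i x * f' i k x) * g' k x) with hK
  set V := ∫ x, v x * (g x * rho f x) with hV
  set C := (1 / 4) * ∑ k, (∫ x, g' k x ^ 2 * rho f x) with hC
  have hsplit : ∫ x, (v x - e) * (g x * n x) = V - e * A := by
    have h3 : ∫ x, (v x - e) * (g x * n x) =
        ∫ x, (v x * (g x * rho f x) - e * (g x * rho f x)) := by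
      refine integral_congr_ae ?_
      filter_upwards [h.rho] with x hx
      rw [hx]
      ring
    rw [h3, integral_sub hvgr (hgr.const_mul e), integral_const_mul]
  rw [hsplit]
  set τ := min (1 / (2 * (B + 1))) ((2 - occX c f) / (A + 1)) with hτ
  have hτ0 : 0 < τ := lt_min (by (clear * - hB0; positivity)) (div_pos (by linarith only [h2]) (by linarith only [hA0]))
  have key : ∀ t, 0 < t → t ≤ τ → t * (K + (V - e * A)) ≤ t ^ 2 * C := by
    intro t ht htτ
    have htB : t * B ≤ 1 / 2 := by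
      have h3 : t ≤ 1 / (2 * (B + 1)) := htτ.trans (min_le_left _ _)
      rw [le_div_iff₀ (by (clear * - hB0; positivity))] at h3
      linarith only [ht, h3]
    have htA : t * A ≤ 2 - occX c f := by
      have h3 : t ≤ (2 - occX c f) / (A + 1) := htτ.trans (min_le_right _ _)
      rw [le_div_iff₀ (by linarith only [hA0])] at h3
      linarith only [ht, h3]
    obtain ⟨hF2, htr⟩ := mul_fam hF hg hg0 hgB hgf' ht.le htB
    have hen := mul_energy h.memV hF hg hg0 hgB hgf' ht.le htB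
    set s := √(t * A / W) with hs
    have hs2 : s ^ 2 * W = t * A := by
      rw [hs, Real.sq_sqrt (by (clear * - ht hA0 hw0; positivity)), div_mul_cancel₀ _ hw0.ne']
    obtain ⟨hF3, htr3, hE3⟩ := add_member h.memV hF2 (adapted_mulF hc hgs t) hw hwc (s := s) (by
      rw [hs2]
      have := occX_mulF_le hF c hg0 ht.le hF2
      linarith only [htA, this])
    have hmin := h.min _ _ _ hF3 (by
      rw [htr3, htr, hs2, h.tr]
      ring)
    rw [hE3, he] at hmin
    have h4 : s ^ 2 * (e * W) = t * A * e := by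
      rw [← hs2]
      ring
    rw [h4] at hmin
    rw [← hK, ← hV, ← hC] at hen
    linarith only [hen, hmin]
  exact le_zero_of_quad hτ0 key

end

end Vale.Agent.P363.KD
end
end

section

section

/-! KD16: assembly of the class part. -/

namespace Vale.Agent.P363.KD

open MeasureTheory Set Filter Topology
open scoped ENNReal ContDiff

noncomputable section

namespace K16

/-- Integrable series: pointwise summability and integrability of the sum. -/
lemma tsum_props {ι : Type} [Countable ι] {F : ι → R3 → ℝ} (hF : ∀ i, Integrable (F i))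
    (hs : Summable fun i => ∫ x, ‖F i x‖) :
    (∀ᵐ x, Summable (fun i => F i x)) ∧ Integrable (fun x => ∑' i, F i x) := by
  have hfin : ∑' i, ∫⁻ x, ‖F i x‖ₑ ≠ ⊤ := by
    have this : ∀ i : ι, ∫⁻ a, ‖F i a‖ₑ = ENNReal.ofReal (∫ a, ‖F i a‖) := fun i =>
      (ofReal_integral_norm_eq_lintegral_enorm (hF i)).symm
    simp_rw [this]
    rw [← ENNReal.ofReal_tsum_of_nonneg (fun i => integral_nonneg (fun x => norm_nonneg _)) hs]
    exact ENNReal.ofReal_ne_top
  have hf'' : ∀ i, AEMeasurable (fun x => ‖F i x‖ₑ) := fun i => (hF i).1.enorm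
  rw [← lintegral_tsum hf''] at hfin
  have hae : ∀ᵐ x, Summable (fun i => F i x) := by
    refine (ae_lt_top' (AEMeasurable.tsum hf'') hfin).mono ?_
    intro x hx
    exact (tsum_enorm_ne_top_iff_summable_norm.1 hx.ne).of_norm
  refine ⟨hae, ?_, ?_⟩
  · have hm : ∀ s : Finset ι, AEStronglyMeasurable (fun x => ∑ i ∈ s, F i x) volume := fun s =>
      s.aestronglyMeasurable_fun_sum (fun i _ => (hF i).1)
    refine aestronglyMeasurable_of_tendsto_ae (u := atTop) (f := fun (s : Finset ι) x => ∑ i ∈ s, F i x)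
      hm ?_
    filter_upwards [hae] with x hx
    exact hx.hasSum
  · rw [hasFiniteIntegral_iff_enorm]
    refine lt_of_le_of_lt (lintegral_mono (fun x => ?_)) (lt_top_iff_ne_top.mpr hfin)
    exact enorm_tsum_le_tsum_enorm

/-- `ACL` of an `L¹` convergent series. -/
lemma ACL_tsum {ι : Type} [Countable ι] {e : R3} {F F' : ι → R3 → ℝ}
    (h : ∀ i, ACL volume e (F i) (F' i)) (hF : ∀ i, Integrable (F i))
    (hF' : ∀ i, Integrable (F' i)) (hs : Summable fun i => ∫ x, ‖F i x‖)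
    (hs' : Summable fun i => ∫ x, ‖F' i x‖) :
    ACL volume e (fun x => ∑' i, F i x) (fun x => ∑' i, F' i x) := by
  apply ACL.of_weak (tsum_props hF hs).2.locallyIntegrable (tsum_props hF' hs').2.locallyIntegrable
  intro φ hφ hc
  have key : ∀ (G : ι → R3 → ℝ) (ψ : R3 → ℝ), (∀ i, Integrable (G i)) →
      (Summable fun i => ∫ x, ‖G i x‖) → Continuous ψ → HasCompactSupport ψ →
      HasSum (fun i => ∫ x, ψ x * G i x) (∫ x, ψ x * ∑' i, G i x) := by
    intro G ψ hG hGs hψ hψc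
    obtain ⟨C, hC⟩ := hψc.exists_bound_of_continuous hψ
    have h1 : ∀ i, Integrable (fun x => ψ x * G i x) := fun i =>
      (hG i).bdd_mul hψ.aestronglyMeasurable (Eventually.of_forall hC)
    have h2 : Summable fun i => ∫ x, ‖ψ x * G i x‖ := by
      refine Summable.of_nonneg_of_le (fun i => integral_nonneg (fun x => norm_nonneg _))
        (fun i => ?_) (hGs.mul_left C)
      rw [← integral_const_mul]
      apply integral_mono (h1 i).norm ((hG i).norm.const_mul C)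
      intro x
      simp only [norm_mul]
      exact mul_le_mul_of_nonneg_right (hC x) (norm_nonneg _)
    have h3 := hasSum_integral_of_summable_integral_norm h1 h2
    have h4 : ∫ x, ψ x * ∑' i, G i x = ∫ x, ∑' i, ψ x * G i x := by
      congr 1; funext x; rw [tsum_mul_left]
    rw [h4]; exact h3
  have hφ1 : ContDiff ℝ 1 φ := hφ.of_le (by exact_mod_cast le_top)
  have a1 := key F (fun x => fderiv ℝ φ x e) hF hs
    ((hφ1.continuous_fderiv (by norm_num)).clm_apply continuous_const) (hc.fderiv_apply ℝ e)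
  have a2 := key F' φ hF' hs' hφ.continuous hc
  have a3 : ∀ i, ∫ x, fderiv ℝ φ x e * F i x = - ∫ x, φ x * F' i x := fun i =>
    (h i).to_weak (hF i).locallyIntegrable (hF' i).locallyIntegrable hφ hc
  have a4 : HasSum (fun i => ∫ x, fderiv ℝ φ x e * F i x) (- ∫ x, φ x * ∑' i, F' i x) := by
    refine (a2.neg).congr_fun ?_
    intro i; rw [a3 i]
  exact a1.unique a4

section fam

variable {ι : Type} {f : ι → R3 → ℝ} {f' : ι → Fin 3 → R3 → ℝ}

lemma sum_sq0 (hF : IsFam f f') : Summable fun i => ∫ x, ‖f i x ^ 2‖ := by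
  refine hF.sum0.congr ?_
  intro i
  congr 1; funext x
  rw [Real.norm_of_nonneg (sq_nonneg _)]

lemma sum_sq1 (hF : IsFam f f') (k : Fin 3) : Summable fun i => ∫ x, ‖f' i k x ^ 2‖ := by
  refine (hF.sum1 k).congr ?_
  intro i
  congr 1; funext x
  rw [Real.norm_of_nonneg (sq_nonneg _)]

lemma sum_mul (hF : IsFam f f') (k : Fin 3) : Summable fun i => ∫ x, ‖f i x * f' i k x‖ := by
  refine Summable.of_nonneg_of_le (fun i => integral_nonneg (fun x => norm_nonneg _))
    (fun i => ?_) (hF.sum0.add (hF.sum1 k))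
  have h1 := (hF.h1 i).memLp.integrable_sq
  have h2 := ((hF.h1 i).memLp' k).integrable_sq
  rw [← integral_add h1 h2]
  apply integral_mono ((hF.h1 i).memLp.integrable_mul ((hF.h1 i).memLp' k)).norm (h1.add h2)
  intro x
  simp only [Real.norm_eq_abs, Pi.mul_apply, Pi.add_apply, abs_mul]
  nlinarith only [sq_abs (f i x), sq_abs (f' i k x)]

variable [Countable ι]

lemma rho_props (hF : IsFam f f') : (∀ᵐ x, Summable (fun i => f i x ^ 2)) ∧
    Integrable (rho f) :=
  tsum_props (fun i => (hF.h1 i).memLp.integrable_sq) (sum_sq0 hF)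

/-- Kinetic energy density. -/
def kap (f' : ι → Fin 3 → R3 → ℝ) (k : Fin 3) (x : R3) : ℝ := ∑' i, f' i k x ^ 2

/-- Half the gradient of the density. -/
def PP (f : ι → R3 → ℝ) (f' : ι → Fin 3 → R3 → ℝ) (k : Fin 3) (x : R3) : ℝ :=
  ∑' i, f i x * f' i k x

lemma kap_props (hF : IsFam f f') (k : Fin 3) : (∀ᵐ x, Summable (fun i => f' i k x ^ 2)) ∧
    Integrable (kap f' k) :=
  tsum_props (fun i => ((hF.h1 i).memLp' k).integrable_sq) (sum_sq1 hF k)

lemma PP_props (hF : IsFam f f') (k : Fin 3) : (∀ᵐ x, Summable (fun i => f i x * f' i k x)) ∧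
    Integrable (PP f f' k) :=
  tsum_props (fun i => (hF.h1 i).memLp.integrable_mul ((hF.h1 i).memLp' k)) (sum_mul hF k)

omit [Countable ι] in
lemma rho_nonneg (f : ι → R3 → ℝ) (x : R3) : 0 ≤ rho f x := tsum_nonneg (fun _ => sq_nonneg _)

omit [Countable ι] in
lemma kap_nonneg (f' : ι → Fin 3 → R3 → ℝ) (k : Fin 3) (x : R3) : 0 ≤ kap f' k x :=
  tsum_nonneg (fun _ => sq_nonneg _)

lemma acl_rho (hF : IsFam f f') (k : Fin 3) :
    ACL volume (dir3 k) (rho f) (fun x => 2 * PP f f' k x) := by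
  have h1 := ACL_tsum (e := dir3 k) (F := fun i x => f i x ^ 2)
    (F' := fun i x => 2 * (f i x * f' i k x)) (fun i => by
      have := ((hF.h1 i).acl k).mul ((hF.h1 i).acl k)
      refine this.congr ?_ ?_
      · filter_upwards with x; ring
      · filter_upwards with x; ring)
    (fun i => (hF.h1 i).memLp.integrable_sq)
    (fun i => ((hF.h1 i).memLp.integrable_mul ((hF.h1 i).memLp' k)).const_mul 2)
    (sum_sq0 hF) (by
      refine ((sum_mul hF k).mul_left 2).congr ?_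
      intro i
      rw [← integral_const_mul]
      congr 1; funext x
      rw [norm_mul]; norm_num)
  refine h1.congr ?_ ?_
  · filter_upwards with x; rfl
  · filter_upwards with x
    simp only [PP, tsum_mul_left]

lemma cs_ae (hF : IsFam f f') (k : Fin 3) :
    ∀ᵐ x, PP f f' k x ^ 2 ≤ rho f x * kap f' k x := by
  filter_upwards [(rho_props hF).1, (kap_props hF k).1, (PP_props hF k).1] with x h1 h2 h3
  have h4 : Tendsto (fun s : Finset ι => (∑ i ∈ s, f i x * f' i k x) ^ 2) atTop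
      (𝓝 (PP f f' k x ^ 2)) := (Tendsto.pow h3.hasSum 2)
  refine le_of_tendsto h4 (Eventually.of_forall (fun s => ?_))
  calc (∑ i ∈ s, f i x * f' i k x) ^ 2 ≤ (∑ i ∈ s, f i x ^ 2) * ∑ i ∈ s, f' i k x ^ 2 :=
        Finset.sum_mul_sq_le_sq_mul_sq s _ _
    _ ≤ rho f x * kap f' k x := by
        apply mul_le_mul (h1.sum_le_tsum s (fun i _ => sq_nonneg _))
          (h2.sum_le_tsum s (fun i _ => sq_nonneg _)) (Finset.sum_nonneg (fun i _ => sq_nonneg _))
          (rho_nonneg f x)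

variable {c : ι → Bool}

lemma rho_refl (hc : Adapted c f) : ∀ᵐ x, rho f (refl 0 x) = rho f x := by
  have h := ae_all_iff.mpr (fun i => hc i)
  filter_upwards [h] with x hx
  unfold rho
  congr 1; funext i
  rw [hx i]
  split_ifs <;> ring

omit [Countable ι] in
lemma grad_refl (hF : IsFam f f') (hc : Adapted c f) (i : ι) (k : Fin 3) :
    ∀ᵐ x, f' i k (refl 0 x) =
      (if k = 0 then -1 else 1) * ((if c i then -1 else 1) * f' i k x) := by
  have h1 := (H1o_refl (hF.h1 i) 0).acl k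
  have h2 : ACL volume (dir3 k) (fun x => (if c i then -1 else 1) * f i x)
      (fun x => (if c i then -1 else 1) * f' i k x) := ((hF.h1 i).acl k).const_mul _
  have h3 : (fun x => f i (refl 0 x)) =ᵐ[volume] (fun x => (if c i then -1 else 1) * f i x) := by
    filter_upwards [hc i] with x hx
    rw [hx]; split_ifs <;> ring
  have h4 := ACL_unique (h1.congr h3 (ae_eq_refl _)) h2
  filter_upwards [h4] with x hx
  by_cases hk : k = 0
  · simp only [hk, if_true] at hx ⊢
    linarith only [hx]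
  · simp only [hk, if_false] at hx ⊢
    rw [hx, one_mul]

lemma PP_refl (hF : IsFam f f') (hc : Adapted c f) (k : Fin 3) :
    ∀ᵐ x, PP f f' k (refl 0 x) = (if k = 0 then -1 else 1) * PP f f' k x := by
  have h := ae_all_iff.mpr (fun i => hc i)
  have h2 := ae_all_iff.mpr (fun i => grad_refl hF hc i k)
  filter_upwards [h, h2] with x hx hx2
  unfold PP
  rw [← tsum_mul_left]
  congr 1; funext i
  rw [hx i, hx2 i]
  split_ifs <;> ring

end fam

/-- Reflections as linear maps. -/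
def reflL (k : Fin 3) : R3 →L[ℝ] R3 := LinearMap.toContinuousLinearMap
  { toFun := refl k
    map_add' := by
      intro x y
      ext i
      simp only [refl_apply, PiLp.add_apply]
      split_ifs <;> ring
    map_smul' := by
      intro a x
      ext i
      simp only [refl_apply, PiLp.smul_apply, smul_eq_mul, RingHom.id_apply]
      split_ifs <;> ring }

lemma reflL_apply (k : Fin 3) (x : R3) : reflL k x = refl k x := rfl

lemma refl_dir (j k : Fin 3) : refl j (dir3 k) = (if k = j then (-1:ℝ) else 1) • dir3 k := by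
  ext i
  rw [refl_apply, PiLp.smul_apply]
  simp only [dir3, EuclideanSpace.single, PiLp.single_apply, smul_eq_mul]
  split_ifs <;> simp_all

lemma contDiff_refl (k : Fin 3) : ContDiff ℝ 1 (refl k) := (reflL k).contDiff

lemma fderiv_refl {θ : R3 → ℝ} (hθ : ContDiff ℝ 1 θ) (j k : Fin 3) (x : R3) :
    fderiv ℝ (fun y => θ (refl j y)) x (dir3 k) =
      (if k = j then -1 else 1) * fderiv ℝ θ (refl j x) (dir3 k) := by
  have h1 : HasFDerivAt θ (fderiv ℝ θ (refl j x)) (reflL j x) :=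
    ((hθ.differentiable (by norm_num)) _).hasFDerivAt
  have h2 : HasFDerivAt (fun y => θ (refl j y)) ((fderiv ℝ θ (refl j x)).comp (reflL j)) x :=
    h1.comp x (reflL j).hasFDerivAt
  rw [h2.fderiv, ContinuousLinearMap.comp_apply, reflL_apply, refl_dir, map_smul, smul_eq_mul]

lemma hcs_refl {θ : R3 → ℝ} (hθ : HasCompactSupport θ) (j : Fin 3) :
    HasCompactSupport (fun y => θ (refl j y)) := by
  have hh : Continuous (refl j) := (contDiff_refl j).continuous
  let e : R3 ≃ₜ R3 := ⟨⟨refl j, refl j, refl_refl j, refl_refl j⟩, hh, hh⟩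
  exact hθ.comp_homeomorph e

section J

variable {ι : Type} {f : ι → R3 → ℝ} {f' : ι → Fin 3 → R3 → ℝ}

/-- Regularised logarithmic gradient of the density. -/
def qq (f : ι → R3 → ℝ) (f' : ι → Fin 3 → R3 → ℝ) (δ : ℝ) (k : Fin 3) (x : R3) : ℝ :=
  PP f f' k x / (rho f x + δ)

/-- The integrand of the inequality. -/
def JJ (v : R3 → ℝ) (e δ : ℝ) (f : ι → R3 → ℝ) (f' : ι → Fin 3 → R3 → ℝ) (θ : R3 → ℝ)
    (x : R3) : ℝ :=
  -(1 / 2) * ∑ k, qq f f' δ k x * fderiv ℝ θ x (dir3 k) +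
    (1 / 2) * ∑ k, θ x * qq f f' δ k x ^ 2 - (v x - e) * (θ x * (rho f x / (rho f x + δ)))

variable [Countable ι] {v : R3 → ℝ} {e δ : ℝ}

lemma int_div (hF : IsFam f f') (hδ : 0 < δ) {G h : R3 → ℝ} (hG : Integrable G)
    (hh : Continuous h) (hhc : HasCompactSupport h) :
    Integrable (fun x => h x / (rho f x + δ) * G x) := by
  obtain ⟨C, hC⟩ := hhc.exists_bound_of_continuous hh
  refine hG.bdd_mul (c := C / δ) ?_ ?_
  · exact hh.aestronglyMeasurable.div₀ ((rho_props hF).2.1.add aestronglyMeasurable_const)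
  · filter_upwards with x
    have h1 := rho_nonneg f x
    rw [norm_div, Real.norm_of_nonneg (by linarith only [hδ, h1] : 0 ≤ rho f x + δ)]
    apply div_le_div₀ ((norm_nonneg _).trans (hC x)) (hC x) hδ (by linarith)

lemma int_a (hF : IsFam f f') (hδ : 0 < δ) {h : R3 → ℝ} (hh : Continuous h)
    (hhc : HasCompactSupport h) (k : Fin 3) : Integrable (fun x => qq f f' δ k x * h x) := by
  refine (int_div hF hδ (PP_props hF k).2 hh hhc).congr ?_
  filter_upwards with x
  unfold qq; ring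

lemma qq_sq_le (hF : IsFam f f') (hδ : 0 < δ) (k : Fin 3) :
    ∀ᵐ x, qq f f' δ k x ^ 2 ≤ kap f' k x / (rho f x + δ) := by
  filter_upwards [cs_ae hF k] with x hx
  have h1 := rho_nonneg f x
  have h2 := kap_nonneg f' k x
  unfold qq
  rw [div_pow, div_le_div_iff₀ (by (clear * - h1 hδ; positivity)) (by positivity)]
  have h3 : PP f f' k x ^ 2 ≤ (rho f x + δ) * kap f' k x := by linarith only [mul_nonneg (le_of_lt (sub_pos.2 hδ)) (sub_nonneg.2 h2), hx]
  calc PP f f' k x ^ 2 * (rho f x + δ) ≤ ((rho f x + δ) * kap f' k x) * (rho f x + δ) := by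
        apply mul_le_mul_of_nonneg_right h3; positivity
    _ = _ := by ring

lemma meas_qq (hF : IsFam f f') (k : Fin 3) :
    AEStronglyMeasurable (qq f f' δ k) volume :=
  (PP_props hF k).2.1.div₀ ((rho_props hF).2.1.add aestronglyMeasurable_const)

lemma int_b0 (hF : IsFam f f') (hδ : 0 < δ) (k : Fin 3) :
    Integrable (fun x => qq f f' δ k x ^ 2) := by
  refine ((kap_props hF k).2.const_mul (1 / δ)).mono' ((meas_qq hF k).pow 2) ?_
  filter_upwards [qq_sq_le hF hδ k] with x hx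
  rw [Real.norm_of_nonneg (sq_nonneg _)]
  refine hx.trans ?_
  have h1 := rho_nonneg f x
  have h2 := kap_nonneg f' k x
  rw [div_le_iff₀ (by positivity)]
  calc kap f' k x = 1 / δ * kap f' k x * δ := by (clear * - hδ; field_simp)
    _ ≤ 1 / δ * kap f' k x * (rho f x + δ) := by
        apply mul_le_mul_of_nonneg_left (by linarith only [h1]); positivity

lemma int_b (hF : IsFam f f') (hδ : 0 < δ) {θ : R3 → ℝ} (hθ : Continuous θ)
    (hθc : HasCompactSupport θ) (k : Fin 3) : Integrable (fun x => θ x * qq f f' δ k x ^ 2) := by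
  obtain ⟨C, hC⟩ := hθc.exists_bound_of_continuous hθ
  exact (int_b0 hF hδ k).bdd_mul hθ.aestronglyMeasurable (Eventually.of_forall hC)

lemma int_c (hv : MemV v) (hF : IsFam f f') (hδ : 0 < δ) {θ : R3 → ℝ} (hθ : Continuous θ)
    (hθc : HasCompactSupport θ) :
    Integrable (fun x => (v x - e) * (θ x * (rho f x / (rho f x + δ)))) := by
  have h1 := int_div hF hδ (hE_eq hv hF).2.2.1 hθ hθc
  have h2 := int_div hF hδ ((rho_props hF).2.const_mul e) hθ hθc
  refine (h1.sub h2).congr ?_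
  filter_upwards with x
  simp only [Pi.sub_apply]; ring

lemma hcs_fderiv {θ : R3 → ℝ} (hθc : HasCompactSupport θ) (k : Fin 3) :
    HasCompactSupport (fun x => fderiv ℝ θ x (dir3 k)) := hθc.fderiv_apply ℝ (dir3 k)

lemma cont_fderiv {θ : R3 → ℝ} (hθ : ContDiff ℝ 1 θ) (k : Fin 3) :
    Continuous (fun x => fderiv ℝ θ x (dir3 k)) :=
  (hθ.continuous_fderiv (by norm_num)).clm_apply continuous_const

lemma int_JJ (hv : MemV v) (hF : IsFam f f') (hδ : 0 < δ) {θ : R3 → ℝ} (hθ : ContDiff ℝ 1 θ)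
    (hθc : HasCompactSupport θ) : Integrable (JJ v e δ f f' θ) := by
  have h1 := integrable_finsetSum Finset.univ (fun k _ =>
    int_a (f' := f') hF hδ (cont_fderiv hθ k) (hcs_fderiv hθc k) k)
  have h2 := integrable_finsetSum Finset.univ (fun k _ =>
    int_b (f' := f') hF hδ hθ.continuous hθc k)
  exact ((h1.const_mul _).add (h2.const_mul _)).sub (int_c hv hF hδ hθ.continuous hθc)

lemma integral_JJ (hv : MemV v) (hF : IsFam f f') (hδ : 0 < δ) {θ : R3 → ℝ}
    (hθ : ContDiff ℝ 1 θ) (hθc : HasCompactSupport θ) : ∫ x, JJ v e δ f f' θ x =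
      -(1 / 2) * (∑ k, ∫ x, qq f f' δ k x * fderiv ℝ θ x (dir3 k)) +
        (1 / 2) * (∑ k, ∫ x, θ x * qq f f' δ k x ^ 2) -
          ∫ x, (v x - e) * (θ x * (rho f x / (rho f x + δ))) := by
  have h0 : ∀ k ∈ Finset.univ, Integrable (fun x => qq f f' δ k x * fderiv ℝ θ x (dir3 k)) :=
    fun k _ => int_a (f' := f') hF hδ (cont_fderiv hθ k) (hcs_fderiv hθc k) k
  have h0' : ∀ k ∈ Finset.univ, Integrable (fun x => θ x * qq f f' δ k x ^ 2) :=
    fun k _ => int_b (f' := f') hF hδ hθ.continuous hθc k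
  have h1 := (integrable_finsetSum Finset.univ h0).const_mul (-(1 / 2))
  have h2 := (integrable_finsetSum Finset.univ h0').const_mul (1 / 2)
  have h3 := int_c (e := e) hv hF hδ hθ.continuous hθc
  have h12 : Integrable (fun x => -(1 / 2) * ∑ k, qq f f' δ k x * fderiv ℝ θ x (dir3 k) +
    (1 / 2) * ∑ k, θ x * qq f f' δ k x ^ 2) := h1.add h2
  unfold JJ
  rw [integral_sub h12 h3, integral_add h1 h2, integral_const_mul, integral_const_mul,
    integral_finsetSum _ h0, integral_finsetSum _ h0']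

lemma JJ_refl {c : ι → Bool} (hF : IsFam f f') (hc : Adapted c f)
    (hsym : ∀ x, v (refl 0 x) = v x) {θ : R3 → ℝ} (hθ : ContDiff ℝ 1 θ) :
    ∀ᵐ x, JJ v e δ f f' (fun y => θ (refl 0 y)) x = JJ v e δ f f' θ (refl 0 x) := by
  have h := ae_all_iff.mpr (fun k => PP_refl hF hc k)
  filter_upwards [rho_refl hc, h] with x h1 h2
  have h3 : ∀ k, qq f f' δ k (refl 0 x) = (if k = 0 then -1 else 1) * qq f f' δ k x := by
    intro k
    unfold qq
    rw [h1, h2 k, mul_div_assoc]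
  unfold JJ
  simp only [h3, h1, hsym, fderiv_refl hθ]
  congr 2
  · congr 1
    apply Finset.sum_congr rfl
    intro k _
    ring
  · congr 1
    apply Finset.sum_congr rfl
    intro k _
    split_ifs <;> ring

lemma integral_JJ_refl {c : ι → Bool} (hF : IsFam f f') (hc : Adapted c f)
    (hsym : ∀ x, v (refl 0 x) = v x) {θ : R3 → ℝ} (hθ : ContDiff ℝ 1 θ) :
    ∫ x, JJ v e δ f f' (fun y => θ (refl 0 y)) x = ∫ x, JJ v e δ f f' θ x := by
  rw [integral_congr_ae (JJ_refl hF hc hsym hθ)]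
  exact integral_refl 0 (JJ v e δ f f' θ)

/-- Symmetrization of a test function. -/
def symm1 (j : Fin 3) (θ : R3 → ℝ) (x : R3) : ℝ := (1 / 2) * (θ x + θ (refl j x))

lemma contDiff_symm1 {θ : R3 → ℝ} (hθ : ContDiff ℝ 1 θ) (j : Fin 3) :
    ContDiff ℝ 1 (symm1 j θ) :=
  contDiff_const.mul (hθ.add (hθ.comp (contDiff_refl j)))

lemma hcs_symm1 {θ : R3 → ℝ} (hθ : HasCompactSupport θ) (j : Fin 3) :
    HasCompactSupport (symm1 j θ) :=
  (hθ.add (hcs_refl hθ j)).mul_left

lemma fderiv_symm1 {θ : R3 → ℝ} (hθ : ContDiff ℝ 1 θ) (j k : Fin 3) (x : R3) :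
    fderiv ℝ (symm1 j θ) x (dir3 k) = (1 / 2) * (fderiv ℝ θ x (dir3 k) +
      fderiv ℝ (fun y => θ (refl j y)) x (dir3 k)) := by
  have h1 : DifferentiableAt ℝ θ x := (hθ.differentiable (by norm_num)) x
  have h2 : DifferentiableAt ℝ (fun y => θ (refl j y)) x :=
    ((hθ.comp (contDiff_refl j)).differentiable (by norm_num)) x
  have h3 : HasFDerivAt (symm1 j θ) ((1 / 2 : ℝ) • (fderiv ℝ θ x +
      fderiv ℝ (fun y => θ (refl j y)) x)) x :=
    (h1.hasFDerivAt.add h2.hasFDerivAt).const_mul (1 / 2)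
  rw [h3.fderiv]
  simp only [one_div, smul_add, add_apply, smul_apply, smul_eq_mul]
  ring

omit [Countable ι] in
lemma JJ_symm1 {θ : R3 → ℝ} (hθ : ContDiff ℝ 1 θ) (j : Fin 3) (x : R3) :
    JJ v e δ f f' (symm1 j θ) x = (1 / 2) * (JJ v e δ f f' θ x +
      JJ v e δ f f' (fun y => θ (refl j y)) x) := by
  unfold JJ
  simp only [fderiv_symm1 hθ]
  unfold symm1
  simp only [Fin.sum_univ_three]
  ring

lemma integral_JJ_symm1 {c : ι → Bool} (hv : MemV v) (hF : IsFam f f')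
    (hδ : 0 < δ) (hc : Adapted c f)
    (hsym : ∀ x, v (refl 0 x) = v x) {θ : R3 → ℝ} (hθ : ContDiff ℝ 1 θ)
    (hθc : HasCompactSupport θ) :
    ∫ x, JJ v e δ f f' (symm1 0 θ) x = ∫ x, JJ v e δ f f' θ x := by
  simp only [JJ_symm1 hθ]
  have hθ' : ContDiff ℝ 1 (fun y => θ (refl 0 y)) := hθ.comp (contDiff_refl 0)
  rw [integral_const_mul, integral_add (int_JJ hv hF hδ hθ hθc)
    (int_JJ hv hF hδ hθ' (hcs_refl hθc 0)),
    integral_JJ_refl hF hc hsym hθ]
  ring

end J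

section main

variable {ι : Type} [Countable ι] {f : ι → R3 → ℝ} {f' : ι → Fin 3 → R3 → ℝ} {v : R3 → ℝ}
  {e δ : ℝ} {n : R3 → ℝ} {c : ι → Bool}

/-- The inverse of the regularised density. -/
lemma acl_inv (hF : IsFam f f') (hδ : 0 < δ) (k : Fin 3) :
    ACL volume (dir3 k) (fun x => (rho f x + δ)⁻¹)
      (fun x => -((rho f x + δ) ^ 2)⁻¹ * (2 * PP f f' k x)) := by
  have h1 := acl_rho hF k
  have hm : AEStronglyMeasurable (rho f) volume := (rho_props hF).2.1
  refine ACL.comp (Ω := Ici 0) h1 (Φ := fun y => (y + δ)⁻¹) (Φ' := fun y => -((y + δ) ^ 2)⁻¹)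
    ?_ ?_ ?_ ?_ ?_
  · intro y hy
    have hy' : y + δ ≠ 0 := by
      have : 0 ≤ y := hy
      (clear * - this hδ; positivity)
    have h2 : HasDerivAt (fun y : ℝ => y + δ) 1 y := (hasDerivAt_id y).add_const δ
    have h3 := h2.inv hy'
    refine h3.congr_deriv ?_
    rw [neg_div, one_div]
  · intro y hy
    have hy' : y + δ ≠ 0 := by
      have : 0 ≤ y := hy
      positivity
    apply ContinuousAt.continuousWithinAt
    apply ContinuousAt.neg
    apply ContinuousAt.inv₀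
    · fun_prop
    · (clear * - hy'; positivity)
  · exact ((hm.add aestronglyMeasurable_const).aemeasurable.inv).aestronglyMeasurable
  · exact ((((hm.add aestronglyMeasurable_const).pow 2).aemeasurable.inv).aestronglyMeasurable).neg
  · have h4 := h1.prim_ge (m := fun _ => (0:ℝ)) continuous_const
      (Eventually.of_forall (fun x => rho_nonneg f x))
    filter_upwards [h4] with x hx t
    exact hx t

/-- The inequality for symmetric test functions. -/
lemma main_symm (h : IsMin v f f' n) (hc : Adapted c f) (h2 : occX c f < 2)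
    {w : R3 → ℝ} {w' : Fin 3 → R3 → ℝ} (hw : H1o w w') (hwc : ClsX w)
    (hw0 : 0 < ∫ x, w x ^ 2) (he : hform v w w' = e * ∫ x, w x ^ 2)
    (hδ : 0 < δ) {θ : R3 → ℝ} (hθ : ContDiff ℝ 1 θ) (hθc : HasCompactSupport θ)
    (hθ0 : ∀ x, 0 ≤ θ x) (hθs : ∀ x, θ (refl 0 x) = θ x) :
    0 ≤ ∫ x, JJ v e δ f f' θ x := by
  have hF := h.fam
  have hv := h.memV
  obtain ⟨C, hC⟩ := hθc.exists_bound_of_continuous hθ.continuous
  have hC0 : 0 ≤ C := (norm_nonneg _).trans (hC 0)
  have hr : ∀ x, 0 < rho f x + δ := fun x => by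
    have := rho_nonneg f x
    linarith only [hδ, this]
  -- the multiplier
  set g : R3 → ℝ := fun x => θ x * (rho f x + δ)⁻¹ with hg
  set g' : Fin 3 → R3 → ℝ := fun k x => fderiv ℝ θ x (dir3 k) * (rho f x + δ)⁻¹ +
    θ x * (-((rho f x + δ) ^ 2)⁻¹ * (2 * PP f f' k x)) with hg'
  have hacl : ∀ k, ACL volume (dir3 k) g (g' k) := fun k =>
    (ACL.of_contDiff hθ).mul (acl_inv hF hδ k)
  have hg0 : ∀ x, 0 ≤ g x := fun x => mul_nonneg (hθ0 x) (inv_nonneg.mpr (hr x).le)
  have hgB : ∀ x, g x ≤ C / δ := by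
    intro x
    rw [hg, div_eq_mul_inv]
    have h3 := rho_nonneg f x
    have h4 : θ x ≤ C := (le_abs_self _).trans (hC x)
    exact mul_le_mul h4 (inv_anti₀ hδ (by linarith only [h3])) (inv_nonneg.mpr (hr x).le) hC0
  have hgs : ∀ᵐ x, g (refl 0 x) = g x := by
    filter_upwards [rho_refl hc] with x hx
    simp only [hg, hx, hθs]
  have hrho : ∀ᵐ x, rho f x = n x := h.rho
  -- pointwise form of the gradient
  have hg'q : ∀ k x, g' k x = fderiv ℝ θ x (dir3 k) * (rho f x + δ)⁻¹ -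
      2 * θ x * (qq f f' δ k x * (rho f x + δ)⁻¹) := by
    intro k x
    simp only [hg', qq]
    have := (hr x).ne'
    field_simp
    ring
  have hgf0 : ∀ k, Integrable (fun x => g' k x ^ 2 * rho f x) := by
    intro k
    have i1 : Integrable (fun x => fderiv ℝ θ x (dir3 k) * fderiv ℝ θ x (dir3 k)) :=
      ((cont_fderiv hθ k).mul (cont_fderiv hθ k)).integrable_of_hasCompactSupport
        ((hcs_fderiv hθc k).mul_left)
    have i2 := int_b0 (δ := δ) hF hδ k
    have i3 : Integrable (fun x => (2 / δ) * (fderiv ℝ θ x (dir3 k) * fderiv ℝ θ x (dir3 k)) +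
        (8 * C ^ 2 / δ) * qq f f' δ k x ^ 2) := (i1.const_mul _).add (i2.const_mul _)
    refine i3.mono' ?_ ?_
    · exact (((hacl k).meas'.pow 2)).mul (rho_props hF).2.1
    · filter_upwards with x
      have hr0 := rho_nonneg f x
      have hrx := hr x
      rw [Real.norm_of_nonneg (by (clear * - hr0; positivity)), hg'q]
      set a := fderiv ℝ θ x (dir3 k)
      set q := qq f f' δ k x
      set r := rho f x
      set m := (r + δ)⁻¹ with hm
      have hm0 : 0 < m := inv_pos.mpr hrx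
      have hmr : m ^ 2 * r ≤ 1 / δ := by
        rw [hm, inv_pow, inv_mul_eq_div, div_le_div_iff₀ (by (clear * - hr0 hδ; positivity)) hδ]
        nlinarith only [hδ, hr0]
      have ht : θ x ^ 2 ≤ C ^ 2 := by
        rw [← sq_abs]
        exact pow_le_pow_left₀ (abs_nonneg _) (hC x) 2
      have e1 : (a * m - 2 * θ x * (q * m)) ^ 2 ≤ 2 * (a * a) * m ^ 2 + 8 * θ x ^ 2 * q ^ 2 * m ^ 2 := by
        linarith only [sq_nonneg (a * m + 2 * θ x * (q * m))]
      calc (a * m - 2 * θ x * (q * m)) ^ 2 * r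
          ≤ (2 * (a * a) * m ^ 2 + 8 * θ x ^ 2 * q ^ 2 * m ^ 2) * r :=
            mul_le_mul_of_nonneg_right e1 hr0
        _ = (2 * (a * a) + 8 * θ x ^ 2 * q ^ 2) * (m ^ 2 * r) := by ring
        _ ≤ (2 * (a * a) + 8 * θ x ^ 2 * q ^ 2) * (1 / δ) := by
            apply mul_le_mul_of_nonneg_left hmr
            have : 0 ≤ a * a := mul_self_nonneg a
            (clear * - this; positivity)
        _ ≤ (2 * (a * a) + 8 * C ^ 2 * q ^ 2) * (1 / δ) := by (clear * - ht hδ; gcongr)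
        _ = 2 / δ * (a * a) + 8 * C ^ 2 / δ * q ^ 2 := by ring
  have hgf : ∀ k, Integrable (fun x => g' k x ^ 2 * n x) := by
    intro k
    refine (hgf0 k).congr ?_
    filter_upwards [hrho] with x hx
    rw [hx]
  have key := mult_variation h hc h2 hw hwc hw0 he hacl hg0 hgB hgs hgf
  -- rewrite
  have k1 : ∫ x, (v x - e) * (g x * n x) =
      ∫ x, (v x - e) * (θ x * (rho f x / (rho f x + δ))) := by
    apply integral_congr_ae
    filter_upwards [hrho] with x hx
    simp only [hg]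
    rw [← hx]
    ring
  have k2 : ∀ k, ∫ x, θ x * qq f f' δ k x ^ 2 ≤ ∫ x, g x * ∑' i, f' i k x ^ 2 := by
    intro k
    apply integral_mono_ae (int_b hF hδ hθ.continuous hθc k)
    · refine (int_div hF hδ (kap_props hF k).2 hθ.continuous hθc).congr ?_
      filter_upwards with x
      simp only [kap, hg]
      ring
    · filter_upwards [qq_sq_le hF hδ k] with x hx
      simp only [hg]
      rw [mul_assoc]
      apply mul_le_mul_of_nonneg_left _ (hθ0 x)
      rw [inv_mul_eq_div]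
      exact hx
  have k3 : ∀ k, ∫ x, (∑' i, f i x * f' i k x) * g' k x =
      (∫ x, qq f f' δ k x * fderiv ℝ θ x (dir3 k)) - 2 * ∫ x, θ x * qq f f' δ k x ^ 2 := by
    intro k
    have j1 := int_a hF hδ (cont_fderiv hθ k) (hcs_fderiv hθc k) k
    have j2 := (int_b hF hδ hθ.continuous hθc k).const_mul 2
    rw [← integral_const_mul, ← integral_sub j1 j2]
    congr 1; funext x
    rw [hg'q]
    have : ∑' i, f i x * f' i k x = PP f f' k x := rfl
    rw [this]
    unfold qq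
    have := (hr x).ne'
    (clear * - this; field_simp)
  rw [integral_JJ hv hF hδ hθ hθc]
  rw [k1] at key
  simp only [k3] at key
  have k4 : ∑ k, ∫ x, θ x * qq f f' δ k x ^ 2 ≤ ∑ k, ∫ x, g x * ∑' i, f' i k x ^ 2 :=
    Finset.sum_le_sum (fun k _ => k2 k)
  rw [Finset.sum_sub_distrib, ← Finset.mul_sum] at key
  linarith only [k4, key]

/-- The inequality for all test functions. -/
lemma main_all (h : IsMin v f f' n) (hsym : ∀ x, v (refl 0 x) = v x) (hc : Adapted c f)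
    (h2 : occX c f < 2)
    {w : R3 → ℝ} {w' : Fin 3 → R3 → ℝ} (hw : H1o w w') (hwc : ClsX w)
    (hw0 : 0 < ∫ x, w x ^ 2) (he : hform v w w' = e * ∫ x, w x ^ 2)
    (hδ : 0 < δ) {θ : R3 → ℝ} (hθ : ContDiff ℝ 1 θ) (hθc : HasCompactSupport θ)
    (hθ0 : ∀ x, 0 ≤ θ x) : 0 ≤ ∫ x, JJ v e δ f f' θ x := by
  rw [← integral_JJ_symm1 h.memV h.fam hδ hc hsym hθ hθc]
  apply main_symm h hc h2 hw hwc hw0 he hδ (contDiff_symm1 hθ 0) (hcs_symm1 hθc 0)
  · intro x
    unfold symm1
    have a1 := hθ0 x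
    have a2 := hθ0 (refl 0 x)
    linarith only [a1, a2]
  · intro x
    unfold symm1
    rw [refl_refl]
    ring

end main

end K16

/-- KD16. Assembly of the class part. -/
theorem ksOut_of_adapted {v : R3 → ℝ} {ι : Type} [Countable ι] {f : ι → R3 → ℝ}
    {f' : ι → Fin 3 → R3 → ℝ} {n : R3 → ℝ} {c : ι → Bool} (h : IsMin v f f' n)
    (hsym : ∀ x, v (refl 0 x) = v x) (hc : Adapted c f)
    (h0 : 0 < occX c f) (h2 : occX c f < 2) :
    ∃ (e : ℝ) (φ : R3 → ℝ) (φ' : Fin 3 → R3 → ℝ), KSOut n v e φ φ' := by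
  obtain ⟨e, w, w', hw, hwc, hw0, hwn, he, hmin⟩ := exists_class_min h hc h0 h2
  obtain ⟨φ, φ', hφ, hφc, hφw, hφw', hφ0⟩ := exists_abs hw hwc
  have e1 : ∫ x, φ x ^ 2 = ∫ x, w x ^ 2 := integral_congr_ae hφw
  have e2 : hform v φ φ' = hform v w w' := by
    unfold hform
    congr 1
    · congr 1
      apply Finset.sum_congr rfl
      intro k _
      exact integral_congr_ae (hφw' k)
    · apply integral_congr_ae
      filter_upwards [hφw] with x hx
      rw [hx]
  have he' : hform v φ φ' = e * ∫ x, φ x ^ 2 := by rw [e1, e2, he]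
  refine ⟨e, φ, φ', ⟨h.memV, hφ, hφc, hφ0, ?_, ?_, ?_, ?_⟩⟩
  · intro hz
    have hz2 : ∀ᵐ x, 0 < (refl 0 x) 0 → φ (refl 0 x) = 0 :=
      (mp_refl 0).quasiMeasurePreserving.ae hz
    have hz3 : ∀ᵐ x, φ x = 0 := by
      filter_upwards [hz, hz2, hφc] with x h1 h2 h3
      rcases lt_trichotomy (x 0) 0 with h4 | h4 | h4
      · have h5 : 0 < (refl 0 x) 0 := by
          rw [refl_apply]; simpa only [Fin.isValue, ↓reduceIte, Left.neg_pos_iff] using h4
        have h6 := h2 h5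
        linarith only [h3, h6]
      · have h5 : refl 0 x = x := by
          ext i
          rw [refl_apply]
          split_ifs with hi
          · rw [hi, h4, neg_zero]
          · rfl
        rw [h5] at h3
        linarith only [h3]
      · exact h1 h4
    have hz4 : ∫ x, φ x ^ 2 = 0 := by
      have : (fun x => φ x ^ 2) =ᵐ[volume] (fun _ => (0:ℝ)) := by
        filter_upwards [hz3] with x hx
        simp [hx]
      rw [integral_congr_ae this]; simp
    rw [e1] at hz4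
    linarith only [hw0, hz4]
  · filter_upwards [hφw, hwn] with x h1 h2
    rw [h1]; exact h2
  · intro ζ ζ' hζ
    exact weak_eq h.memV hsym hφ hφc he' hmin ζ ζ' hζ
  · intro D hD δ hδ θ hθ hθc hθ0
    have hF := h.fam
    have key := K16.main_all h hsym hc h2 hw hwc hw0 he hδ hθ hθc hθ0
    rw [K16.integral_JJ h.memV hF hδ hθ hθc] at key
    have hD2 : ∀ k, ∀ᵐ x, D k x = K16.PP f f' k x := by
      intro k
      have h3 := (K16.acl_rho hF k).congr h.rho (ae_eq_refl _)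
      filter_upwards [ACL_unique (hD k) h3] with x hx
      linarith only [hx]
    have f1 : ∫ x, (v x - e) * (θ x * (n x / (n x + δ))) =
        ∫ x, (v x - e) * (θ x * (rho f x / (rho f x + δ))) := by
      apply integral_congr_ae
      filter_upwards [h.rho] with x hx
      rw [hx]
    have f2 : ∀ k, ∫ x, D k x / (n x + δ) * fderiv ℝ θ x (dir3 k) =
        ∫ x, K16.qq f f' δ k x * fderiv ℝ θ x (dir3 k) := by
      intro k
      apply integral_congr_ae
      filter_upwards [h.rho, hD2 k] with x hx hx2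
      rw [K16.qq, hx, hx2]
    have f3 : ∀ k, ∫ x, θ x * (D k x / (n x + δ)) ^ 2 =
        ∫ x, θ x * K16.qq f f' δ k x ^ 2 := by
      intro k
      apply integral_congr_ae
      filter_upwards [h.rho, hD2 k] with x hx hx2
      rw [K16.qq, hx, hx2]
    rw [f1]
    simp only [f2, f3]
    linarith only [key]

end

end Vale.Agent.P363.KD
end
end

section

section

/-! KD17: orthonormality of the hydrogenic shell functions. -/

namespace Vale.Agent.P363.KD

open MeasureTheory Set Filter Topology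
open scoped ENNReal ContDiff

noncomputable section

/-- Reflection of a coordinate as an isometry. -/
def k17flip (k : Fin 3) : R3 ≃ₗᵢ[ℝ] R3 :=
  LinearIsometryEquiv.piLpCongrRight 2
    (fun i => if i = k then LinearIsometryEquiv.neg ℝ else LinearIsometryEquiv.refl ℝ ℝ)

theorem k17flip_apply (k i : Fin 3) (x : R3) :
    k17flip k x i = if i = k then - x i else x i := by
  simp only [k17flip, LinearIsometryEquiv.piLpCongrRight_apply]
  split_ifs <;> simp

/-- Exchange of coordinates `0` and `k` as an isometry. -/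
def k17swap (k : Fin 3) : R3 ≃ₗᵢ[ℝ] R3 :=
  LinearIsometryEquiv.piLpCongrLeft 2 ℝ ℝ (Equiv.swap 0 k)

theorem k17swap_apply (k i : Fin 3) (x : R3) :
    k17swap k x i = x (Equiv.swap 0 k i) := by
  simp only [k17swap, Fin.isValue, LinearIsometryEquiv.piLpCongrLeft_apply, Equiv.piCongrLeft'_apply, Equiv.symm_swap]

theorem k17_odd (k : Fin 3) (f : R3 → ℝ) (h : ∀ x, f (k17flip k x) = - f x) :
    ∫ x, f x = 0 := by
  have h1 := (k17flip k).measurePreserving.integral_comp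
    (k17flip k).toHomeomorph.measurableEmbedding f
  have h2 : ∫ x, f (k17flip k x) = - ∫ x, f x := by
    rw [← integral_neg]
    exact integral_congr_ae (ae_of_all _ h)
  have h3 : ∫ x, f (k17flip k x) = ∫ x, f x := h1
  linarith only [h1, h2]

theorem k17_radial (F : ℝ → ℝ) :
    ∫ x : R3, F ‖x‖ = 4 * Real.pi * ∫ r in Ioi (0 : ℝ), r ^ 2 * F r := by
  rw [integral_fun_norm_addHaar, nsmul_eq_mul, smul_eq_mul]
  have h1 : (volume : Measure R3).real (Metric.ball 0 1) = Real.pi * 4 / 3 := by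
    rw [Measure.real, EuclideanSpace.volume_ball_fin_three]
    rw [ENNReal.ofReal_one, one_pow, one_mul, ENNReal.toReal_ofReal (by positivity)]
  rw [h1]
  simp only [finrank_euclideanSpace, Fintype.card_fin, Nat.cast_ofNat, smul_eq_mul]
  norm_num
  ring

theorem k17_radial_int {F : ℝ → ℝ} (h : IntegrableOn (fun r => r ^ 2 * F r) (Ioi 0)) :
    Integrable (fun x : R3 => F ‖x‖) := by
  rw [integrable_fun_norm_addHaar]
  simpa only [finrank_euclideanSpace, Fintype.card_fin, Nat.add_one_sub_one, smul_eq_mul] using h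

theorem k17_pexp (k : ℕ) {b : ℝ} (hb : 0 < b) :
    IntegrableOn (fun r : ℝ => r ^ k * Real.exp (-(b * r))) (Ioi 0) ∧
      ∫ r in Ioi (0 : ℝ), r ^ k * Real.exp (-(b * r)) = k.factorial / b ^ (k + 1) := by
  have h1 := Real.integral_rpow_mul_exp_neg_mul_Ioi (a := (k : ℝ) + 1) (by positivity) hb
  rw [Real.Gamma_nat_eq_factorial] at h1
  have e : ∀ r : ℝ, r ^ ((k : ℝ) + 1 - 1) * Real.exp (-(b * r)) = r ^ k * Real.exp (-(b * r)) := by
    intro r
    rw [add_sub_cancel_right, Real.rpow_natCast]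
  simp only [e] at h1
  have h2 : (1 / b) ^ ((k : ℝ) + 1) * (k.factorial : ℝ) = k.factorial / b ^ (k + 1) := by
    have : ((k : ℝ) + 1) = ((k + 1 : ℕ) : ℝ) := by push_cast; ring
    rw [this, Real.rpow_natCast, one_div, inv_pow]
    field_simp
  rw [h2] at h1
  refine ⟨?_, h1⟩
  by_contra hn
  have h3 : ∫ r in Ioi (0 : ℝ), r ^ k * Real.exp (-(b * r)) = 0 := integral_undef hn
  rw [h3] at h1
  have : (0 : ℝ) < k.factorial / b ^ (k + 1) := by positivity
  linarith only [h1, this]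

/-- The radial functions used. -/
def k17E (b c0 c1 c2 r : ℝ) : ℝ := (c0 + c1 * r + c2 * r ^ 2) * Real.exp (-(b * r))

theorem k17E_int {b : ℝ} (hb : 0 < b) (c0 c1 c2 : ℝ) :
    Integrable (fun x : R3 => k17E b c0 c1 c2 ‖x‖) ∧
      ∫ x : R3, k17E b c0 c1 c2 ‖x‖ =
        4 * Real.pi * (c0 * (2 / b ^ 3) + c1 * (6 / b ^ 4) + c2 * (24 / b ^ 5)) := by
  obtain ⟨i2, v2⟩ := k17_pexp 2 hb
  obtain ⟨i3, v3⟩ := k17_pexp 3 hb
  obtain ⟨i4, v4⟩ := k17_pexp 4 hb
  have e : ∀ r : ℝ, r ^ 2 * k17E b c0 c1 c2 r = c0 * (r ^ 2 * Real.exp (-(b * r))) +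
      c1 * (r ^ 3 * Real.exp (-(b * r))) + c2 * (r ^ 4 * Real.exp (-(b * r))) := by
    intro r
    rw [k17E]
    ring
  have j2 := i2.const_mul c0
  have j3 := i3.const_mul c1
  have j4 := i4.const_mul c2
  constructor
  · apply k17_radial_int
    simp only [e]
    exact (j2.add j3).add j4
  · rw [k17_radial]
    simp only [e]
    have h1 := integral_add (j2.add j3) j4
    have h2 := integral_add j2 j3
    simp only [Pi.add_apply] at h1 h2
    rw [h1, h2, integral_const_mul,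
      integral_const_mul, integral_const_mul, v2, v3, v4]
    norm_num [Nat.factorial]

theorem k17_second (k : Fin 3) {G : ℝ → ℝ} (hG : Continuous G)
    (hi : Integrable (fun x : R3 => ‖x‖ ^ 2 * G ‖x‖)) :
    Integrable (fun x : R3 => x k * x k * G ‖x‖) ∧
      ∫ x : R3, x k * x k * G ‖x‖ = (1 / 3) * ∫ x : R3, ‖x‖ ^ 2 * G ‖x‖ := by
  have hint : ∀ k : Fin 3, Integrable (fun x : R3 => x k * x k * G ‖x‖) := by
    intro k
    refine hi.mono ?_ (ae_of_all _ fun x => ?_)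
    · apply Continuous.aestronglyMeasurable
      fun_prop
    · rw [norm_mul, norm_mul, norm_mul, norm_pow, norm_norm]
      refine mul_le_mul_of_nonneg_right ?_ (norm_nonneg _)
      have := PiLp.norm_apply_le x k
      linarith only [mul_nonneg (sub_nonneg.2 this) (sub_nonneg.2 (norm_nonneg (x k))), mul_nonneg (sub_nonneg.2 this) (sub_nonneg.2 this)]
  have hsw : ∀ k : Fin 3, ∫ x : R3, x k * x k * G ‖x‖ = ∫ x : R3, x 0 * x 0 * G ‖x‖ := by
    intro k
    have h1 := (k17swap k).measurePreserving.integral_comp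
      (k17swap k).toHomeomorph.measurableEmbedding (fun x : R3 => x k * x k * G ‖x‖)
    rw [← h1]
    refine integral_congr_ae (ae_of_all _ fun x => ?_)
    simp only [k17swap_apply, Equiv.swap_apply_right, LinearIsometryEquiv.norm_map]
  refine ⟨hint k, ?_⟩
  have hs : ∫ x : R3, ‖x‖ ^ 2 * G ‖x‖ = ∑ k : Fin 3, ∫ x : R3, x k * x k * G ‖x‖ := by
    rw [← integral_finsetSum _ fun k _ => hint k]
    refine integral_congr_ae (ae_of_all _ fun x => ?_)
    simp only
    rw [EuclideanSpace.norm_sq_eq, Finset.sum_mul]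
    refine Finset.sum_congr rfl fun k _ => ?_
    rw [Real.norm_eq_abs, sq_abs, pow_two]
  rw [hs, Fin.sum_univ_three, hsw k, hsw 1, hsw 2]
  ring

theorem k17_chi (k : Fin 3) :
    chi k.succ.succ = fun x => x k * Real.exp (-‖x‖ / 2) / √(32 * Real.pi) := by
  fin_cases k <;> rfl

theorem k17_s : √Real.pi * √Real.pi = Real.pi := Real.mul_self_sqrt Real.pi_pos.le

theorem k17_K : √(32 * Real.pi) * √(32 * Real.pi) = 32 * Real.pi :=
  Real.mul_self_sqrt (by positivity)

theorem k17_00 (x : R3) : chi 0 x * chi 0 x = k17E 2 (1 / Real.pi) 0 0 ‖x‖ := by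
  have h : Real.exp (-‖x‖) * Real.exp (-‖x‖) = Real.exp (-(2 * ‖x‖)) := by
    rw [← Real.exp_add]
    ring_nf
  change Real.exp (-‖x‖) / √Real.pi * (Real.exp (-‖x‖) / √Real.pi) = _
  rw [div_mul_div_comm, k17_s, h, k17E]
  ring

theorem k17_01 (x : R3) : chi 0 x * chi 1 x =
    k17E (3 / 2) (2 / (√Real.pi * √(32 * Real.pi))) (-1 / (√Real.pi * √(32 * Real.pi))) 0 ‖x‖ := by
  have h : Real.exp (-‖x‖) * Real.exp (-‖x‖ / 2) = Real.exp (-(3 / 2 * ‖x‖)) := by
    rw [← Real.exp_add]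
    ring_nf
  change Real.exp (-‖x‖) / √Real.pi * ((2 - ‖x‖) * Real.exp (-‖x‖ / 2) / √(32 * Real.pi)) = _
  rw [div_mul_div_comm, k17E, ← h]
  ring

theorem k17_11 (x : R3) : chi 1 x * chi 1 x =
    k17E 1 (4 / (32 * Real.pi)) (-4 / (32 * Real.pi)) (1 / (32 * Real.pi)) ‖x‖ := by
  have h : Real.exp (-‖x‖ / 2) * Real.exp (-‖x‖ / 2) = Real.exp (-(1 * ‖x‖)) := by
    rw [← Real.exp_add]
    ring_nf
  change (2 - ‖x‖) * Real.exp (-‖x‖ / 2) / √(32 * Real.pi) *
    ((2 - ‖x‖) * Real.exp (-‖x‖ / 2) / √(32 * Real.pi)) = _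
  rw [div_mul_div_comm, k17_K, k17E, ← h]
  ring

theorem k17_kl (k l : Fin 3) (x : R3) : chi k.succ.succ x * chi l.succ.succ x =
    x k * x l * (Real.exp (-(1 * ‖x‖)) * (1 / (32 * Real.pi))) := by
  have h : Real.exp (-‖x‖ / 2) * Real.exp (-‖x‖ / 2) = Real.exp (-(1 * ‖x‖)) := by
    rw [← Real.exp_add]
    ring_nf
  rw [k17_chi, k17_chi]
  simp only
  rw [div_mul_div_comm, k17_K, ← h]
  ring

theorem k17_00' : ∫ x, chi 0 x * chi 0 x = 1 := by
  simp only [k17_00]
  rw [(k17E_int (by norm_num) _ _ _).2]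
  field_simp
  norm_num

theorem k17_01' : ∫ x, chi 0 x * chi 1 x = 0 := by
  simp only [k17_01]
  rw [(k17E_int (by norm_num) _ _ _).2]
  ring

theorem k17_11' : ∫ x, chi 1 x * chi 1 x = 1 := by
  simp only [k17_11]
  rw [(k17E_int (by norm_num) _ _ _).2]
  field_simp
  norm_num

theorem k17_second' (k : Fin 3) :
    Integrable (fun x : R3 => x k * x k * (Real.exp (-(1 * ‖x‖)) * (1 / (32 * Real.pi)))) ∧
    ∫ x : R3, x k * x k * (Real.exp (-(1 * ‖x‖)) * (1 / (32 * Real.pi))) = 1 := by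
  have e : ∀ x : R3, ‖x‖ ^ 2 * (Real.exp (-(1 * ‖x‖)) * (1 / (32 * Real.pi))) =
      k17E 1 0 0 (1 / (32 * Real.pi)) ‖x‖ := by
    intro x
    rw [k17E]
    ring
  have h := k17E_int (b := 1) (by norm_num) 0 0 (1 / (32 * Real.pi))
  simp only [← e] at h
  have h2 := k17_second k (G := fun r => Real.exp (-(1 * r)) * (1 / (32 * Real.pi)))
    (by fun_prop) h.1
  refine ⟨h2.1, h2.2.trans ?_⟩
  rw [h.2]
  field_simp
  (clear * -; norm_num)

theorem k17_cont (a : Fin 5) : Continuous (chi a) := by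
  refine Fin.cases ?_ (fun a => Fin.cases ?_ (fun k => ?_) a) a
  · change Continuous fun x : R3 => Real.exp (-‖x‖) / √Real.pi
    fun_prop
  · change Continuous fun x : R3 => (2 - ‖x‖) * Real.exp (-‖x‖ / 2) / √(32 * Real.pi)
    fun_prop
  · rw [k17_chi]
    fun_prop

/-- KD17. Orthonormality and membership of the shell functions. -/
theorem chi_orth : (∀ a, MemLp (chi a) 2 volume) ∧
    ∀ a b, ∫ x, chi a x * chi b x = if a = b then 1 else 0 := by
  constructor
  · intro a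
    rw [memLp_two_iff_integrable_sq (k17_cont a).aestronglyMeasurable]
    simp only [pow_two]
    refine Fin.cases ?_ (fun a => Fin.cases ?_ (fun k => ?_) a) a
    · simp only [k17_00]
      exact (k17E_int (by norm_num) _ _ _).1
    · change Integrable fun x => chi 1 x * chi 1 x
      simp only [k17_11]
      exact (k17E_int (by norm_num) _ _ _).1
    · simp only [k17_kl]
      exact (k17_second' k).1
  · have h0k : ∀ k : Fin 3, ∫ x, chi 0 x * chi k.succ.succ x = 0 := by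
      intro k
      refine k17_odd k _ fun x => ?_
      rw [k17_chi]
      change Real.exp (-‖k17flip k x‖) / √Real.pi * _ = -(Real.exp (-‖x‖) / √Real.pi * _)
      simp only [LinearIsometryEquiv.norm_map, k17flip_apply, if_true]
      ring
    have h1k : ∀ k : Fin 3, ∫ x, chi 1 x * chi k.succ.succ x = 0 := by
      intro k
      refine k17_odd k _ fun x => ?_
      rw [k17_chi]
      change (2 - ‖k17flip k x‖) * Real.exp (-‖k17flip k x‖ / 2) / √(32 * Real.pi) * _ =
        -((2 - ‖x‖) * Real.exp (-‖x‖ / 2) / √(32 * Real.pi) * _)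
      simp only [LinearIsometryEquiv.norm_map, k17flip_apply, if_true]
      ring
    have hkl : ∀ k l : Fin 3, k ≠ l → ∫ x, chi k.succ.succ x * chi l.succ.succ x = 0 := by
      intro k l hkl
      simp only [k17_kl]
      refine k17_odd k _ fun x => ?_
      simp only [LinearIsometryEquiv.norm_map, k17flip_apply, if_true, if_neg hkl.symm]
      ring
    have hkk : ∀ k : Fin 3, ∫ x, chi k.succ.succ x * chi k.succ.succ x = 1 := by
      intro k
      simp only [k17_kl]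
      exact (k17_second' k).2
    have comm : ∀ a b : Fin 5, ∫ x, chi a x * chi b x = ∫ x, chi b x * chi a x := by
      intro a b
      simp only [mul_comm (chi a _)]
    intro a b
    refine Fin.cases ?_ (fun a => Fin.cases ?_ (fun k => ?_) a) a
    · refine Fin.cases ?_ (fun b => Fin.cases ?_ (fun l => ?_) b) b
      · rw [if_pos rfl, k17_00']
      · rw [if_neg (by decide)]
        exact k17_01'
      · rw [if_neg (Fin.succ_ne_zero _).symm, h0k]
    · refine Fin.cases ?_ (fun b => Fin.cases ?_ (fun l => ?_) b) b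
      · rw [if_neg (by decide), comm]
        exact k17_01'
      · rw [if_pos rfl]
        exact k17_11'
      · rw [if_neg fun h => (Fin.succ_ne_zero _).symm (Fin.succ_injective _ h)]
        exact h1k l
    · refine Fin.cases ?_ (fun b => Fin.cases ?_ (fun l => ?_) b) b
      · rw [if_neg (Fin.succ_ne_zero _), comm, h0k]
      · rw [if_neg fun h => (Fin.succ_ne_zero _) (Fin.succ_injective _ h), comm]
        exact h1k k
      · by_cases hk : k = l
        · subst hk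
          rw [if_pos rfl, hkk]
        · rw [if_neg fun h => hk (Fin.succ_injective _ (Fin.succ_injective _ h)), hkl k l hk]

end

end Vale.Agent.P363.KD
end
end

section

section

/-! KD18: a weight separating 2p_x. -/

namespace Vale.Agent.P363.KD

open MeasureTheory Set Filter Topology
open scoped ENNReal ContDiff

noncomputable section

theorem k18_refl_apply (k i : Fin 3) (x : R3) : (refl k x) i = if i = k then - x i else x i := by
  show (x - (2 * x k) • EuclideanSpace.single k (1 : ℝ)) i = _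
  by_cases h : i = k
  · subst h
    simp only [PiLp.sub_apply, PiLp.smul_apply, PiLp.single_eq_same, smul_eq_mul, mul_one, ↓reduceIte]
    ring
  · simp only [PiLp.sub_apply, PiLp.smul_apply, ne_eq, h, not_false_eq_true, PiLp.single_eq_of_ne, smul_eq_mul, mul_zero, sub_zero, ↓reduceIte]

theorem k18_norm_refl (k : Fin 3) (x : R3) : ‖refl k x‖ = ‖x‖ := by
  rw [EuclideanSpace.norm_eq, EuclideanSpace.norm_eq]
  congr 1
  refine Finset.sum_congr rfl fun i _ => ?_
  rw [k18_refl_apply]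
  by_cases h : i = k <;> simp only [h, ↓reduceIte, norm_neg, Real.norm_eq_abs, sq_abs]

theorem k18_refl_apply_sq (k i : Fin 3) (x : R3) : (refl k x) i ^ 2 = x i ^ 2 := by
  rw [k18_refl_apply]
  by_cases h : i = k <;> simp only [h, ↓reduceIte, even_two, Even.neg_pow]

theorem k18_chi_sq_refl (a : Fin 5) (k : Fin 3) (x : R3) : chi a (refl k x) ^ 2 = chi a x ^ 2 := by
  fin_cases a <;> simp [chi, k18_norm_refl, div_pow, mul_pow, k18_refl_apply_sq]

theorem k18_continuous_chi (a : Fin 5) : Continuous (chi a) := by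
  fin_cases a
  · show Continuous fun x : R3 => Real.exp (-‖x‖) / √Real.pi
    (clear * -; fun_prop)
  · show Continuous fun x : R3 => (2 - ‖x‖) * Real.exp (-‖x‖ / 2) / √(32 * Real.pi)
    fun_prop
  · show Continuous fun x : R3 => x 0 * Real.exp (-‖x‖ / 2) / √(32 * Real.pi)
    fun_prop
  · show Continuous fun x : R3 => x 1 * Real.exp (-‖x‖ / 2) / √(32 * Real.pi)
    fun_prop
  · show Continuous fun x : R3 => x 2 * Real.exp (-‖x‖ / 2) / √(32 * Real.pi)
    fun_prop

theorem k18_exp_half_bound {r y : ℝ} (hy : |y| ≤ 2 + r) : |y * Real.exp (-r / 2)| ≤ 2 := by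
  rw [abs_mul, abs_of_pos (Real.exp_pos _)]
  have h1 : 1 + r / 2 ≤ Real.exp (r / 2) := by
    have := Real.add_one_le_exp (r / 2)
    linarith only [this]
  have h2 : Real.exp (r / 2) * Real.exp (-r / 2) = 1 := by
    rw [← Real.exp_add, show r / 2 + -r / 2 = 0 by ring, Real.exp_zero]
  calc |y| * Real.exp (-r / 2) ≤ (2 + r) * Real.exp (-r / 2) := by (clear * - hy; gcongr)
    _ = 2 * ((1 + r / 2) * Real.exp (-r / 2)) := by ring
    _ ≤ 2 * (Real.exp (r / 2) * Real.exp (-r / 2)) := by gcongr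
    _ = 2 := by rw [h2, mul_one]

theorem k18_abs_div_sqrt_le {y s B : ℝ} (hs : 1 ≤ s) (hy : |y| ≤ B) : |y / √s| ≤ B := by
  have h1 : 1 ≤ √s := by
    rw [Real.one_le_sqrt]
    exact hs
  rw [abs_div, abs_of_nonneg (Real.sqrt_nonneg s)]
  exact (div_le_self (abs_nonneg y) h1).trans hy

theorem k18_abs_chi_le (a : Fin 5) (x : R3) : |chi a x| ≤ 2 := by
  have hp : 1 ≤ Real.pi := by
    have := Real.pi_gt_three
    linarith only [this]
  have hp2 : 1 ≤ 32 * Real.pi := by linarith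
  have hc : ∀ i, |x i| ≤ 2 + ‖x‖ := by
    intro i
    have := PiLp.norm_apply_le x i
    rw [Real.norm_eq_abs] at this
    linarith
  fin_cases a
  · show |Real.exp (-‖x‖) / √Real.pi| ≤ 2
    apply k18_abs_div_sqrt_le hp
    rw [abs_of_pos (Real.exp_pos _)]
    have : Real.exp (-‖x‖) ≤ 1 := Real.exp_le_one_iff.mpr (by simp only [Left.neg_nonpos_iff, norm_nonneg])
    linarith only [this]
  · show |(2 - ‖x‖) * Real.exp (-‖x‖ / 2) / √(32 * Real.pi)| ≤ 2
    apply k18_abs_div_sqrt_le hp2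
    apply k18_exp_half_bound
    have := norm_nonneg x
    rw [abs_le]
    constructor <;> linarith only [this]
  · exact k18_abs_div_sqrt_le hp2 (k18_exp_half_bound (hc 0))
  · exact k18_abs_div_sqrt_le hp2 (k18_exp_half_bound (hc 1))
  · exact k18_abs_div_sqrt_le hp2 (k18_exp_half_bound (hc 2))

/-- values on the axes -/
theorem k18_chi_axis (c : Fin 5 → ℝ) (h : ∀ x : R3, ∑ a, c a * chi a x ^ 2 = 0) (i : Fin 3) {t : ℝ}
    (ht : 0 ≤ t) :
    32 * c 0 * Real.exp (-t) ^ 2 + c 1 * (2 - t) ^ 2 * Real.exp (-t)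
      + c i.succ.succ * t ^ 2 * Real.exp (-t) = 0 := by
  have h1 := h (EuclideanSpace.single i t)
  have hn : ‖(EuclideanSpace.single i t : R3)‖ = t := by
    rw [PiLp.norm_single, Real.norm_of_nonneg ht]
  have he : Real.exp (-t / 2) ^ 2 = Real.exp (-t) := by
    rw [← Real.exp_nat_mul]
    congr 1
    push_cast
    ring
  have s1 : √Real.pi ^ 2 = Real.pi := Real.sq_sqrt Real.pi_pos.le
  have s2 : √(32 * Real.pi) ^ 2 = 32 * Real.pi := Real.sq_sqrt (by positivity)
  have hpi := Real.pi_pos.ne'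
  rw [Fin.sum_univ_five] at h1
  simp only [chi, Matrix.cons_val, hn, div_pow, s1, mul_pow, he, s2] at h1
  fin_cases i <;> simp at h1 ⊢ <;> field_simp at h1 ⊢ <;> linarith only [h1]

theorem k18_chi_indep (c : Fin 5 → ℝ) (h : ∀ x : R3, ∑ a, c a * chi a x ^ 2 = 0) : c = 0 := by
  set E : ℝ := Real.exp (-2) with hE
  have hE0 : 0 < E := Real.exp_pos _
  have hE1 : E < 1 := by rw [hE, Real.exp_lt_one_iff]; norm_num
  have e4 : Real.exp (-4) = E ^ 2 := by
    rw [hE, ← Real.exp_nat_mul]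
    norm_num
  have h0 : 32 * c 0 + 4 * c 1 = 0 := by
    have := k18_chi_axis c h 0 le_rfl
    simp only [Fin.isValue, neg_zero, Real.exp_zero, one_pow, mul_one, sub_zero, Nat.reduceAdd, Fin.succ_zero_eq_one, Fin.succ_one_eq_two, ne_eq, OfNat.ofNat_ne_zero, not_false_eq_true, zero_pow, mul_zero, add_zero] at this
    linarith only [this]
  have hi : ∀ i : Fin 3, c i.succ.succ = - 8 * c 0 * E := by
    intro i
    have := k18_chi_axis c h i (t := 2) (by norm_num)
    rw [← hE] at this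
    have h2 : E * (c i.succ.succ + 8 * c 0 * E) = 0 := by linarith only [this]
    rcases mul_eq_zero.mp h2 with h3 | h3
    · exact absurd h3 hE0.ne'
    · linarith only [h3]
  have h4 : c 0 = 0 := by
    have := k18_chi_axis c h 0 (t := 4) (by norm_num)
    rw [e4, hi 0] at this
    have h5 : c 0 * (E ^ 2 * (E ^ 2 - 1 - 4 * E)) = 0 := by
      have h6 : c 1 = - 8 * c 0 := by linarith only [h0]
      rw [h6] at this
      linarith
    rcases mul_eq_zero.mp h5 with h6 | h6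
    · exact h6
    · exfalso
      have h7 : 0 < E ^ 2 := by positivity
      have h8 : E ^ 2 - 1 - 4 * E < 0 := by (by_contra nlg; linarith [mul_pos (sub_pos.2 hE1) (sub_pos.2 hE1), mul_pos (sub_pos.2 hE0) (sub_pos.2 hE1), mul_pos (sub_pos.2 hE0) (sub_pos.2 hE0), mul_nonneg (sub_nonneg.2 (not_lt.1 nlg)) (le_of_lt (sub_pos.2 hE1)), mul_nonneg (sub_nonneg.2 (not_lt.1 nlg)) (le_of_lt (sub_pos.2 hE0))])
      exact absurd h6 (mul_neg_of_pos_of_neg h7 h8).ne
  have h1 : c 1 = 0 := by linarith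
  have h2 : ∀ i : Fin 3, c i.succ.succ = 0 := by
    intro i
    rw [hi, h4]
    ring
  funext a
  fin_cases a
  · exact h4
  · exact h1
  · exact h2 0
  · exact h2 1
  · exact h2 2

theorem k18_integrable_chi_sq_mul (a b : Fin 5) :
    Integrable (fun x => chi a x ^ 2 * chi b x ^ 2) volume := by
  have h1 : Integrable (fun x => chi b x ^ 2) volume := (chi_orth.1 b).integrable_sq
  refine h1.bdd_mul (c := 4) ((k18_continuous_chi a).pow 2).aestronglyMeasurable ?_
  refine Eventually.of_forall fun x => ?_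
  have := k18_abs_chi_le a x
  rw [Real.norm_eq_abs, abs_pow]
  linarith only [mul_nonneg (sub_nonneg.2 this) (sub_nonneg.2 (abs_nonneg (chi a x))), mul_nonneg (sub_nonneg.2 this) (sub_nonneg.2 this)]

/-- KD18. The squares of the shell functions can be separated: a bounded weight which sees
only `2p_x`. -/
theorem exists_weight : ∃ L : R3 → ℝ, Measurable L ∧ (∃ B, ∀ x, |L x| ≤ B) ∧
    (∀ x k, L (refl k x) = L x) ∧
    ∀ a, ∫ x, L x * chi a x ^ 2 = if a = 2 then 1 else 0 := by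
  set G : Matrix (Fin 5) (Fin 5) ℝ := fun a b => ∫ x, chi b x ^ 2 * chi a x ^ 2 with hG
  have key : ∀ (c : Fin 5 → ℝ) (a : Fin 5),
      ∫ x, (∑ b, c b * chi b x ^ 2) * chi a x ^ 2 = G.mulVec c a := by
    intro c a
    have h1 : ∀ x : R3, (∑ b, c b * chi b x ^ 2) * chi a x ^ 2
        = ∑ b, c b * (chi b x ^ 2 * chi a x ^ 2) := by
      intro x
      rw [Finset.sum_mul]
      exact Finset.sum_congr rfl fun b _ => by ring
    simp only [h1]
    rw [integral_finsetSum _ fun b _ => (k18_integrable_chi_sq_mul b a).const_mul (c b)]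
    simp only [integral_const_mul]
    unfold Matrix.mulVec dotProduct
    exact Finset.sum_congr rfl fun b _ => by rw [hG]; ring
  have hint : ∀ (c : Fin 5 → ℝ) (a : Fin 5),
      Integrable (fun x => (∑ b, c b * chi b x ^ 2) * chi a x ^ 2) volume := by
    intro c a
    have h1 : (fun x : R3 => (∑ b, c b * chi b x ^ 2) * chi a x ^ 2)
        = fun x => ∑ b, c b * (chi b x ^ 2 * chi a x ^ 2) := by
      funext x
      rw [Finset.sum_mul]
      exact Finset.sum_congr rfl fun b _ => by ring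
    rw [h1]
    exact integrable_finsetSum _ fun b _ => (k18_integrable_chi_sq_mul b a).const_mul (c b)
  have hinj : Function.Injective G.mulVecLin := by
    rw [← LinearMap.ker_eq_bot, LinearMap.ker_eq_bot']
    intro c hc
    apply k18_chi_indep
    have h0 : ∀ a, ∫ x, (∑ b, c b * chi b x ^ 2) * chi a x ^ 2 = 0 := by
      intro a
      rw [key]
      exact congrFun hc a
    have h1 : ∀ x : R3, (∑ b, c b * chi b x ^ 2) ^ 2
        = ∑ a, c a * ((∑ b, c b * chi b x ^ 2) * chi a x ^ 2) := by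
      intro x
      rw [sq, Finset.mul_sum]
      exact Finset.sum_congr rfl fun b _ => by ring
    have h2 : ∫ x : R3, (∑ b, c b * chi b x ^ 2) ^ 2 = 0 := by
      simp only [h1]
      rw [integral_finsetSum _ fun a _ => (hint c a).const_mul (c a)]
      simp only [integral_const_mul, h0, mul_zero, Finset.sum_const_zero]
    have h3 : Integrable (fun x : R3 => (∑ b, c b * chi b x ^ 2) ^ 2) volume := by
      simp only [h1]
      exact integrable_finsetSum _ fun a _ => (hint c a).const_mul (c a)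
    rw [integral_eq_zero_iff_of_nonneg (fun x => sq_nonneg _) h3] at h2
    have hcont : Continuous fun x : R3 => (∑ b, c b * chi b x ^ 2) ^ 2 :=
      (continuous_finsetSum _ fun b _ => ((k18_continuous_chi b).pow 2).const_mul (c b)).pow 2
    have h4 := (hcont.ae_eq_iff_eq volume (continuous_const (y := (0 : ℝ)))).mp h2
    intro x
    exact pow_eq_zero_iff (two_ne_zero) |>.mp (congrFun h4 x)
  have hsurj : Function.Surjective G.mulVecLin := LinearMap.injective_iff_surjective.mp hinj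
  obtain ⟨c, hc⟩ := hsurj (fun a => if a = 2 then 1 else 0)
  refine ⟨fun x => ∑ b, c b * chi b x ^ 2, ?_, ⟨∑ b, |c b| * 4, fun x => ?_⟩, fun x k => ?_,
    fun a => ?_⟩
  · exact (continuous_finsetSum _ fun b _ => ((k18_continuous_chi b).pow 2).const_mul (c b)).measurable
  · refine (Finset.abs_sum_le_sum_abs _ _).trans (Finset.sum_le_sum fun b _ => ?_)
    rw [abs_mul, abs_pow]
    have := k18_abs_chi_le b x
    gcongr
    linarith [mul_nonneg (sub_nonneg.2 this) (sub_nonneg.2 (abs_nonneg (chi b x))), mul_nonneg (sub_nonneg.2 this) (sub_nonneg.2 this)]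
  · simp only [k18_chi_sq_refl]
  · rw [key]
    exact congrFun hc a

end

end Vale.Agent.P363.KD
end
end

section

section

/-! KD19: occupation of the odd class. -/

namespace Vale.Agent.P363.KD

open MeasureTheory Set Filter Topology
open scoped ENNReal ContDiff

noncomputable section

namespace K19

/-- Coefficients on the shell. -/
def cf19 (u : R3 → ℝ) (a : Fin 5) : ℝ := ∫ x, chi a x * u x

lemma int_mul2_19 {u v : R3 → ℝ} (hu : MemLp u 2 volume) (hv : MemLp v 2 volume) :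
    Integrable (fun x => u x * v x) volume := hu.integrable_mul hv

lemma int_sq2 {u : R3 → ℝ} (hu : MemLp u 2 volume) :
    Integrable (fun x => u x ^ 2) volume := by
  have := int_mul2_19 hu hu
  simpa only [sq] using this

lemma int_wmul2 {w : R3 → ℝ} (hw : Measurable w) {B : ℝ} (hB : ∀ x, |w x| ≤ B)
    {g : R3 → ℝ} (hg : Integrable g volume) :
    Integrable (fun x => w x * g x) volume :=
  hg.bdd_mul hw.aestronglyMeasurable (Eventually.of_forall hB)

lemma memLp_comb (c : Fin 5 → ℝ) : MemLp (fun x => ∑ a, c a * chi a x) 2 volume :=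
  memLp_finsetSum _ (fun a _ => (chi_orth.1 a).const_mul (c a))

lemma int_w_comb {w : R3 → ℝ} (hw : Measurable w) {B : ℝ} (hB : ∀ x, |w x| ≤ B)
    (c : Fin 5 → ℝ) :
    ∫ x, w x * (∑ a, c a * chi a x) ^ 2 = ∑ a, ∑ b, c a * c b * ∫ x, w x * (chi a x * chi b x) := by
  have h1 : ∀ x, w x * (∑ a, c a * chi a x) ^ 2 =
      ∑ a, ∑ b, c a * c b * (w x * (chi a x * chi b x)) := by
    intro x
    rw [sq, Finset.sum_mul_sum, Finset.mul_sum]
    refine Finset.sum_congr rfl fun a _ => ?_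
    rw [Finset.mul_sum]
    refine Finset.sum_congr rfl fun b _ => ?_
    ring
  simp_rw [h1]
  have hint : ∀ a b, Integrable (fun x => c a * c b * (w x * (chi a x * chi b x))) volume :=
    fun a b => (int_wmul2 hw hB (int_mul2_19 (chi_orth.1 a) (chi_orth.1 b))).const_mul _
  rw [integral_finsetSum _ (fun a _ => integrable_finsetSum _ (fun b _ => hint a b))]
  refine Finset.sum_congr rfl fun a _ => ?_
  rw [integral_finsetSum _ (fun b _ => hint a b)]
  refine Finset.sum_congr rfl fun b _ => ?_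
  rw [integral_const_mul]

lemma int_comb_sq (c : Fin 5 → ℝ) : ∫ x, (∑ a, c a * chi a x) ^ 2 = ∑ a, c a ^ 2 := by
  have h := int_w_comb (w := fun _ => 1) measurable_const (B := 1) (fun x => by simp) c
  simp only [one_mul] at h
  rw [h]
  refine Finset.sum_congr rfl fun a _ => ?_
  simp only [chi_orth.2, mul_ite, mul_one, mul_zero, Finset.sum_ite_eq, Finset.mem_univ, if_true]
  ring

lemma int_mul_comb {u : R3 → ℝ} (hu : MemLp u 2 volume) (c : Fin 5 → ℝ) :
    ∫ x, u x * (∑ a, c a * chi a x) = ∑ a, c a * cf19 u a := by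
  have h1 : ∀ x, u x * (∑ a, c a * chi a x) = ∑ a, c a * (chi a x * u x) := by
    intro x
    rw [Finset.mul_sum]
    refine Finset.sum_congr rfl fun a _ => ?_
    ring
  simp_rw [h1]
  rw [integral_finsetSum _ (fun a _ => (int_mul2_19 (chi_orth.1 a) hu).const_mul _)]
  refine Finset.sum_congr rfl fun a _ => ?_
  rw [integral_const_mul, cf19]

/-- Remainder of the projection. -/
lemma int_rem {u : R3 → ℝ} (hu : MemLp u 2 volume) :
    ∫ x, (u x - ∑ a, cf19 u a * chi a x) ^ 2 = (∫ x, u x ^ 2) - ∑ a, cf19 u a ^ 2 := by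
  have h1 : ∀ x, (u x - ∑ a, cf19 u a * chi a x) ^ 2 =
      u x ^ 2 - 2 * (u x * ∑ a, cf19 u a * chi a x) + (∑ a, cf19 u a * chi a x) ^ 2 := by
    intro x; ring
  simp_rw [h1]
  have i1 := int_sq2 hu
  have i2 := (int_mul2_19 hu (memLp_comb (cf19 u))).const_mul 2
  have i3 := int_sq2 (memLp_comb (cf19 u))
  have e1 := integral_add (i1.sub i2) i3
  have e2 := integral_sub i1 i2
  simp only [Pi.sub_apply] at e1
  rw [e1, e2, integral_const_mul, int_mul_comb hu, int_comb_sq]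
  have : ∑ a, cf19 u a * cf19 u a = ∑ a, cf19 u a ^ 2 :=
    Finset.sum_congr rfl fun a _ => by ring
  rw [this]
  ring

lemma bessel {u : R3 → ℝ} (hu : MemLp u 2 volume) : ∑ a, cf19 u a ^ 2 ≤ ∫ x, u x ^ 2 := by
  have h := int_rem hu
  have h2 : 0 ≤ ∫ x, (u x - ∑ a, cf19 u a * chi a x) ^ 2 := integral_nonneg fun x => sq_nonneg _
  linarith only [h, h2]

lemma weight_close {w : R3 → ℝ} (hw : Measurable w) {B : ℝ} (hB : ∀ x, |w x| ≤ B)
    {u : R3 → ℝ} (hu : MemLp u 2 volume) {s : ℝ} (hs : 0 < s) :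
    |(∫ x, w x * u x ^ 2) -
      ∑ a, ∑ b, cf19 u a * cf19 u b * ∫ x, w x * (chi a x * chi b x)| ≤
      B * (s * (∑ a, cf19 u a ^ 2) + (1 + 1 / s) * ((∫ x, u x ^ 2) - ∑ a, cf19 u a ^ 2)) := by
  set p : R3 → ℝ := fun x => ∑ a, cf19 u a * chi a x with hp
  have hpm : MemLp p 2 volume := memLp_comb (cf19 u)
  have hr : MemLp (fun x => u x - p x) 2 volume := hu.sub hpm
  have e1 : ∑ a, ∑ b, cf19 u a * cf19 u b * ∫ x, w x * (chi a x * chi b x) = ∫ x, w x * p x ^ 2 :=
    (int_w_comb hw hB (cf19 u)).symm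
  have e2 : ∑ a, cf19 u a ^ 2 = ∫ x, p x ^ 2 := (int_comb_sq (cf19 u)).symm
  have e3 : (∫ x, u x ^ 2) - ∑ a, cf19 u a ^ 2 = ∫ x, (u x - p x) ^ 2 := (int_rem hu).symm
  rw [e1, e3, e2]
  have j1 := int_wmul2 hw hB (int_sq2 hu)
  have j2 := int_wmul2 hw hB (int_sq2 hpm)
  rw [← integral_sub j1 j2, ← integral_const_mul, ← integral_const_mul,
    ← integral_add ((int_sq2 hpm).const_mul s) ((int_sq2 hr).const_mul (1 + 1 / s)),
    ← integral_const_mul]
  refine (abs_integral_le_integral_abs).trans ?_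
  have hmono : ∀ x, |w x * u x ^ 2 - w x * p x ^ 2| ≤
      B * (s * p x ^ 2 + (1 + 1 / s) * (u x - p x) ^ 2) := by
    intro x
    have h1 : w x * u x ^ 2 - w x * p x ^ 2 = w x * (2 * p x * (u x - p x) + (u x - p x) ^ 2) := by
      ring
    rw [h1, abs_mul]
    have h2 : |2 * p x * (u x - p x) + (u x - p x) ^ 2| ≤
        s * p x ^ 2 + (1 + 1 / s) * (u x - p x) ^ 2 := by
      have h3 : 0 ≤ (s * p x + (u x - p x)) ^ 2 / s := by (clear * - hs; positivity)
      have h4 : 0 ≤ (s * p x - (u x - p x)) ^ 2 / s := by (clear * - hs; positivity)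
      have h5 : (s * p x + (u x - p x)) ^ 2 / s =
          s * p x ^ 2 + 2 * p x * (u x - p x) + 1 / s * (u x - p x) ^ 2 := by
        field_simp
        ring
      have h6 : (s * p x - (u x - p x)) ^ 2 / s =
          s * p x ^ 2 - 2 * p x * (u x - p x) + 1 / s * (u x - p x) ^ 2 := by
        field_simp
        ring
      rw [h5] at h3
      rw [h6] at h4
      rw [abs_le]
      constructor <;> nlinarith only [h3, h4]
    exact mul_le_mul (hB x) h2 (abs_nonneg _) ((abs_nonneg _).trans (hB x))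
  refine integral_mono_of_nonneg (Eventually.of_forall fun x => abs_nonneg _) ?_
    (Eventually.of_forall hmono)
  exact (((int_sq2 hpm).const_mul s).add ((int_sq2 hr).const_mul (1 + 1 / s))).const_mul B

lemma chi_refl (a : Fin 5) (k : Fin 3) (x : R3) :
    chi a (refl k x) = if (a : ℕ) = (k : ℕ) + 2 then - chi a x else chi a x := by
  fin_cases a <;> fin_cases k <;> simp [chi, norm_refl, refl_apply, neg_div]

lemma odd_zero {g : R3 → ℝ} (k : Fin 3) (h : ∀ᵐ x, g (refl k x) = - g x) : ∫ x, g x = 0 := by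
  have h1 := integral_refl k g
  rw [integral_congr_ae h, integral_neg] at h1
  linarith only [h1]

lemma Lab_zero {L : R3 → ℝ} (hL : ∀ x k, L (refl k x) = L x) {a b : Fin 5} {k : Fin 3}
    (ha : (a : ℕ) = (k : ℕ) + 2) (hb : (b : ℕ) ≠ (k : ℕ) + 2) :
    ∫ x, L x * (chi a x * chi b x) = 0 := by
  refine odd_zero k (Eventually.of_forall fun x => ?_)
  rw [hL, chi_refl, chi_refl, if_pos ha, if_neg hb]
  ring

/-- The weighted Gram form. -/
lemma gram {L : R3 → ℝ} (hL : ∀ x k, L (refl k x) = L x)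
    (hd : ∀ a, ∫ x, L x * chi a x ^ 2 = if a = 2 then 1 else 0) (c : Fin 5 → ℝ) :
    ∑ a, ∑ b, c a * c b * ∫ x, L x * (chi a x * chi b x) =
      c 2 ^ 2 + 2 * (∫ x, L x * (chi 0 x * chi 1 x)) * (c 0 * c 1) := by
  have hs : ∀ a b : Fin 5, ∫ x, L x * (chi a x * chi b x) = ∫ x, L x * (chi b x * chi a x) := by
    intro a b
    refine integral_congr_ae (Eventually.of_forall fun x => ?_)
    simp only [mul_comm (chi a x)]
  have hdd : ∀ a : Fin 5, ∫ x, L x * (chi a x * chi a x) = if a = 2 then 1 else 0 := by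
    intro a
    rw [← hd a]
    refine integral_congr_ae (Eventually.of_forall fun x => ?_)
    simp only [sq]
  have h02 := Lab_zero hL (a := 2) (b := 0) (k := 0) rfl (by decide)
  have h12 := Lab_zero hL (a := 2) (b := 1) (k := 0) rfl (by decide)
  have h23 := Lab_zero hL (a := 2) (b := 3) (k := 0) rfl (by decide)
  have h24 := Lab_zero hL (a := 2) (b := 4) (k := 0) rfl (by decide)
  have h03 := Lab_zero hL (a := 3) (b := 0) (k := 1) rfl (by decide)
  have h13 := Lab_zero hL (a := 3) (b := 1) (k := 1) rfl (by decide)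
  have h34 := Lab_zero hL (a := 3) (b := 4) (k := 1) rfl (by decide)
  have h04 := Lab_zero hL (a := 4) (b := 0) (k := 2) rfl (by decide)
  have h14 := Lab_zero hL (a := 4) (b := 1) (k := 2) rfl (by decide)
  have d0 := hdd 0
  have d1 := hdd 1
  have d2 := hdd 2
  have d3 := hdd 3
  have d4 := hdd 4
  rw [if_neg (by decide)] at d0 d1 d3 d4
  rw [if_pos rfl] at d2
  simp only [Fin.sum_univ_five]
  rw [hs 0 2, hs 1 2, hs 3 2, hs 4 2, hs 0 3, hs 1 3, hs 4 3, hs 0 4, hs 1 4, hs 1 0,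
    h02, h12, h23, h24, h03, h13, h34, h04, h14, d0, d1, d2, d3, d4]
  ring

lemma cf_zero {u : R3 → ℝ} {s : Bool} {a : Fin 5} {k : Fin 3}
    (hu : ∀ᵐ x, u (refl k x) = if s then - u x else u x)
    (h : s ≠ decide ((a : ℕ) = (k : ℕ) + 2)) : cf19 u a = 0 := by
  unfold cf19
  refine odd_zero k ?_
  filter_upwards [hu] with x hx
  rw [hx, chi_refl]
  by_cases h1 : (a : ℕ) = (k : ℕ) + 2
  · simp only [h1, decide_true, ne_eq, Bool.not_eq_true] at h
    subst h
    rw [if_pos h1]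
    simp
  · simp only [h1, decide_false, ne_eq, Bool.not_eq_false] at h
    subst h
    rw [if_neg h1]
    simp

lemma memV_v0_19 : MemV v0 := by
  refine memV_of_bound (M := 1) (fun _ => 0) (v := v0) ?_ (C := 1) (Eventually.of_forall fun x => ?_)
  · unfold v0
    exact (by fun_prop : Measurable fun x : R3 => -(1 / ‖x‖)).aestronglyMeasurable
  · unfold v0 Kw
    simp only [abs_neg, Finset.univ_unique, sub_zero, Finset.sum_const, Finset.card_singleton, one_smul, one_mul]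
    rw [abs_of_nonneg (by positivity)]
    linarith only []

lemma int_L_n0 {L : R3 → ℝ} (hLm : Measurable L) {B : ℝ} (hB : ∀ x, |L x| ≤ B)
    (hLd : ∀ a, ∫ x, L x * chi a x ^ 2 = if a = 2 then 1 else 0) (q : Fin 4 → ℝ) :
    Integrable (n0 q) volume ∧ ∫ x, L x * n0 q x = q 1 := by
  have hi : ∀ a, Integrable (fun x => chi a x ^ 2) volume := fun a => int_sq2 (chi_orth.1 a)
  have hLi : ∀ a, Integrable (fun x => L x * chi a x ^ 2) volume :=
    fun a => int_wmul2 hLm hB (hi a)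
  refine ⟨?_, ?_⟩
  · unfold n0
    exact ((hi 0).const_mul 2).add (integrable_finsetSum _ fun a _ => (hi a.succ).const_mul (q a))
  · have h1 : ∀ x, L x * n0 q x = 2 * (L x * chi 0 x ^ 2) +
        ∑ a : Fin 4, q a * (L x * chi a.succ x ^ 2) := by
      intro x
      unfold n0
      rw [mul_add, Finset.mul_sum]
      congr 1
      · ring
      · exact Finset.sum_congr rfl fun a _ => by ring
    simp_rw [h1]
    rw [integral_add ((hLi 0).const_mul 2)
      (integrable_finsetSum _ fun a _ => (hLi a.succ).const_mul (q a)),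
      integral_finsetSum _ fun a _ => (hLi a.succ).const_mul (q a), integral_const_mul, hLd]
    simp only [integral_const_mul, hLd, Fin.sum_univ_four]
    rw [if_neg (by decide), if_neg (by decide), if_pos (by decide), if_neg (by decide),
      if_neg (by decide)]
    ring

/-- Arithmetic: energy bounds. -/
theorem arith_energy {N0 S C E s : ℝ} (hC : C = 4 - (N0 + S)) (hN0 : N0 ≤ 2) (hC0 : 0 ≤ C)
    (hen : -(1 / 2) * N0 - 1 / 8 * S - 1 / 18 * C ≤ E) (hE : E ≤ -(5 / 4) + s) :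
    2 - N0 ≤ 3 * s ∧ C ≤ 15 * s := by
  have h1 : S = 4 - N0 - C := by linarith only [hC]
  subst h1
  constructor <;> linarith only [hN0, hC0, hE, hen]

/-- Arithmetic: the mixed term. -/
theorem arith_mixed {N0 N1 M s : ℝ} (hs : 0 < s) (hN1 : 0 ≤ N1)
    (hd1 : 2 - N0 ≤ 3 * s ^ 2)
    (hP : ∀ x : ℝ, N0 * x ^ 2 + 2 * x * M + N1 ≤ 2 * (x ^ 2 + 1)) : |M| ≤ 3 * s := by
  have h1 : ∀ x : ℝ, 0 ≤ (2 - N0) * (x * x) + (-2 * M) * x + (2 - N1) := by
    intro x
    have := hP x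
    linarith
  have h2 := discrim_le_zero h1
  rw [discrim] at h2
  have h3 : M ^ 2 ≤ (2 - N0) * (2 - N1) := by linarith
  have h4 : (2 - N0) * (2 - N1) ≤ (3 * s ^ 2) * 2 :=
    mul_le_mul hd1 (by linarith) (by have := h1 0; linarith) (by positivity)
  refine abs_le_of_sq_le_sq ?_ (by positivity)
  (by_contra nlg; linarith [mul_nonneg (le_of_lt (sub_pos.2 (not_le.1 nlg))) (sub_nonneg.2 h4), mul_nonneg (le_of_lt (sub_pos.2 (not_le.1 nlg))) (sub_nonneg.2 h2), mul_pos (sub_pos.2 (not_le.1 nlg)) (sub_pos.2 (not_le.1 nlg)), mul_nonneg (sq_nonneg (3 * s : ℝ)) (le_of_lt (sub_pos.2 (not_le.1 nlg)))])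

/-- Arithmetic: the error bound. -/
theorem arith_err {B s T C : ℝ} (hB0 : 0 ≤ B) (hs0 : 0 < s) (hs1 : s ≤ 1) (hT : T ≤ 4)
    (hCs : C ≤ 15 * s ^ 2) : B * (s * T + (1 + 1 / s) * C) ≤ 34 * (B * s) := by
  have h2 : (1 + 1 / s) * C ≤ (1 + 1 / s) * (15 * s ^ 2) :=
    mul_le_mul_of_nonneg_left hCs (by (clear * - hs0; positivity))
  have h3 : (1 + 1 / s) * (15 * s ^ 2) = 15 * s ^ 2 + 15 * s := by
    field_simp
  have h4 : s ^ 2 ≤ s := by
    rw [sq]
    exact mul_le_of_le_one_left hs0.le hs1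
  have h6 : s * T ≤ s * 4 := mul_le_mul_of_nonneg_left hT hs0.le
  have h5 : s * T + (1 + 1 / s) * C ≤ 34 * s := by linarith only [h2, h3, h4, h6]
  calc _ ≤ B * (34 * s) := mul_le_mul_of_nonneg_left h5 hB0
    _ = 34 * (B * s) := by ring

/-- Arithmetic: conclusion. -/
theorem arith_final {B s η q1 R N2 C X O T L01 M : ℝ} (hB0 : 0 ≤ B) (hs0 : 0 < s) (hs1 : s ≤ 1)
    (hη1 : η ≤ q1) (hη2 : η ≤ 2 - q1) (hsη : (41 * B + 15) * s < η)
    (hT : T ≤ 4) (hCs : C ≤ 15 * s ^ 2) (hMs : |M| ≤ 3 * s) (hL : |L01| ≤ B)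
    (hR : |R - q1| ≤ B * s ^ 2) (hX : X = 2 * L01 * M)
    (hclose : |R - (N2 + X)| ≤ B * (s * T + (1 + 1 / s) * C))
    (ho1 : N2 ≤ O) (ho2 : O ≤ N2 + C) : 0 < O ∧ O < 2 := by
  have hk1 := arith_err hB0 hs0 hs1 hT hCs
  have hk2 : |X| ≤ 6 * (B * s) := by
    rw [hX, abs_mul, abs_mul, abs_of_pos (by norm_num : (0:ℝ) < 2)]
    calc 2 * |L01| * |M| ≤ 2 * B * (3 * s) :=
          mul_le_mul (mul_le_mul_of_nonneg_left hL (by norm_num)) hMs (abs_nonneg _)
            (by positivity)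
      _ = 6 * (B * s) := by ring
  have h4 : s ^ 2 ≤ s := by
    rw [sq]
    exact mul_le_of_le_one_left hs0.le hs1
  have hk3 : B * s ^ 2 ≤ B * s := mul_le_mul_of_nonneg_left h4 hB0
  have a1 := abs_le.1 hclose
  have a2 := abs_le.1 hk2
  have a3 := abs_le.1 hR
  have hfin : (41 * B + 15) * s = 41 * (B * s) + 15 * s := by ring
  rw [hfin] at hsη
  constructor <;> linarith only [hs0, hη1, hsη, ho1, hk1, hk3, a1, a2, a3, hη2, hCs, ho2, h4]

/-- Sum of weighted squares. -/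
theorem hasSum_weight {ι : Type} [Countable ι] {L : R3 → ℝ} {B : ℝ} {f : ι → R3 → ℝ}
    (hLm : Measurable L) (hB : ∀ x, |L x| ≤ B) (hm : ∀ i, MemLp (f i) 2 volume)
    (hs : Summable fun i => ∫ x, f i x ^ 2) :
    HasSum (fun i => ∫ x, L x * f i x ^ 2) (∫ x, L x * rho f x) := by
  have h1 := hasSum_integral_of_summable_integral_norm (μ := (volume : Measure R3))
    (F := fun i x => L x * f i x ^ 2) (fun i => int_wmul2 hLm hB (int_sq2 (hm i))) ?_
  · have h2 : ∀ x, ∑' i, L x * f i x ^ 2 = L x * rho f x := fun x => tsum_mul_left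
    simp_rw [h2] at h1
    exact h1
  · refine Summable.of_nonneg_of_le (fun i => integral_nonneg fun x => norm_nonneg _)
      (fun i => ?_) (hs.mul_left B)
    rw [← integral_const_mul]
    refine integral_mono_of_nonneg (Eventually.of_forall fun x => norm_nonneg _)
      ((int_sq2 (hm i)).const_mul B) (Eventually.of_forall fun x => ?_)
    simp only [norm_mul, Real.norm_eq_abs, abs_pow, sq_abs]
    exact mul_le_mul_of_nonneg_right (hB x) (sq_nonneg _)

/-- Bound of the mixed weight integral. -/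
theorem mixed_weight {L : R3 → ℝ} {B : ℝ} (hB0 : 0 ≤ B) (hB : ∀ x, |L x| ≤ B) :
    |∫ x, L x * (chi 0 x * chi 1 x)| ≤ B := by
  have h1 : |∫ x, L x * (chi 0 x * chi 1 x)| ≤ ∫ x, |L x * (chi 0 x * chi 1 x)| :=
    abs_integral_le_integral_abs
  refine h1.trans ?_
  have h2 : ∀ x, |L x * (chi 0 x * chi 1 x)| ≤ B * (1 / 2 * (chi 0 x ^ 2 + chi 1 x ^ 2)) := by
    intro x
    rw [abs_mul]
    refine mul_le_mul (hB x) ?_ (abs_nonneg _) hB0
    rw [abs_le]
    constructor <;> nlinarith only [sq_nonneg (chi 0 x + chi 1 x), sq_nonneg (chi 0 x - chi 1 x)]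
  have i0 := int_sq2 (chi_orth.1 0)
  have i1 := int_sq2 (chi_orth.1 1)
  have h3 := integral_mono_of_nonneg (μ := (volume : Measure R3))
    (Eventually.of_forall fun x => abs_nonneg _)
    (((i0.add i1).const_mul (1 / 2)).const_mul B) (Eventually.of_forall h2)
  refine h3.trans (le_of_eq ?_)
  simp only [Pi.add_apply]
  rw [integral_const_mul, integral_const_mul, integral_add i0 i1]
  have e0 := chi_orth.2 0 0
  have e1 := chi_orth.2 1 1
  rw [if_pos rfl] at e0 e1
  simp only [sq]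
  rw [e0, e1]
  ring

/-- Density difference under the weight. -/
theorem weight_diff {L : R3 → ℝ} {B δ : ℝ} {r n : R3 → ℝ} (hB0 : 0 ≤ B) (hLm : Measurable L)
    (hB : ∀ x, |L x| ≤ B) (hr : Integrable r) (hn : Integrable n)
    (hρ : ∫ x, |r x - n x| ≤ δ) : |(∫ x, L x * r x) - ∫ x, L x * n x| ≤ B * δ := by
  rw [← integral_sub (int_wmul2 hLm hB hr) (int_wmul2 hLm hB hn)]
  refine abs_integral_le_integral_abs.trans ?_
  have h1 : ∀ x, |L x * r x - L x * n x| ≤ B * |r x - n x| := by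
    intro x
    rw [← mul_sub, abs_mul]
    exact mul_le_mul_of_nonneg_right (hB x) (abs_nonneg _)
  have h2 := integral_mono_of_nonneg (μ := (volume : Measure R3))
    (Eventually.of_forall fun x => abs_nonneg _)
    ((hr.sub hn).abs.const_mul B) (Eventually.of_forall h1)
  refine h2.trans ?_
  simp only [Pi.sub_apply]
  rw [integral_const_mul]
  exact mul_le_mul_of_nonneg_left hρ hB0

end K19

open K19

/-- KD19. Occupation of the odd class from energy and density. -/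
theorem occ_of_close (hyd : HydIneq) {q : Fin 4 → ℝ} (hq0 : 0 < q 1) (hq2 : q 1 < 2) :
    ∃ δ : ℝ, 0 < δ ∧ ∀ (ι : Type) [Countable ι] (f : ι → R3 → ℝ) (f' : ι → Fin 3 → R3 → ℝ)
      (c : ι → Bool), IsFam f f' → tr f = 4 → Adapted c f → hE v0 f f' ≤ -(5 / 4) + δ →
      (∫ x, |rho f x - n0 q x| ≤ δ) → 0 < occX c f ∧ occX c f < 2 := by
  obtain ⟨L, hLm, ⟨B, hB⟩, hLr, hLd⟩ := exists_weight
  have hB0 : 0 ≤ B := (abs_nonneg _).trans (hB 0)
  obtain ⟨η, hη0, hη1, hη2⟩ : ∃ η : ℝ, 0 < η ∧ η ≤ q 1 ∧ η ≤ 2 - q 1 :=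
    ⟨min (q 1) (2 - q 1), lt_min hq0 (by linarith only [hq2]), min_le_left _ _, min_le_right _ _⟩
  obtain ⟨s, hs0, hs1, hsη⟩ : ∃ s : ℝ, 0 < s ∧ s ≤ 1 ∧ (41 * B + 15) * s < η := by
    have hK : 0 < 41 * B + 16 := by (clear * - hB0; positivity)
    refine ⟨η / (41 * B + 16), by (clear * - hη0 hB0; positivity), ?_, ?_⟩
    · rw [div_le_one hK]; linarith only [hq2, hB0, hη1]
    · rw [mul_div_assoc', div_lt_iff₀ hK]
      linarith
  refine ⟨s ^ 2, by (clear * - hs0; positivity), ?_⟩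
  intro ι _ f f' c hF htr hA hEn hρ
  have hm : ∀ i, MemLp (f i) 2 volume := fun i => (hF.h1 i).memLp
  set F : ι → ℝ := fun i => ∫ x, f i x ^ 2 with hFdef
  have hFs : HasSum F 4 := by
    have h1 := hF.sum0.hasSum
    have h2 : ∑' i, ∫ x, f i x ^ 2 = 4 := htr
    rw [h2] at h1
    exact h1
  set al : ι → Fin 5 → ℝ := fun i a => cf19 (f i) a with hal
  have hbes : ∀ i, ∑ a, al i a ^ 2 ≤ F i := fun i => bessel (hm i)
  have hle : ∀ i a, al i a ^ 2 ≤ F i := fun i a =>
    (Finset.single_le_sum (fun b _ => sq_nonneg (al i b)) (Finset.mem_univ a)).trans (hbes i)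
  have hsa : ∀ a, Summable fun i => al i a ^ 2 := fun a =>
    Summable.of_nonneg_of_le (fun i => sq_nonneg _) (fun i => hle i a) hFs.summable
  obtain ⟨N, hN⟩ : ∃ N : Fin 5 → ℝ, ∀ a, HasSum (fun i => al i a ^ 2) (N a) :=
    ⟨fun a => ∑' i, al i a ^ 2, fun a => (hsa a).hasSum⟩
  have hNall : HasSum (fun i => ∑ a, al i a ^ 2) (∑ a, N a) := hasSum_sum fun a _ => hN a
  have hR : HasSum (fun i => F i - ∑ a, al i a ^ 2) (4 - ∑ a, N a) := hFs.sub hNall
  have hC0 : 0 ≤ 4 - ∑ a, N a := hR.nonneg fun i => by linarith only [hbes i]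
  obtain ⟨C, hC⟩ : ∃ C, C = 4 - ∑ a, N a := ⟨_, rfl⟩
  rw [← hC] at hR hC0
  have hNnn : ∀ a, 0 ≤ N a := fun a => (hN a).nonneg fun i => sq_nonneg _
  -- the mixed sum
  have hs01 : Summable fun i => al i 0 * al i 1 := by
    refine Summable.of_norm_bounded ((hsa 0).add (hsa 1)) fun i => ?_
    rw [Real.norm_eq_abs, abs_le]
    constructor <;> nlinarith only []
  obtain ⟨M, hM⟩ : ∃ M : ℝ, HasSum (fun i => al i 0 * al i 1) M := ⟨_, hs01.hasSum⟩
  -- Pauli
  have hP : ∀ c0 c1 : ℝ, c0 ^ 2 * N 0 + 2 * (c0 * c1) * M + c1 ^ 2 * N 1 ≤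
      2 * (c0 ^ 2 + c1 ^ 2) := by
    intro c0 c1
    have h1 := hF.pauli _ (memLp_comb ![c0, c1, 0, 0, 0])
    rw [int_comb_sq] at h1
    have h2 : ∀ i, ∫ x, f i x * ∑ a, (![c0, c1, 0, 0, 0] : Fin 5 → ℝ) a * chi a x =
        c0 * al i 0 + c1 * al i 1 := by
      intro i
      rw [int_mul_comb (hm i), Fin.sum_univ_five]
      simp [hal]
    have h3 : HasSum (fun i => (∫ x, f i x * ∑ a, (![c0, c1, 0, 0, 0] : Fin 5 → ℝ) a *
        chi a x) ^ 2) (c0 ^ 2 * N 0 + 2 * (c0 * c1) * M + c1 ^ 2 * N 1) := by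
      have h4 := (((hN 0).mul_left (c0 ^ 2)).add (hM.mul_left (2 * (c0 * c1)))).add
        ((hN 1).mul_left (c1 ^ 2))
      refine h4.congr_fun fun i => ?_
      rw [h2]
      ring
    rw [h3.tsum_eq, Fin.sum_univ_five] at h1
    simpa only [Fin.isValue, ge_iff_le, Matrix.cons_val_zero, Matrix.cons_val_one, Matrix.cons_val, ne_eq,     OfNat.ofNat_ne_zero, not_false_eq_true, zero_pow, add_zero] using h1
  have hN0 : N 0 ≤ 2 := by have := hP 1 0; norm_num at this; linarith only [this]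
  -- energy
  have hEs := summable_hform memV_v0_19 hF
  have hen : -(1 / 2) * N 0 - 1 / 8 * (N 1 + N 2 + N 3 + N 4) - 1 / 18 * C ≤ hE v0 f f' := by
    have h1 := (((hN 0).mul_left (-(1 / 2))).sub
      (((((hN 1).add (hN 2)).add (hN 3)).add (hN 4)).mul_left (1 / 8))).sub (hR.mul_left (1 / 18))
    refine hasSum_le (fun i => ?_) h1 hEs.hasSum
    have h2 := hyd (f i) (f' i) (hF.h1 i)
    rw [Fin.sum_univ_four] at h2
    rw [Fin.sum_univ_five]
    have e1 : (Fin.succ 0 : Fin 5) = 1 := rfl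
    have e2 : (Fin.succ 1 : Fin 5) = 2 := rfl
    have e3 : (Fin.succ 2 : Fin 5) = 3 := rfl
    have e4 : (Fin.succ 3 : Fin 5) = 4 := rfl
    rw [e1, e2, e3, e4] at h2
    simp only [hal, hFdef, cf19]
    linarith
  rw [Fin.sum_univ_five] at hC
  obtain ⟨hd1, hCs⟩ := arith_energy (s := s ^ 2) (S := N 1 + N 2 + N 3 + N 4)
    (by rw [hC]; ring) hN0 hC0 hen hEn
  -- mixed term
  have hMs : |M| ≤ 3 * s := by
    refine arith_mixed hs0 (hNnn 1) hd1 fun x => ?_
    have := hP x 1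
    linarith only [this]
  -- the weight
  set L01 : ℝ := ∫ x, L x * (chi 0 x * chi 1 x) with hL01
  have hL01B : |L01| ≤ B := mixed_weight hB0 hB
  obtain ⟨hn0i, hn0⟩ := int_L_n0 hLm hB hLd q
  obtain ⟨-, hρi, -, -⟩ := hE_eq memV_v0_19 hF
  have hLρ : |(∫ x, L x * rho f x) - q 1| ≤ B * s ^ 2 := by
    rw [← hn0]
    exact weight_diff hB0 hLm hB hρi hn0i hρ
  have hsumL : HasSum (fun i => ∫ x, L x * f i x ^ 2) (∫ x, L x * rho f x) :=
    hasSum_weight hLm hB hm hFs.summable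
  have hclose : |(∫ x, L x * rho f x) - (N 2 + 2 * L01 * M)| ≤
      B * (s * (∑ a, N a) + (1 + 1 / s) * C) := by
    have h1 := hsumL.sub ((hN 2).add (hM.mul_left (2 * L01)))
    have h2 := ((hNall.mul_left s).add (hR.mul_left (1 + 1 / s))).mul_left B
    have h3 : ∀ i, |(∫ x, L x * f i x ^ 2) - (al i 2 ^ 2 + 2 * L01 * (al i 0 * al i 1))| ≤
        B * (s * (∑ a, al i a ^ 2) + (1 + 1 / s) * (F i - ∑ a, al i a ^ 2)) := by
      intro i
      have h4 := weight_close hLm hB (hm i) hs0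
      rw [gram hLr hLd] at h4
      exact h4
    rw [abs_le]
    constructor
    · refine hasSum_le (fun i => ?_) h2.neg h1
      exact (abs_le.1 (h3 i)).1
    · refine hasSum_le (fun i => ?_) h1 h2
      exact (abs_le.1 (h3 i)).2
  -- occupation
  have hox1 : ∀ i, al i 2 ^ 2 ≤ (if c i then ∫ x, f i x ^ 2 else 0) := by
    intro i
    split_ifs with h
    · exact hle i 2
    · have h2 : al i 2 = 0 := cf_zero (hA i) (by simpa only [Fin.isValue, Fin.coe_ofNat_eq_mod, Nat.reduceMod, Nat.zero_mod, zero_add, decide_true, ne_eq,     Bool.not_eq_true] using h)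
      rw [h2]
      norm_num
  have hox2 : ∀ i, (if c i then ∫ x, f i x ^ 2 else 0) ≤
      al i 2 ^ 2 + (F i - ∑ a, al i a ^ 2) := by
    intro i
    split_ifs with h
    · have h0 : al i 0 = 0 := cf_zero (hA i) (by rw [h]; decide)
      have h1 : al i 1 = 0 := cf_zero (hA i) (by rw [h]; decide)
      have h3 : al i 3 = 0 := cf_zero (hA i) (by rw [h]; decide)
      have h4 : al i 4 = 0 := cf_zero (hA i) (by rw [h]; decide)
      rw [Fin.sum_univ_five, h0, h1, h3, h4]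
      simp only [hFdef]
      linarith only []
    · have := hbes i
      have := sq_nonneg (al i 2)
      (clear hyd q hq0 hq2 L hLm B hB hLr hLd hB0 η hη0 hη1 hη2 s hs0 hs1 hsη c htr hA hEn hρ hFdef hFs hal hle hsa N hN hNall C hC0 hR hC hNnn hs01 M hM hP hN0 hEs hen hd1 hCs hMs L01 hL01 hL01B hn0i hn0 hρi hLρ hsumL hclose hox1 h; linarith)
  have hos : Summable fun i => (if c i then ∫ x, f i x ^ 2 else 0) :=
    Summable.of_nonneg_of_le (fun i => (sq_nonneg _).trans (hox1 i)) hox2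
      ((hN 2).add hR).summable
  have ho1 : N 2 ≤ occX c f := hasSum_le hox1 (hN 2) hos.hasSum
  have ho2 : occX c f ≤ N 2 + C := hasSum_le hox2 hos.hasSum ((hN 2).add hR)
  -- conclusion
  have hT : ∑ a, N a ≤ 4 := by
    rw [Fin.sum_univ_five]
    linarith only [hC0, hC]
  exact arith_final hB0 hs0 hs1 hη1 hη2 hsη hT hCs hMs hL01B hLρ rfl hclose ho1 ho2

end

end Vale.Agent.P363.KD
end
end

section

section

/-!
# P363, four electrons: block S, scaling
-/

namespace Vale.Agent.P363.D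

open MeasureTheory Set Filter Topology
open scoped ENNReal ContDiff

noncomputable section

theorem scal_inv (l : ℝ) (hl : 0 < l) (a : R3) : 1 / ‖l • a‖ = (1 / l) * (1 / ‖a‖) := by
  rw [norm_smul, Real.norm_eq_abs, abs_of_pos hl, one_div, mul_inv, one_div, one_div]

/-- The charges. -/
def scZ (Z A : ℕ) : Fin 3 → ℕ := ![Z, A, A]

/-- The positions. -/
def scR (Z : ℕ) (R : ℝ) : Fin 3 → R3 := ![0, (R / Z) • ez, -((R / Z) • ez)]

theorem ez_ne : (ez : R3) ≠ 0 := by
  intro h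
  have := congrArg (fun v : R3 => v 2) h
  simp [ez] at this

theorem scR_inj {Z : ℕ} (hZ : 0 < Z) {R : ℝ} (hR : 0 < R) : Function.Injective (scR Z R) := by
  have hZ' : (0 : ℝ) < Z := by exact_mod_cast hZ
  have hc : (R / Z : ℝ) ≠ 0 := by positivity
  have h1 : (R / Z : ℝ) • (ez : R3) ≠ 0 := smul_ne_zero hc ez_ne
  have h2 : (R / Z : ℝ) • (ez : R3) ≠ -((R / Z : ℝ) • ez) := by
    intro h
    have h3 : (2 : ℝ) • ((R / Z : ℝ) • (ez : R3)) = 0 := by
      rw [two_smul]
      nth_rewrite 2 [h]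
      simp
    exact h1 ((smul_eq_zero.mp h3).resolve_left two_ne_zero)
  have h3 : -((R / Z : ℝ) • (ez : R3)) ≠ 0 := neg_ne_zero.mpr h1
  have r0 : scR Z R 0 = 0 := rfl
  have r1 : scR Z R 1 = (R / Z) • ez := rfl
  have r2 : scR Z R 2 = -((R / Z) • ez) := rfl
  intro i j hij
  fin_cases i <;> fin_cases j <;> first
    | rfl
    | (exfalso
       simp only [Fin.zero_eta, Fin.mk_one, Fin.reduceFinMk, r0, r1, r2] at hij
       first
        | exact h1 hij
        | exact h1 hij.symm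
        | exact h2 hij
        | exact h2 hij.symm
        | exact h3 hij
        | exact h3 hij.symm)

theorem scal_pot {Z A : ℕ} (hZ : 0 < Z) (R : ℝ) :
    (fun x : Fin 4 → R3 => (Z : ℝ) ^ 2 * vN (1 / (Z : ℝ)) A R (fun i => (Z : ℝ) • x i)) =
      coulombPotential (scZ Z A) (scR Z R) := by
  have hZ' : (0 : ℝ) < Z := by exact_mod_cast hZ
  funext x
  have e1 : ∀ a : R3, v1 (1 / (Z : ℝ)) A R ((Z : ℝ) • a) =
      (1 / (Z : ℝ) ^ 2) * ∑ j, -((scZ Z A j : ℝ) / ‖a - scR Z R j‖) := by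
    intro a
    have h1 : (Z : ℝ) • a - R • ez = (Z : ℝ) • (a - (R / Z) • ez) := by
      rw [smul_sub, smul_smul, mul_div_cancel₀ _ hZ'.ne']
    have h2 : (Z : ℝ) • a + R • ez = (Z : ℝ) • (a + (R / Z) • ez) := by
      rw [smul_add, smul_smul, mul_div_cancel₀ _ hZ'.ne']
    unfold v1
    rw [h1, h2, scal_inv _ hZ', scal_inv _ hZ', scal_inv _ hZ', Fin.sum_univ_three]
    simp only [scZ, scR, Matrix.cons_val_zero, Matrix.cons_val_one, Matrix.cons_val, sub_zero,
      sub_neg_eq_add]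
    field_simp
    ring
  have e2 : ∀ i j : Fin 4, 1 / ‖(Z : ℝ) • x i - (Z : ℝ) • x j‖ =
      (1 / (Z : ℝ)) * (1 / ‖x i - x j‖) := by
    intro i j
    rw [← smul_sub, scal_inv _ hZ']
  unfold vN coulombPotential
  simp only [e1, e2, ← Finset.mul_sum]
  field_simp

theorem scal_dens {Ψ Ψs : ElectronState 4} {l : ℝ} (hl : 0 < l)
    (h : ∀ s x, Ψ.amp s x = ((l ^ (3 * (4 : ℕ) / 2 : ℝ) : ℝ) : ℂ) * Ψs.amp s (fun i => l • x i))
    (r : R3) : density Ψ r = l ^ 3 * density Ψs (l • r) := by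
  have hp : (l ^ (3 * (4 : ℕ) / 2 : ℝ) : ℝ) = l ^ 6 := by
    rw [show (3 * ((4 : ℕ) : ℝ) / 2 : ℝ) = ((6 : ℕ) : ℝ) by norm_num, Real.rpow_natCast]
  have key : ∀ s : Fin 4 → Fin 2, ∫ y : Fin 3 → R3, ‖Ψ.amp s (Fin.cons r y)‖ ^ 2 =
      l ^ 3 * ∫ y : Fin 3 → R3, ‖Ψs.amp s (Fin.cons (l • r) y)‖ ^ 2 := by
    intro s
    have e1 : ∀ y : Fin 3 → R3, ‖Ψ.amp s (Fin.cons r y)‖ ^ 2 =
        l ^ 12 * (fun y : Fin 3 → R3 => ‖Ψs.amp s (Fin.cons (l • r) y)‖ ^ 2) (l • y) := by
      intro y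
      have e3 : (fun i => l • (Fin.cons r y : Fin 4 → R3) i) = Fin.cons (l • r) (l • y) := by
        funext i
        refine Fin.cases ?_ (fun i => ?_) i
        · simp
        · simp
      rw [h, hp, e3, norm_mul, mul_pow, Complex.norm_real, Real.norm_eq_abs,
        abs_of_nonneg (by positivity)]
      ring
    rw [integral_congr_ae (Filter.Eventually.of_forall e1), integral_const_mul,
      KD.k21_integral hl (fun y : Fin 3 → R3 => ‖Ψs.amp s (Fin.cons (l • r) y)‖ ^ 2),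
      smul_eq_mul, ← mul_assoc]
    congr 1
    field_simp
  unfold density
  simp only [key, ← Finset.mul_sum]
  ring

/-- BLOCK S: scaling. -/
theorem scaling (Z A : ℕ) (hZ : 0 < Z) (hA : 0 < A) (R : ℝ) (hR : 0 < R) (Ψs : ElectronState 4)
    (h : IsGroundState (vN (1 / (Z : ℝ)) A R) Ψs) :
    ∃ (Zs : Fin 3 → ℕ) (Rs : Fin 3 → R3) (Ψ : ElectronState 4), (∀ j, 1 ≤ Zs j) ∧
      Function.Injective Rs ∧ IsGroundState (coulombPotential Zs Rs) Ψ ∧
      (NonintEnsembleRepresentable 3 (density Ψ) → NonintEnsembleRepresentable 3 (density Ψs)) := by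
  have hZ' : (0 : ℝ) < Z := by exact_mod_cast hZ
  obtain ⟨Ψ, -, hamp, -⟩ := KD.exists_scaled Ψs hZ'
  refine ⟨scZ Z A, scR Z R, Ψ, ?_, scR_inj hZ hR, ?_, ?_⟩
  · intro j
    fin_cases j <;> simp [scZ] <;> omega
  · rw [← scal_pot hZ R]
    exact KD.ground_scaled hZ' hamp h
  · intro hr
    have h1 := KD.repr_scaled (l := 1 / (Z : ℝ)) (by (clear * - hZ; positivity)) hr
    have h2 : (fun x : R3 => (1 / (Z : ℝ)) ^ 3 * density Ψ ((1 / (Z : ℝ)) • x)) = density Ψs := by
      funext x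
      rw [scal_dens hZ' hamp, smul_smul, mul_one_div_cancel hZ'.ne', one_smul, ← mul_assoc,
        ← mul_pow, one_div_mul_cancel hZ'.ne', one_pow, one_mul]
    rwa [h2] at h1

end

end Vale.Agent.P363.D
end
end

section

section

/-!
# Hydrogen shells for three and four electrons: definitions

`KD.chi 0` is `1s`; the second shell is `KD.chi a.succ`, `a : Fin 4` (`0 = 2s`, `1, 2, 3 = 2p_x,
2p_y, 2p_z`).
-/

namespace Vale.Agent.P363.D

open MeasureTheory Set Filter Topology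
open scoped ENNReal ContDiff

noncomputable section

/-- Slater determinant of two orbitals -/
def wdg (a b : R3 → ℝ) (x y : R3) : ℝ := (a x * b y - b x * a y) / √2

/-- the lowest space of the four-electron sector -/
def sh4 (p : Fin 4 × Fin 4) (x : Conf 4) : ℝ :=
  wdg (KD.chi 0) (KD.chi p.1.succ) (x 0) (x 1) * wdg (KD.chi 0) (KD.chi p.2.succ) (x 2) (x 3)

/-- the lowest space of the three-electron sector -/
def sh3 (a : Fin 4) (y : Conf 3) : ℝ :=
  KD.chi 0 (y 0) * wdg (KD.chi 0) (KD.chi a.succ) (y 1) (y 2)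

/-- gradients -/
def sh4' (p : Fin 4 × Fin 4) (i : Fin 4) (k : Fin 3) (x : Conf 4) : ℝ :=
  fderiv ℝ (sh4 p) x (axisDir i k)

def sh3' (a : Fin 4) (i : Fin 3) (k : Fin 3) (y : Conf 3) : ℝ :=
  fderiv ℝ (sh3 a) y (axisDir i k)

/-- Coulomb potential of the heavy nucleus -/
def h0N {N : ℕ} (x : Conf N) : ℝ := ∑ i, -(1 / ‖x i‖)

/-- potential of the two light nuclei (unit charges, repulsive sign) -/
def UU (L : ℝ) (x : R3) : ℝ := 1 / ‖x - L • ez‖ + 1 / ‖x + L • ez‖

/-- repulsion of the electrons -/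
def repN {N : ℕ} (x : Conf N) : ℝ := ∑ i, ∑ j ∈ Finset.Ioi i, 1 / ‖x i - x j‖

/-- the perturbation -/
def hpN {N : ℕ} (A L : ℝ) (x : Conf N) : ℝ :=
  (∑ i, -(A * (1 / ‖x i - L • ez‖ + 1 / ‖x i + L • ez‖))) +
    ∑ i, ∑ j ∈ Finset.Ioi i, 1 / ‖x i - x j‖

theorem hpN_eq {N : ℕ} (A L : ℝ) (x : Conf N) :
    hpN A L x = -(A * ∑ i, UU L (x i)) + repN x := by
  unfold hpN repN UU
  rw [Finset.sum_neg_distrib, Finset.mul_sum]

/-- product of one-electron functions -/
def prodF {N : ℕ} (u : Fin N → R3 → ℝ) (x : Conf N) : ℝ := ∏ i, u i (x i)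

/-- its gradient -/
def prodG {N : ℕ} (u : Fin N → R3 → ℝ) (u' : Fin N → Fin 3 → R3 → ℝ) (i : Fin N) (k : Fin 3)
    (x : Conf N) : ℝ := u' i k (x i) * ∏ j ∈ Finset.univ.erase i, u j (x j)

/-- gradient of the one-electron function `u` -/
def gr (u : R3 → ℝ) (k : Fin 3) (x : R3) : ℝ := fderiv ℝ u x (dir3 k)

/-- insert the coordinate of electron `i` -/
def ins {n : ℕ} (i : Fin (n + 1)) (x : R3) (y : Conf n) : Conf (n + 1) :=
  Fin.insertNth (α := fun _ => R3) i x y

/-- occupation of the orbital `χ` by the electron `i` -/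
def occ {n : ℕ} (i : Fin (n + 1)) (χ : R3 → ℝ) (f : Conf (n + 1) → ℝ) : ℝ :=
  ∫ y : Conf n, (∫ x : R3, χ x * f (ins i x y)) ^ 2

/-- sign of the orbital `a` of the second shell under the reflection of the coordinate `k` -/
def sg (k : Fin 3) (a : Fin 4) : ℝ := if a = k.succ then -1 else 1

/-- matrix of the perturbation, four electrons -/
def W4 (A L : ℝ) (p p' : Fin 4 × Fin 4) : ℝ := ∫ x, hpN A L x * (sh4 p x * sh4 p' x)

/-- matrix of the perturbation, ion -/
def W3 (A L : ℝ) (a a' : Fin 4) : ℝ := ∫ y, hpN A L y * (sh3 a y * sh3 a' y)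

/-- matrix of the repulsion -/
def R4 (p p' : Fin 4 × Fin 4) : ℝ := ∫ x, repN x * (sh4 p x * sh4 p' x)

def Rm3 (a a' : Fin 4) : ℝ := ∫ y, repN y * (sh3 a y * sh3 a' y)

/-- expectation of the potential of the light nuclei -/
def uD (L : ℝ) (a : Fin 5) : ℝ := ∫ x, UU L x * KD.chi a x ^ 2

/-- exchange integral of `2p_x` and `2p_z` -/
def Kxz : ℝ := ∫ p : R3 × R3, 1 / ‖p.1 - p.2‖ *
  ((KD.chi 2 p.1 * KD.chi 4 p.1) * (KD.chi 2 p.2 * KD.chi 4 p.2))

/-- the limiting four-electron function -/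
def psi4 (c : Fin 4 → ℝ) (x : Conf 4) : ℝ := ∑ a, c a * sh4 (a, a) x

end

end Vale.Agent.P363.D
end
end

section

section

/-! # One-electron facts on the hydrogenic orbitals -/

namespace Vale.Agent.P363.D

open MeasureTheory Set Filter Topology
open scoped ENNReal ContDiff
open Vale.Agent.P370
open Vale.Agent.P370.Q (Nice)

noncomputable section


/-- levels -/
def chiLev : Fin 5 → ℕ := ![1, 2, 2, 2, 2]

theorem pderiv_CX (c : ℝ) (k i : Fin 3) :
    MvPolynomial.pderiv i (MvPolynomial.C c * MvPolynomial.X k : Q.Poly3)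
      = MvPolynomial.C (if i = k then c else 0) := by
  rw [MvPolynomial.pderiv_mul, MvPolynomial.pderiv_C, MvPolynomial.pderiv_X]
  by_cases h : i = k
  · subst h; simp only [zero_mul, Pi.single_eq_same, mul_one, zero_add, ↓reduceIte]
  · simp only [zero_mul, ne_eq, h, not_false_eq_true, Pi.single_eq_of_ne', mul_zero, add_zero, ↓reduceIte, MvPolynomial.C_0]

theorem eul_CX (c : ℝ) (k : Fin 3) : Q.eul (MvPolynomial.C c * MvPolynomial.X k)
    = MvPolynomial.C c * MvPolynomial.X k := by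
  unfold Q.eul
  simp_rw [pderiv_CX]
  rw [Finset.sum_eq_single k]
  · simp only [↓reduceIte]; ring
  · intro b _ hb; simp [hb]
  · simp only [Finset.mem_univ, not_true_eq_false, ↓reduceIte, mul_eq_zero, MvPolynomial.X_ne_zero, map_eq_zero, false_or, IsEmpty.forall_iff]

theorem lap_CX (c : ℝ) (k : Fin 3) : Q.lap (MvPolynomial.C c * MvPolynomial.X k) = 0 := by
  unfold Q.lap
  simp_rw [pderiv_CX, MvPolynomial.pderiv_C]
  simp

theorem eul_C (c : ℝ) : Q.eul (MvPolynomial.C c) = 0 := by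
  unfold Q.eul
  simp

theorem lap_C (c : ℝ) : Q.lap (MvPolynomial.C c) = 0 := by
  unfold Q.lap
  simp

theorem eul_0 : Q.eul 0 = 0 := by
  unfold Q.eul
  simp

theorem lap_0 : Q.lap 0 = 0 := by
  unfold Q.lap
  simp

theorem two_eq_C : (2 : Q.Poly3) = MvPolynomial.C 2 :=
  (map_ofNat (MvPolynomial.C (σ := Fin 3) (R := ℝ)) 2).symm

theorem shell_p (c : ℝ) (k : Fin 3) :
    Q.IsShell 2 (Q.expPoly (1 / 2) (MvPolynomial.C c * MvPolynomial.X k) 0) := by
  refine ⟨MvPolynomial.C c * MvPolynomial.X k, 0, ⟨?_, Or.inl rfl⟩, ?_, ?_, by norm_num⟩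
  · have : (MvPolynomial.C c * MvPolynomial.X k : Q.Poly3).totalDegree ≤ 1 := by
      refine (MvPolynomial.totalDegree_mul _ _).trans ?_
      rw [MvPolynomial.totalDegree_C, MvPolynomial.totalDegree_X]
    omega
  · unfold Q.TP
    rw [eul_CX, eul_0, lap_0]
    simp only [add_zero, sub_zero, mul_zero]
    rw [← two_mul, ← mul_assoc]
    have : (MvPolynomial.C (1 / ((2 : ℕ) : ℝ)) * 2 : Q.Poly3) = 1 := by
      rw [two_eq_C, ← MvPolynomial.C_mul]
      norm_num
    rw [this, one_mul]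
  · unfold Q.TQ
    rw [eul_0, lap_CX]
    simp only [Nat.cast_ofNat, one_div, mul_zero, add_zero, sub_self]

theorem shell_1s (c : ℝ) : Q.IsShell 1 (Q.expPoly 1 (MvPolynomial.C c) 0) := by
  refine ⟨MvPolynomial.C c, 0, ⟨?_, Or.inl rfl⟩, ?_, ?_, by norm_num⟩
  · rw [MvPolynomial.totalDegree_C]
  · unfold Q.TP
    rw [eul_C, eul_0, lap_0]
    simp only [Nat.cast_one, ne_eq, one_ne_zero, not_false_eq_true, div_self, MvPolynomial.C_1, zero_add, one_mul, add_zero, sub_zero, one_div, mul_zero]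
  · unfold Q.TQ
    rw [eul_0, lap_C]
    simp only [Nat.cast_one, ne_eq, one_ne_zero, not_false_eq_true, div_self, MvPolynomial.C_1, mul_zero, add_zero, one_div, sub_self]

theorem shell_2s (c : ℝ) :
    Q.IsShell 2 (Q.expPoly (1 / 2) (MvPolynomial.C (2 * c)) (MvPolynomial.C (-c))) := by
  refine ⟨MvPolynomial.C (2 * c), MvPolynomial.C (-c), ⟨?_, Or.inr ?_⟩, ?_, ?_, by norm_num⟩
  · rw [MvPolynomial.totalDegree_C]; norm_num
  · rw [MvPolynomial.totalDegree_C]
  · unfold Q.TP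
    rw [eul_C, eul_C, lap_C, mul_zero, sub_zero, zero_add, zero_add, ← MvPolynomial.C_mul,
      ← MvPolynomial.C_sub]
    congr 1
    push_cast
    ring
  · unfold Q.TQ
    rw [eul_C, lap_C, mul_zero, sub_zero, zero_add]
    rw [two_eq_C, ← MvPolynomial.C_mul, ← MvPolynomial.C_mul]
    congr 1
    push_cast
    ring

theorem chi_eq0 : KD.chi 0 = Q.expPoly 1 (MvPolynomial.C (1 / √Real.pi)) 0 := by
  funext x
  simp only [KD.chi, Q.expPoly, Q.pe, map_zero, MvPolynomial.eval_C, mul_zero, add_zero,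
    one_mul, Matrix.cons_val_zero]
  ring

theorem chi_eq1 : KD.chi 1 = Q.expPoly (1 / 2) (MvPolynomial.C (2 * (1 / √(32 * Real.pi))))
    (MvPolynomial.C (-(1 / √(32 * Real.pi)))) := by
  funext x
  simp only [KD.chi, Q.expPoly, Q.pe, MvPolynomial.eval_C, Matrix.cons_val_one,
    Matrix.cons_val_zero]
  rw [show -‖x‖ / 2 = -(1 / 2 * ‖x‖) by ring]
  ring

theorem chi_eq2 (k : Fin 3) : KD.chi k.succ.succ =
    Q.expPoly (1 / 2) (MvPolynomial.C (1 / √(32 * Real.pi)) * MvPolynomial.X k) 0 := by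
  rw [KD.k17_chi]
  funext x
  simp only [Q.expPoly, Q.pe, map_mul, MvPolynomial.eval_C, MvPolynomial.eval_X, map_zero, mul_zero, add_zero]
  rw [show -‖x‖ / 2 = -(1 / 2 * ‖x‖) by ring]
  ring

theorem chi_mem (a : Fin 5) : Q.IsShell (chiLev a) (KD.chi a) := by
  refine Fin.cases ?_ (fun b => Fin.cases ?_ (fun k => ?_) b) a
  · rw [chi_eq0]
    exact shell_1s _
  · show Q.IsShell 2 (KD.chi 1)
    rw [chi_eq1]
    exact shell_2s _
  · have h : chiLev k.succ.succ = 2 := by fin_cases k <;> rfl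
    rw [h, chi_eq2]
    exact shell_p _ k

/-- The shells `1, 2` of hydrogen. -/
def shell5 : Q.ShellBasis 2 (Fin 5) where
  χ := KD.chi
  lev := chiLev
  lev_pos := by decide
  lev_le := by decide
  mem := chi_mem
  ortho := fun a b => KD.chi_orth.2 a b
  card := by
    intro k h1 h2
    interval_cases k <;> decide

theorem chi_nice (a : Fin 5) : Nice (KD.chi a) :=
  (chi_mem a).nice (shell5.lev_pos a)

theorem chi_cont (a : Fin 5) : Continuous (KD.chi a) := (chi_nice a).cont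

unseal MeasureTheory.ae in
/-- Almost every line in a given direction avoids the origin. -/
theorem ae_line_ne_zero (k : Fin 3) : ∀ᵐ x : R3, ∀ t : ℝ, x + t • dir3 k ≠ 0 := by
  have h1 : (Submodule.span ℝ {dir3 k} : Submodule ℝ R3) ≠ ⊤ := by
    intro h
    have h2 := finrank_span_le_card (R := ℝ) ({dir3 k} : Set R3)
    rw [h, finrank_top] at h2
    simp only [finrank_euclideanSpace, Fintype.card_fin, toFinset_singleton, Finset.card_singleton, Nat.not_ofNat_le_one] at h2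
  have h2 := Measure.addHaar_submodule (volume : Measure R3) _ h1
  rw [← compl_compl ((Submodule.span ℝ {dir3 k} : Submodule ℝ R3) : Set R3)] at h2
  have h3 : ∀ᵐ x : R3, x ∈ ((Submodule.span ℝ {dir3 k} : Submodule ℝ R3) : Set R3)ᶜ := h2
  filter_upwards [h3] with x hx t ht
  apply hx
  rw [SetLike.mem_coe, Submodule.mem_span_singleton]
  refine ⟨-t, ?_⟩
  rw [neg_smul]
  exact (eq_neg_of_add_eq_zero_left ht).symm

theorem aesm_pd {f : R3 → ℝ} (hf : Q.Nice f) (k : Fin 3) :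
    AEStronglyMeasurable (fun x => Q.pd k f x) (volume : Measure R3) := by
  have h1 : ContinuousOn (fun x => Q.pd k f x) ({0}ᶜ : Set R3) :=
    (hf.smooth.continuousOn_fderiv_of_isOpen Q.isOpen_ne_zero le_rfl).clm_apply
      continuousOn_const
  have h2 := h1.aestronglyMeasurable (μ := (volume : Measure R3))
    (measurableSet_singleton (0 : R3)).compl
  rwa [Measure.restrict_eq_self_of_ae_mem] at h2
  rw [ae_iff]
  simp only [mem_compl_iff, mem_singleton_iff, Decidable.not_not, ofPred_eq_eq_singleton, measure_singleton]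

theorem memLp_of_dec {f : R3 → ℝ} (hf : Hyd.Dec f)
    (hm : AEStronglyMeasurable f (volume : Measure R3)) : MemLp f 2 volume := by
  rw [memLp_two_iff_integrable_sq hm]
  have h := (hf.mul hf).integrable (hm.mul hm)
  refine h.congr (Eventually.of_forall fun x => ?_)
  simp only
  ring

/-- nice functions are one-body `H¹` functions -/
theorem nice_H1o {f : R3 → ℝ} (hf : Nice f) : H1o f (gr f) := by
  refine ⟨memLp_of_dec hf.dec hf.cont.aestronglyMeasurable,
    fun k => memLp_of_dec (hf.dec_pd k) (aesm_pd hf k), fun k => ?_⟩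
  have hcont : ∀ x : R3, (∀ t : ℝ, x + t • dir3 k ≠ 0) →
      Continuous (fun t : ℝ => Q.pd k f (x + t • dir3 k)) := by
    intro x hx
    have h1 : ContinuousOn (fun x => Q.pd k f x) ({0}ᶜ : Set R3) :=
      (hf.smooth.continuousOn_fderiv_of_isOpen Q.isOpen_ne_zero le_rfl).clm_apply
        continuousOn_const
    exact h1.comp_continuous (by fun_prop) (fun t => hx t)
  refine ⟨hf.cont.aestronglyMeasurable, aesm_pd hf k, ?_, ?_⟩
  · filter_upwards [ae_line_ne_zero k] with x hx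
    exact (hcont x hx).locallyIntegrable
  · filter_upwards [ae_line_ne_zero k] with x hx
    filter_upwards with t
    unfold prim
    have hd : ∀ s : ℝ, HasDerivAt (fun t : ℝ => f (x + t • dir3 k))
        (Q.pd k f (x + s • dir3 k)) s := by
      intro s
      have h1 : HasFDerivAt f (fderiv ℝ f (x + s • dir3 k)) (x + s • dir3 k) :=
        (hf.differentiableAt (hx s)).hasFDerivAt
      have h2 : HasDerivAt (fun t : ℝ => x + t • dir3 k) (dir3 k) s := by
        have := ((hasDerivAt_id s).smul_const (dir3 k)).const_add x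
        exact this.congr_deriv (one_smul _ _)
      exact h1.comp_hasDerivAt s h2
    show f (x + t • dir3 k) = f x + ∫ s in (0 : ℝ)..t, Q.pd k f (x + s • dir3 k)
    rw [intervalIntegral.integral_eq_sub_of_hasDerivAt (fun s _ => hd s)
      ((hcont x hx).intervalIntegrable _ _)]
    simp

theorem chi_H1o (a : Fin 5) : H1o (KD.chi a) (gr (KD.chi a)) := nice_H1o (chi_nice a)

theorem chi_memLp (a : Fin 5) : MemLp (KD.chi a) 2 volume := KD.chi_orth.1 a

theorem chi_diff (a : Fin 5) {x : R3} (hx : x ≠ 0) : DifferentiableAt ℝ (KD.chi a) x :=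
  (chi_nice a).differentiableAt hx

theorem chi_ortho (a b : Fin 5) : ∫ x, KD.chi a x * KD.chi b x = if a = b then 1 else 0 :=
  KD.chi_orth.2 a b

/-- all limits along an approximating sequence -/
structure Appr (u : R3 → ℝ) (u' : Fin 3 → R3 → ℝ) (φ : ℕ → R3 → ℝ) : Prop where
  sm : ∀ m, ContDiff ℝ ∞ (φ m)
  cs : ∀ m, HasCompactSupport (φ m)
  l0 : Tendsto (fun m => ∫ x, (u x - φ m x) ^ 2) atTop (𝓝 0)
  l1 : ∀ k, Tendsto (fun m => ∫ x, (u' k x - gr (φ m) k x) ^ 2) atTop (𝓝 0)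

theorem Appr.H1o {u : R3 → ℝ} {u' : Fin 3 → R3 → ℝ} {φ : ℕ → R3 → ℝ} (h : Appr u u' φ) (m : ℕ) :
    H1o (φ m) (gr (φ m)) := H1o_test (h.sm m) (h.cs m)

theorem Appr.nice {u : R3 → ℝ} {u' : Fin 3 → R3 → ℝ} {φ : ℕ → R3 → ℝ} (h : Appr u u' φ) (m : ℕ) :
    Nice (φ m) := Q.nice_test (h.sm m) (h.cs m)

theorem exists_appr {u : R3 → ℝ} {u' : Fin 3 → R3 → ℝ} (h : H1o u u') :
    ∃ φ, Appr u u' φ := by
  obtain ⟨φ, h1, h2, h3, h4⟩ := H1o_approx h
  exact ⟨φ, h1, h2, h3, h4⟩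

/-- division by the square root of the distance to the nucleus -/
def rt (f : R3 → ℝ) (x : R3) : ℝ := f x / √‖x‖

theorem rt_mul (f g : R3 → ℝ) (x : R3) : rt f x * rt g x = (1 / ‖x‖) * (f x * g x) := by
  unfold rt
  rw [div_mul_div_comm, Real.mul_self_sqrt (norm_nonneg x)]
  ring

theorem hardy0 {f : R3 → ℝ} {f' : Fin 3 → R3 → ℝ} (h : P363.H1o f f') :
    Integrable (fun x => f x ^ 2 / ‖x‖) volume ∧
    ∫ x, f x ^ 2 / ‖x‖ ≤ ∑ k, ∫ x, |f x * f' k x| :=
  hardy (a := fun x : R3 => x) (e := dir3) continuous_id (fun _ _ _ => rfl) h.memLp h.memLp' h.acl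

theorem rt_memLp {f : R3 → ℝ} {f' : Fin 3 → R3 → ℝ} (h : P363.H1o f f') :
    MemLp (rt f) 2 volume := by
  have hm : AEStronglyMeasurable (rt f) volume :=
    h.memLp.1.div₀ (Real.continuous_sqrt.comp continuous_norm).aestronglyMeasurable
  rw [memLp_two_iff_integrable_sq hm]
  refine (hardy0 h).1.congr (Eventually.of_forall fun x => ?_)
  simp only
  rw [sq (rt f x), rt_mul]
  ring

theorem H1o_sub' {f g : R3 → ℝ} {f' g' : Fin 3 → R3 → ℝ} (h : P363.H1o f f')
    (h2 : P363.H1o g g') : P363.H1o (fun x => f x - g x) (fun k x => f' k x - g' k x) :=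
  ⟨h.memLp.sub h2.memLp, fun k => (h.memLp' k).sub (h2.memLp' k), fun k => (h.acl k).sub (h2.acl k)⟩

theorem Appr.lrt {u : R3 → ℝ} {u' : Fin 3 → R3 → ℝ} {φ : ℕ → R3 → ℝ} (hu : P363.H1o u u')
    (h : Appr u u' φ) : Tendsto (fun m => ∫ x, (rt u x - rt (φ m) x) ^ 2) atTop (𝓝 0) := by
  have hle : ∀ m, ∫ x, (rt u x - rt (φ m) x) ^ 2 ≤
      ∑ k : Fin 3, (1 / 2) * ((∫ x, (u x - φ m x) ^ 2) + ∫ x, (u' k x - gr (φ m) k x) ^ 2) := by
    intro m
    have hd := H1o_sub' hu (h.H1o m)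
    have h1 := (hardy0 hd).2
    have e : ∫ x, (rt u x - rt (φ m) x) ^ 2 = ∫ x, (u x - φ m x) ^ 2 / ‖x‖ := by
      congr 1
      funext x
      have : rt u x - rt (φ m) x = rt (fun x => u x - φ m x) x := by unfold rt; ring
      rw [this, sq, rt_mul]
      ring
    rw [e]
    refine h1.trans (Finset.sum_le_sum fun k _ => ?_)
    rw [← integral_add hd.memLp.integrable_sq (hd.memLp' k).integrable_sq, ← integral_const_mul]
    refine integral_mono ((hd.memLp.integrable_mul (hd.memLp' k)).abs)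
      ((hd.memLp.integrable_sq.add (hd.memLp' k).integrable_sq).const_mul _) fun x => ?_
    simp only []
    rw [abs_mul]
    linarith only [sq_abs (u' k x - gr (φ m) k x), sq_abs (u x - φ m x), sq_nonneg (|u x - φ m x| - |u' k x - gr (φ m) k x|)]
  have hlim : Tendsto (fun m => ∑ k : Fin 3, (1 / 2) * ((∫ x, (u x - φ m x) ^ 2)
      + ∫ x, (u' k x - gr (φ m) k x) ^ 2)) atTop (𝓝 0) := by
    have := tendsto_finsetSum (Finset.univ : Finset (Fin 3))
      (fun k _ => ((h.l0.add (h.l1 k)).const_mul (1 / 2)))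
    simpa only [one_div, add_zero, mul_zero, Finset.sum_const_zero] using this
  exact squeeze_zero (fun m => integral_nonneg fun x => sq_nonneg _) hle hlim

/-- limit of the Coulomb pairing -/
theorem Appr.lC {u g : R3 → ℝ} {u' g' : Fin 3 → R3 → ℝ} {φ : ℕ → R3 → ℝ} (hu : P363.H1o u u')
    (hg : P363.H1o g g') (h : Appr u u' φ) :
    Tendsto (fun m => ∫ x, (1 / ‖x‖) * (g x * φ m x)) atTop
      (𝓝 (∫ x, (1 / ‖x‖) * (g x * u x))) := by
  have h1 := tendsto_pair (rt_memLp hu) (rt_memLp hg) (fun m => rt_memLp (h.H1o m)) (h.lrt hu)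
  simpa only [rt_mul] using h1

theorem Appr.lC2 {u : R3 → ℝ} {u' : Fin 3 → R3 → ℝ} {φ : ℕ → R3 → ℝ} (hu : P363.H1o u u')
    (h : Appr u u' φ) :
    Tendsto (fun m => ∫ x, (1 / ‖x‖) * (φ m x * φ m x)) atTop
      (𝓝 (∫ x, (1 / ‖x‖) * (u x * u x))) := by
  have h1 := tendsto_sq (rt_memLp hu) (fun m => rt_memLp (h.H1o m)) (h.lrt hu)
  simpa only [sq, rt_mul] using h1

/-- limit of the bilinear form -/
theorem Appr.lb {u g : R3 → ℝ} {u' g' : Fin 3 → R3 → ℝ} {φ : ℕ → R3 → ℝ} (hu : P363.H1o u u')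
    (hg : P363.H1o g g') (h : Appr u u' φ) :
    Tendsto (fun m => b1 KD.v0 g g' (φ m) (gr (φ m))) atTop (𝓝 (b1 KD.v0 g g' u u')) := by
  unfold b1 KD.v0
  refine Tendsto.add (Tendsto.const_mul _ (tendsto_finsetSum _ fun k _ => ?_)) ?_
  · exact tendsto_pair (hu.memLp' k) (hg.memLp' k) (fun m => (h.H1o m).memLp' k) (h.l1 k)
  · have h1 := (h.lC hu hg).neg
    simpa only [neg_mul, integral_neg] using h1

/-- limit of the quadratic form -/
theorem Appr.lq {u : R3 → ℝ} {u' : Fin 3 → R3 → ℝ} {φ : ℕ → R3 → ℝ} (hu : P363.H1o u u')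
    (h : Appr u u' φ) :
    Tendsto (fun m => KD.hform KD.v0 (φ m) (gr (φ m))) atTop (𝓝 (KD.hform KD.v0 u u')) := by
  unfold KD.hform KD.v0
  refine Tendsto.add (Tendsto.const_mul _ (tendsto_finsetSum _ fun k _ => ?_)) ?_
  · exact tendsto_sq (hu.memLp' k) (fun m => (h.H1o m).memLp' k) (h.l1 k)
  · have h1 := (h.lC2 hu).neg
    simpa only [neg_mul, integral_neg, sq] using h1

theorem b1_nice {f g : R3 → ℝ} (hf : Nice f) (hg : Nice g) :
    b1 KD.v0 f (gr f) g (gr g) = (1 / 2) * Q.dir f g - Q.rinv f g := by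
  rw [Q.dir_eq_sum hf hg]
  unfold b1 Q.rinv KD.v0
  rw [sub_eq_add_neg, ← integral_neg]
  congr 1
  refine integral_congr_ae (Eventually.of_forall fun x => ?_)
  simp only
  ring

theorem b1_shell {a : Fin 5} {u : R3 → ℝ} {u' : Fin 3 → R3 → ℝ} (h : P363.H1o u u') :
    b1 KD.v0 (KD.chi a) (gr (KD.chi a)) u u' =
      -(1 / (2 * (chiLev a : ℝ) ^ 2)) * ∫ x, KD.chi a x * u x := by
  obtain ⟨φ, hφ⟩ := exists_appr h
  have h1 := hφ.lb h (chi_H1o a)
  have h2 : Tendsto (fun m => -(1 / (2 * (chiLev a : ℝ) ^ 2)) * ∫ x, KD.chi a x * φ m x) atTop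
      (𝓝 (-(1 / (2 * (chiLev a : ℝ) ^ 2)) * ∫ x, KD.chi a x * u x)) :=
    (tendsto_pair h.memLp (chi_memLp a) (fun m => (hφ.H1o m).memLp) hφ.l0).const_mul _
  refine tendsto_nhds_unique h1 (h2.congr fun m => ?_)
  rw [b1_nice (chi_nice a) (hφ.nice m), Q.shell_form (shell5.lev_pos a) (chi_mem a) (hφ.nice m)]
  rfl

/-- weak eigenvalue equation of `1s` -/
theorem chi_eig0 {u : R3 → ℝ} {u' : Fin 3 → R3 → ℝ} (h : P363.H1o u u') :
    b1 KD.v0 (KD.chi 0) (gr (KD.chi 0)) u u' = -(1 / 2) * ∫ x, KD.chi 0 x * u x := by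
  rw [b1_shell h]
  (clear * -; norm_num [chiLev])

/-- weak eigenvalue equation of the second shell -/
theorem chi_eig (a : Fin 4) {u : R3 → ℝ} {u' : Fin 3 → R3 → ℝ} (h : P363.H1o u u') :
    b1 KD.v0 (KD.chi a.succ) (gr (KD.chi a.succ)) u u' = -(1 / 8) * ∫ x, KD.chi a.succ x * u x := by
  rw [b1_shell h]
  have : chiLev a.succ = 2 := by fin_cases a <;> rfl
  rw [this]
  norm_num

/-- the one-body inequality (block H of the main assembly) -/
theorem hyd_ineq : KD.HydIneq := by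
  intro u u' hu
  obtain ⟨φ, hφ⟩ := exists_appr hu
  have hpair : ∀ a, Tendsto (fun m => ∫ x, KD.chi a x * φ m x) atTop
      (𝓝 (∫ x, KD.chi a x * u x)) := fun a =>
    tendsto_pair hu.memLp (chi_memLp a) (fun m => (hφ.H1o m).memLp) hφ.l0
  have hsq := tendsto_sq hu.memLp (fun m => (hφ.H1o m).memLp) hφ.l0
  have hL := ((((hpair 0).pow 2).const_mul (-(1 / 2) : ℝ)).sub
    ((tendsto_finsetSum (Finset.univ : Finset (Fin 4)) (fun a _ => (hpair a.succ).pow 2)).const_mul
      (1 / 8 : ℝ))).sub (((hsq.sub ((hpair 0).pow 2)).sub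
        (tendsto_finsetSum (Finset.univ : Finset (Fin 4))
          (fun a _ => (hpair a.succ).pow 2))).const_mul (1 / 18 : ℝ))
  refine le_of_tendsto_of_tendsto' hL (hφ.lq hu) fun m => ?_
  have h := Q.hydrogen_ineq_real (by norm_num : 1 ≤ 2) shell5 (hφ.nice m)
  have e1 : (1 / 2) * Q.dir (φ m) (φ m) - Q.rinv (φ m) (φ m)
      = KD.hform KD.v0 (φ m) (gr (φ m)) := by
    rw [← b1_nice (hφ.nice m) (hφ.nice m)]
    unfold b1 KD.hform
    simp only [sq]
  rw [e1] at h
  refine le_trans (le_of_eq ?_) h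
  have e0 := Fin.sum_univ_succ (fun a : Fin 5 =>
    (1 / (2 * (((2 : ℕ) : ℝ) + 1) ^ 2) - 1 / (2 * (shell5.lev a : ℝ) ^ 2)) *
      Q.ov (shell5.χ a) (φ m) ^ 2)
  rw [e0]
  have e2 : Q.ov (φ m) (φ m) = ∫ x, φ m x ^ 2 := by
    unfold Q.ov; simp only [sq]
  rw [e2]
  have e3 : ∀ a, Q.ov (shell5.χ a) (φ m) = ∫ x, KD.chi a x * φ m x := fun a => rfl
  have e4 : (shell5.lev 0 : ℝ) = 1 := by norm_num [shell5, chiLev]
  have e5 : ∀ a : Fin 4, (shell5.lev a.succ : ℝ) = 2 := by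
    intro a
    have : shell5.lev a.succ = 2 := by fin_cases a <;> rfl
    rw [this]; norm_num
  simp only [e3, e4, e5, Fin.sum_univ_four]
  push_cast
  ring

theorem chi_bound (a : Fin 5) : ∃ C : ℝ, 0 ≤ C ∧ ∀ x, |KD.chi a x| ≤ C * Real.exp (-(‖x‖ / 4)) := by
  have hexp : ∀ x : R3, Real.exp (-‖x‖ / 2) = Real.exp (-(‖x‖ / 4)) * Real.exp (-(‖x‖ / 4)) := by
    intro x; rw [← Real.exp_add]; congr 1; ring
  have hle1 : ∀ x : R3, Real.exp (-(‖x‖ / 4)) ≤ 1 := by
    intro x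
    rw [Real.exp_le_one_iff]
    have := norm_nonneg x
    linarith only [this]
  have hle4 : ∀ x : R3, ‖x‖ * Real.exp (-(‖x‖ / 4)) ≤ 4 := by
    intro x
    have h1 := Real.add_one_le_exp (‖x‖ / 4)
    have h2 : Real.exp (‖x‖ / 4) * Real.exp (-(‖x‖ / 4)) = 1 := by
      rw [← Real.exp_add]; simp
    have h3 := Real.exp_pos (-(‖x‖ / 4))
    nlinarith only [h2, h3, h1]
  refine Fin.cases ?_ (fun b => Fin.cases ?_ (fun k => ?_) b) a
  · refine ⟨1 / √Real.pi, by positivity, fun x => ?_⟩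
    show |Real.exp (-‖x‖) / √Real.pi| ≤ _
    rw [abs_of_nonneg (by positivity), div_eq_mul_one_div, mul_comm]
    refine mul_le_mul_of_nonneg_left ?_ (by positivity)
    rw [Real.exp_le_exp]
    have := norm_nonneg x
    linarith
  · refine ⟨6 * (1 / √(32 * Real.pi)), by positivity, fun x => ?_⟩
    show |(2 - ‖x‖) * Real.exp (-‖x‖ / 2) / √(32 * Real.pi)| ≤ _
    have h0 : |2 - ‖x‖| ≤ 2 + ‖x‖ := by
      rw [abs_le]; constructor <;> linarith [norm_nonneg x]
    have h1 := hle1 x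
    have h2 := hle4 x
    have h3 := Real.exp_pos (-(‖x‖ / 4))
    rw [abs_div, abs_mul, abs_of_pos (Real.exp_pos _), abs_of_nonneg (Real.sqrt_nonneg _),
      div_eq_mul_one_div, hexp]
    calc |2 - ‖x‖| * (Real.exp (-(‖x‖ / 4)) * Real.exp (-(‖x‖ / 4))) * (1 / √(32 * Real.pi))
        ≤ (2 + ‖x‖) * (Real.exp (-(‖x‖ / 4)) * Real.exp (-(‖x‖ / 4))) * (1 / √(32 * Real.pi)) := by
          (clear * - h0; gcongr)
      _ = ((2 * Real.exp (-(‖x‖ / 4)) + ‖x‖ * Real.exp (-(‖x‖ / 4))) *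
          Real.exp (-(‖x‖ / 4))) * (1 / √(32 * Real.pi)) := by ring
      _ ≤ (6 * Real.exp (-(‖x‖ / 4))) * (1 / √(32 * Real.pi)) := by
          refine mul_le_mul_of_nonneg_right ?_ (by positivity)
          refine mul_le_mul_of_nonneg_right ?_ h3.le
          linarith only [h1, h2]
      _ = _ := by ring
  · refine ⟨4 * (1 / √(32 * Real.pi)), by positivity, fun x => ?_⟩
    rw [KD.k17_chi]
    show |x k * Real.exp (-‖x‖ / 2) / √(32 * Real.pi)| ≤ _
    have h0 : |x k| ≤ ‖x‖ := abs_coord_le x k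
    have h2 := hle4 x
    have h3 := Real.exp_pos (-(‖x‖ / 4))
    rw [abs_div, abs_mul, abs_of_pos (Real.exp_pos _), abs_of_nonneg (Real.sqrt_nonneg _),
      div_eq_mul_one_div, hexp]
    calc |x k| * (Real.exp (-(‖x‖ / 4)) * Real.exp (-(‖x‖ / 4))) * (1 / √(32 * Real.pi))
        ≤ ‖x‖ * (Real.exp (-(‖x‖ / 4)) * Real.exp (-(‖x‖ / 4))) * (1 / √(32 * Real.pi)) := by
          gcongr
      _ = (‖x‖ * Real.exp (-(‖x‖ / 4)) * Real.exp (-(‖x‖ / 4))) * (1 / √(32 * Real.pi)) := by ring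
      _ ≤ (4 * Real.exp (-(‖x‖ / 4))) * (1 / √(32 * Real.pi)) := by
          refine mul_le_mul_of_nonneg_right ?_ (by positivity)
          exact mul_le_mul_of_nonneg_right h2 h3.le
      _ = _ := by ring

theorem sh_refl_apply (k i : Fin 3) (x : R3) : refl k x i = if i = k then -x i else x i := by
  unfold refl
  simp only [PiLp.sub_apply, PiLp.smul_apply, PiLp.single_apply, smul_eq_mul]
  by_cases h : i = k
  · subst h; simp; ring
  · simp [h]

theorem sh_norm_refl (k : Fin 3) (x : R3) : ‖refl k x‖ = ‖x‖ := by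
  rw [EuclideanSpace.norm_eq, EuclideanSpace.norm_eq]
  congr 1
  refine Finset.sum_congr rfl fun i _ => ?_
  rw [sh_refl_apply]
  by_cases h : i = k <;> simp [h]

theorem chi0_refl (k : Fin 3) (x : R3) : KD.chi 0 (refl k x) = KD.chi 0 x := by
  show Real.exp (-‖refl k x‖) / √Real.pi = Real.exp (-‖x‖) / √Real.pi
  rw [sh_norm_refl]

theorem chi_refl (k : Fin 3) (a : Fin 4) (x : R3) :
    KD.chi a.succ (refl k x) = sg k a * KD.chi a.succ x := by
  refine Fin.cases ?_ (fun l => ?_) a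
  · have h : sg k 0 = 1 := by
      unfold sg
      rw [if_neg (Fin.succ_ne_zero k).symm]
    rw [h, one_mul]
    show (2 - ‖refl k x‖) * Real.exp (-‖refl k x‖ / 2) / √(32 * Real.pi) =
      (2 - ‖x‖) * Real.exp (-‖x‖ / 2) / √(32 * Real.pi)
    rw [sh_norm_refl]
  · rw [KD.k17_chi]
    show refl k x l * Real.exp (-‖refl k x‖ / 2) / √(32 * Real.pi) =
      sg k l.succ * (x l * Real.exp (-‖x‖ / 2) / √(32 * Real.pi))
    rw [sh_norm_refl, sh_refl_apply]
    unfold sg
    by_cases h : l = k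
    · subst h; simp only [↓reduceIte, neg_mul, Nat.ofNat_nonneg, Real.sqrt_mul, one_mul]; ring
    · have h2 : l.succ ≠ k.succ := fun h' => h (Fin.succ_inj.1 h')
      simp only [h, ↓reduceIte, Nat.ofNat_nonneg, Real.sqrt_mul, Fin.succ_inj, one_mul]

end

end Vale.Agent.P363.D
end
end

section

section

/-! # `L²` continuity of the occupation numbers -/

namespace Vale.Agent.P363.D

open MeasureTheory Set Filter Topology
open scoped ENNReal ContDiff

noncomputable section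

theorem shTB_cs {X : Type*} [MeasurableSpace X] {μ : Measure X} {f g : X → ℝ}
    (hf : MemLp f 2 μ) (hg : MemLp g 2 μ) :
    (∫ x, f x * g x ∂μ) ^ 2 ≤ (∫ x, f x ^ 2 ∂μ) * ∫ x, g x ^ 2 ∂μ := by
  have i1 : Integrable (fun x => f x ^ 2) μ := hf.integrable_sq
  have i2 : Integrable (fun x => g x ^ 2) μ := hg.integrable_sq
  have i3 : Integrable (fun x => f x * g x) μ := hf.integrable_mul hg
  have key : ∀ t : ℝ, 0 ≤ (∫ x, g x ^ 2 ∂μ) * (t * t) + (2 * ∫ x, f x * g x ∂μ) * t +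
      ∫ x, f x ^ 2 ∂μ := by
    intro t
    have h0 : 0 ≤ ∫ x, (f x + t * g x) ^ 2 ∂μ := integral_nonneg fun x => sq_nonneg _
    have e1 : (fun x => (f x + t * g x) ^ 2)
        = fun x => (f x ^ 2 + 2 * t * (f x * g x)) + t ^ 2 * g x ^ 2 := by
      funext x; ring
    have i4 : Integrable (fun x => f x ^ 2 + 2 * t * (f x * g x)) μ := i1.add (i3.const_mul _)
    rw [e1, integral_add i4 (i2.const_mul _), integral_add i1 (i3.const_mul _),
      integral_const_mul, integral_const_mul] at h0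
    linarith only [h0]
  have hd := discrim_le_zero key
  rw [discrim] at hd
  linarith

theorem shTB_abs_cs {X : Type*} [MeasurableSpace X] {μ : Measure X} {f g : X → ℝ}
    (hf : MemLp f 2 μ) (hg : MemLp g 2 μ) :
    |∫ x, f x * g x ∂μ| ≤ √(∫ x, f x ^ 2 ∂μ) * √(∫ x, g x ^ 2 ∂μ) := by
  rw [← Real.sqrt_mul (integral_nonneg fun x => sq_nonneg _)]
  exact Real.abs_le_sqrt (shTB_cs hf hg)

theorem sq_tendsto_pf {X : Type*} [MeasurableSpace X] {μ : Measure X} {f : X → ℝ}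
    (hf : MemLp f 2 μ) {F : ℕ → X → ℝ} (hF : ∀ m, MemLp (F m) 2 μ)
    (hlim : Tendsto (fun m => ∫ x, (F m x - f x) ^ 2 ∂μ) atTop (𝓝 0)) :
    Tendsto (fun m => ∫ x, F m x ^ 2 ∂μ) atTop (𝓝 (∫ x, f x ^ 2 ∂μ)) ∧
    ∀ g : X → ℝ, MemLp g 2 μ →
      Tendsto (fun m => ∫ x, g x * F m x ∂μ) atTop (𝓝 (∫ x, g x * f x ∂μ)) := by
  have hd : ∀ m, MemLp (fun x => F m x - f x) 2 μ := fun m => (hF m).sub hf
  have h2 : ∀ g : X → ℝ, MemLp g 2 μ →
      Tendsto (fun m => ∫ x, g x * (F m x - f x) ∂μ) atTop (𝓝 0) := by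
    intro g hg
    have h3 : Tendsto (fun m => √(∫ x, g x ^ 2 ∂μ) * √(∫ x, (F m x - f x) ^ 2 ∂μ)) atTop
        (𝓝 0) := by
      have h4 := (Real.continuous_sqrt.tendsto 0).comp hlim
      rw [Real.sqrt_zero] at h4
      have h5 := h4.const_mul √(∫ x, g x ^ 2 ∂μ)
      rwa [mul_zero] at h5
    refine squeeze_zero_norm (fun m => ?_) h3
    rw [Real.norm_eq_abs]
    exact shTB_abs_cs hg (hd m)
  have h6 : ∀ g : X → ℝ, MemLp g 2 μ →
      Tendsto (fun m => ∫ x, g x * F m x ∂μ) atTop (𝓝 (∫ x, g x * f x ∂μ)) := by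
    intro g hg
    have h7 := (h2 g hg).add_const (∫ x, g x * f x ∂μ)
    rw [zero_add] at h7
    refine h7.congr fun m => ?_
    have j1 : Integrable (fun x => g x * (F m x - f x)) μ := hg.integrable_mul (hd m)
    have j2 : Integrable (fun x => g x * f x) μ := hg.integrable_mul hf
    rw [← integral_add j1 j2]
    refine integral_congr_ae (Eventually.of_forall fun x => ?_)
    show g x * (F m x - f x) + g x * f x = g x * F m x
    ring
  refine ⟨?_, h6⟩
  have h8 := (hlim.add ((h2 f hf).const_mul 2)).add_const (∫ x, f x ^ 2 ∂μ)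
  rw [mul_zero, zero_add, zero_add] at h8
  refine h8.congr fun m => ?_
  have j1 : Integrable (fun x => (F m x - f x) ^ 2) μ := (hd m).integrable_sq
  have j2 : Integrable (fun x => f x * (F m x - f x)) μ := hf.integrable_mul (hd m)
  have j3 : Integrable (fun x => (F m x - f x) ^ 2 + 2 * (f x * (F m x - f x))) μ :=
    j1.add (j2.const_mul 2)
  rw [← integral_const_mul, ← integral_add j1 (j2.const_mul 2), ← integral_add j3
    hf.integrable_sq]
  refine integral_congr_ae (Eventually.of_forall fun x => ?_)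
  show (F m x - f x) ^ 2 + 2 * (f x * (F m x - f x)) + f x ^ 2 = F m x ^ 2
  ring

variable {n : ℕ}

theorem shTB_mp_ins (i : Fin (n + 1)) :
    MeasurePreserving (fun p : R3 × Conf n => ins i p.1 p.2) volume volume :=
  (volume_preserving_piFinSuccAbove (fun _ : Fin (n + 1) => R3) i).symm

/-- the function on the product, electron `i` last -/
theorem shTB_memLp_prod (i : Fin (n + 1)) {f : Conf (n + 1) → ℝ} (hf : MemLp f 2 volume) :
    MemLp (fun p : Conf n × R3 => f (ins i p.2 p.1)) 2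
      ((volume : Measure (Conf n)).prod (volume : Measure R3)) := by
  have h1 : MemLp (fun p : R3 × Conf n => f (ins i p.1 p.2)) 2
      ((volume : Measure R3).prod (volume : Measure (Conf n))) :=
    hf.comp_measurePreserving (shTB_mp_ins i)
  exact (h1.comp_measurePreserving Measure.measurePreserving_swap :)

theorem shTB_slice (i : Fin (n + 1)) {f : Conf (n + 1) → ℝ} (hf : MemLp f 2 volume) :
    (∀ᵐ y : Conf n, MemLp (fun x : R3 => f (ins i x y)) 2 volume) ∧
      Integrable (fun y : Conf n => ∫ x : R3, f (ins i x y) ^ 2) volume ∧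
      ∫ y : Conf n, ∫ x : R3, f (ins i x y) ^ 2 = ∫ x, f x ^ 2 := by
  have hg := shTB_memLp_prod i hf
  have hg2 : Integrable (fun p : Conf n × R3 => f (ins i p.2 p.1) ^ 2)
      ((volume : Measure (Conf n)).prod (volume : Measure R3)) := hg.integrable_sq
  refine ⟨?_, ?_, ?_⟩
  · filter_upwards [hg.1.prodMk_left, hg2.prod_right_ae] with y h1 h2
    exact (memLp_two_iff_integrable_sq h1).2 h2
  · exact hg2.integral_prod_left
  · have h3 := integral_prod _ hg2
    rw [← h3]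
    have h4 : ∫ p : R3 × Conf n, f (ins i p.1 p.2) ^ 2 ∂((volume : Measure R3).prod
        (volume : Measure (Conf n))) = ∫ x, f x ^ 2 := by
      have h5 := (shTB_mp_ins (n := n) i).integral_comp'
        (f := (MeasurableEquiv.piFinSuccAbove (fun _ : Fin (n + 1) => R3) i).symm)
        (fun x => f x ^ 2)
      exact h5
    rw [← h4]
    exact integral_prod_swap (μ := (volume : Measure R3)) (ν := (volume : Measure (Conf n)))
      (fun p : R3 × Conf n => f (ins i p.1 p.2) ^ 2)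

theorem memLp_occ_pf (i : Fin (n + 1)) {f : Conf (n + 1) → ℝ} (hf : MemLp f 2 volume)
    {χ : R3 → ℝ} (hχ : MemLp χ 2 volume) :
    MemLp (fun y : Conf n => ∫ x : R3, χ x * f (ins i x y)) 2 volume ∧
    occ i χ f ≤ (∫ x, χ x ^ 2) * ∫ x, f x ^ 2 := by
  obtain ⟨h1, h2, h3⟩ := shTB_slice i hf
  have hm : AEStronglyMeasurable (fun y : Conf n => ∫ x : R3, χ x * f (ins i x y)) volume := by
    have h4 : AEStronglyMeasurable (fun p : Conf n × R3 => χ p.2 * f (ins i p.2 p.1))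
        ((volume : Measure (Conf n)).prod (volume : Measure R3)) :=
      (hχ.1.comp_snd).mul (shTB_memLp_prod i hf).1
    exact h4.integral_prod_right'
  have hle : ∀ᵐ y : Conf n, (∫ x : R3, χ x * f (ins i x y)) ^ 2 ≤
      (∫ x, χ x ^ 2) * ∫ x : R3, f (ins i x y) ^ 2 := by
    filter_upwards [h1] with y hy
    exact shTB_cs hχ hy
  have hint : Integrable (fun y : Conf n => (∫ x : R3, χ x * f (ins i x y)) ^ 2) volume := by
    refine (h2.const_mul (∫ x, χ x ^ 2)).mono' (hm.pow 2) ?_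
    filter_upwards [hle] with y hy
    rw [Real.norm_eq_abs, abs_of_nonneg (sq_nonneg _)]
    exact hy
  refine ⟨(memLp_two_iff_integrable_sq hm).2 hint, ?_⟩
  rw [occ, ← h3, ← integral_const_mul]
  exact integral_mono_ae hint (h2.const_mul _) hle

theorem occ_tendsto_pf (i : Fin (n + 1)) {f : Conf (n + 1) → ℝ} (hf : MemLp f 2 volume)
    {F : ℕ → Conf (n + 1) → ℝ} (hF : ∀ m, MemLp (F m) 2 volume)
    (hlim : Tendsto (fun m => ∫ x, (F m x - f x) ^ 2) atTop (𝓝 0))
    {χ : R3 → ℝ} (hχ : MemLp χ 2 volume) :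
    Tendsto (fun m => occ i χ (F m)) atTop (𝓝 (occ i χ f)) := by
  have h1 : Tendsto (fun m => ∫ y : Conf n, ((∫ x : R3, χ x * F m (ins i x y)) -
      ∫ x : R3, χ x * f (ins i x y)) ^ 2) atTop (𝓝 0) := by
    have h2 : Tendsto (fun m => (∫ x, χ x ^ 2) * ∫ x, (F m x - f x) ^ 2) atTop (𝓝 0) := by
      have h3 := hlim.const_mul (∫ x, χ x ^ 2)
      rwa [mul_zero] at h3
    refine squeeze_zero (fun m => integral_nonneg fun y => sq_nonneg _) (fun m => ?_) h2
    have h4 := (memLp_occ_pf i (f := fun x => F m x - f x) ((hF m).sub hf) hχ).2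
    refine le_trans (le_of_eq ?_) h4
    rw [occ]
    refine integral_congr_ae ?_
    filter_upwards [(shTB_slice i (hF m)).1, (shTB_slice i hf).1] with y h5 h6
    have h7 : ∫ x : R3, χ x * (F m (ins i x y) - f (ins i x y)) =
        (∫ x : R3, χ x * F m (ins i x y)) - ∫ x : R3, χ x * f (ins i x y) := by
      have j1 : Integrable (fun x => χ x * F m (ins i x y)) := hχ.integrable_mul h5
      have j2 : Integrable (fun x => χ x * f (ins i x y)) := hχ.integrable_mul h6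
      rw [← integral_sub j1 j2]
      refine integral_congr_ae (Eventually.of_forall fun x => ?_)
      show χ x * (F m (ins i x y) - f (ins i x y)) = χ x * F m (ins i x y) - χ x * f (ins i x y)
      ring
    show _ = (∫ x : R3, χ x * (F m (ins i x y) - f (ins i x y))) ^ 2
    rw [h7]
  exact (sq_tendsto_pf (memLp_occ_pf i hf hχ).1 (fun m => (memLp_occ_pf i (hF m) hχ).1) h1).1

end

end Vale.Agent.P363.D
end
end

section

section

/-! # Measure tools on configuration space: proofs (first part of ShT) -/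

namespace Vale.Agent.P363.D

open MeasureTheory Set Filter Topology
open scoped ENNReal ContDiff

noncomputable section

theorem shta_meas4 : Measurable
    (fun p : (R3 × R3) × (R3 × R3) => (![p.1.1, p.1.2, p.2.1, p.2.2] : Conf 4)) := by
  rw [measurable_pi_iff]
  intro i
  fin_cases i
  · exact measurable_fst.fst
  · exact measurable_fst.snd
  · exact measurable_snd.fst
  · exact measurable_snd.snd

/-- `Conf 4` as a product of two products -/
def shta_e4 : (R3 × R3) × (R3 × R3) ≃ᵐ Conf 4 where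
  toFun p := ![p.1.1, p.1.2, p.2.1, p.2.2]
  invFun x := ((x 0, x 1), (x 2, x 3))
  left_inv _ := rfl
  right_inv x := by
    funext i
    fin_cases i <;> rfl
  measurable_toFun := shta_meas4
  measurable_invFun := ((measurable_pi_apply 0).prodMk (measurable_pi_apply 1)).prodMk
    ((measurable_pi_apply 2).prodMk (measurable_pi_apply 3))

theorem mp_conf4_pf : MeasurePreserving
    (fun p : (R3 × R3) × (R3 × R3) => (![p.1.1, p.1.2, p.2.1, p.2.2] : Conf 4)) volume volume := by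
  refine ⟨shta_meas4, ?_⟩
  rw [volume_pi]
  refine (Measure.pi_eq fun s hs => ?_).symm
  rw [Measure.map_apply shta_meas4 (MeasurableSet.univ_pi hs)]
  have e : (fun p : (R3 × R3) × (R3 × R3) => (![p.1.1, p.1.2, p.2.1, p.2.2] : Conf 4)) ⁻¹'
      univ.pi s = (s 0 ×ˢ s 1) ×ˢ (s 2 ×ˢ s 3) := by
    ext p
    simp only [mem_preimage, Set.mem_pi, mem_univ, true_imp_iff, mem_prod]
    constructor
    · intro h
      exact ⟨⟨h 0, h 1⟩, h 2, h 3⟩
    · rintro ⟨⟨h0, h1⟩, h2, h3⟩ i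
      fin_cases i
      · exact h0
      · exact h1
      · exact h2
      · exact h3
  rw [e]
  simp only [Measure.volume_eq_prod, Measure.prod_prod]
  rw [Fin.prod_univ_four]
  ring

theorem integral_conf4_pf (F : Conf 4 → ℝ) :
    ∫ x, F x = ∫ p : (R3 × R3) × (R3 × R3), F ![p.1.1, p.1.2, p.2.1, p.2.2] :=
  (mp_conf4_pf.integral_comp shta_e4.measurableEmbedding F).symm

theorem integrable_conf4_pf (F : Conf 4 → ℝ) : Integrable F volume ↔
    Integrable (fun p : (R3 × R3) × (R3 × R3) => F ![p.1.1, p.1.2, p.2.1, p.2.2]) volume :=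
  (mp_conf4_pf.integrable_comp_emb shta_e4.measurableEmbedding).symm

theorem shta_meas3 : Measurable
    (fun p : R3 × (R3 × R3) => (![p.1, p.2.1, p.2.2] : Conf 3)) := by
  rw [measurable_pi_iff]
  intro i
  fin_cases i
  · exact measurable_fst
  · exact measurable_snd.fst
  · exact measurable_snd.snd

/-- `Conf 3` as a product -/
def shta_e3 : R3 × (R3 × R3) ≃ᵐ Conf 3 where
  toFun p := ![p.1, p.2.1, p.2.2]
  invFun x := (x 0, (x 1, x 2))
  left_inv _ := rfl
  right_inv x := by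
    funext i
    fin_cases i <;> rfl
  measurable_toFun := shta_meas3
  measurable_invFun := (measurable_pi_apply 0).prodMk
    ((measurable_pi_apply 1).prodMk (measurable_pi_apply 2))

theorem mp_conf3_pf : MeasurePreserving
    (fun p : R3 × (R3 × R3) => (![p.1, p.2.1, p.2.2] : Conf 3)) volume volume := by
  refine ⟨shta_meas3, ?_⟩
  rw [volume_pi]
  refine (Measure.pi_eq fun s hs => ?_).symm
  rw [Measure.map_apply shta_meas3 (MeasurableSet.univ_pi hs)]
  have e : (fun p : R3 × (R3 × R3) => (![p.1, p.2.1, p.2.2] : Conf 3)) ⁻¹'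
      univ.pi s = s 0 ×ˢ (s 1 ×ˢ s 2) := by
    ext p
    simp only [mem_preimage, Set.mem_pi, mem_univ, true_imp_iff, mem_prod]
    constructor
    · intro h
      exact ⟨h 0, h 1, h 2⟩
    · rintro ⟨h0, h1, h2⟩ i
      fin_cases i
      · exact h0
      · exact h1
      · exact h2
  rw [e]
  simp only [Measure.volume_eq_prod, Measure.prod_prod]
  rw [Fin.prod_univ_three]
  ring

theorem integral_conf3_pf (F : Conf 3 → ℝ) :
    ∫ x, F x = ∫ p : R3 × (R3 × R3), F ![p.1, p.2.1, p.2.2] :=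
  (mp_conf3_pf.integral_comp shta_e3.measurableEmbedding F).symm

theorem integrable_conf3_pf (F : Conf 3 → ℝ) : Integrable F volume ↔
    Integrable (fun p : R3 × (R3 × R3) => F ![p.1, p.2.1, p.2.2]) volume :=
  (mp_conf3_pf.integrable_comp_emb shta_e3.measurableEmbedding).symm

variable {n : ℕ}

theorem shta_ins_eq (i : Fin (n + 1)) :
    ((MeasurableEquiv.piFinSuccAbove (fun _ : Fin (n + 1) => R3) i).symm :
      R3 × Conf n → Conf (n + 1)) = fun p : R3 × Conf n => ins i p.1 p.2 := by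
  funext p
  rfl

theorem mp_ins_pf (i : Fin (n + 1)) :
    MeasurePreserving (fun p : R3 × Conf n => ins i p.1 p.2) volume volume := by
  have h := (MeasureTheory.volume_preserving_piFinSuccAbove (fun _ : Fin (n + 1) => R3) i).symm
  rw [shta_ins_eq] at h
  exact h

theorem shta_me_ins (i : Fin (n + 1)) :
    MeasurableEmbedding (fun p : R3 × Conf n => ins i p.1 p.2) := by
  rw [← shta_ins_eq]
  exact MeasurableEquiv.measurableEmbedding _

theorem integral_ins_pf (i : Fin (n + 1)) (F : Conf (n + 1) → ℝ) :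
    ∫ x, F x = ∫ p : R3 × Conf n, F (ins i p.1 p.2) :=
  ((mp_ins_pf i).integral_comp (shta_me_ins i) F).symm

theorem integrable_ins_pf (i : Fin (n + 1)) (F : Conf (n + 1) → ℝ) : Integrable F volume ↔
    Integrable (fun p : R3 × Conf n => F (ins i p.1 p.2)) volume :=
  ((mp_ins_pf i).integrable_comp_emb (shta_me_ins i)).symm

/-- Fubini, electron `i` last -/
theorem integral_ins'_pf (i : Fin (n + 1)) {F : Conf (n + 1) → ℝ} (hF : Integrable F volume) :
    ∫ x, F x = ∫ y : Conf n, ∫ x : R3, F (ins i x y) := by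
  rw [integral_ins_pf i F]
  exact integral_prod_symm _ ((integrable_ins_pf i F).1 hF)

theorem integrable_ins_slice_pf (i : Fin (n + 1)) {F : Conf (n + 1) → ℝ}
    (hF : Integrable F volume) :
    (∀ᵐ y : Conf n, Integrable (fun x : R3 => F (ins i x y)) volume) ∧
    Integrable (fun y : Conf n => ∫ x : R3, F (ins i x y)) volume := by
  have h := (integrable_ins_pf i F).1 hF
  rw [Measure.volume_eq_prod] at h
  exact ⟨h.prod_left_ae, h.integral_prod_right⟩

theorem ae_ins_pf (i : Fin (n + 1)) {P : Conf (n + 1) → Prop} (h : ∀ᵐ x, P x) :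
    ∀ᵐ y : Conf n, ∀ᵐ x : R3, P (ins i x y) := by
  have h1 : ∀ᵐ p : R3 × Conf n, P (ins i p.1 p.2) := (mp_ins_pf i).quasiMeasurePreserving.ae h
  have h2 : ∀ᵐ q : Conf n × R3, P (ins i q.2 q.1) :=
    (Measure.measurePreserving_swap (μ := (volume : Measure (Conf n)))
      (ν := (volume : Measure R3))).quasiMeasurePreserving.ae h1
  exact (Measure.ae_ae_of_ae_prod h2 :)

/-- slices of `L²` functions -/
theorem memLp_ins_pf (i : Fin (n + 1)) {f : Conf (n + 1) → ℝ} (hf : MemLp f 2 volume) :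
    ∀ᵐ y : Conf n, MemLp (fun x : R3 => f (ins i x y)) 2 volume := by
  have h1 := (integrable_ins_slice_pf i hf.integrable_sq).1
  have h2 := ae_ins_pf i hf.1.ae_eq_mk
  filter_upwards [h1, h2] with y hy1 hy2
  have h3 : StronglyMeasurable fun x : R3 => hf.1.mk f (ins i x y) :=
    hf.1.stronglyMeasurable_mk.comp_measurable
      ((mp_ins_pf i).measurable.comp (measurable_id.prodMk measurable_const))
  have h4 : AEStronglyMeasurable (fun x : R3 => f (ins i x y)) volume :=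
    ⟨_, h3, hy2⟩
  exact (memLp_two_iff_integrable_sq h4).2 hy1

end

end Vale.Agent.P363.D
end
end

section

section

/-! # Measure tools on configuration space -/

namespace Vale.Agent.P363.D

open MeasureTheory Set Filter Topology
open scoped ENNReal ContDiff

noncomputable section

theorem integral_conf4 (F : Conf 4 → ℝ) :
    ∫ x, F x = ∫ p : (R3 × R3) × (R3 × R3), F ![p.1.1, p.1.2, p.2.1, p.2.2] :=
  integral_conf4_pf F

theorem integrable_conf4 (F : Conf 4 → ℝ) : Integrable F volume ↔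
    Integrable (fun p : (R3 × R3) × (R3 × R3) => F ![p.1.1, p.1.2, p.2.1, p.2.2]) volume :=
  integrable_conf4_pf F

theorem integral_conf3 (F : Conf 3 → ℝ) :
    ∫ x, F x = ∫ p : R3 × (R3 × R3), F ![p.1, p.2.1, p.2.2] :=
  integral_conf3_pf F

theorem integrable_conf3 (F : Conf 3 → ℝ) : Integrable F volume ↔
    Integrable (fun p : R3 × (R3 × R3) => F ![p.1, p.2.1, p.2.2]) volume :=
  integrable_conf3_pf F

variable {n : ℕ}

theorem mp_ins (i : Fin (n + 1)) :
    MeasurePreserving (fun p : R3 × Conf n => ins i p.1 p.2) volume volume :=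
  mp_ins_pf i

/-- Fubini, electron `i` last -/
theorem integral_ins' (i : Fin (n + 1)) {F : Conf (n + 1) → ℝ} (hF : Integrable F volume) :
    ∫ x, F x = ∫ y : Conf n, ∫ x : R3, F (ins i x y) :=
  integral_ins'_pf i hF

theorem integrable_ins_slice (i : Fin (n + 1)) {F : Conf (n + 1) → ℝ} (hF : Integrable F volume) :
    (∀ᵐ y : Conf n, Integrable (fun x : R3 => F (ins i x y)) volume) ∧
    Integrable (fun y : Conf n => ∫ x : R3, F (ins i x y)) volume :=
  integrable_ins_slice_pf i hF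

/-- slices of `L²` functions -/
theorem memLp_ins (i : Fin (n + 1)) {f : Conf (n + 1) → ℝ} (hf : MemLp f 2 volume) :
    ∀ᵐ y : Conf n, MemLp (fun x : R3 => f (ins i x y)) 2 volume :=
  memLp_ins_pf i hf

theorem memLp_occ (i : Fin (n + 1)) {f : Conf (n + 1) → ℝ} (hf : MemLp f 2 volume)
    {χ : R3 → ℝ} (hχ : MemLp χ 2 volume) :
    MemLp (fun y : Conf n => ∫ x : R3, χ x * f (ins i x y)) 2 volume ∧
    occ i χ f ≤ (∫ x, χ x ^ 2) * ∫ x, f x ^ 2 :=
  memLp_occ_pf i hf hχ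

/-- `occ` depends only on the class of `f` and is continuous in `L²` -/
theorem occ_tendsto (i : Fin (n + 1)) {f : Conf (n + 1) → ℝ} (hf : MemLp f 2 volume)
    {F : ℕ → Conf (n + 1) → ℝ} (hF : ∀ m, MemLp (F m) 2 volume)
    (hlim : Tendsto (fun m => ∫ x, (F m x - f x) ^ 2) atTop (𝓝 0))
    {χ : R3 → ℝ} (hχ : MemLp χ 2 volume) :
    Tendsto (fun m => occ i χ (F m)) atTop (𝓝 (occ i χ f)) :=
  occ_tendsto_pf i hf hF hlim hχ

theorem sq_tendsto {X : Type*} [MeasurableSpace X] {μ : Measure X} {f : X → ℝ}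
    (hf : MemLp f 2 μ) {F : ℕ → X → ℝ} (hF : ∀ m, MemLp (F m) 2 μ)
    (hlim : Tendsto (fun m => ∫ x, (F m x - f x) ^ 2 ∂μ) atTop (𝓝 0)) :
    Tendsto (fun m => ∫ x, F m x ^ 2 ∂μ) atTop (𝓝 (∫ x, f x ^ 2 ∂μ)) ∧
    ∀ g : X → ℝ, MemLp g 2 μ →
      Tendsto (fun m => ∫ x, g x * F m x ∂μ) atTop (𝓝 (∫ x, g x * f x ∂μ)) :=
  sq_tendsto_pf hf hF hlim

end

end Vale.Agent.P363.D
end
end

section

section

/-! # Products of one-electron functions: `H¹` membership and derivative -/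

namespace Vale.Agent.P363.D

open MeasureTheory Set Filter Topology
open scoped ENNReal ContDiff

noncomputable section

variable {N : ℕ}

/-- evaluation at the coordinates of electron `i` is quasi measure preserving -/
lemma hna_qmp (i : Fin N) : Measure.QuasiMeasurePreserving (fun x : Conf N => x i)
    (volume : Measure (Conf N)) (volume : Measure R3) :=
  Measure.quasiMeasurePreserving_eval (fun _ => (volume : Measure R3)) i

lemma hna_aesm {v : R3 → ℝ} (h : AEStronglyMeasurable v volume) (i : Fin N) :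
    AEStronglyMeasurable (fun x : Conf N => v (x i)) volume :=
  h.comp_quasiMeasurePreserving (hna_qmp i)

lemma hna_aesm_prod {v : Fin N → R3 → ℝ} (s : Finset (Fin N))
    (h : ∀ i, AEStronglyMeasurable (v i) volume) :
    AEStronglyMeasurable (fun x : Conf N => ∏ i ∈ s, v i (x i)) volume :=
  Finset.aestronglyMeasurable_fun_prod s (fun i _ => hna_aesm (h i) i)

lemma hna_memLp {v : Fin N → R3 → ℝ} (h : ∀ i, MemLp (v i) 2 volume) :
    MemLp (prodF v) 2 volume := by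
  have hm : AEStronglyMeasurable (prodF v) volume :=
    hna_aesm_prod Finset.univ (fun i => (h i).aestronglyMeasurable)
  rw [memLp_two_iff_integrable_sq hm]
  have h1 : Integrable (fun x : Conf N => ∏ i, (v i (x i)) ^ 2) volume :=
    Integrable.fintype_prod (f := fun i x => v i x ^ 2) (fun i => (h i).integrable_sq)
  refine h1.congr ?_
  filter_upwards with x
  unfold prodF
  rw [Finset.prod_pow]

lemma prodG_eq (u : Fin N → R3 → ℝ) (u' : Fin N → Fin 3 → R3 → ℝ) (i : Fin N) (k : Fin 3) :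
    prodG u u' i k = prodF (Function.update u i (u' i k)) := by
  funext x
  unfold prodG prodF
  rw [← Finset.mul_prod_erase Finset.univ _ (Finset.mem_univ i), Function.update_self]
  congr 1
  apply Finset.prod_congr rfl
  intro j hj
  rw [Function.update_of_ne (Finset.ne_of_mem_erase hj)]

theorem HN_prod_pf {u : Fin N → R3 → ℝ} {u' : Fin N → Fin 3 → R3 → ℝ}
    (h : ∀ i, H1o (u i) (u' i)) : HN (prodF u) (prodG u u') := by
  refine ⟨hna_memLp (fun i => (h i).memLp), ?_, ?_⟩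
  · intro i k
    rw [prodG_eq]
    apply hna_memLp
    intro j
    by_cases hj : j = i
    · subst hj
      rw [Function.update_self]
      exact (h j).memLp' k
    · rw [Function.update_of_ne hj]
      exact (h j).memLp
  · intro i k
    have h1 : ACL volume (axisDir i k) (fun x : Conf N => u i (x i))
        (fun x : Conf N => u' i k (x i)) := by
      refine ACL.comp_qmp (hna_qmp i) ?_ ((h i).acl k)
      intro x t
      simp [axisDir, dir3]
    have h2 : ACL volume (axisDir i k)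
        (fun x : Conf N => ∏ j ∈ Finset.univ.erase i, u j (x j)) (fun _ => 0) := by
      have hline : ∀ (x : Conf N) (t : ℝ),
          ∏ j ∈ Finset.univ.erase i, u j ((x + t • axisDir i k : Conf N) j) =
            ∏ j ∈ Finset.univ.erase i, u j (x j) := by
        intro x t
        apply Finset.prod_congr rfl
        intro j hj
        have hji : j ≠ i := Finset.ne_of_mem_erase hj
        simp [axisDir, hji]
      refine ⟨hna_aesm_prod _ (fun j => (h j).memLp.aestronglyMeasurable),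
        aestronglyMeasurable_const, ?_, ?_⟩
      · filter_upwards with x
        exact continuous_const.locallyIntegrable
      · filter_upwards with x
        filter_upwards with t
        rw [hline]
        simp only [prim, intervalIntegral.integral_zero, add_zero]
    have h3 := h1.mul h2
    have e1 : (fun x : Conf N => u i (x i) * ∏ j ∈ Finset.univ.erase i, u j (x j)) = prodF u := by
      funext x
      unfold prodF
      exact Finset.mul_prod_erase Finset.univ (fun j => u j (x j)) (Finset.mem_univ i)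
    have e2 : (fun x : Conf N => u' i k (x i) * ∏ j ∈ Finset.univ.erase i, u j (x j) +
        u i (x i) * 0) = prodG u u' i k := by
      funext x
      unfold prodG
      rw [mul_zero, add_zero]
    rw [e1, e2] at h3
    exact h3

theorem fderiv_prodF_pf {u : Fin N → R3 → ℝ} {x : Conf N}
    (h : ∀ i, DifferentiableAt ℝ (u i) (x i)) (i : Fin N) (k : Fin 3) :
    DifferentiableAt ℝ (prodF u) x ∧
    fderiv ℝ (prodF u) x (axisDir i k) = prodG u (fun i => gr (u i)) i k x := by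
  have h1 : ∀ l ∈ (Finset.univ : Finset (Fin N)), HasFDerivAt (fun y : Conf N => u l (y l))
      ((fderiv ℝ (u l) (x l)).comp (ContinuousLinearMap.proj l)) x := by
    intro l _
    exact (h l).hasFDerivAt.comp x (ContinuousLinearMap.proj (R := ℝ) (φ := fun _ : Fin N => R3) l).hasFDerivAt
  have h2 : HasFDerivAt (prodF u) (∑ l, (∏ j ∈ Finset.univ.erase l, u j (x j)) •
      ((fderiv ℝ (u l) (x l)).comp (ContinuousLinearMap.proj l))) x :=
    HasFDerivAt.finsetProd h1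
  refine ⟨h2.differentiableAt, ?_⟩
  rw [h2.fderiv, _root_.sum_apply, Finset.sum_eq_single i]
  · simp only [_root_.smul_apply, ContinuousLinearMap.comp_apply,
      ContinuousLinearMap.proj_apply, smul_eq_mul, axisDir, Pi.single_eq_same]
    unfold prodG gr dir3
    ring
  · intro l _ hl
    simp only [axisDir, smul_apply, ContinuousLinearMap.comp_apply, ContinuousLinearMap.proj_apply, ne_eq, hl, not_false_eq_true, Pi.single_eq_of_ne, map_zero, smul_eq_mul, mul_zero]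
  · intro hi
    exact absurd (Finset.mem_univ i) hi

end

end Vale.Agent.P363.D
end
end

section

section

/-! # Products of one-electron functions as `H¹` functions on configuration space -/

namespace Vale.Agent.P363.D

open MeasureTheory Set Filter Topology
open scoped ENNReal ContDiff

noncomputable section

variable {N : ℕ}

theorem HN_prod {u : Fin N → R3 → ℝ} {u' : Fin N → Fin 3 → R3 → ℝ}
    (h : ∀ i, H1o (u i) (u' i)) : HN (prodF u) (prodG u u') := HN_prod_pf h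

theorem fderiv_prodF {u : Fin N → R3 → ℝ} {x : Conf N} (h : ∀ i, DifferentiableAt ℝ (u i) (x i))
    (i : Fin N) (k : Fin 3) :
    DifferentiableAt ℝ (prodF u) x ∧
    fderiv ℝ (prodF u) x (axisDir i k) = prodG u (fun i => gr (u i)) i k x :=
  fderiv_prodF_pf h i k

/-- the four products of the expansion of `sh4` -/
def P4 (p : Fin 4 × Fin 4) : Fin 4 → Fin 4 → R3 → ℝ :=
  ![![KD.chi 0, KD.chi p.1.succ, KD.chi 0, KD.chi p.2.succ],
    ![KD.chi p.1.succ, KD.chi 0, KD.chi 0, KD.chi p.2.succ],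
    ![KD.chi 0, KD.chi p.1.succ, KD.chi p.2.succ, KD.chi 0],
    ![KD.chi p.1.succ, KD.chi 0, KD.chi p.2.succ, KD.chi 0]]

def s4 : Fin 4 → ℝ := ![1 / 2, -1 / 2, -1 / 2, 1 / 2]

theorem sh4_eq (p : Fin 4 × Fin 4) (x : Conf 4) : sh4 p x = ∑ j, s4 j * prodF (P4 p j) x := by
  simp only [sh4, wdg, prodF, s4, P4, Fin.sum_univ_four, Fin.prod_univ_four, Matrix.cons_val]
  have h2 : (√2 : ℝ)⁻¹ * (√2 : ℝ)⁻¹ = 1 / 2 := by
    rw [← mul_inv, Real.mul_self_sqrt (by norm_num)]
    norm_num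
  simp only [div_eq_mul_inv]
  linear_combination ((KD.chi 0 (x 0) * KD.chi p.1.succ (x 1) - KD.chi p.1.succ (x 0) *
    KD.chi 0 (x 1)) * (KD.chi 0 (x 2) * KD.chi p.2.succ (x 3) - KD.chi p.2.succ (x 2) *
    KD.chi 0 (x 3))) * h2

theorem shb_ae_ne (N : ℕ) : ∀ᵐ x : Conf N, ∀ i, x i ≠ 0 := by
  refine ae_all_iff.2 fun i => ?_
  have h1 : ∀ᵐ r : R3, r ≠ 0 := compl_mem_ae_iff.2 (measure_singleton 0)
  exact (Measure.quasiMeasurePreserving_eval (fun _ : Fin N => (volume : Measure R3)) i).ae h1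

theorem shb_P4_chi (p : Fin 4 × Fin 4) (j l : Fin 4) : ∃ a, P4 p j l = KD.chi a := by
  fin_cases j <;> fin_cases l <;>
    first
    | exact ⟨0, rfl⟩
    | exact ⟨p.1.succ, rfl⟩
    | exact ⟨p.2.succ, rfl⟩

theorem shb_fderiv {ι : Type*} [Fintype ι] (c : ι → ℝ) (P : ι → Fin N → R3 → ℝ)
    {F : Conf N → ℝ} (hF : ∀ x, F x = ∑ j, c j * prodF (P j) x) {x : Conf N}
    (h : ∀ j l, DifferentiableAt ℝ (P j l) (x l)) (i : Fin N) (k : Fin 3) :
    fderiv ℝ F x (axisDir i k) = ∑ j, c j * prodG (P j) (fun l => gr (P j l)) i k x := by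
  have h1 : HasFDerivAt F (∑ j, c j • fderiv ℝ (prodF (P j)) x) x := by
    rw [funext hF]
    exact HasFDerivAt.fun_sum fun j _ =>
      ((fderiv_prodF (h j) i k).1.hasFDerivAt).const_mul (c j)
  rw [h1.fderiv, sum_apply]
  refine Finset.sum_congr rfl fun j _ => ?_
  rw [← (fderiv_prodF (h j) i k).2]
  rfl

theorem sh4'_ae (p : Fin 4 × Fin 4) (i : Fin 4) (k : Fin 3) :
    ∀ᵐ x, sh4' p i k x = ∑ j, s4 j * prodG (P4 p j) (fun l => gr (P4 p j l)) i k x := by
  filter_upwards [shb_ae_ne 4] with x hx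
  have h1 : ∀ j l, DifferentiableAt ℝ (P4 p j l) (x l) := fun j l => by
    obtain ⟨a, ha⟩ := shb_P4_chi p j l
    rw [ha]
    exact chi_diff a (hx l)
  exact shb_fderiv s4 (P4 p) (sh4_eq p) h1 i k

/-- the two products of the expansion of `sh3` -/
def P3 (a : Fin 4) : Fin 2 → Fin 3 → R3 → ℝ :=
  ![![KD.chi 0, KD.chi 0, KD.chi a.succ], ![KD.chi 0, KD.chi a.succ, KD.chi 0]]

def s3 : Fin 2 → ℝ := ![1 / √2, -(1 / √2)]

theorem sh3_eq (a : Fin 4) (x : Conf 3) : sh3 a x = ∑ j, s3 j * prodF (P3 a j) x := by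
  simp only [sh3, wdg, prodF, s3, P3, Fin.sum_univ_two, Fin.prod_univ_three, Matrix.cons_val]
  ring

theorem shb_P3_chi (a : Fin 4) (j : Fin 2) (l : Fin 3) : ∃ b, P3 a j l = KD.chi b := by
  fin_cases j <;> fin_cases l <;>
    first
    | exact ⟨0, rfl⟩
    | exact ⟨a.succ, rfl⟩

theorem sh3'_ae (a : Fin 4) (i : Fin 3) (k : Fin 3) :
    ∀ᵐ x, sh3' a i k x = ∑ j, s3 j * prodG (P3 a j) (fun l => gr (P3 a j l)) i k x := by
  filter_upwards [shb_ae_ne 3] with x hx
  have h1 : ∀ j l, DifferentiableAt ℝ (P3 a j l) (x l) := fun j l => by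
    obtain ⟨b, hb⟩ := shb_P3_chi a j l
    rw [hb]
    exact chi_diff b (hx l)
  exact shb_fderiv s3 (P3 a) (sh3_eq a) h1 i k

theorem shb_HN_lin {ι : Type*} [Fintype ι] (c : ι → ℝ) {F : ι → Conf N → ℝ}
    {G : ι → Fin N → Fin 3 → Conf N → ℝ} (h : ∀ j, HN (F j) (G j)) :
    HN (fun x => ∑ j, c j * F j x) (fun i k x => ∑ j, c j * G j i k x) where
  memLp := memLp_finsetSum _ fun j _ => (h j).memLp.const_mul (c j)
  memLp' i k := memLp_finsetSum _ fun j _ => ((h j).memLp' i k).const_mul (c j)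
  acl i k := ACL.sum Finset.univ fun j _ => ((h j).acl i k).const_mul (c j)

theorem shb_HN_ae {f f' : Conf N → ℝ} {g g' : Fin N → Fin 3 → Conf N → ℝ} (h : HN f g)
    (hf : f =ᵐ[volume] f') (hg : ∀ i k, g i k =ᵐ[volume] g' i k) : HN f' g' where
  memLp := h.memLp.ae_eq hf
  memLp' i k := (h.memLp' i k).ae_eq (hg i k)
  acl i k := (h.acl i k).congr hf (hg i k)

theorem sh4_HN' (p : Fin 4 × Fin 4) : HN (sh4 p) (sh4' p) := by
  have h1 := shb_HN_lin s4 (fun j => HN_prod (u := P4 p j) (u' := fun l => gr (P4 p j l)) fun l => by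
    obtain ⟨a, ha⟩ := shb_P4_chi p j l
    rw [ha]
    exact chi_H1o a)
  exact shb_HN_ae h1 (Eventually.of_forall fun x => (sh4_eq p x).symm)
    fun i k => by
      filter_upwards [sh4'_ae p i k] with x hx
      exact hx.symm

theorem sh3_HN' (a : Fin 4) : HN (sh3 a) (sh3' a) := by
  have h1 := shb_HN_lin s3 (fun j => HN_prod (u := P3 a j) (u' := fun l => gr (P3 a j l)) fun l => by
    obtain ⟨b, hb⟩ := shb_P3_chi a j l
    rw [hb]
    exact chi_H1o b)
  exact shb_HN_ae h1 (Eventually.of_forall fun x => (sh3_eq a x).symm)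
    fun i k => by
      filter_upwards [sh3'_ae a i k] with x hx
      exact hx.symm

theorem shb_chi_int (a b : Fin 5) : Integrable (fun x => KD.chi a x * KD.chi b x) volume :=
  (chi_memLp a).integrable_mul (chi_memLp b)

theorem shb_chi_int2 (a b c d : Fin 5) :
    Integrable (fun q : R3 × R3 => (KD.chi a q.1 * KD.chi b q.1) * (KD.chi c q.2 * KD.chi d q.2))
      volume ∧
    ∫ q : R3 × R3, (KD.chi a q.1 * KD.chi b q.1) * (KD.chi c q.2 * KD.chi d q.2) =
      (if a = b then 1 else 0) * (if c = d then 1 else 0) := by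
  refine ⟨(shb_chi_int a b).mul_prod (shb_chi_int c d), ?_⟩
  rw [Measure.volume_eq_prod, integral_prod_mul (μ := (volume : Measure R3))
    (ν := (volume : Measure R3)) (fun x : R3 => KD.chi a x * KD.chi b x)
    (fun x : R3 => KD.chi c x * KD.chi d x), chi_ortho, chi_ortho]

theorem shb_wdg_ortho (a b : Fin 4) :
    ∫ q : R3 × R3, wdg (KD.chi 0) (KD.chi a.succ) q.1 q.2 *
      wdg (KD.chi 0) (KD.chi b.succ) q.1 q.2 = if a = b then 1 else 0 := by
  have h2 : (√2 : ℝ)⁻¹ * (√2 : ℝ)⁻¹ = 1 / 2 := by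
    rw [← mul_inv, Real.mul_self_sqrt (by norm_num)]
    norm_num
  have e : ∀ q : R3 × R3, wdg (KD.chi 0) (KD.chi a.succ) q.1 q.2 *
      wdg (KD.chi 0) (KD.chi b.succ) q.1 q.2 =
      (1 / 2) * (((KD.chi 0 q.1 * KD.chi 0 q.1) * (KD.chi a.succ q.2 * KD.chi b.succ q.2)
        - (KD.chi 0 q.1 * KD.chi b.succ q.1) * (KD.chi a.succ q.2 * KD.chi 0 q.2))
        + ((KD.chi a.succ q.1 * KD.chi b.succ q.1) * (KD.chi 0 q.2 * KD.chi 0 q.2)
        - (KD.chi a.succ q.1 * KD.chi 0 q.1) * (KD.chi 0 q.2 * KD.chi b.succ q.2))) := fun q => by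
    simp only [wdg, div_eq_mul_inv]
    linear_combination ((KD.chi 0 q.1 * KD.chi a.succ q.2 - KD.chi a.succ q.1 * KD.chi 0 q.2) *
      (KD.chi 0 q.1 * KD.chi b.succ q.2 - KD.chi b.succ q.1 * KD.chi 0 q.2)) * h2
  simp only [e]
  have i1 := shb_chi_int2 0 0 a.succ b.succ
  have i2 := shb_chi_int2 0 b.succ a.succ 0
  have i3 := shb_chi_int2 a.succ b.succ 0 0
  have i4 := shb_chi_int2 a.succ 0 0 b.succ
  have i5 := integral_sub i1.1 i2.1
  have i6 := integral_sub i3.1 i4.1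
  have i7 := integral_add (i1.1.sub i2.1) (i3.1.sub i4.1)
  simp only [Pi.sub_apply] at i7
  rw [integral_const_mul, i7, i5, i6, i1.2, i2.2, i3.2, i4.2]
  have n1 : (0 : Fin 5) ≠ b.succ := (Fin.succ_ne_zero b).symm
  have n2 : a.succ ≠ (0 : Fin 5) := Fin.succ_ne_zero a
  rw [if_pos rfl, if_neg n1, if_neg n2]
  by_cases h : a = b
  · rw [if_pos h, if_pos (by rw [h])]; norm_num
  · rw [if_neg h, if_neg (fun hh => h (Fin.succ_injective _ hh))]; norm_num

theorem sh4_ortho' (p p' : Fin 4 × Fin 4) :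
    ∫ x, sh4 p x * sh4 p' x = if p = p' then 1 else 0 := by
  rw [integral_conf4]
  have e : ∀ q : (R3 × R3) × (R3 × R3), sh4 p ![q.1.1, q.1.2, q.2.1, q.2.2] *
      sh4 p' ![q.1.1, q.1.2, q.2.1, q.2.2] =
      (wdg (KD.chi 0) (KD.chi p.1.succ) q.1.1 q.1.2 *
        wdg (KD.chi 0) (KD.chi p'.1.succ) q.1.1 q.1.2) *
      (wdg (KD.chi 0) (KD.chi p.2.succ) q.2.1 q.2.2 *
        wdg (KD.chi 0) (KD.chi p'.2.succ) q.2.1 q.2.2) := fun q => by
    simp only [sh4, Matrix.cons_val]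
    ring
  simp only [e]
  rw [Measure.volume_eq_prod, integral_prod_mul (μ := (volume : Measure (R3 × R3)))
    (ν := (volume : Measure (R3 × R3)))
    (fun q : R3 × R3 => wdg (KD.chi 0) (KD.chi p.1.succ) q.1 q.2 *
      wdg (KD.chi 0) (KD.chi p'.1.succ) q.1 q.2)
    (fun q : R3 × R3 => wdg (KD.chi 0) (KD.chi p.2.succ) q.1 q.2 *
      wdg (KD.chi 0) (KD.chi p'.2.succ) q.1 q.2), shb_wdg_ortho, shb_wdg_ortho]
  obtain ⟨a, b⟩ := p
  obtain ⟨a', b'⟩ := p'
  by_cases h1 : a = a' <;> by_cases h2 : b = b' <;> simp [h1, h2, Prod.ext_iff]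

theorem sh3_ortho' (a a' : Fin 4) : ∫ y, sh3 a y * sh3 a' y = if a = a' then 1 else 0 := by
  rw [integral_conf3]
  have e : ∀ q : R3 × (R3 × R3), sh3 a ![q.1, q.2.1, q.2.2] * sh3 a' ![q.1, q.2.1, q.2.2] =
      (KD.chi 0 q.1 * KD.chi 0 q.1) *
      (wdg (KD.chi 0) (KD.chi a.succ) q.2.1 q.2.2 *
        wdg (KD.chi 0) (KD.chi a'.succ) q.2.1 q.2.2) := fun q => by
    simp only [sh3, Matrix.cons_val]
    ring
  simp only [e]
  rw [Measure.volume_eq_prod, integral_prod_mul (μ := (volume : Measure R3))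
    (ν := (volume : Measure (R3 × R3))) (fun x : R3 => KD.chi 0 x * KD.chi 0 x)
    (fun q : R3 × R3 => wdg (KD.chi 0) (KD.chi a.succ) q.1 q.2 *
      wdg (KD.chi 0) (KD.chi a'.succ) q.1 q.2), shb_wdg_ortho, chi_ortho, if_pos rfl, one_mul]

end

end Vale.Agent.P363.D
end
end

section

section

/-! # Matrix of the perturbation on the shells: light nuclei, integrability -/

namespace Vale.Agent.P363.D

open MeasureTheory Set Filter Topology
open scoped ENNReal ContDiff

noncomputable section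

/-! ### the potential of the light nuclei -/

theorem shMA_refl_ez (k : Fin 3) : refl k ez = if k = 2 then -ez else ez := by
  unfold ez
  ext i
  rw [KD.refl_apply]
  by_cases hk : k = 2
  · subst hk
    by_cases hi : i = 2 <;> simp [hi]
  · by_cases hi : i = k
    · subst hi
      simp [hk]
    · simp [hi, hk]

theorem shMA_refl_sub (k : Fin 3) (x y : R3) : ‖refl k x - y‖ = ‖x - refl k y‖ := by
  have h : refl k x - y = refl k (x - refl k y) := by
    have h1 := (KD.reflE k).map_sub x (refl k y)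
    rw [KD.reflE_coe, KD.refl_refl] at h1
    exact h1.symm
  rw [h, KD.norm_refl]

theorem shMA_refl_smul (k : Fin 3) (c : ℝ) (x : R3) : refl k (c • x) = c • refl k x :=
  (KD.reflE k).map_smul c x

theorem shMA_UU_refl (L : ℝ) (k : Fin 3) (x : R3) : UU L (refl k x) = UU L x := by
  unfold UU
  have h1 : ‖refl k x + L • ez‖ = ‖x + refl k (L • ez)‖ := by
    have h := shMA_refl_sub k x (-(L • ez))
    rw [sub_neg_eq_add] at h
    rw [h]
    congr 1
    have h2 : refl k (-(L • ez)) = - refl k (L • ez) := (KD.reflE k).map_neg _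
    rw [h2, sub_neg_eq_add]
  rw [shMA_refl_sub, h1, shMA_refl_smul, shMA_refl_ez]
  split_ifs
  · rw [smul_neg, sub_neg_eq_add, ← sub_eq_add_neg]
    ring
  · rfl

theorem uab_zero_pf (L : ℝ) (a b : Fin 4) (h : a ≠ b) :
    ∫ x, UU L x * (KD.chi a.succ x * KD.chi b.succ x) = 0 := by
  obtain ⟨k, hk⟩ : ∃ k : Fin 3, sg k a * sg k b = -1 := by
    have h0 : ∃ k : Fin 3, (a = k.succ ∧ b ≠ k.succ) ∨ (a ≠ k.succ ∧ b = k.succ) := by
      revert a b
      (clear * -; decide)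
    obtain ⟨k, ⟨h1, h2⟩ | ⟨h1, h2⟩⟩ := h0
    · refine ⟨k, ?_⟩
      unfold sg
      rw [if_pos h1, if_neg h2]
      norm_num
    · refine ⟨k, ?_⟩
      unfold sg
      rw [if_neg h1, if_pos h2]
      norm_num
  have h1 := KD.integral_refl k (fun x => UU L x * (KD.chi a.succ x * KD.chi b.succ x))
  have h2 : ∀ x, UU L (refl k x) * (KD.chi a.succ (refl k x) * KD.chi b.succ (refl k x)) =
      -(UU L x * (KD.chi a.succ x * KD.chi b.succ x)) := by
    intro x
    rw [shMA_UU_refl, chi_refl, chi_refl]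
    linear_combination (UU L x * (KD.chi a.succ x * KD.chi b.succ x)) * hk
  simp only [h2, integral_neg] at h1
  linarith only [h1]

/-- the matrix of the light nuclei in the orbitals -/
def shMA_u (L : ℝ) (c d : Fin 5) : ℝ := ∫ x, UU L x * (KD.chi c x * KD.chi d x)

theorem shMA_intc (c d : Fin 5) : Integrable (fun x => KD.chi c x * KD.chi d x) volume :=
  (chi_memLp c).integrable_mul (chi_memLp d)

theorem shMA_int1 (y : R3) (c d : Fin 5) :
    Integrable (fun x : R3 => (1 / ‖x - y‖) * (KD.chi c x * KD.chi d x)) volume := by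
  refine hardy_mul (a := fun x : R3 => x - y) (e := dir3) (by fun_prop) ?_
    (chi_H1o c).memLp (chi_H1o c).memLp' (chi_H1o c).acl
    (chi_H1o d).memLp (chi_H1o d).memLp' (chi_H1o d).acl
  intro x k t
  simp only [dir3]
  abel

theorem shMA_intu (L : ℝ) (c d : Fin 5) :
    Integrable (fun x : R3 => UU L x * (KD.chi c x * KD.chi d x)) volume := by
  have h1 := (shMA_int1 (L • ez) c d).add (shMA_int1 (-(L • ez)) c d)
  refine h1.congr (ae_of_all _ fun x => ?_)
  simp only [Pi.add_apply, UU, sub_neg_eq_add]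
  ring

theorem shMA_u_diag (L : ℝ) (c : Fin 5) : shMA_u L c c = uD L c := by
  unfold shMA_u uD
  congr 1
  funext x
  ring

theorem shMA_u_off (L : ℝ) (a b : Fin 4) :
    shMA_u L a.succ b.succ = if a = b then uD L a.succ else 0 := by
  by_cases h : a = b
  · subst h
    rw [if_pos rfl, shMA_u_diag]
  · rw [if_neg h]
    exact uab_zero_pf L a b h

/-! ### two electrons of the same spin -/

/-- product of two Slater determinants -/
def shMA_G (a a' : Fin 4) (p : R3 × R3) : ℝ :=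
  wdg (KD.chi 0) (KD.chi a.succ) p.1 p.2 * wdg (KD.chi 0) (KD.chi a'.succ) p.1 p.2

theorem shMA_G_eq (a a' : Fin 4) (p : R3 × R3) : shMA_G a a' p =
    (1 / 2) * ((KD.chi 0 p.1 * KD.chi 0 p.1) * (KD.chi a.succ p.2 * KD.chi a'.succ p.2) -
      (KD.chi 0 p.1 * KD.chi a'.succ p.1) * (KD.chi a.succ p.2 * KD.chi 0 p.2) -
      (KD.chi a.succ p.1 * KD.chi 0 p.1) * (KD.chi 0 p.2 * KD.chi a'.succ p.2) +
      (KD.chi a.succ p.1 * KD.chi a'.succ p.1) * (KD.chi 0 p.2 * KD.chi 0 p.2)) := by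
  unfold shMA_G wdg
  have h : (√2 : ℝ) * √2 = 2 := Real.mul_self_sqrt (by norm_num)
  rw [div_mul_div_comm, h]
  ring

theorem shMA_four {f1 g1 f2 g2 f3 g3 f4 g4 : R3 → ℝ}
    (hf1 : Integrable f1 volume) (hg1 : Integrable g1 volume)
    (hf2 : Integrable f2 volume) (hg2 : Integrable g2 volume)
    (hf3 : Integrable f3 volume) (hg3 : Integrable g3 volume)
    (hf4 : Integrable f4 volume) (hg4 : Integrable g4 volume) :
    Integrable (fun p : R3 × R3 => (1 / 2) * (f1 p.1 * g1 p.2 - f2 p.1 * g2 p.2 -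
      f3 p.1 * g3 p.2 + f4 p.1 * g4 p.2)) volume ∧
    ∫ p : R3 × R3, (1 / 2) * (f1 p.1 * g1 p.2 - f2 p.1 * g2 p.2 -
      f3 p.1 * g3 p.2 + f4 p.1 * g4 p.2) =
      (1 / 2) * ((∫ x, f1 x) * (∫ x, g1 x) - (∫ x, f2 x) * (∫ x, g2 x) -
        (∫ x, f3 x) * (∫ x, g3 x) + (∫ x, f4 x) * (∫ x, g4 x)) := by
  have i1 : Integrable (fun p : R3 × R3 => f1 p.1 * g1 p.2) volume := hf1.mul_prod hg1
  have i2 : Integrable (fun p : R3 × R3 => f2 p.1 * g2 p.2) volume := hf2.mul_prod hg2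
  have i3 : Integrable (fun p : R3 × R3 => f3 p.1 * g3 p.2) volume := hf3.mul_prod hg3
  have i4 : Integrable (fun p : R3 × R3 => f4 p.1 * g4 p.2) volume := hf4.mul_prod hg4
  have k (f g : R3 → ℝ) : ∫ z : R3 × R3, f z.1 * g z.2 = (∫ x, f x) * ∫ x, g x :=
    integral_prod_mul f g
  refine ⟨(((i1.sub i2).sub i3).add i4).const_mul (1 / 2), ?_⟩
  rw [integral_const_mul, ← k f1 g1, ← k f2 g2, ← k f3 g3, ← k f4 g4]
  congr 1
  have j1 := integral_sub i1 i2
  have j2 := integral_sub (i1.sub i2) i3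
  have j3 := integral_add ((i1.sub i2).sub i3) i4
  simp only [Pi.sub_apply] at j1 j2 j3
  rw [j3, j2, j1]

/-- pair integrals with one-body weights -/
theorem shMA_pair {w1 w2 : R3 → ℝ}
    (h1 : ∀ c d, Integrable (fun x => w1 x * (KD.chi c x * KD.chi d x)) volume)
    (h2 : ∀ c d, Integrable (fun x => w2 x * (KD.chi c x * KD.chi d x)) volume)
    (a a' : Fin 4) :
    Integrable (fun p : R3 × R3 => (w1 p.1 * w2 p.2) * shMA_G a a' p) volume ∧
    ∫ p : R3 × R3, (w1 p.1 * w2 p.2) * shMA_G a a' p =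
      (1 / 2) * ((∫ x, w1 x * (KD.chi 0 x * KD.chi 0 x)) *
          (∫ x, w2 x * (KD.chi a.succ x * KD.chi a'.succ x)) -
        (∫ x, w1 x * (KD.chi 0 x * KD.chi a'.succ x)) *
          (∫ x, w2 x * (KD.chi a.succ x * KD.chi 0 x)) -
        (∫ x, w1 x * (KD.chi a.succ x * KD.chi 0 x)) *
          (∫ x, w2 x * (KD.chi 0 x * KD.chi a'.succ x)) +
        (∫ x, w1 x * (KD.chi a.succ x * KD.chi a'.succ x)) *
          (∫ x, w2 x * (KD.chi 0 x * KD.chi 0 x))) := by
  have h := shMA_four (h1 0 0) (h2 a.succ a'.succ) (h1 0 a'.succ) (h2 a.succ 0)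
    (h1 a.succ 0) (h2 0 a'.succ) (h1 a.succ a'.succ) (h2 0 0)
  have e : (fun p : R3 × R3 => (w1 p.1 * w2 p.2) * shMA_G a a' p) = fun p =>
      (1 / 2) * ((w1 p.1 * (KD.chi 0 p.1 * KD.chi 0 p.1)) *
        (w2 p.2 * (KD.chi a.succ p.2 * KD.chi a'.succ p.2)) -
      (w1 p.1 * (KD.chi 0 p.1 * KD.chi a'.succ p.1)) *
        (w2 p.2 * (KD.chi a.succ p.2 * KD.chi 0 p.2)) -
      (w1 p.1 * (KD.chi a.succ p.1 * KD.chi 0 p.1)) *
        (w2 p.2 * (KD.chi 0 p.2 * KD.chi a'.succ p.2)) +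
      (w1 p.1 * (KD.chi a.succ p.1 * KD.chi a'.succ p.1)) *
        (w2 p.2 * (KD.chi 0 p.2 * KD.chi 0 p.2))) := by
    funext p
    rw [shMA_G_eq]
    ring
  rw [e]
  exact h

theorem shMA_one (c d : Fin 5) :
    Integrable (fun x => (1 : ℝ) * (KD.chi c x * KD.chi d x)) volume := by
  simpa only [one_mul] using shMA_intc c d

theorem shMA_one_int (c d : Fin 5) :
    ∫ x, (1 : ℝ) * (KD.chi c x * KD.chi d x) = if c = d then 1 else 0 := by
  simp only [one_mul]
  exact chi_ortho c d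

theorem shMA_G_int (a a' : Fin 4) : Integrable (shMA_G a a') volume ∧
    ∫ p, shMA_G a a' p = if a = a' then 1 else 0 := by
  have h := shMA_pair (w1 := fun _ => 1) (w2 := fun _ => 1) shMA_one shMA_one a a'
  have e : (fun p : R3 × R3 => ((1 : ℝ) * 1) * shMA_G a a' p) = shMA_G a a' := by
    funext p
    ring
  simp only [shMA_one_int, e] at h
  refine ⟨h.1, h.2.trans ?_⟩
  simp only [Fin.succ_inj, if_true, Fin.succ_ne_zero, if_false, (Fin.succ_ne_zero _).symm]
  split_ifs <;> norm_num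

/-- expectation of the light nuclei in a pair -/
theorem shMA_G_u (L : ℝ) (a a' : Fin 4) :
    Integrable (fun p : R3 × R3 => (UU L p.1 + UU L p.2) * shMA_G a a' p) volume ∧
    ∫ p : R3 × R3, (UU L p.1 + UU L p.2) * shMA_G a a' p =
      if a = a' then uD L 0 + uD L a.succ else 0 := by
  have h1 := shMA_pair (w1 := UU L) (w2 := fun _ => 1) (shMA_intu L) shMA_one a a'
  have h2 := shMA_pair (w1 := fun _ => 1) (w2 := UU L) shMA_one (shMA_intu L) a a'
  have e : (fun p : R3 × R3 => (UU L p.1 + UU L p.2) * shMA_G a a' p) =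
      fun p => (UU L p.1 * 1) * shMA_G a a' p + (1 * UU L p.2) * shMA_G a a' p := by
    funext p
    ring
  rw [e]
  refine ⟨h1.1.add h2.1, ?_⟩
  rw [integral_add h1.1 h2.1, h1.2, h2.2]
  simp only [shMA_one_int, Fin.succ_inj, if_true, Fin.succ_ne_zero, if_false,
    (Fin.succ_ne_zero _).symm]
  have u0 : ∫ x, UU L x * (KD.chi 0 x * KD.chi 0 x) = uD L 0 := shMA_u_diag L 0
  have ua : ∫ x, UU L x * (KD.chi a.succ x * KD.chi a'.succ x) =
    if a = a' then uD L a.succ else 0 := shMA_u_off L a a'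
  rw [u0, ua]
  split_ifs <;> ring

/-! ### the matrix of the light nuclei -/

theorem MU4_pf (L : ℝ) (p p' : Fin 4 × Fin 4) :
    Integrable (fun x : Conf 4 => (∑ i, UU L (x i)) * (sh4 p x * sh4 p' x)) volume ∧
    ∫ x : Conf 4, (∑ i, UU L (x i)) * (sh4 p x * sh4 p' x) =
      if p = p' then 2 * uD L 0 + uD L p.1.succ + uD L p.2.succ else 0 := by
  have e : ∀ q : (R3 × R3) × (R3 × R3),
      (∑ i, UU L ((![q.1.1, q.1.2, q.2.1, q.2.2] : Conf 4) i)) *
        (sh4 p ![q.1.1, q.1.2, q.2.1, q.2.2] * sh4 p' ![q.1.1, q.1.2, q.2.1, q.2.2]) =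
      ((UU L q.1.1 + UU L q.1.2) * shMA_G p.1 p'.1 q.1) * shMA_G p.2 p'.2 q.2 +
        shMA_G p.1 p'.1 q.1 * ((UU L q.2.1 + UU L q.2.2) * shMA_G p.2 p'.2 q.2) := by
    intro q
    rw [Fin.sum_univ_four]
    unfold shMA_G sh4
    show (UU L q.1.1 + UU L q.1.2 + UU L q.2.1 + UU L q.2.2) *
      ((wdg (KD.chi 0) (KD.chi p.1.succ) q.1.1 q.1.2 *
        wdg (KD.chi 0) (KD.chi p.2.succ) q.2.1 q.2.2) *
      (wdg (KD.chi 0) (KD.chi p'.1.succ) q.1.1 q.1.2 *
        wdg (KD.chi 0) (KD.chi p'.2.succ) q.2.1 q.2.2)) = _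
    ring
  have i1 : Integrable (fun q : (R3 × R3) × (R3 × R3) =>
      ((UU L q.1.1 + UU L q.1.2) * shMA_G p.1 p'.1 q.1) * shMA_G p.2 p'.2 q.2) volume :=
    (shMA_G_u L p.1 p'.1).1.mul_prod (shMA_G_int p.2 p'.2).1
  have i2 : Integrable (fun q : (R3 × R3) × (R3 × R3) =>
      shMA_G p.1 p'.1 q.1 * ((UU L q.2.1 + UU L q.2.2) * shMA_G p.2 p'.2 q.2)) volume :=
    (shMA_G_int p.1 p'.1).1.mul_prod (shMA_G_u L p.2 p'.2).1
  have k (f g : R3 × R3 → ℝ) : ∫ z : (R3 × R3) × (R3 × R3), f z.1 * g z.2 =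
      (∫ x, f x) * ∫ x, g x := integral_prod_mul f g
  constructor
  · rw [integrable_conf4]
    simp only [e]
    exact i1.add i2
  · rw [integral_conf4]
    simp only [e]
    rw [integral_add i1 i2,
      k (fun s => (UU L s.1 + UU L s.2) * shMA_G p.1 p'.1 s) (shMA_G p.2 p'.2),
      k (shMA_G p.1 p'.1) (fun s => (UU L s.1 + UU L s.2) * shMA_G p.2 p'.2 s),
      (shMA_G_u L p.1 p'.1).2, (shMA_G_u L p.2 p'.2).2, (shMA_G_int p.1 p'.1).2,
      (shMA_G_int p.2 p'.2).2]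
    simp only [Prod.ext_iff]
    by_cases h1 : p.1 = p'.1
    · by_cases h2 : p.2 = p'.2
      · simp only [h1, h2, if_true, and_self]
        ring
      · simp only [h1, h2, if_true, if_false, and_false]
        ring
    · simp only [h1, if_false, false_and]
      ring

theorem MU3_pf (L : ℝ) (a a' : Fin 4) :
    Integrable (fun x : Conf 3 => (∑ i, UU L (x i)) * (sh3 a x * sh3 a' x)) volume ∧
    ∫ x : Conf 3, (∑ i, UU L (x i)) * (sh3 a x * sh3 a' x) =
      if a = a' then 2 * uD L 0 + uD L a.succ else 0 := by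
  have e : ∀ q : R3 × (R3 × R3),
      (∑ i, UU L ((![q.1, q.2.1, q.2.2] : Conf 3) i)) *
        (sh3 a ![q.1, q.2.1, q.2.2] * sh3 a' ![q.1, q.2.1, q.2.2]) =
      (UU L q.1 * (KD.chi 0 q.1 * KD.chi 0 q.1)) * shMA_G a a' q.2 +
        (KD.chi 0 q.1 * KD.chi 0 q.1) * ((UU L q.2.1 + UU L q.2.2) * shMA_G a a' q.2) := by
    intro q
    rw [Fin.sum_univ_three]
    unfold shMA_G sh3
    show (UU L q.1 + UU L q.2.1 + UU L q.2.2) *
      ((KD.chi 0 q.1 * wdg (KD.chi 0) (KD.chi a.succ) q.2.1 q.2.2) *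
      (KD.chi 0 q.1 * wdg (KD.chi 0) (KD.chi a'.succ) q.2.1 q.2.2)) = _
    ring
  have i1 : Integrable (fun q : R3 × (R3 × R3) =>
      (UU L q.1 * (KD.chi 0 q.1 * KD.chi 0 q.1)) * shMA_G a a' q.2) volume :=
    (shMA_intu L 0 0).mul_prod (shMA_G_int a a').1
  have i2 : Integrable (fun q : R3 × (R3 × R3) =>
      (KD.chi 0 q.1 * KD.chi 0 q.1) * ((UU L q.2.1 + UU L q.2.2) * shMA_G a a' q.2)) volume :=
    (shMA_intc 0 0).mul_prod (shMA_G_u L a a').1
  have k (f : R3 → ℝ) (g : R3 × R3 → ℝ) : ∫ z : R3 × (R3 × R3), f z.1 * g z.2 =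
      (∫ x, f x) * ∫ x, g x := integral_prod_mul f g
  constructor
  · rw [integrable_conf3]
    simp only [e]
    exact i1.add i2
  · have u0 : ∫ x, UU L x * (KD.chi 0 x * KD.chi 0 x) = uD L 0 := shMA_u_diag L 0
    rw [integral_conf3]
    simp only [e]
    rw [integral_add i1 i2,
      k (fun s => UU L s * (KD.chi 0 s * KD.chi 0 s)) (shMA_G a a'),
      k (fun s => KD.chi 0 s * KD.chi 0 s) (fun s => (UU L s.1 + UU L s.2) * shMA_G a a' s),
      (shMA_G_u L a a').2, (shMA_G_int a a').2, u0, chi_ortho, if_pos rfl]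
    split_ifs
    · ring
    · ring

/-! ### the repulsion -/

theorem shMA_rep {N : ℕ} {f : Conf N → ℝ} {g : Fin N → Fin 3 → Conf N → ℝ} (h : HN f g)
    {f₂ : Conf N → ℝ} {g₂ : Fin N → Fin 3 → Conf N → ℝ} (h2 : HN f₂ g₂) :
    Integrable (fun x : Conf N => repN x * (f x * f₂ x)) volume := by
  have h1 : ∀ i j : Fin N, j ∈ Finset.Ioi i →
      Integrable (fun x : Conf N => (1 / ‖x i - x j‖) * (f x * f₂ x)) volume := by
    intro i j hj
    have hij : j ≠ i := (Finset.mem_Ioi.1 hj).ne'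
    refine hardy_mul (a := fun x : Conf N => x i - x j) (e := fun k => axisDir i k)
      (by fun_prop) ?_ h.memLp (h.memLp' i) (h.acl i) h2.memLp (h2.memLp' i) (h2.acl i)
    intro x k t
    simp only [Pi.add_apply, Pi.smul_apply, axisDir, Pi.single_eq_same,
      Pi.single_eq_of_ne hij, smul_zero, add_zero]
    abel
  have e : (fun x : Conf N => repN x * (f x * f₂ x)) = fun x =>
      ∑ i, ∑ j ∈ Finset.Ioi i, (1 / ‖x i - x j‖) * (f x * f₂ x) := by
    funext x
    unfold repN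
    rw [Finset.sum_mul]
    refine Finset.sum_congr rfl fun i _ => ?_
    rw [Finset.sum_mul]
  rw [e]
  exact integrable_finsetSum _ fun i _ => integrable_finsetSum _ fun j hj => h1 i j hj

theorem rep4_int_pf (p p' : Fin 4 × Fin 4) :
    Integrable (fun x : Conf 4 => repN x * (sh4 p x * sh4 p' x)) volume :=
  shMA_rep (sh4_HN' p) (sh4_HN' p')

theorem rep3_int_pf (a a' : Fin 4) :
    Integrable (fun x : Conf 3 => repN x * (sh3 a x * sh3 a' x)) volume :=
  shMA_rep (sh3_HN' a) (sh3_HN' a')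

theorem W4_eq_pf (A L : ℝ) (p p' : Fin 4 × Fin 4) : W4 A L p p' =
    -(A * if p = p' then 2 * uD L 0 + uD L p.1.succ + uD L p.2.succ else 0) + R4 p p' := by
  have i1 : Integrable (fun x : Conf 4 =>
      -(A * ((∑ i, UU L (x i)) * (sh4 p x * sh4 p' x)))) volume :=
    ((MU4_pf L p p').1.const_mul A).neg
  have e : (fun x : Conf 4 => hpN A L x * (sh4 p x * sh4 p' x)) = fun x =>
      -(A * ((∑ i, UU L (x i)) * (sh4 p x * sh4 p' x))) + repN x * (sh4 p x * sh4 p' x) := by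
    funext x
    rw [hpN_eq]
    ring
  unfold W4 R4
  rw [e, integral_add i1 (rep4_int_pf p p')]
  rw [integral_neg, integral_const_mul, (MU4_pf L p p').2]

theorem W3_eq_pf (A L : ℝ) (a a' : Fin 4) : W3 A L a a' =
    -(A * if a = a' then 2 * uD L 0 + uD L a.succ else 0) + Rm3 a a' := by
  have i1 : Integrable (fun x : Conf 3 =>
      -(A * ((∑ i, UU L (x i)) * (sh3 a x * sh3 a' x)))) volume :=
    ((MU3_pf L a a').1.const_mul A).neg
  have e : (fun x : Conf 3 => hpN A L x * (sh3 a x * sh3 a' x)) = fun x =>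
      -(A * ((∑ i, UU L (x i)) * (sh3 a x * sh3 a' x))) + repN x * (sh3 a x * sh3 a' x) := by
    funext x
    rw [hpN_eq]
    ring
  unfold W3 Rm3
  rw [e, integral_add i1 (rep3_int_pf a a')]
  rw [integral_neg, integral_const_mul, (MU3_pf L a a').2]

end

end Vale.Agent.P363.D
end
end

section

section

/-! # The potential of the `2s` density at the light nuclei is smaller than that of `2p_z` -/

namespace Vale.Agent.P363.D

open MeasureTheory Set Filter Topology
open scoped ENNReal ContDiff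

noncomputable section

namespace SIC

/-- radial weight: the mean of the three `2p` densities minus the `2s` density -/
def gg (r : ℝ) : ℝ := r ^ 2 / 3 - (2 - r) ^ 2

theorem norm_ez : ‖ez‖ = 1 := by
  simp [ez]

theorem sph_one {r L : ℝ} (hr : 0 < r) (hne : r ≠ L) (s : ℝ) (hs : |s| = L) :
    P370.Q.sph (fun u => 1 / ‖r • u - s • ez‖) = 1 / max r L := by
  have h1 : ‖s • ez‖ = L := by
    rw [norm_smul, norm_ez, mul_one, Real.norm_eq_abs, hs]
  have h2 := P370.Q.sph_newton_zero r hr (s • ez) (by rw [h1]; exact hne.symm)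
  rw [h1, max_comm] at h2
  rw [← h2]
  congr 1
  funext u
  rw [dist_eq_norm, norm_sub_rev]

theorem cont_one {r L : ℝ} (hr : 0 < r) (hne : r ≠ L) (s : ℝ) (hs : |s| = L) :
    ContinuousOn (fun u : R3 => 1 / ‖r • u - s • ez‖) (Metric.sphere 0 1) := by
  refine ContinuousOn.div continuousOn_const (by fun_prop) fun u hu => ?_
  have hu' : ‖u‖ = 1 := by simpa only [mem_sphere_iff_norm, sub_zero] using hu
  have : r • u ≠ s • ez := by
    intro h
    apply hne
    have h1 := congrArg norm h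
    rw [norm_smul, norm_smul, hu', norm_ez, mul_one, mul_one, Real.norm_of_nonneg hr.le,
      Real.norm_eq_abs, hs] at h1
    exact h1
  exact norm_ne_zero_iff.2 (sub_ne_zero.2 this)

theorem sph_UU {r L : ℝ} (hr : 0 < r) (hL : 0 < L) (hne : r ≠ L) :
    P370.Q.sph (fun u => UU L (r • u)) = 2 / max r L := by
  have e : (fun u : R3 => UU L (r • u)) =
      fun u => 1 / ‖r • u - L • ez‖ + 1 / ‖r • u - (-L) • ez‖ := by
    funext u
    unfold UU
    rw [neg_smul, sub_neg_eq_add]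
  have a1 : |L| = L := abs_of_pos hL
  have a2 : |(-L)| = L := by rw [abs_neg, a1]
  rw [e, P370.Q.sph_add (cont_one hr hne L a1) (cont_one hr hne (-L) a2), sph_one hr hne L a1,
    sph_one hr hne (-L) a2]
  ring

theorem int_rad (m : ℕ) : IntegrableOn (fun r : ℝ => r ^ m * Real.exp (-r)) (Ioi 0) := by
  have h := Real.GammaIntegral_convergent (s := (m : ℝ) + 1) (by (clear * -; positivity))
  refine h.congr_fun (fun r hr => ?_) measurableSet_Ioi
  simp only [add_sub_cancel_right, Real.rpow_natCast]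
  ring

theorem int_gg : IntegrableOn (fun r : ℝ => r ^ 2 * gg r * Real.exp (-r)) (Ioi 0) := by
  have h : IntegrableOn (fun r : ℝ => (-(2 / 3)) * (r ^ 4 * Real.exp (-r)) +
      4 * (r ^ 3 * Real.exp (-r)) - 4 * (r ^ 2 * Real.exp (-r))) (Ioi 0) :=
    (((int_rad 4).const_mul _).add ((int_rad 3).const_mul _)).sub ((int_rad 2).const_mul _)
  refine h.congr_fun (fun r hr => ?_) measurableSet_Ioi
  simp only [gg]
  ring

theorem integral_gg : ∫ r in Ioi (0 : ℝ), r ^ 2 * gg r * Real.exp (-r) = 0 := by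
  have e : ∀ r : ℝ, r ^ 2 * gg r * Real.exp (-r) = (-(2 / 3)) * (r ^ 4 * Real.exp (-(1 * r))) +
      4 * (r ^ 3 * Real.exp (-(1 * r))) - 4 * (r ^ 2 * Real.exp (-(1 * r))) := by
    intro r
    rw [one_mul]
    unfold gg
    ring
  simp only [e]
  have h : ∀ m : ℕ, IntegrableOn (fun r : ℝ => r ^ m * Real.exp (-(1 * r))) (Ioi 0) := by
    intro m
    simpa only [one_mul] using int_rad m
  rw [integral_sub, integral_add, integral_const_mul, integral_const_mul, integral_const_mul,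
    P370.Q.rad_integral 4 one_pos, P370.Q.rad_integral 3 one_pos, P370.Q.rad_integral 2 one_pos]
  · norm_num [Nat.factorial]
  · exact (h 4).const_mul _
  · exact (h 3).const_mul _
  · exact ((h 4).const_mul _).add ((h 3).const_mul _)
  · exact (h 2).const_mul _

theorem int_max {L : ℝ} (hL : 0 < L) :
    IntegrableOn (fun r : ℝ => r ^ 2 * gg r * Real.exp (-r) * (1 / max r L)) (Ioi 0) := by
  refine Integrable.mono' (int_gg.norm.const_mul (1 / L)) ?_ ?_
  · refine Measurable.aestronglyMeasurable ?_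
    unfold gg
    fun_prop
  · refine Eventually.of_forall fun r => ?_
    rw [norm_mul, mul_comm]
    refine mul_le_mul_of_nonneg_right ?_ (norm_nonneg _)
    rw [Real.norm_of_nonneg (by positivity)]
    exact one_div_le_one_div_of_le hL (le_max_right _ _)

theorem integral_max_nonneg {L : ℝ} (hL : 6 ≤ L) :
    0 ≤ ∫ r in Ioi (0 : ℝ), r ^ 2 * gg r * Real.exp (-r) * (1 / max r L) := by
  have hL0 : 0 < L := by linarith only [hL]
  have h1 : ∫ r in Ioi (0 : ℝ), r ^ 2 * gg r * Real.exp (-r) * (1 / L) = 0 := by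
    rw [integral_mul_const, integral_gg, zero_mul]
  refine h1.symm.le.trans ?_
  refine setIntegral_mono_on (int_gg.mul_const _) (int_max hL0) measurableSet_Ioi fun r hr => ?_
  have hr0 : 0 < r := hr
  rcases le_total r L with h | h
  · rw [max_eq_right h]
  · rw [max_eq_left h]
    have hg : r ^ 2 * gg r * Real.exp (-r) ≤ 0 := by
      have h2 : gg r ≤ 0 := by
        unfold gg
        nlinarith
      have h3 : 0 ≤ r ^ 2 * Real.exp (-r) := by positivity
      linarith only [mul_nonneg (sub_nonneg.2 h2) (sub_nonneg.2 h3)]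
    have h4 : 1 / r ≤ 1 / L := one_div_le_one_div_of_le hL0 h
    linarith [mul_nonneg (sub_nonneg.2 hg) (sub_nonneg.2 h4)]

theorem int_F {L : ℝ} (hL : 6 ≤ L)
    (hF : Integrable (fun x : R3 => UU L x * (gg ‖x‖ * Real.exp (-‖x‖)))) :
    0 ≤ ∫ x : R3, UU L x * (gg ‖x‖ * Real.exp (-‖x‖)) := by
  have hL0 : 0 < L := by linarith only [hL]
  rw [P370.Q.polar_sph _ hF]
  have h1 : ∫ r in Ioi (0 : ℝ), (4 * Real.pi * r ^ 2) • P370.Q.sph (fun u =>
      UU L (r • u) * (gg ‖r • u‖ * Real.exp (-‖r • u‖))) =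
      ∫ r in Ioi (0 : ℝ), (8 * Real.pi) * (r ^ 2 * gg r * Real.exp (-r) * (1 / max r L)) := by
    refine setIntegral_congr_ae measurableSet_Ioi ?_
    have hne : ∀ᵐ r : ℝ, r ≠ L := by
      rw [ae_iff]
      simp
    filter_upwards [hne] with r hr hr0
    have hr1 : 0 < r := hr0
    have e1 : P370.Q.sph (fun u => UU L (r • u) * (gg ‖r • u‖ * Real.exp (-‖r • u‖))) =
        P370.Q.sph (fun u => (gg r * Real.exp (-r)) • UU L (r • u)) := by
      refine P370.Q.sph_congr fun u hu => ?_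
      rw [norm_smul, hu, Real.norm_of_nonneg hr1.le, mul_one, smul_eq_mul, mul_comm]
    rw [e1, P370.Q.sph_smul, sph_UU hr1 hL0 hr, smul_eq_mul, smul_eq_mul]
    ring
  rw [h1, integral_const_mul]
  exact mul_nonneg (by positivity) (integral_max_nonneg hL)

theorem chi1_sq (x : R3) : KD.chi 1 x ^ 2 = (2 - ‖x‖) ^ 2 * Real.exp (-‖x‖) / (32 * Real.pi) := by
  have h : KD.chi 1 x = (2 - ‖x‖) * Real.exp (-‖x‖ / 2) / √(32 * Real.pi) := rfl
  rw [h, div_pow, mul_pow, Real.sq_sqrt (by positivity), ← Real.exp_nat_mul]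
  congr 3
  push_cast
  ring

theorem chip_sq (k : Fin 3) (x : R3) :
    KD.chi k.succ.succ x ^ 2 = x k ^ 2 * Real.exp (-‖x‖) / (32 * Real.pi) := by
  have h : KD.chi k.succ.succ x = x k * Real.exp (-‖x‖ / 2) / √(32 * Real.pi) := by
    fin_cases k <;> rfl
  rw [h, div_pow, mul_pow, Real.sq_sqrt (by positivity), ← Real.exp_nat_mul]
  congr 3
  push_cast
  ring

theorem norm_sq (x : R3) : ‖x‖ ^ 2 = x 0 ^ 2 + x 1 ^ 2 + x 2 ^ 2 := by
  rw [EuclideanSpace.norm_sq_eq, Fin.sum_univ_three]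
  simp

end SIC

theorem uD_s_pf (hint : ∀ a : Fin 5, Integrable (fun x => UU 6 x * KD.chi a x ^ 2) volume)
    (hx : uD 6 2 < uD 6 4) (hy : uD 6 3 < uD 6 4) : uD 6 1 < uD 6 4 := by
  have e2 := fun x : R3 => SIC.chip_sq 0 x
  have e3 := fun x : R3 => SIC.chip_sq 1 x
  have e4 := fun x : R3 => SIC.chip_sq 2 x
  change ∀ x : R3, KD.chi 2 x ^ 2 = _ at e2
  change ∀ x : R3, KD.chi 3 x ^ 2 = _ at e3
  change ∀ x : R3, KD.chi 4 x ^ 2 = _ at e4
  have hpi : (0 : ℝ) < 32 * Real.pi := by positivity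
  have eF : ∀ x : R3, (1 / 3) * (UU 6 x * KD.chi 2 x ^ 2 + UU 6 x * KD.chi 3 x ^ 2 +
      UU 6 x * KD.chi 4 x ^ 2) - UU 6 x * KD.chi 1 x ^ 2 =
      (1 / (32 * Real.pi)) * (UU 6 x * (SIC.gg ‖x‖ * Real.exp (-‖x‖))) := by
    intro x
    rw [e2, e3, e4, SIC.chi1_sq]
    unfold SIC.gg
    rw [SIC.norm_sq x]
    ring
  have hI : Integrable (fun x : R3 => (1 / 3) * (UU 6 x * KD.chi 2 x ^ 2 +
      UU 6 x * KD.chi 3 x ^ 2 + UU 6 x * KD.chi 4 x ^ 2) - UU 6 x * KD.chi 1 x ^ 2) :=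
    ((((hint 2).add (hint 3)).add (hint 4)).const_mul _).sub (hint 1)
  have hval : ∫ x : R3, ((1 / 3) * (UU 6 x * KD.chi 2 x ^ 2 +
      UU 6 x * KD.chi 3 x ^ 2 + UU 6 x * KD.chi 4 x ^ 2) - UU 6 x * KD.chi 1 x ^ 2) =
      (1 / 3) * (uD 6 2 + uD 6 3 + uD 6 4) - uD 6 1 := by
    have h23 : Integrable (fun x : R3 => UU 6 x * KD.chi 2 x ^ 2 + UU 6 x * KD.chi 3 x ^ 2) :=
      (hint 2).add (hint 3)
    have h234 : Integrable (fun x : R3 => UU 6 x * KD.chi 2 x ^ 2 + UU 6 x * KD.chi 3 x ^ 2 +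
        UU 6 x * KD.chi 4 x ^ 2) := h23.add (hint 4)
    rw [integral_sub (h234.const_mul _) (hint 1), integral_const_mul, integral_add h23 (hint 4),
      integral_add (hint 2) (hint 3)]
    rfl
  have hF : Integrable (fun x : R3 => UU 6 x * (SIC.gg ‖x‖ * Real.exp (-‖x‖))) := by
    have h1 := hI.const_mul (32 * Real.pi)
    refine h1.congr (Eventually.of_forall fun x => ?_)
    simp only [eF]
    rw [← mul_assoc, mul_one_div_cancel hpi.ne', one_mul]
  have h0 : 0 ≤ (1 / 3) * (uD 6 2 + uD 6 3 + uD 6 4) - uD 6 1 := by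
    rw [← hval]
    simp only [eF]
    rw [integral_const_mul]
    exact mul_nonneg (by positivity) (SIC.int_F le_rfl hF)
  linarith only [hx, hy, h0]

end

end Vale.Agent.P363.D
end
end

section

section

/-! # Slices, eigenvalue equation and one-body inequality for each electron -/

namespace Vale.Agent.P363.D

open MeasureTheory Set Filter Topology
open scoped ENNReal ContDiff

noncomputable section

variable {n N : ℕ}

theorem ShEigA_ins_add (i : Fin (n + 1)) (k : Fin 3) (x : R3) (y : Conf n) (t : ℝ) :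
    ins i (x + t • dir3 k) y = ins i x y + t • axisDir i k := by
  funext j
  refine Fin.succAboveCases i ?_ (fun j => ?_) j
  · simp [ins, axisDir, dir3]
  · simp [ins, axisDir, Fin.succAbove_ne]

/-- slices of `H¹` functions are one-body `H¹` functions -/
theorem slice_H1o {f : Conf (n + 1) → ℝ} {g : Fin (n + 1) → Fin 3 → Conf (n + 1) → ℝ}
    (h : HN f g) (i : Fin (n + 1)) :
    ∀ᵐ y : Conf n, H1o (fun x => f (ins i x y)) (fun k x => g i k (ins i x y)) := by
  have h1 : ∀ k, ∀ᵐ y : Conf n, ACL volume (dir3 k) (fun x => f (ins i x y))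
      (fun x => g i k (ins i x y)) := by
    intro k
    have : (volume : Measure (R3 × Conf n)).IsAddHaarMeasure :=
      Measure.prod.instIsAddHaarMeasure volume volume
    have h2 : ACL ((volume : Measure R3).prod (volume : Measure (Conf n)))
        ((dir3 k, 0) : R3 × Conf n)
        (fun p => f (ins i p.1 p.2)) (fun p => g i k (ins i p.1 p.2)) := by
      refine ACL.comp_qmp (mp_ins i).quasiMeasurePreserving (fun p t => ?_) (h.acl i k)
      rw [← ShEigA_ins_add]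
      simp only [Prod.fst_add, Prod.smul_fst, Prod.snd_add, Prod.smul_snd, smul_zero, add_zero]
    exact h2.slice
  filter_upwards [memLp_ins i h.memLp, ae_all_iff.2 fun k => memLp_ins i (h.memLp' i k),
    ae_all_iff.2 h1] with y a b c
  exact ⟨a, b, c⟩

/-- the Coulomb energy of electron `i` is finite -/
theorem HN_nuc_int {f f₂ : Conf N → ℝ} {g g₂ : Fin N → Fin 3 → Conf N → ℝ}
    (h : HN f g) (h₂ : HN f₂ g₂) (i : Fin N) :
    Integrable (fun x => -(1 / ‖x i‖) * (f x * f₂ x)) volume := by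
  have h1 : Integrable (fun x : Conf N => (1 / ‖x i‖) * (f x * f₂ x)) volume := by
    refine hardy_mul (a := fun x : Conf N => x i) (e := axisDir i) (by fun_prop) ?_ h.memLp
      (h.memLp' i) (h.acl i) h₂.memLp (h₂.memLp' i) (h₂.acl i)
    intro x k t
    simp [axisDir]
  refine h1.neg.congr (Eventually.of_forall fun x => ?_)
  simp only [Pi.neg_apply]
  ring

/-- the form of the unperturbed Hamiltonian is the sum of one-body forms of slices -/
theorem bN_slices {f f₂ : Conf (n + 1) → ℝ} {g g₂ : Fin (n + 1) → Fin 3 → Conf (n + 1) → ℝ}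
    (h : HN f g) (h₂ : HN f₂ g₂) :
    bN h0N f g f₂ g₂ = ∑ i, ∫ y : Conf n,
      b1 KD.v0 (fun x => f (ins i x y)) (fun k x => g i k (ins i x y))
        (fun x => f₂ (ins i x y)) (fun k x => g₂ i k (ins i x y)) := by
  have hk : ∀ i k, Integrable (fun x => g i k x * g₂ i k x) volume := fun i k =>
    (h.memLp' i k).integrable_mul (h₂.memLp' i k)
  have hV : ∫ x, h0N x * (f x * f₂ x) = ∑ i, ∫ x, -(1 / ‖x i‖) * (f x * f₂ x) := by
    rw [← integral_finsetSum _ fun i _ => HN_nuc_int h h₂ i]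
    refine integral_congr_ae (Eventually.of_forall fun x => ?_)
    simp only [h0N, Finset.sum_mul]
  unfold bN
  rw [hV, Finset.mul_sum, ← Finset.sum_add_distrib]
  refine Finset.sum_congr rfl fun i _ => ?_
  have hR1 : ∀ k, Integrable (fun y : Conf n =>
      ∫ x : R3, g i k (ins i x y) * g₂ i k (ins i x y)) volume := fun k =>
    (integrable_ins_slice i (hk i k)).2
  have e1 : ∀ x : R3, ∀ y : Conf n, -(1 / ‖ins i x y i‖) = KD.v0 x := fun x y => by
    simp [ins, KD.v0]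
  have hR2 := (integrable_ins_slice i (HN_nuc_int h h₂ i)).2
  have hI := integral_ins' i (HN_nuc_int h h₂ i)
  simp only [e1] at hR2 hI
  have h3 : ∑ k, ∫ x, g i k x * g₂ i k x =
      ∫ y : Conf n, ∑ k, ∫ x : R3, g i k (ins i x y) * g₂ i k (ins i x y) := by
    rw [integral_finsetSum _ fun k _ => hR1 k]
    exact Finset.sum_congr rfl fun k _ => integral_ins' i (hk i k)
  rw [hI, h3, ← integral_const_mul, ← integral_add
    ((integrable_finsetSum _ fun k _ => hR1 k).const_mul _) hR2]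
  rfl

theorem ShEigB_ins_same (i : Fin (n + 1)) (x : R3) (y : Conf n) : ins i x y i = x := by
  simp [ins]

theorem ShEigB_ins_succAbove (i : Fin (n + 1)) (x : R3) (y : Conf n) (j : Fin n) :
    ins i x y (i.succAbove j) = y j := by
  simp [ins]

theorem ShEigB_prodF_ins (u : Fin (n + 1) → R3 → ℝ) (i : Fin (n + 1)) (x : R3) (y : Conf n) :
    prodF u (ins i x y) = (∏ j : Fin n, u (i.succAbove j) (y j)) * u i x := by
  unfold prodF
  rw [Fin.prod_univ_succAbove _ i, ShEigB_ins_same, mul_comm]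
  simp only [ShEigB_ins_succAbove]

theorem ShEigB_prodG_ins (u : Fin (n + 1) → R3 → ℝ) (u' : Fin (n + 1) → Fin 3 → R3 → ℝ)
    (i : Fin (n + 1)) (k : Fin 3) (x : R3) (y : Conf n) :
    prodG u u' i k (ins i x y) = (∏ j : Fin n, u (i.succAbove j) (y j)) * u' i k x := by
  unfold prodG
  rw [ShEigB_ins_same, mul_comm]
  congr 1
  have h : ∏ j ∈ Finset.univ.erase i, u j (ins i x y j) =
      ∏ j ∈ Finset.univ.erase i, (if j = i then 1 else u j (ins i x y j)) := by
    refine Finset.prod_congr rfl fun j hj => ?_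
    rw [if_neg (Finset.ne_of_mem_erase hj)]
  rw [h, Finset.prod_erase _ (by simp), Fin.prod_univ_succAbove _ i]
  simp only [if_true, one_mul, ShEigB_ins_succAbove]
  refine Finset.prod_congr rfl fun j _ => ?_
  rw [if_neg (Fin.succAbove_ne i j)]

theorem ShEigB_b1_smul (c : ℝ) (v : R3 → ℝ) (u : R3 → ℝ) (u' : Fin 3 → R3 → ℝ) (w : R3 → ℝ)
    (w' : Fin 3 → R3 → ℝ) :
    b1 v (fun x => c * u x) (fun k x => c * u' k x) w w' = c * b1 v u u' w w' := by
  unfold b1
  have e1 : ∀ k, ∫ x, c * u' k x * w' k x = c * ∫ x, u' k x * w' k x := by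
    intro k
    rw [← integral_const_mul]
    refine integral_congr_ae (Eventually.of_forall fun x => ?_)
    simp only
    ring
  have e2 : ∫ x, v x * (c * u x * w x) = c * ∫ x, v x * (u x * w x) := by
    rw [← integral_const_mul]
    refine integral_congr_ae (Eventually.of_forall fun x => ?_)
    simp only
    ring
  simp only [e1]
  rw [e2, ← Finset.mul_sum]
  ring

/-- products of eigenfunctions are eigenfunctions -/
theorem bN_prod {u : Fin (n + 1) → R3 → ℝ} {u' : Fin (n + 1) → Fin 3 → R3 → ℝ}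
    (hu : ∀ i, H1o (u i) (u' i)) {e : Fin (n + 1) → ℝ}
    (he : ∀ i (v : R3 → ℝ) (v' : Fin 3 → R3 → ℝ), H1o v v' →
      b1 KD.v0 (u i) (u' i) v v' = e i * ∫ x, u i x * v x)
    {f : Conf (n + 1) → ℝ} {g : Fin (n + 1) → Fin 3 → Conf (n + 1) → ℝ} (h : HN f g) :
    bN h0N (prodF u) (prodG u u') f g = (∑ i, e i) * ∫ x, prodF u x * f x := by
  rw [bN_slices (HN_prod hu) h, Finset.sum_mul]
  refine Finset.sum_congr rfl fun i _ => ?_
  have hint : Integrable (fun x => prodF u x * f x) volume :=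
    (HN_prod hu).memLp.integrable_mul h.memLp
  rw [integral_ins' i hint, ← integral_const_mul]
  refine integral_congr_ae ?_
  filter_upwards [slice_H1o h i] with y hy
  simp only [ShEigB_prodF_ins, ShEigB_prodG_ins]
  rw [ShEigB_b1_smul, he i _ _ hy, ← integral_const_mul, ← integral_const_mul,
    ← integral_const_mul]
  refine integral_congr_ae (Eventually.of_forall fun x => ?_)
  simp only
  ring

theorem ShEigB_h0_int {f f₂ : Conf N → ℝ} {g g₂ : Fin N → Fin 3 → Conf N → ℝ}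
    (h : HN f g) (h₂ : HN f₂ g₂) : Integrable (fun x => h0N x * (f x * f₂ x)) volume := by
  have e : (fun x : Conf N => h0N x * (f x * f₂ x)) =
      fun x => ∑ i, -(1 / ‖x i‖) * (f x * f₂ x) := by
    funext x
    rw [h0N, Finset.sum_mul]
  rw [e]
  exact integrable_finsetSum _ fun i _ => HN_nuc_int h h₂ i

theorem ShEigB_bN_sum {J : Type} [Fintype J] {c : J → ℝ} {F : J → Conf N → ℝ}
    {G : J → Fin N → Fin 3 → Conf N → ℝ} (hF : ∀ j, HN (F j) (G j))
    {F₀ : Conf N → ℝ} {G₀ : Fin N → Fin 3 → Conf N → ℝ}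
    (e1 : ∀ x, F₀ x = ∑ j, c j * F j x)
    (e2 : ∀ i k, ∀ᵐ x, G₀ i k x = ∑ j, c j * G j i k x)
    {f : Conf N → ℝ} {g : Fin N → Fin 3 → Conf N → ℝ} (h : HN f g) :
    bN h0N F₀ G₀ f g = ∑ j, c j * bN h0N (F j) (G j) f g := by
  unfold bN
  have h1 : ∀ i k, ∫ x, G₀ i k x * g i k x = ∑ j, c j * ∫ x, G j i k x * g i k x := by
    intro i k
    have hk : ∀ j, Integrable (fun x => c j * (G j i k x * g i k x)) volume := fun j =>
      (((hF j).memLp' i k).integrable_mul (h.memLp' i k)).const_mul (c j)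
    simp only [← integral_const_mul]
    rw [← integral_finsetSum _ fun j _ => hk j]
    refine integral_congr_ae ?_
    filter_upwards [e2 i k] with x hx
    rw [hx, Finset.sum_mul]
    refine Finset.sum_congr rfl fun j _ => ?_
    ring
  have h2 : ∫ x, h0N x * (F₀ x * f x) = ∑ j, c j * ∫ x, h0N x * (F j x * f x) := by
    simp only [← integral_const_mul]
    rw [← integral_finsetSum _ fun j _ => (ShEigB_h0_int (hF j) h).const_mul (c j)]
    refine integral_congr_ae (Eventually.of_forall fun x => ?_)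
    simp only
    rw [e1, Finset.sum_mul, Finset.mul_sum]
    refine Finset.sum_congr rfl fun j _ => ?_
    ring
  have h3 : ∑ i, ∑ k, ∑ j, c j * ∫ x, G j i k x * g i k x =
      ∑ j, c j * ∑ i, ∑ k, ∫ x, G j i k x * g i k x := by
    simp only [Finset.mul_sum]
    exact (Finset.sum_congr rfl fun i _ => Finset.sum_comm).trans Finset.sum_comm
  simp only [h1]
  rw [h2, h3, Finset.mul_sum, ← Finset.sum_add_distrib]
  refine Finset.sum_congr rfl fun j _ => ?_
  ring

/-- eigenvalues of the orbitals -/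
def ShEigB_ev (a : Fin 5) : ℝ := if a = 0 then -(1 / 2) else -(1 / 8)

theorem ShEigB_eig (a : Fin 5) {u : R3 → ℝ} {u' : Fin 3 → R3 → ℝ} (h : H1o u u') :
    b1 KD.v0 (KD.chi a) (gr (KD.chi a)) u u' = ShEigB_ev a * ∫ x, KD.chi a x * u x := by
  refine Fin.cases ?_ (fun b => ?_) a
  · rw [chi_eig0 h]
    simp only [one_div, Fin.isValue, neg_mul, ShEigB_ev, ↓reduceIte]
  · rw [chi_eig b h]
    simp only [one_div, neg_mul, ShEigB_ev, Fin.isValue, Fin.succ_ne_zero, ↓reduceIte]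

/-- a linear combination of products of orbitals with the same total energy is an eigenfunction -/
theorem ShEigB_comb {J : Type} [Fintype J] {c : J → ℝ} (s : J → Fin (n + 1) → Fin 5)
    {F₀ : Conf (n + 1) → ℝ} {G₀ : Fin (n + 1) → Fin 3 → Conf (n + 1) → ℝ}
    (e1 : ∀ x, F₀ x = ∑ j, c j * prodF (fun l => KD.chi (s j l)) x)
    (e2 : ∀ i k, ∀ᵐ x, G₀ i k x = ∑ j, c j * prodG (fun l => KD.chi (s j l))
      (fun l => gr (KD.chi (s j l))) i k x) {E : ℝ}
    (hE : ∀ j, ∑ l, ShEigB_ev (s j l) = E)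
    {f : Conf (n + 1) → ℝ} {g : Fin (n + 1) → Fin 3 → Conf (n + 1) → ℝ} (h : HN f g) :
    bN h0N F₀ G₀ f g = E * ∫ x, F₀ x * f x := by
  have hH : ∀ j, ∀ l, H1o (KD.chi (s j l)) (gr (KD.chi (s j l))) := fun j l => chi_H1o _
  rw [ShEigB_bN_sum (fun j => HN_prod (hH j)) e1 e2 h]
  have h3 : ∀ j, bN h0N (prodF fun l => KD.chi (s j l))
      (prodG (fun l => KD.chi (s j l)) fun l => gr (KD.chi (s j l))) f g =
      E * ∫ x, prodF (fun l => KD.chi (s j l)) x * f x := by
    intro j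
    rw [bN_prod (hH j) (e := fun l => ShEigB_ev (s j l)) (fun l v v' hv => ShEigB_eig _ hv) h,
      hE j]
  simp only [h3]
  have h4 : ∫ x, F₀ x * f x = ∑ j, c j * ∫ x, prodF (fun l => KD.chi (s j l)) x * f x := by
    have hk : ∀ j, Integrable (fun x => c j * (prodF (fun l => KD.chi (s j l)) x * f x))
        volume := fun j => ((HN_prod (hH j)).memLp.integrable_mul h.memLp).const_mul (c j)
    simp only [← integral_const_mul]
    rw [← integral_finsetSum _ fun j _ => hk j]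
    refine integral_congr_ae (Eventually.of_forall fun x => ?_)
    simp only
    rw [e1, Finset.sum_mul]
    refine Finset.sum_congr rfl fun j _ => ?_
    ring
  rw [h4, Finset.mul_sum]
  refine Finset.sum_congr rfl fun j _ => ?_
  ring

/-- indices of the orbitals of `P4` -/
def ShEigB_s4 (p : Fin 4 × Fin 4) : Fin 4 → Fin 4 → Fin 5 :=
  ![![0, p.1.succ, 0, p.2.succ], ![p.1.succ, 0, 0, p.2.succ], ![0, p.1.succ, p.2.succ, 0],
    ![p.1.succ, 0, p.2.succ, 0]]

theorem ShEigB_P4 (p : Fin 4 × Fin 4) (j : Fin 4) :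
    P4 p j = fun l => KD.chi (ShEigB_s4 p j l) := by
  funext l
  fin_cases j <;> fin_cases l <;> rfl

/-- indices of the orbitals of `P3` -/
def ShEigB_s3 (a : Fin 4) : Fin 2 → Fin 3 → Fin 5 :=
  ![![0, 0, a.succ], ![0, a.succ, 0]]

theorem ShEigB_P3 (a : Fin 4) (j : Fin 2) : P3 a j = fun l => KD.chi (ShEigB_s3 a j l) := by
  funext l
  fin_cases j <;> fin_cases l <;> rfl

theorem sh4_eig' (p : Fin 4 × Fin 4) {f : Conf 4 → ℝ} {g : Fin 4 → Fin 3 → Conf 4 → ℝ}
    (h : HN f g) : bN h0N (sh4 p) (sh4' p) f g = -(5 / 4) * ∫ x, sh4 p x * f x := by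
  refine ShEigB_comb (c := s4) (ShEigB_s4 p) (fun x => ?_) (fun i k => ?_) (fun j => ?_) h
  · rw [sh4_eq]
    simp only [ShEigB_P4]
  · filter_upwards [sh4'_ae p i k] with x hx
    rw [hx]
    simp only [ShEigB_P4]
  · fin_cases j <;> simp [Fin.sum_univ_four, ShEigB_ev, ShEigB_s4] <;> norm_num

theorem sh3_eig' (a : Fin 4) {f : Conf 3 → ℝ} {g : Fin 3 → Fin 3 → Conf 3 → ℝ} (h : HN f g) :
    bN h0N (sh3 a) (sh3' a) f g = -(9 / 8) * ∫ y, sh3 a y * f y := by
  refine ShEigB_comb (c := s3) (ShEigB_s3 a) (fun x => ?_) (fun i k => ?_) (fun j => ?_) h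
  · rw [sh3_eq]
    simp only [ShEigB_P3]
  · filter_upwards [sh3'_ae a i k] with x hx
    rw [hx]
    simp only [ShEigB_P3]
  · fin_cases j <;> simp [Fin.sum_univ_three, ShEigB_ev, ShEigB_s3] <;> norm_num

/-- one-body inequality for all electrons -/
theorem slot_ineq {f : Conf (n + 1) → ℝ} {g : Fin (n + 1) → Fin 3 → Conf (n + 1) → ℝ}
    (h : HN f g) :
    -((n + 1 : ℝ) / 18) * (∫ x, f x ^ 2) - ∑ i : Fin (n + 1), (4 / 9 * occ i (KD.chi 0) f
      + 5 / 72 * ∑ a : Fin 4, occ i (KD.chi a.succ) f) ≤ qN h0N f g := by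
  have hq : qN h0N f g = bN h0N f g f g := by
    unfold qN bN
    simp only [pow_two]
  rw [hq, bN_slices h h]
  have hone : ∀ i : Fin (n + 1), -(1 / 18) * (∫ x, f x ^ 2) - (4 / 9 * occ i (KD.chi 0) f
      + 5 / 72 * ∑ a : Fin 4, occ i (KD.chi a.succ) f) ≤
      ∫ y : Conf n, b1 KD.v0 (fun x => f (ins i x y)) (fun k x => g i k (ins i x y))
        (fun x => f (ins i x y)) (fun k x => g i k (ins i x y)) := by
    intro i
    have hf2 : Integrable (fun x => f x ^ 2) volume := h.memLp.integrable_sq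
    have hI1 : Integrable (fun y : Conf n => ∫ x : R3, f (ins i x y) ^ 2) volume :=
      (integrable_ins_slice i hf2).2
    have hI2 : ∀ a : Fin 5, Integrable
        (fun y : Conf n => (∫ x : R3, KD.chi a x * f (ins i x y)) ^ 2) volume := fun a =>
      (memLp_occ i h.memLp (chi_memLp a)).1.integrable_sq
    have hI2s : Integrable
        (fun y : Conf n => ∑ a : Fin 4, (∫ x : R3, KD.chi a.succ x * f (ins i x y)) ^ 2) volume :=
      integrable_finsetSum _ fun a _ => hI2 a.succ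
    have hL : -(1 / 18) * (∫ x, f x ^ 2) - (4 / 9 * occ i (KD.chi 0) f
        + 5 / 72 * ∑ a : Fin 4, occ i (KD.chi a.succ) f) =
        ∫ y : Conf n, (-(1 / 18) * (∫ x : R3, f (ins i x y) ^ 2) -
          (4 / 9 * (∫ x : R3, KD.chi 0 x * f (ins i x y)) ^ 2 +
          5 / 72 * ∑ a : Fin 4, (∫ x : R3, KD.chi a.succ x * f (ins i x y)) ^ 2)) := by
      have hA : Integrable (fun y : Conf n => 4 / 9 *
          (∫ x : R3, KD.chi 0 x * f (ins i x y)) ^ 2 +
          5 / 72 * ∑ a : Fin 4, (∫ x : R3, KD.chi a.succ x * f (ins i x y)) ^ 2) volume :=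
        ((hI2 0).const_mul _).add (hI2s.const_mul _)
      rw [integral_sub (hI1.const_mul _) hA,
        integral_add ((hI2 0).const_mul _) (hI2s.const_mul _), integral_const_mul,
        integral_const_mul, integral_const_mul, integral_finsetSum _ fun a _ => hI2 a.succ,
        integral_ins' i hf2]
      rfl
    rw [hL]
    have hk : ∀ k, Integrable (fun x => g i k x * g i k x) volume := fun k =>
      (h.memLp' i k).integrable_mul (h.memLp' i k)
    have hR1 : Integrable (fun y : Conf n =>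
        ∑ k, ∫ x : R3, g i k (ins i x y) * g i k (ins i x y)) volume :=
      integrable_finsetSum _ fun k _ => (integrable_ins_slice i (hk k)).2
    have hR2 : Integrable (fun y : Conf n =>
        ∫ x : R3, KD.v0 x * (f (ins i x y) * f (ins i x y))) volume := by
      have h1 := (integrable_ins_slice i (HN_nuc_int h h i)).2
      have h2 : Integrable (fun y : Conf n =>
          ∫ x : R3, -(1 / ‖x‖) * (f (ins i x y) * f (ins i x y))) volume := by
        simpa only [ShEigB_ins_same] using h1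
      exact h2
    refine integral_mono_ae ((hI1.const_mul _).sub (((hI2 0).const_mul _).add
      (hI2s.const_mul _))) ((hR1.const_mul (1 / 2)).add hR2) ?_
    filter_upwards [slice_H1o h i] with y hy
    have h1 := hyd_ineq _ _ hy
    unfold KD.hform at h1
    simp only [pow_two (f _), pow_two (g _ _ _)] at h1 ⊢
    simp only [b1]
    linarith only [h1]
  have hsum := Finset.sum_le_sum fun i (_ : i ∈ (Finset.univ : Finset (Fin (n + 1)))) => hone i
  refine le_trans (le_of_eq ?_) hsum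
  rw [Finset.sum_sub_distrib]
  simp only [Finset.sum_const, Finset.card_univ, Fintype.card_fin, nsmul_eq_mul]
  push_cast
  ring

end

end Vale.Agent.P363.D
end
end

section

section

/-!
# P363, block X: barrier inequalities 1 and 2
-/

namespace Vale.Agent.P363.D

open MeasureTheory Set Filter Topology
open scoped ENNReal ContDiff

noncomputable section

/-- Comparison of the inverse radii. -/
theorem xb12_inv {x : R3} (hx : 1 ≤ ‖x‖) :
    0 < (rad x)⁻¹ ∧ (rad x)⁻¹ ≤ ‖x‖⁻¹ ∧ ‖x‖⁻¹ - (rad x)⁻¹ ≤ (‖x‖⁻¹) ^ 2 ∧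
      ‖x‖⁻¹ / 2 ≤ (rad x)⁻¹ ∧ ‖x‖⁻¹ ≤ 1 := by
  have h1 := rad_sq x
  have h2 := one_le_rad x
  have h3 := norm_le_rad x
  have h4 := rad_le x
  set r := ‖x‖ with hr
  set R := rad x with hR
  have hr0 : 0 < r := by linarith only [hx]
  have hR0 : 0 < R := by linarith only [h2]
  refine ⟨inv_pos.2 hR0, inv_anti₀ hr0 h3, ?_, ?_, inv_le_one_of_one_le₀ hx⟩
  · have e : r⁻¹ - R⁻¹ = (R - r) / (r * R) := by field_simp
    have e2 : (r⁻¹) ^ 2 = 1 / r ^ 2 := by rw [inv_pow, one_div]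
    rw [e, e2, div_le_div_iff₀ (by positivity) (by positivity)]
    have h5 : (R - r) * (R + r) = 1 := by linarith only [h1]
    have h6 : (R - r) * r ≤ 1 := by nlinarith only [h1]
    have h7 : 0 ≤ R - r := by linarith only [h3]
    calc (R - r) * r ^ 2 = ((R - r) * r) * r := by ring
      _ ≤ 1 * r := mul_le_mul_of_nonneg_right h6 hr0.le
      _ ≤ 1 * (r * R) := by nlinarith only [hx, h2]
  · rw [div_eq_mul_inv, ← mul_inv]
    exact inv_anti₀ hR0 (by linarith only [hx, h4])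

theorem xb12_poly {γ κ u : ℝ} (hu0 : 0 ≤ u) (hu1 : u ≤ 1) (hγ : |γ| ≤ 4) (hκ0 : 0 ≤ κ)
    (hκ1 : κ ≤ 1) :
    (1 / 2) * ((γ ^ 2 + γ - κ ^ 2) * u ^ 2 + κ * (2 * γ - 1) * u ^ 3
      - γ * (γ - 2) * u ^ 4) ≤ 26 * u ^ 2 := by
  obtain ⟨h1, h2⟩ := abs_le.1 hγ
  have a1 : γ ^ 2 + γ - κ ^ 2 ≤ 20 := by nlinarith only [h2, h1]
  have a2 : κ * (2 * γ - 1) * u ≤ 7 := by
    have : κ * (2 * γ - 1) ≤ 7 := by nlinarith only [hκ1, hκ0, h2]
    nlinarith only [hu1, hu0, this]
  have a3 : -(γ * (γ - 2)) * u ^ 2 ≤ 1 := by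
    have h5 : -(γ * (γ - 2)) ≤ 1 := by nlinarith only [sq_nonneg (γ - 1)]
    have h6 : u ^ 2 ≤ 1 := by nlinarith only [hu1, hu0]
    nlinarith only [h6, h5]
  have e : (1 / 2) * ((γ ^ 2 + γ - κ ^ 2) * u ^ 2 + κ * (2 * γ - 1) * u ^ 3
      - γ * (γ - 2) * u ^ 4) = (1 / 2) * ((γ ^ 2 + γ - κ ^ 2) + κ * (2 * γ - 1) * u
      + -(γ * (γ - 2)) * u ^ 2) * u ^ 2 := by ring
  rw [e]
  apply mul_le_mul_of_nonneg_right _ (sq_nonneg u)
  linarith only [a1, a2, a3]

theorem xb12_fin {κ q η K u v P : ℝ} (hv0 : 0 < v) (i1 : 0 < u) (i2 : u ≤ v)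
    (i3 : v - u ≤ v ^ 2) (i4 : v / 2 ≤ u) (hη : 0 < η) (hκ : 2 / 5 ≤ κ) (hq : 0 ≤ q)
    (hq' : q ≤ 3 / 2) (hvη : 5 * (28 + |K|) * v ≤ η) (hP : (1 / 2) * P ≤ 26 * u ^ 2) :
    (1 / 2) * (κ ^ 2 - 2 * (q + κ * η) * u + P) ≤ κ ^ 2 / 2 - q * v - K * v ^ 2 := by
  have h0 : 0 ≤ v ^ 2 := sq_nonneg v
  have h1 : q * (v - u) ≤ 2 * v ^ 2 := by
    calc q * (v - u) ≤ q * v ^ 2 := mul_le_mul_of_nonneg_left i3 hq
      _ ≤ 2 * v ^ 2 := mul_le_mul_of_nonneg_right (by linarith only [hq']) h0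
  have h2 : u ^ 2 ≤ v ^ 2 := pow_le_pow_left₀ i1.le i2 2
  have h3 : η * v / 5 ≤ κ * η * u := by
    have h6 : (2 / 5) * (v / 2) ≤ κ * u := mul_le_mul hκ i4 (by positivity) (by linarith only [hκ])
    have h7 := mul_le_mul_of_nonneg_left h6 hη.le
    linarith only [h7]
  have h4 : (28 + |K|) * v ^ 2 ≤ η * v / 5 := by
    have h7 := mul_le_mul_of_nonneg_right hvη hv0.le
    linarith only [h7]
  have h5 : K * v ^ 2 ≤ |K| * v ^ 2 :=
    mul_le_mul_of_nonneg_right (le_abs_self K) h0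
  linarith only [hP, h1, h2, h3, h4, h5]

/-- XB1. Supersolution for (E1). -/
theorem barrier1 {η : ℝ} (hη : 0 < η) (hη1 : η ≤ 1) (K : ℝ) : ∃ R1 : ℝ, 1 ≤ R1 ∧
    ∀ (κ q : ℝ) (x : R3), 2 / 5 ≤ κ → κ ≤ 3 / 5 → 1 / 2 ≤ q → q ≤ 3 / 2 → R1 ≤ ‖x‖ →
      (1 / 2) * lap (wt (q / κ - 1 + η) κ) x ≤
        (κ ^ 2 / 2 - q / ‖x‖ - K / ‖x‖ ^ 2) * wt (q / κ - 1 + η) κ x := by
  have hK := abs_nonneg K
  have hR1 : (1 : ℝ) ≤ 5 * (28 + |K|) / η := by
    rw [le_div_iff₀ hη]; linarith only [hη1, hK]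
  refine ⟨5 * (28 + |K|) / η, hR1, ?_⟩
  intro κ q x hκ hκ' hq hq' hx
  have hx1 : 1 ≤ ‖x‖ := hR1.trans hx
  obtain ⟨i1, i2, i3, i4, i5⟩ := xb12_inv hx1
  have hw := wt_pos (q / κ - 1 + η) κ x
  have hκ0 : 0 < κ := by linarith only [hκ]
  have hqk : κ * (q / κ) = q := by field_simp
  have hqk1 : q / κ ≤ 4 := by rw [div_le_iff₀ hκ0]; linarith only [hκ, hq']
  have hqk0 : 0 ≤ q / κ := by positivity
  have hvη : 5 * (28 + |K|) * ‖x‖⁻¹ ≤ η := by
    have hx0 : 0 < ‖x‖ := by linarith only [hR1, hx]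
    rw [div_le_iff₀ hη] at hx
    rw [← div_eq_mul_inv, div_le_iff₀ hx0]
    linarith only [hx]
  rw [lap_wt]
  have e1 : (κ ^ 2 - 2 * κ * ((q / κ - 1 + η) + 1) / rad x
      + ((q / κ - 1 + η) ^ 2 + (q / κ - 1 + η) - κ ^ 2) / rad x ^ 2
      + κ * (2 * (q / κ - 1 + η) - 1) / rad x ^ 3
      - (q / κ - 1 + η) * ((q / κ - 1 + η) - 2) / rad x ^ 4)
      = κ ^ 2 - 2 * (q + κ * η) * (rad x)⁻¹
      + (((q / κ - 1 + η) ^ 2 + (q / κ - 1 + η) - κ ^ 2) * (rad x)⁻¹ ^ 2
      + κ * (2 * (q / κ - 1 + η) - 1) * (rad x)⁻¹ ^ 3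
      - (q / κ - 1 + η) * ((q / κ - 1 + η) - 2) * (rad x)⁻¹ ^ 4) := by
    have : q + κ * η = κ * ((q / κ - 1 + η) + 1) := by
      have : κ * ((q / κ - 1 + η) + 1) = κ * (q / κ) + κ * η := by ring
      rw [this, hqk]
    rw [this]
    simp only [div_eq_mul_inv, inv_pow]
    ring
  have e2 : κ ^ 2 / 2 - q / ‖x‖ - K / ‖x‖ ^ 2
      = κ ^ 2 / 2 - q * ‖x‖⁻¹ - K * (‖x‖⁻¹) ^ 2 := by
    simp only [div_eq_mul_inv, inv_pow]
  rw [e1, e2, ← mul_assoc]
  apply mul_le_mul_of_nonneg_right _ hw.le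
  have hP := xb12_poly (γ := q / κ - 1 + η) (κ := κ) i1.le (i2.trans i5)
    (abs_le.2 ⟨by linarith only [hη, hqk0], by linarith only [hη1, hqk1]⟩) hκ0.le (by linarith only [hκ'])
  exact xb12_fin (inv_pos.2 (by linarith only [hR1, hx])) i1 i2 i3 i4 hη hκ (by linarith only [hq]) hq' hvη hP

/-- XB2. Supersolution for (E2). -/
theorem barrier2 (κ γ K : ℝ) {b : ℝ} (hb : 0 < b) : ∃ R2 : ℝ, 1 ≤ R2 ∧
    ∀ x : R3, R2 ≤ ‖x‖ → (1 / 2) * lap (wt γ κ) x + b * wt γ κ x ≤
      (κ ^ 2 / 2 + 2 * b - K / ‖x‖) * wt γ κ x := by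
  set M : ℝ := |κ * (γ + 1)| + |γ ^ 2 + γ - κ ^ 2| + |κ * (2 * γ - 1)| + |γ * (γ - 2)| + |K|
    with hM
  have hM0 : 0 ≤ M := by (clear * -; positivity)
  have hR2 : 1 ≤ 1 + M / b := by
    have : 0 ≤ M / b := by (clear * - hb; positivity)
    linarith only [this]
  refine ⟨1 + M / b, hR2, ?_⟩
  intro x hx
  have hx1 : 1 ≤ ‖x‖ := hR2.trans hx
  obtain ⟨i1, i2, i3, i4, i5⟩ := xb12_inv hx1
  have hw := wt_pos γ κ x
  have hMb : M * ‖x‖⁻¹ ≤ b := by
    have hx0 : 0 < ‖x‖ := by linarith only [hR2, hx]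
    rw [← div_eq_mul_inv, div_le_iff₀ hx0]
    have : M / b ≤ ‖x‖ := by linarith only [hx]
    rw [div_le_iff₀ hb] at this
    linarith only [this]
  rw [lap_wt]
  have e1 : (κ ^ 2 - 2 * κ * (γ + 1) / rad x + (γ ^ 2 + γ - κ ^ 2) / rad x ^ 2 +
        κ * (2 * γ - 1) / rad x ^ 3 - γ * (γ - 2) / rad x ^ 4)
      = κ ^ 2 - 2 * (κ * (γ + 1)) * (rad x)⁻¹ + (γ ^ 2 + γ - κ ^ 2) * (rad x)⁻¹ ^ 2
      + κ * (2 * γ - 1) * (rad x)⁻¹ ^ 3 - γ * (γ - 2) * (rad x)⁻¹ ^ 4 := by
    simp only [div_eq_mul_inv, inv_pow]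
    ring
  have e2 : κ ^ 2 / 2 + 2 * b - K / ‖x‖ = κ ^ 2 / 2 + 2 * b - K * ‖x‖⁻¹ := by
    simp only [div_eq_mul_inv]
  rw [e1, e2, ← mul_assoc, ← add_mul]
  apply mul_le_mul_of_nonneg_right _ hw.le
  have hu1 : (rad x)⁻¹ ≤ 1 := i2.trans i5
  generalize (rad x)⁻¹ = u at *
  generalize ‖x‖⁻¹ = v at *
  generalize κ * (γ + 1) = A1 at *
  generalize γ ^ 2 + γ - κ ^ 2 = A2 at *
  generalize κ * (2 * γ - 1) = A3 at *
  generalize γ * (γ - 2) = A4 at *
  have hv0 : 0 < v := by linarith only [i1, i2]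
  have hu2 : u ^ 2 ≤ v := by nlinarith only [i2, i1, hu1]
  have hu3 : u ^ 3 ≤ v := by nlinarith only [hu2, hu1]
  have hu4 : u ^ 4 ≤ v := by nlinarith only [hu2, i5]
  have key : ∀ (A w : ℝ), 0 ≤ w → w ≤ v → A * w ≤ |A| * v := by
    intro A w h0 h1
    calc A * w ≤ |A| * w := mul_le_mul_of_nonneg_right (le_abs_self A) h0
      _ ≤ |A| * v := mul_le_mul_of_nonneg_left h1 (abs_nonneg A)
  have k1 := key (-A1) u i1.le i2
  have k2 := key A2 (u ^ 2) (by positivity) hu2
  have k3 := key A3 (u ^ 3) (by positivity) hu3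
  have k4 := key (-A4) (u ^ 4) (by positivity) hu4
  have k5 := key K v hv0.le le_rfl
  rw [abs_neg] at k1 k4
  have z2 : 0 ≤ |A2| * v := mul_nonneg (abs_nonneg _) hv0.le
  have z3 : 0 ≤ |A3| * v := mul_nonneg (abs_nonneg _) hv0.le
  have z4 : 0 ≤ |A4| * v := mul_nonneg (abs_nonneg _) hv0.le
  rw [hM] at hMb
  linarith only [hMb, k1, k2, k3, k4, k5, z2, z3, z4]

end

end Vale.Agent.P363.D
end
end

section

section

/-!
# P363, block X: uniform bound of s
-/

namespace Vale.Agent.P363.D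

open MeasureTheory Set Filter Topology
open scoped ENNReal ContDiff

noncomputable section

/-- XSup. Uniform bound of `s` outside a ball. -/
theorem s_bdd {δ C ρ : ℝ} (hC : 0 ≤ C) (hρ : 1 ≤ ρ) : ∃ K0 : ℝ, 0 < K0 ∧
    ∀ X : SD, X.Ok δ C ρ → ∀ᵐ x : R3, ρ + 1 < ‖x‖ → X.s x ≤ K0 := by
  obtain ⟨K, hK, hsup⟩ := weak_sup
  refine ⟨K * (1 + (3 / 2 + C)) + 1, by (clear * - hK hC; positivity), fun X hX => ?_⟩
  set Kb : ℝ := 3 / 2 + C with hKb
  have hKb0 : 0 ≤ Kb := by positivity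
  have hκ := hX.par
  have hs2 : Integrable (fun x => X.s x ^ 2) volume := hX.s_H1.memLp.integrable_sq
  refine ae_of_balls fun x0 hx0 => ?_
  have hball : ∀ x : R3, x ∈ Metric.ball x0 1 → ρ < ‖x‖ := by
    intro x hx
    rw [mem_ball_iff_norm] at hx
    have := norm_sub_norm_le x0 x
    rw [norm_sub_rev] at this
    linarith only [hx0, hx, this]
  have hle : ∫ x in Metric.ball x0 1, X.s x ^ 2 ≤ 1 := by
    rw [← hX.s_norm]
    exact setIntegral_le_integral hs2 (Eventually.of_forall fun x => sq_nonneg _)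
  have h1 := hsup X.s X.sg (fun x => Kb * X.s x) x0 hX.s_H1
    ((hX.s_H1.memLp.const_mul Kb).mono_measure Measure.restrict_le_self) (by
      intro h hh hc h0 hsupp
      have hnz : ∀ x, h x ≠ 0 → ρ < ‖x‖ := fun x hx => hball x (hsupp (subset_tsupport h hx))
      have hT := test_of_smooth hh hc hnz
      have h2 := hX.s_ineq h _ hT (Eventually.of_forall h0)
      have hsh : Integrable (fun x => X.s x * h x) volume :=
        hX.s_H1.memLp.integrable_mul hT.H1.memLp
      have hpot : ∀ x, h x ≠ 0 →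
          |X.κ ^ 2 / 2 - X.q / ‖x‖ - X.ε * C / ‖x‖ ^ 2| ≤ Kb := by
        intro x hx
        have hr : 1 < ‖x‖ := hρ.trans_lt (hnz x hx)
        have hr0 : 0 < ‖x‖ := by linarith only [hr]
        have a1 : X.q / ‖x‖ ≤ 3 / 2 := by
          rw [div_le_iff₀ hr0]
          have := hκ.qu
          linarith only [this, hr]
        have a2 : 0 ≤ X.q / ‖x‖ := by
          have := hκ.ql
          (clear * - this hr; positivity)
        have a3 : X.ε * C / ‖x‖ ^ 2 ≤ C := by
          rw [div_le_iff₀ (by (clear * - hr; positivity))]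
          have e1 := hκ.ε1
          have e2 : 1 ≤ ‖x‖ ^ 2 := by nlinarith only [hr]
          have e3 : X.ε * C ≤ 1 * C := mul_le_mul_of_nonneg_right e1 hC
          nlinarith only [e3, hC, e2]
        have a4 : 0 ≤ X.ε * C / ‖x‖ ^ 2 := by
          have := hκ.ε0
          (clear * - this hC hr; positivity)
        have a5 : 0 ≤ X.κ ^ 2 / 2 := by (clear * -; positivity)
        have a6 : X.κ ^ 2 / 2 ≤ 1 := by
          have b1 := hκ.κl
          have b2 := hκ.κu
          nlinarith only [b2, b1]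
        rw [abs_le]
        constructor <;> rw [hKb] <;> linarith only [a1, a3, a5, hC, a2, a4, a6]
      have hmeas : Measurable fun x : R3 => X.κ ^ 2 / 2 - X.q / ‖x‖ - X.ε * C / ‖x‖ ^ 2 := by
        fun_prop
      have hpsh : Integrable (fun x => (X.κ ^ 2 / 2 - X.q / ‖x‖ - X.ε * C / ‖x‖ ^ 2) *
          X.s x * h x) volume := by
        refine (hsh.norm.const_mul Kb).mono' ?_ (Eventually.of_forall fun x => ?_)
        · exact (hmeas.aestronglyMeasurable.mul hX.s_H1.memLp.1).mul hT.H1.memLp.1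
        · by_cases hx : h x = 0
          · simp only [hx, mul_zero, norm_zero, Std.le_refl]
          · rw [mul_assoc, norm_mul, Real.norm_eq_abs]
            exact mul_le_mul_of_nonneg_right (hpot x hx) (norm_nonneg _)
      have h3 : -(∫ x, (X.κ ^ 2 / 2 - X.q / ‖x‖ - X.ε * C / ‖x‖ ^ 2) * X.s x * h x) ≤
          ∫ x, Kb * X.s x * h x := by
        rw [← integral_neg]
        refine integral_mono_ae hpsh.neg ?_ (Eventually.of_forall fun x => ?_)
        · simpa only [mul_assoc] using hsh.const_mul Kb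
        · show -((X.κ ^ 2 / 2 - X.q / ‖x‖ - X.ε * C / ‖x‖ ^ 2) * X.s x * h x) ≤
            Kb * X.s x * h x
          by_cases hx : h x = 0
          · simp [hx]
          · have e1 := (abs_le.1 (hpot x hx)).1
            have e2 : 0 ≤ X.s x * h x := mul_nonneg (hX.s_nonneg x) (h0 x)
            have e3 := mul_le_mul_of_nonneg_right e1 e2
            linarith only [e3]
      linarith only [h2, h3])
  filter_upwards [h1] with x hx hxb
  have h2 := hx hxb
  have h3 : √(∫ x in Metric.ball x0 1, X.s x ^ 2) ≤ 1 := Real.sqrt_le_one.2 hle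
  have h4 : √(∫ x in Metric.ball x0 1, (Kb * X.s x) ^ 2) ≤ Kb := by
    rw [Real.sqrt_le_left hKb0]
    simp only [mul_pow]
    rw [integral_const_mul]
    linarith only [mul_nonneg (sq_nonneg (Kb : ℝ)) (sub_nonneg.2 hle)]
  have h5 : K * (√(∫ x in Metric.ball x0 1, X.s x ^ 2) +
      √(∫ x in Metric.ball x0 1, (Kb * X.s x) ^ 2)) ≤ K * (1 + Kb) :=
    mul_le_mul_of_nonneg_left (add_le_add h3 h4) hK
  linarith only [h2, h5]

end

end Vale.Agent.P363.D
end
end

section

section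

/-!
# P363, block X: the function 2p_z
-/

namespace Vale.Agent.P363.D

open MeasureTheory Set Filter Topology
open scoped ENNReal ContDiff

noncomputable section

/-- Almost every line in a coordinate direction avoids the origin. -/
theorem xchi_line (k : Fin 3) : ∀ᵐ x : R3, ∀ t : ℝ, x + t • dir3 k ≠ 0 := by
  have hk : k + 1 ≠ k := by fin_cases k <;> decide
  let S : Submodule ℝ R3 := LinearMap.ker (EuclideanSpace.proj (k + 1) : R3 →L[ℝ] ℝ).toLinearMap
  have hS : S ≠ ⊤ := by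
    intro h
    have h1 : dir3 (k + 1) ∈ S := by rw [h]; trivial
    have h2 : (dir3 (k + 1) : R3) (k + 1) = 0 := h1
    simp [dir3] at h2
  have h0 : volume (S : Set R3) = 0 := Measure.addHaar_submodule volume S hS
  have h3 : ∀ᵐ x : R3, x ∉ (S : Set R3) := measure_eq_zero_iff_ae_notMem.1 h0
  filter_upwards [h3] with x hx t h
  apply hx
  show x (k + 1) = 0
  have h4 := congrArg (fun y : R3 => y (k + 1)) h
  simpa [dir3, hk] using h4

/-- Functions that are continuously differentiable away from the origin. -/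
theorem xchi_acl (k : Fin 3) {f f' : R3 → ℝ} (hf : AEStronglyMeasurable f volume)
    (hf' : AEStronglyMeasurable f' volume)
    (hd : ∀ x : R3, x ≠ 0 → HasDerivAt (fun t : ℝ => f (x + t • dir3 k)) (f' x) 0)
    (hc : ContinuousOn f' {0}ᶜ) : ACL volume (dir3 k) f f' := by
  have hline : ∀ x : R3, (∀ t : ℝ, x + t • dir3 k ≠ 0) →
      Continuous (fun t : ℝ => f' (x + t • dir3 k)) := by
    intro x hx
    exact hc.comp_continuous (by fun_prop) (fun t => hx t)
  refine ⟨hf, hf', ?_, ?_⟩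
  · filter_upwards [xchi_line k] with x hx
    exact (hline x hx).locallyIntegrable
  · filter_upwards [xchi_line k] with x hx
    filter_upwards with t
    unfold prim
    have h1 : ∀ s : ℝ, HasDerivAt (fun s : ℝ => f (x + s • dir3 k)) (f' (x + s • dir3 k)) s := by
      intro s
      have h2 := hd (x + s • dir3 k) (hx s)
      have h3 : (fun t : ℝ => f (x + s • dir3 k + t • dir3 k)) =
          fun t : ℝ => (fun u : ℝ => f (x + u • dir3 k)) (s + t) := by
        funext t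
        simp only [add_smul, add_assoc]
      rw [h3] at h2
      have h4 := HasDerivAt.comp_sub_const s s (f := fun t : ℝ =>
        (fun u : ℝ => f (x + u • dir3 k)) (s + t)) (by rwa [sub_self])
      refine h4.congr_of_eventuallyEq (Filter.Eventually.of_forall fun u => ?_)
      simp
    rw [intervalIntegral.integral_eq_sub_of_hasDerivAt (fun s _ => h1 s)
      ((hline x hx).intervalIntegrable _ _)]
    simp

/-- Integrability of products with test functions supported away from the origin. -/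
theorem xchi_int {u h : R3 → ℝ} (hu : ContinuousOn u {0}ᶜ) (hh : Continuous h)
    (hs : HasCompactSupport h) (h0 : ∀ x, ‖x‖ < 1 → h x = 0) :
    Integrable (fun x => u x * h x) volume := by
  have hc : Continuous (fun x => u x * h x) := by
    rw [continuous_iff_continuousAt]
    intro x
    by_cases hx : x = 0
    · have h1 : (fun x => u x * h x) =ᶠ[𝓝 x] fun _ => 0 := by
        have h2 : Metric.ball (0 : R3) 1 ∈ 𝓝 x := by
          rw [hx]; exact Metric.ball_mem_nhds _ one_pos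
        filter_upwards [h2] with y hy
        rw [h0 y (by simpa only [Metric.mem_ball, dist_zero_right] using hy), mul_zero]
      exact continuousAt_const.congr h1.symm
    · exact (hu.continuousAt (isOpen_compl_singleton.mem_nhds hx)).mul hh.continuousAt
  exact hc.integrable_of_hasCompactSupport (hs.mul_left)

/-- `δ_{k2}` -/
def xchiD (k : Fin 3) : ℝ := if k = 2 then 1 else 0

/-- The gradient of `2p_z`. -/
def xchiG (k : Fin 3) (x : R3) : ℝ :=
  (xchiD k - x 2 * x k / (2 * ‖x‖)) * Real.exp (-‖x‖ / 2) / √(32 * Real.pi)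

/-- The second derivatives of `2p_z` in the coordinate directions. -/
def xchiH (k : Fin 3) (x : R3) : ℝ :=
  (-(x k / (2 * ‖x‖)) * (xchiD k - x 2 * x k / (2 * ‖x‖)) - (xchiD k * x k + x 2) / (2 * ‖x‖) +
    x 2 * x k ^ 2 / (2 * ‖x‖ ^ 3)) * Real.exp (-‖x‖ / 2) / √(32 * Real.pi)

theorem xchi_norm (k : Fin 3) {x : R3} (hx : x ≠ 0) :
    HasDerivAt (fun t : ℝ => ‖x + t • dir3 k‖) (x k / ‖x‖) 0 := by
  have hn : 0 < ‖x‖ := norm_pos_iff.2 hx
  have e : (fun t : ℝ => ‖x + t • dir3 k‖) =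
      fun t : ℝ => √(‖x‖ ^ 2 + 2 * t * x k + t ^ 2) := by
    funext t
    rw [← norm_add_single_sq x k t, Real.sqrt_sq (norm_nonneg _)]
    rfl
  rw [e]
  have h2 : HasDerivAt (fun t : ℝ => ‖x‖ ^ 2 + 2 * t * x k + t ^ 2) (2 * x k) 0 := by
    have a1 : HasDerivAt (fun t : ℝ => 2 * t * x k) (2 * x k) 0 := by
      have := ((hasDerivAt_id (0 : ℝ)).const_mul 2).mul_const (x k)
      simpa only [id_eq, mul_one] using this
    have a2 : HasDerivAt (fun t : ℝ => t ^ 2) 0 0 := by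
      have := hasDerivAt_pow 2 (0 : ℝ)
      simpa only [Nat.cast_ofNat, Nat.add_one_sub_one, pow_one, mul_zero] using this
    exact ((a1.const_add (‖x‖ ^ 2)).add a2).congr_deriv (by ring)
  have h3 := h2.sqrt (by simpa using hn.ne')
  refine h3.congr_deriv ?_
  simp only [mul_zero, zero_mul, add_zero, ne_eq, OfNat.ofNat_ne_zero, not_false_eq_true,
    zero_pow, Real.sqrt_sq hn.le]
  (clear * - hx; field_simp)

theorem xchi_exp (k : Fin 3) {x : R3} (hx : x ≠ 0) :
    HasDerivAt (fun t : ℝ => Real.exp (-‖x + t • dir3 k‖ / 2))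
      (-(x k / (2 * ‖x‖)) * Real.exp (-‖x‖ / 2)) 0 := by
  have h1 := ((xchi_norm k hx).neg.div_const 2).exp
  refine h1.congr_deriv ?_
  simp only [zero_smul, add_zero, Pi.neg_apply]
  ring

theorem xchi_coord (k : Fin 3) (x : R3) :
    HasDerivAt (fun t : ℝ => (x + t • dir3 k) 2) (xchiD k) 0 := by
  have e : (fun t : ℝ => (x + t • dir3 k) 2) = fun t : ℝ => x 2 + t * xchiD k := by
    funext t
    unfold xchiD dir3
    by_cases hk : k = 2
    · subst hk; simp
    · simp [hk, Ne.symm hk]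
  rw [e]
  simpa only [Fin.isValue, hasDerivAt_const_add_iff, id_eq, one_mul] using     ((hasDerivAt_id (0 : ℝ)).mul_const (xchiD k)).const_add (x 2)

theorem xchi_coord' (k : Fin 3) (x : R3) :
    HasDerivAt (fun t : ℝ => (x + t • dir3 k) k) 1 0 := by
  have e : (fun t : ℝ => (x + t • dir3 k) k) = fun t : ℝ => x k + t := by
    funext t
    simp [dir3]
  rw [e]
  simpa using (hasDerivAt_id (0 : ℝ)).const_add (x k)

theorem xchi_deriv (k : Fin 3) {x : R3} (hx : x ≠ 0) :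
    HasDerivAt (fun t : ℝ => KD.chi 4 (x + t • dir3 k)) (xchiG k x) 0 := by
  have h := ((xchi_coord k x).mul (xchi_exp k hx)).div_const (√(32 * Real.pi))
  have h' : HasDerivAt (fun t : ℝ => KD.chi 4 (x + t • dir3 k)) _ 0 := h
  refine h'.congr_deriv ?_
  simp only [zero_smul, add_zero]
  unfold xchiG
  ring

theorem xchi_deriv2 (k : Fin 3) {x : R3} (hx : x ≠ 0) :
    HasDerivAt (fun t : ℝ => xchiG k (x + t • dir3 k)) (xchiH k x) 0 := by
  have hn : ‖x‖ ≠ 0 := norm_ne_zero_iff.2 hx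
  have h1 := (xchi_coord k x).mul (xchi_coord' k x)
  have h2 := (xchi_norm k hx).const_mul 2
  have h3 := h1.div h2 (by simpa using hn)
  have h4 := ((h3.const_sub (xchiD k)).mul (xchi_exp k hx)).div_const (√(32 * Real.pi))
  have h' : HasDerivAt (fun t : ℝ => xchiG k (x + t • dir3 k)) _ 0 := h4
  refine h'.congr_deriv ?_
  simp only [zero_smul, add_zero, Pi.mul_apply, Pi.div_apply]
  unfold xchiH
  field_simp
  ring

theorem xchi_contG (k : Fin 3) : ContinuousOn (xchiG k) {0}ᶜ := by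
  unfold xchiG
  refine ContinuousOn.div_const (ContinuousOn.mul (continuousOn_const.sub
    (ContinuousOn.div (by (clear * -; fun_prop)) (by (clear * -; fun_prop)) ?_)) (by (clear * -; fun_prop))) _
  intro x hx
  have : ‖x‖ ≠ 0 := norm_ne_zero_iff.2 hx
  (clear * - hx; positivity)

theorem xchi_contH (k : Fin 3) : ContinuousOn (xchiH k) {0}ᶜ := by
  have hn : ∀ x ∈ ({0}ᶜ : Set R3), 2 * ‖x‖ ≠ 0 := by
    intro x hx
    have : ‖x‖ ≠ 0 := norm_ne_zero_iff.2 hx
    positivity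
  have hn3 : ∀ x ∈ ({0}ᶜ : Set R3), 2 * ‖x‖ ^ 3 ≠ 0 := by
    intro x hx
    have : ‖x‖ ≠ 0 := norm_ne_zero_iff.2 hx
    positivity
  unfold xchiH
  refine ContinuousOn.div_const (ContinuousOn.mul ?_ (by (clear * -; fun_prop))) _
  refine ContinuousOn.add (ContinuousOn.sub (ContinuousOn.mul ?_ ?_) ?_) ?_
  · exact (ContinuousOn.div (by (clear * -; fun_prop)) (by fun_prop) hn).neg
  · exact continuousOn_const.sub (ContinuousOn.div (by (clear * -; fun_prop)) (by fun_prop) hn)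
  · exact ContinuousOn.div (by (clear * -; fun_prop)) (by fun_prop) hn
  · exact ContinuousOn.div (by fun_prop) (by (clear * -; fun_prop)) hn3

theorem xchi_measG (k : Fin 3) : Measurable (xchiG k) := by
  unfold xchiG
  fun_prop

theorem xchi_measH (k : Fin 3) : Measurable (xchiH k) := by
  unfold xchiH
  fun_prop

/-- The Laplacian. -/
theorem xchi_lap {x : R3} (hx : x ≠ 0) :
    ∑ k, xchiH k x = 2 * (1 / 8 - 1 / ‖x‖) * KD.chi 4 x := by
  have hn : ‖x‖ ≠ 0 := norm_ne_zero_iff.2 hx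
  have hsq : ‖x‖ ^ 2 = x 0 ^ 2 + x 1 ^ 2 + x 2 ^ 2 := by
    rw [EuclideanSpace.norm_sq_eq, Fin.sum_univ_three]
    simp
  have hchi : KD.chi 4 x = x 2 * Real.exp (-‖x‖ / 2) / √(32 * Real.pi) := rfl
  rw [Fin.sum_univ_three, hchi]
  unfold xchiH xchiD
  have h0 : (0 : Fin 3) ≠ 2 := by decide
  have h1 : (1 : Fin 3) ≠ 2 := by decide
  rw [if_neg h0, if_neg h1, if_pos rfl]
  set r := ‖x‖
  set E := Real.exp (-r / 2) / √(32 * Real.pi)
  have key : (-(x 0 / (2 * r)) * (0 - x 2 * x 0 / (2 * r)) - (0 * x 0 + x 2) / (2 * r) +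
      x 2 * x 0 ^ 2 / (2 * r ^ 3)) + (-(x 1 / (2 * r)) * (0 - x 2 * x 1 / (2 * r)) -
      (0 * x 1 + x 2) / (2 * r) + x 2 * x 1 ^ 2 / (2 * r ^ 3)) +
      (-(x 2 / (2 * r)) * (1 - x 2 * x 2 / (2 * r)) - (1 * x 2 + x 2) / (2 * r) +
      x 2 * x 2 ^ 2 / (2 * r ^ 3)) = 2 * (1 / 8 - 1 / r) * x 2 := by
    field_simp
    linear_combination ((-8 * r - 16) * x 2) * hsq
  calc _ = ((-(x 0 / (2 * r)) * (0 - x 2 * x 0 / (2 * r)) - (0 * x 0 + x 2) / (2 * r) +
      x 2 * x 0 ^ 2 / (2 * r ^ 3)) + (-(x 1 / (2 * r)) * (0 - x 2 * x 1 / (2 * r)) -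
      (0 * x 1 + x 2) / (2 * r) + x 2 * x 1 ^ 2 / (2 * r ^ 3)) +
      (-(x 2 / (2 * r)) * (1 - x 2 * x 2 / (2 * r)) - (1 * x 2 + x 2) / (2 * r) +
      x 2 * x 2 ^ 2 / (2 * r ^ 3))) * E := by ring
    _ = _ := by rw [key]; ring

/-- The gradient is square integrable. -/
theorem xchi_memLp (k : Fin 3) : MemLp (xchiG k) 2 volume := by
  have hm := KD.chi_orth.1
  have hsum : MemLp (fun x => |KD.chi 1 x| + (|KD.chi 2 x| + (|KD.chi 3 x| + |KD.chi 4 x|))) 2
      volume := (hm 1).abs.add ((hm 2).abs.add ((hm 3).abs.add (hm 4).abs))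
  refine hsum.mono' (xchi_measG k).aestronglyMeasurable (Filter.Eventually.of_forall fun x => ?_)
  have hs : 0 < √(32 * Real.pi) := Real.sqrt_pos.2 (by positivity)
  set E := Real.exp (-‖x‖ / 2) / √(32 * Real.pi) with hE
  have hE0 : 0 < E := by positivity
  have c1 : KD.chi 1 x = (2 - ‖x‖) * E := by
    show (2 - ‖x‖) * Real.exp (-‖x‖ / 2) / √(32 * Real.pi) = _
    rw [hE]; ring
  have c2 : KD.chi 2 x = x 0 * E := by
    show x 0 * Real.exp (-‖x‖ / 2) / √(32 * Real.pi) = _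
    rw [hE]; ring
  have c3 : KD.chi 3 x = x 1 * E := by
    show x 1 * Real.exp (-‖x‖ / 2) / √(32 * Real.pi) = _
    rw [hE]; ring
  have c4 : KD.chi 4 x = x 2 * E := by
    show x 2 * Real.exp (-‖x‖ / 2) / √(32 * Real.pi) = _
    rw [hE]; ring
  have g1 : xchiG k x = (xchiD k - x 2 * x k / (2 * ‖x‖)) * E := by
    unfold xchiG; rw [hE]; ring
  rw [Real.norm_eq_abs, g1, c1, c2, c3, c4, abs_mul, abs_mul, abs_mul, abs_mul, abs_mul,
    abs_of_pos hE0, ← add_mul, ← add_mul, ← add_mul]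
  refine mul_le_mul_of_nonneg_right ?_ hE0.le
  have hn : 0 ≤ ‖x‖ := norm_nonneg x
  have hsq : ‖x‖ ^ 2 = x 0 ^ 2 + x 1 ^ 2 + x 2 ^ 2 := by
    rw [EuclideanSpace.norm_sq_eq, Fin.sum_univ_three]
    simp
  have hle : ‖x‖ ≤ |x 0| + (|x 1| + |x 2|) := by
    apply le_of_sq_le_sq _ (by (clear * -; positivity))
    have a0 := abs_nonneg (x 0)
    have a1 := abs_nonneg (x 1)
    have a2 := abs_nonneg (x 2)
    rw [hsq, ← sq_abs (x 0), ← sq_abs (x 1), ← sq_abs (x 2)]
    linarith only [mul_nonneg a1 a2, mul_nonneg a0 a2, mul_nonneg a0 a1]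
  have hD : |xchiD k| ≤ 1 := by
    unfold xchiD
    split_ifs <;> norm_num
  have hq : |x 2 * x k / (2 * ‖x‖)| ≤ ‖x‖ / 2 := by
    rw [abs_div, abs_mul, abs_mul, abs_of_nonneg hn, abs_two]
    have b2 := abs_coord_le x 2
    have bk := abs_coord_le x k
    apply div_le_of_le_mul₀ (by (clear * -; positivity)) (by (clear * -; positivity))
    have := mul_le_mul b2 bk (abs_nonneg _) hn
    linarith only [this]
  have h3 : |xchiD k - x 2 * x k / (2 * ‖x‖)| ≤ 1 + ‖x‖ / 2 :=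
    (abs_sub _ _).trans (add_le_add hD hq)
  have h4 : 2 - ‖x‖ ≤ |2 - ‖x‖| := le_abs_self _
  have h5 := abs_nonneg (2 - ‖x‖)
  linarith only [h3, h4, h5, hle]

/-- XChi. `2p_z` is an `H¹` function. -/
theorem chi4_H1 : ∃ g : Fin 3 → R3 → ℝ, H1o (KD.chi 4) g ∧
    ∀ h : R3 → ℝ, ContDiff ℝ ∞ h → HasCompactSupport h → (∀ x, h x ≠ 0 → 1 < ‖x‖) →
      (1 / 2) * (∑ k, ∫ x, g k x * pdv k h x) =
        ∫ x, (1 / ‖x‖ - 1 / 8) * KD.chi 4 x * h x := by
  refine ⟨xchiG, ⟨KD.chi_orth.1 4, xchi_memLp, fun k => ?_⟩, ?_⟩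
  · exact xchi_acl k (KD.k17_cont 4).aestronglyMeasurable (xchi_measG k).aestronglyMeasurable
      (fun x hx => xchi_deriv k hx) (xchi_contG k)
  · intro h hh hs h0
    have h1 : ContDiff ℝ 1 h := hh.of_le (by exact_mod_cast le_top)
    have hz : ∀ x, ‖x‖ < 1 → h x = 0 := by
      intro x hx
      by_contra hne
      exact absurd (h0 x hne) (not_lt.2 hx.le)
    have hz' : ∀ k : Fin 3, ∀ x, ‖x‖ < 1 → pdv k h x = 0 := by
      intro k x hx
      have h2 : h =ᶠ[𝓝 x] fun _ => 0 := by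
        have h3 : Metric.ball (0 : R3) 1 ∈ 𝓝 x :=
          Metric.isOpen_ball.mem_nhds (by simpa only [Metric.mem_ball, dist_zero_right] using hx)
        filter_upwards [h3] with y hy
        exact hz y (by simpa only [Metric.mem_ball, dist_zero_right] using hy)
      unfold pdv
      rw [h2.fderiv_eq]
      simp only [fderiv_fun_const, Pi.zero_apply, zero_apply]
    have hcp : ∀ k : Fin 3, Continuous (pdv k h) := fun k =>
      (h1.continuous_fderiv (by norm_num)).clm_apply continuous_const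
    have hsp : ∀ k : Fin 3, HasCompactSupport (pdv k h) := fun k => by
      have := hs.fderiv (𝕜 := ℝ)
      exact this.comp_left (g := fun L : R3 →L[ℝ] ℝ => L (dir3 k)) (by simp)
    have key : ∀ k : Fin 3, ∫ x, xchiG k x * pdv k h x = - ∫ x, xchiH k x * h x := by
      intro k
      have a1 : ACL volume (dir3 k) (xchiG k) (xchiH k) :=
        xchi_acl k (xchi_measG k).aestronglyMeasurable (xchi_measH k).aestronglyMeasurable
          (fun x hx => xchi_deriv2 k hx) (xchi_contH k)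
      have a2 : ACL volume (dir3 k) h (pdv k h) := ACL.of_contDiff h1
      exact a1.integral_mul a2 (xchi_int (xchi_contG k) h1.continuous hs hz)
        (xchi_int (xchi_contH k) h1.continuous hs hz)
        (xchi_int (xchi_contG k) (hcp k) (hsp k) (hz' k))
    rw [Finset.sum_congr rfl (fun k _ => key k), Finset.sum_neg_distrib,
      ← integral_finsetSum _ (fun k _ => xchi_int (xchi_contH k) h1.continuous hs hz),
      mul_neg, ← integral_const_mul, ← integral_neg]
    refine integral_congr_ae (Filter.Eventually.of_forall fun x => ?_)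
    simp only
    by_cases hx : h x = 0
    · simp only [one_div, hx, mul_zero, Finset.sum_const_zero, neg_zero, Fin.isValue]
    · have hx0 : x ≠ 0 := by
        rintro rfl
        have := h0 0 hx
        simp only [norm_zero] at this
        linarith only [this]
      rw [← Finset.sum_mul, xchi_lap hx0]
      ring

end

end Vale.Agent.P363.D
end
end

section

section

/-!
# P363, block X: uniform closeness of d to 2p_z
-/

namespace Vale.Agent.P363.D

open MeasureTheory Set Filter Topology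
open scoped ENNReal ContDiff

noncomputable section

/-- The source term of the equation of `σ (d - c χ₄)`. -/
def dclG (X : SD) (c σ : ℝ) (x : R3) : ℝ :=
  σ * (X.S x - X.V x * X.d x + c * ((1 / 8 - 1 / ‖x‖) * KD.chi 4 x))

lemma dcl_H1 {X : SD} {δ C ρ : ℝ} (hX : X.Ok δ C ρ) (c σ : ℝ) {g : Fin 3 → R3 → ℝ}
    (hg : H1o (KD.chi 4) g) :
    H1o (fun x => σ * (X.d x - c * KD.chi 4 x)) (fun k x => σ * (X.dg k x - c * g k x)) := by
  have h1 := hX.d_H1
  exact ⟨(h1.memLp.sub (hg.memLp.const_mul c)).const_mul σ,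
    fun k => ((h1.memLp' k).sub ((hg.memLp' k).const_mul c)).const_mul σ,
    fun k => ((h1.acl k).sub ((hg.acl k).const_mul c)).const_mul σ⟩

/-- Bound of the potential outside the ball. -/
lemma dcl_V {X : SD} {δ C ρ : ℝ} (hC : 0 ≤ C) (hρ : 1 ≤ ρ) (hX : X.Ok δ C ρ) {x : R3}
    (hx : ρ < ‖x‖) : |X.V x| ≤ 2 + C := by
  have h1 := hX.V_le x hx
  have hp := hX.par
  have hx1 : 1 ≤ ‖x‖ := by linarith only [hρ, hx]
  have h2 : X.ε * C / ‖x‖ ^ 2 ≤ C := by
    rw [div_le_iff₀ (by (clear * - hx1; positivity))]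
    have : X.ε * C ≤ 1 * C := mul_le_mul_of_nonneg_right hp.ε1 hC
    nlinarith only [this, hC, one_le_pow₀ hx1 (n := 2)]
  have h3 : X.q / ‖x‖ ≤ 3 / 2 := by
    rw [div_le_iff₀ (by positivity)]
    linarith only [hρ, hx, hp.qu]
  have h4 : 0 ≤ X.q / ‖x‖ := div_nonneg (by linarith only [hp.ql]) (norm_nonneg _)
  have h5 : X.κ ^ 2 ≤ 1 := by nlinarith only [hp.κl, hp.κu]
  have h6 : 0 ≤ X.κ ^ 2 := sq_nonneg _
  rw [abs_le] at h1 ⊢
  constructor <;> linarith only [h1, h2, h3, h6, h4, h5]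

lemma dcl_S {ε C r p s : ℝ} (hC : 0 ≤ C) (hr : 1 ≤ r) (hp : 0 ≤ p) (hε : 0 ≤ ε)
    (hs : |s| ≤ ε * C / r ^ 2 * p) : |s| ≤ ε * C * p := by
  refine hs.trans (mul_le_mul_of_nonneg_right ?_ hp)
  exact div_le_self (mul_nonneg hε hC) (one_le_pow₀ hr)

lemma dcl_intS {X : SD} {δ C ρ : ℝ} (hC : 0 ≤ C) (hρ : 1 ≤ ρ) (hX : X.Ok δ C ρ) {h : R3 → ℝ}
    (h2 : MemLp h 2 volume) (h3 : ∀ x, h x ≠ 0 → ρ < ‖x‖) :
    Integrable (fun x => X.S x * h x) := by
  have h4 : Integrable (fun x => X.p x * h x) := hX.p_H1.memLp.integrable_mul h2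
  refine (h4.const_mul C).mono (hX.S_meas.mul h2.1) ?_
  filter_upwards [hX.S_le] with x hx
  by_cases h0 : h x = 0
  · simp [h0]
  · have hr := h3 x h0
    have h5 := dcl_S hC (by linarith only [hρ, hr]) (hX.p_nonneg x) hX.par.ε0.le (hx hr)
    have h6 : X.ε * C * X.p x ≤ C * X.p x := by
      apply mul_le_mul_of_nonneg_right _ (hX.p_nonneg x)
      have : X.ε * C ≤ 1 * C := mul_le_mul_of_nonneg_right hX.par.ε1 hC
      linarith
    rw [Real.norm_eq_abs, Real.norm_eq_abs, abs_mul, abs_mul, abs_mul, abs_of_nonneg hC,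
      abs_of_nonneg (hX.p_nonneg x), ← mul_assoc]
    exact mul_le_mul_of_nonneg_right (h5.trans h6) (abs_nonneg _)

lemma dcl_intV {X : SD} {δ C ρ : ℝ} (hC : 0 ≤ C) (hρ : 1 ≤ ρ) (hX : X.Ok δ C ρ) {h : R3 → ℝ}
    (h2 : MemLp h 2 volume) (h3 : ∀ x, h x ≠ 0 → ρ < ‖x‖) :
    Integrable (fun x => X.V x * X.d x * h x) := by
  have h4 : Integrable (fun x => X.d x * h x) := hX.d_H1.memLp.integrable_mul h2
  refine (h4.const_mul (2 + C)).mono
    ((hX.V_meas.aestronglyMeasurable.mul hX.d_H1.memLp.1).mul h2.1) ?_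
  filter_upwards with x
  by_cases h0 : h x = 0
  · simp [h0]
  · have h5 := dcl_V hC hρ hX (h3 x h0)
    rw [mul_assoc, norm_mul, norm_mul (2 + C), Real.norm_eq_abs (X.V x), Real.norm_eq_abs (2 + C),
      abs_of_nonneg (by linarith only [hC] : (0:ℝ) ≤ 2 + C)]
    exact mul_le_mul_of_nonneg_right h5 (norm_nonneg _)

lemma dcl_V0 {r : ℝ} (hr : 1 ≤ r) : |1 / 8 - 1 / r| ≤ 1 := by
  have h1 : 1 / r ≤ 1 := by rw [div_le_one (by linarith)]; exact hr
  have h2 : 0 < 1 / r := by positivity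
  rw [abs_le]
  constructor <;> linarith only [h1, h2]

lemma dcl_int0 {ρ : ℝ} (hρ : 1 ≤ ρ) {g : Fin 3 → R3 → ℝ} (hg : H1o (KD.chi 4) g)
    {h : R3 → ℝ} (h2 : MemLp h 2 volume) (h3 : ∀ x, h x ≠ 0 → ρ < ‖x‖) :
    Integrable (fun x => (1 / 8 - 1 / ‖x‖) * KD.chi 4 x * h x) := by
  have h4 : Integrable (fun x => KD.chi 4 x * h x) := hg.memLp.integrable_mul h2
  refine h4.mono (((by fun_prop : Measurable fun x : R3 =>
    (1 / 8 - 1 / ‖x‖)).aestronglyMeasurable.mul hg.memLp.1).mul h2.1) ?_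
  filter_upwards with x
  by_cases h0 : h x = 0
  · simp only [one_div, Fin.isValue, h0, mul_zero, norm_zero, Std.le_refl]
  · have h5 : |1 / 8 - 1 / ‖x‖| ≤ 1 := dcl_V0 (by linarith [h3 x h0])
    rw [mul_assoc, norm_mul, Real.norm_eq_abs]
    exact mul_le_of_le_one_left (norm_nonneg _) h5

/-- The weak equation. -/
lemma dcl_eq {X : SD} {δ C ρ : ℝ} (hC : 0 ≤ C) (hρ : 1 ≤ ρ) (hX : X.Ok δ C ρ) (c σ : ℝ)
    {g : Fin 3 → R3 → ℝ} (hg : H1o (KD.chi 4) g)
    (hg2 : ∀ h : R3 → ℝ, ContDiff ℝ ∞ h → HasCompactSupport h → (∀ x, h x ≠ 0 → 1 < ‖x‖) →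
      (1 / 2) * (∑ k, ∫ x, g k x * pdv k h x) = ∫ x, (1 / ‖x‖ - 1 / 8) * KD.chi 4 x * h x)
    {h : R3 → ℝ} (h1 : ContDiff ℝ ∞ h) (h2 : HasCompactSupport h)
    (h3 : ∀ x, h x ≠ 0 → ρ < ‖x‖) :
    (1 / 2) * (∑ k, ∫ x, (σ * (X.dg k x - c * g k x)) * pdv k h x) =
      ∫ x, dclG X c σ x * h x := by
  have hh := h1o_of_smooth h1 h2
  have hd := hX.d_eq h _ (test_of_smooth h1 h2 h3)
  have hc := hg2 h h1 h2 (fun x hx => by linarith only [hρ, h3 x hx])
  have e1 : ∀ k, ∫ x, (σ * (X.dg k x - c * g k x)) * pdv k h x =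
      σ * ((∫ x, X.dg k x * pdv k h x) - c * ∫ x, g k x * pdv k h x) := by
    intro k
    have i1 : Integrable (fun x => X.dg k x * pdv k h x) :=
      (hX.d_H1.memLp' k).integrable_mul (hh.memLp' k)
    have i2 : Integrable (fun x => g k x * pdv k h x) :=
      (hg.memLp' k).integrable_mul (hh.memLp' k)
    rw [← integral_const_mul, ← integral_sub i1 (i2.const_mul c), ← integral_const_mul]
    congr 1
    ext x
    ring
  have i1 := dcl_intS hC hρ hX hh.memLp h3
  have i2 := dcl_intV hC hρ hX hh.memLp h3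
  have i3 := dcl_int0 hρ hg hh.memLp h3
  have e2 : ∫ x, dclG X c σ x * h x = σ * ((∫ x, X.S x * h x) - (∫ x, X.V x * X.d x * h x) +
      c * ∫ x, (1 / 8 - 1 / ‖x‖) * KD.chi 4 x * h x) := by
    have i12 : Integrable (fun x => X.S x * h x - X.V x * X.d x * h x) := i1.sub i2
    rw [← integral_const_mul, ← integral_sub i1 i2, ← integral_add i12 (i3.const_mul c),
      ← integral_const_mul]
    congr 1
    ext x
    unfold dclG
    ring
  have e3 : ∫ x, (1 / 8 - 1 / ‖x‖) * KD.chi 4 x * h x =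
      - ∫ x, (1 / ‖x‖ - 1 / 8) * KD.chi 4 x * h x := by
    rw [← integral_neg]
    congr 1
    ext x
    ring
  rw [Finset.sum_congr rfl (fun k _ => e1 k), ← Finset.mul_sum, Finset.sum_sub_distrib,
    ← Finset.mul_sum, e2, e3]
  linear_combination σ * hd - σ * c * hc

/-- Pointwise bound of the source. -/
lemma dcl_g_sq {X : SD} {δ C ρ c τ σ : ℝ} (hC : 0 ≤ C) (hρ : 1 ≤ ρ) (hX : X.Ok δ C ρ)
    (hσ : σ ^ 2 = 1) (h : X.Close C c τ) (x : R3) (hx : ρ < ‖x‖)
    (hs : |X.S x| ≤ X.ε * C / ‖x‖ ^ 2 * X.p x) :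
    dclG X c σ x ^ 2 ≤ 3 * ((τ * C) ^ 2 * X.p x ^ 2 + (2 + C) ^ 2 * (X.d x - c * KD.chi 4 x) ^ 2 +
      (τ * (1 + 2 * C)) ^ 2 * c ^ 2 * KD.chi 4 x ^ 2) := by
  have hx1 : 1 ≤ ‖x‖ := by linarith only [hρ, hx]
  have hε := hX.par.ε0.le
  have hτ : X.ε ≤ τ := h.ε_lt.le
  have hp := hX.p_nonneg x
  have a1 : |X.S x| ≤ τ * C * X.p x :=
    (dcl_S hC hx1 hp hε hs).trans
      (mul_le_mul_of_nonneg_right (mul_le_mul_of_nonneg_right hτ hC) hp)
  have a2 : |X.V x| ≤ 2 + C := dcl_V hC hρ hX hx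
  have a3 : |X.V x - (1 / 8 - 1 / ‖x‖)| ≤ τ * (1 + 2 * C) := by
    have b1 := hX.V_le x hx
    have b2 : X.ε * C / ‖x‖ ^ 2 ≤ τ * C :=
      (div_le_self (mul_nonneg hε hC) (one_le_pow₀ hx1)).trans (mul_le_mul_of_nonneg_right hτ hC)
    have b3 := h.κ_lt
    have b4 := h.q_le
    have b5 : |(X.q - 1) / ‖x‖| ≤ τ * C := by
      rw [abs_div, abs_norm]
      refine (div_le_self (abs_nonneg _) hx1).trans (b4.trans ?_)
      rw [mul_comm]
      exact mul_le_mul_of_nonneg_right hτ hC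
    have b6 : X.V x - (1 / 8 - 1 / ‖x‖) = (X.V x - (X.κ ^ 2 / 2 - X.q / ‖x‖)) +
        (X.κ ^ 2 / 2 - 1 / 8) - (X.q - 1) / ‖x‖ := by ring
    rw [b6, abs_le]
    rw [abs_le] at b1 b5
    rw [abs_lt] at b3
    constructor <;> linarith only [b1, b2, b3, b5]
  have e : dclG X c σ x ^ 2 = (X.S x - X.V x * (X.d x - c * KD.chi 4 x) -
      (X.V x - (1 / 8 - 1 / ‖x‖)) * (c * KD.chi 4 x)) ^ 2 := by
    unfold dclG
    rw [mul_pow, hσ]
    ring
  have c1 : X.S x ^ 2 ≤ (τ * C) ^ 2 * X.p x ^ 2 := by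
    rw [← mul_pow, ← sq_abs (X.S x)]
    exact pow_le_pow_left₀ (abs_nonneg _) a1 2
  have c2 : (X.V x * (X.d x - c * KD.chi 4 x)) ^ 2 ≤
      (2 + C) ^ 2 * (X.d x - c * KD.chi 4 x) ^ 2 := by
    rw [mul_pow, ← sq_abs (X.V x)]
    exact mul_le_mul_of_nonneg_right (pow_le_pow_left₀ (abs_nonneg _) a2 2) (sq_nonneg _)
  have c3 : ((X.V x - (1 / 8 - 1 / ‖x‖)) * (c * KD.chi 4 x)) ^ 2 ≤
      (τ * (1 + 2 * C)) ^ 2 * c ^ 2 * KD.chi 4 x ^ 2 := by
    rw [mul_pow, ← sq_abs (X.V x - (1 / 8 - 1 / ‖x‖)), mul_assoc, ← mul_pow c]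
    exact mul_le_mul_of_nonneg_right (pow_le_pow_left₀ (abs_nonneg _) a3 2) (sq_nonneg _)
  rw [e]
  have d1 : ∀ a b d : ℝ, (a - b - d) ^ 2 ≤ 3 * (a ^ 2 + b ^ 2 + d ^ 2) := by
    intro a b d
    nlinarith only [sq_nonneg (a + d), sq_nonneg (b - d)]
  refine (d1 _ _ _).trans ?_
  linarith only [c1, c2, c3]

lemma dcl_p_int {X : SD} {δ C ρ : ℝ} (hX : X.Ok δ C ρ) : ∫ x, X.p x ^ 2 ≤ 1 := by
  rw [← hX.s_norm]
  apply integral_mono_ae hX.p_H1.memLp.integrable_sq hX.s_H1.memLp.integrable_sq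
  filter_upwards [hX.sq] with x hx
  rw [hx]
  (by_contra nlg; linarith only [nlg, mul_pos (sub_pos.2 (not_le.1 nlg)) (sub_pos.2 (not_le.1 nlg)), mul_nonneg (sq_nonneg (X.d x : ℝ)) (le_of_lt (sub_pos.2 (not_le.1 nlg)))])

/-- The source is small in `L²` of a ball. -/
lemma dcl_g_L2 {X : SD} {δ C ρ c τ σ : ℝ} (hC : 0 ≤ C) (hρ : 1 ≤ ρ) (hX : X.Ok δ C ρ)
    (hσ : σ ^ 2 = 1) (h : X.Close C c τ) (hτ1 : τ ≤ 1) {g : Fin 3 → R3 → ℝ}
    (hg : H1o (KD.chi 4) g) (x0 : R3) (hx0 : ρ + 1 < ‖x0‖) :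
    MemLp (dclG X c σ) 2 (volume.restrict (Metric.ball x0 1)) ∧
    ∫ x in Metric.ball x0 1, dclG X c σ x ^ 2 ≤
      τ * (3 * (C ^ 2 + (2 + C) ^ 2 + (1 + 2 * C) ^ 2 * c ^ 2 * ∫ x, KD.chi 4 x ^ 2)) := by
  have hτ0 : 0 ≤ τ := hX.par.ε0.le.trans h.ε_lt.le
  have hB : ∀ x ∈ Metric.ball x0 1, ρ < ‖x‖ := by
    intro x hx
    rw [Metric.mem_ball, dist_comm, dist_eq_norm] at hx
    have := norm_sub_norm_le x0 x
    linarith only [hx0, hx, this]
  set G : R3 → ℝ := fun x => 3 * ((τ * C) ^ 2 * X.p x ^ 2 +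
    (2 + C) ^ 2 * (X.d x - c * KD.chi 4 x) ^ 2 +
      (τ * (1 + 2 * C)) ^ 2 * c ^ 2 * KD.chi 4 x ^ 2) with hG
  have i1 : Integrable (fun x => (τ * C) ^ 2 * X.p x ^ 2) := hX.p_H1.memLp.integrable_sq.const_mul _
  have i2 : Integrable (fun x => (2 + C) ^ 2 * (X.d x - c * KD.chi 4 x) ^ 2) := h.int.const_mul _
  have i3 : Integrable (fun x => (τ * (1 + 2 * C)) ^ 2 * c ^ 2 * KD.chi 4 x ^ 2) :=
    hg.memLp.integrable_sq.const_mul _
  have iG : Integrable G := ((i1.add i2).add i3).const_mul 3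
  have hle : ∀ᵐ x ∂(volume.restrict (Metric.ball x0 1)), dclG X c σ x ^ 2 ≤ G x := by
    rw [ae_restrict_iff' Metric.isOpen_ball.measurableSet]
    filter_upwards [hX.S_le] with x hx hxB
    exact dcl_g_sq hC hρ hX hσ h x (hB x hxB) (hx (hB x hxB))
  have hm : AEStronglyMeasurable (dclG X c σ) (volume.restrict (Metric.ball x0 1)) := by
    apply AEStronglyMeasurable.restrict
    unfold dclG
    exact ((hX.S_meas.sub (hX.V_meas.aestronglyMeasurable.mul hX.d_H1.memLp.1)).add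
      (((by fun_prop : Measurable fun x : R3 =>
        (1 / 8 - 1 / ‖x‖)).aestronglyMeasurable.mul hg.memLp.1).const_mul c)).const_mul σ
  have hi : Integrable (fun x => dclG X c σ x ^ 2) (volume.restrict (Metric.ball x0 1)) := by
    refine iG.restrict.mono' (hm.pow 2) ?_
    filter_upwards [hle] with x hx
    rwa [Real.norm_eq_abs, abs_of_nonneg (sq_nonneg _)]
  refine ⟨(memLp_two_iff_integrable_sq hm).2 hi, ?_⟩
  have h1 : ∫ x in Metric.ball x0 1, dclG X c σ x ^ 2 ≤ ∫ x in Metric.ball x0 1, G x :=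
    integral_mono_ae hi iG.restrict hle
  have h2 : ∫ x in Metric.ball x0 1, G x ≤ ∫ x, G x := by
    apply setIntegral_le_integral iG
    filter_upwards with x
    have : 0 ≤ G x := by rw [hG]; (clear * - hC; positivity)
    exact this
  have h3 : ∫ x, G x = 3 * ((τ * C) ^ 2 * (∫ x, X.p x ^ 2) +
      (2 + C) ^ 2 * (∫ x, (X.d x - c * KD.chi 4 x) ^ 2) +
      (τ * (1 + 2 * C)) ^ 2 * c ^ 2 * ∫ x, KD.chi 4 x ^ 2) := by
    have i12 : Integrable (fun x => (τ * C) ^ 2 * X.p x ^ 2 +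
      (2 + C) ^ 2 * (X.d x - c * KD.chi 4 x) ^ 2) := i1.add i2
    rw [hG, integral_const_mul, integral_add i12 i3, integral_add i1 i2,
      integral_const_mul, integral_const_mul, integral_const_mul]
  have h4 := dcl_p_int hX
  have h5 := h.lt.le
  have h6 : τ ^ 2 ≤ τ := by linarith only [mul_nonneg (sub_nonneg.2 hτ1) (sub_nonneg.2 hτ0)]
  have h7 : 0 ≤ ∫ x, KD.chi 4 x ^ 2 := integral_nonneg (fun x => sq_nonneg _)
  have k1 : (τ * C) ^ 2 * (∫ x, X.p x ^ 2) ≤ τ * C ^ 2 := by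
    rw [mul_pow]
    calc τ ^ 2 * C ^ 2 * (∫ x, X.p x ^ 2) ≤ τ ^ 2 * C ^ 2 * 1 :=
          mul_le_mul_of_nonneg_left h4 (by (clear * -; positivity))
      _ ≤ τ * C ^ 2 := by rw [mul_one]; exact mul_le_mul_of_nonneg_right h6 (sq_nonneg _)
  have k2 : (2 + C) ^ 2 * (∫ x, (X.d x - c * KD.chi 4 x) ^ 2) ≤ (2 + C) ^ 2 * τ :=
    mul_le_mul_of_nonneg_left h5 (sq_nonneg _)
  have k3 : (τ * (1 + 2 * C)) ^ 2 * c ^ 2 * ∫ x, KD.chi 4 x ^ 2 ≤
      τ * ((1 + 2 * C) ^ 2 * c ^ 2 * ∫ x, KD.chi 4 x ^ 2) := by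
    have : (τ * (1 + 2 * C)) ^ 2 * c ^ 2 * ∫ x, KD.chi 4 x ^ 2 =
      τ ^ 2 * ((1 + 2 * C) ^ 2 * c ^ 2 * ∫ x, KD.chi 4 x ^ 2) := by ring
    rw [this]
    exact mul_le_mul_of_nonneg_right h6 (by (clear * - hC; positivity))
  rw [h3] at h2
  refine h1.trans (h2.trans ?_)
  linarith

/-- One-sided bound on a ball. -/
lemma dcl_ball {X : SD} {δ C ρ c τ σ K : ℝ} (hC : 0 ≤ C) (hρ : 1 ≤ ρ) (hX : X.Ok δ C ρ)
    (hσ : σ ^ 2 = 1) (h : X.Close C c τ) (hτ1 : τ ≤ 1) {g : Fin 3 → R3 → ℝ}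
    (hg : H1o (KD.chi 4) g)
    (hg2 : ∀ h : R3 → ℝ, ContDiff ℝ ∞ h → HasCompactSupport h → (∀ x, h x ≠ 0 → 1 < ‖x‖) →
      (1 / 2) * (∑ k, ∫ x, g k x * pdv k h x) = ∫ x, (1 / ‖x‖ - 1 / 8) * KD.chi 4 x * h x)
    (hK0 : 0 ≤ K)
    (hK : ∀ (u : R3 → ℝ) (ug : Fin 3 → R3 → ℝ) (g : R3 → ℝ) (x0 : R3),
    H1o u ug → MemLp g 2 (volume.restrict (Metric.ball x0 1)) →
    (∀ h : R3 → ℝ, ContDiff ℝ ∞ h → HasCompactSupport h → (∀ x, 0 ≤ h x) →
      tsupport h ⊆ Metric.ball x0 1 →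
      (1 / 2) * (∑ k, ∫ x, ug k x * pdv k h x) ≤ ∫ x, g x * h x) →
    ∀ᵐ x : R3, x ∈ Metric.ball x0 (1 / 2) →
      u x ≤ K * (√(∫ x in Metric.ball x0 1, u x ^ 2) + √(∫ x in Metric.ball x0 1, g x ^ 2)))
    (x0 : R3) (hx0 : ρ + 1 < ‖x0‖) :
    ∀ᵐ x : R3, x ∈ Metric.ball x0 (1 / 2) → σ * (X.d x - c * KD.chi 4 x) ≤
      K * (√τ * (1 + √(3 * (C ^ 2 + (2 + C) ^ 2 + (1 + 2 * C) ^ 2 * c ^ 2 *
        ∫ x, KD.chi 4 x ^ 2)))) := by
  have hτ0 : 0 ≤ τ := hX.par.ε0.le.trans h.ε_lt.le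
  obtain ⟨m1, m2⟩ := dcl_g_L2 hC hρ hX hσ h hτ1 hg x0 hx0
  have hB : ∀ x ∈ Metric.ball x0 1, ρ < ‖x‖ := by
    intro x hx
    rw [Metric.mem_ball, dist_comm, dist_eq_norm] at hx
    have := norm_sub_norm_le x0 x
    linarith only [hx0, hx, this]
  have h1 := hK _ _ (dclG X c σ) x0 (dcl_H1 hX c σ hg) m1 (by
    intro h a1 a2 _ a4
    refine (dcl_eq hC hρ hX c σ hg hg2 a1 a2 ?_).le
    intro x hx
    exact hB x (a4 (subset_tsupport h hx)))
  filter_upwards [h1] with x hx hxB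
  refine (hx hxB).trans (mul_le_mul_of_nonneg_left ?_ hK0)
  rw [mul_add, mul_one, ← Real.sqrt_mul hτ0]
  refine add_le_add (Real.sqrt_le_sqrt ?_) (Real.sqrt_le_sqrt m2)
  have e : ∀ x, (σ * (X.d x - c * KD.chi 4 x)) ^ 2 = (X.d x - c * KD.chi 4 x) ^ 2 := by
    intro x
    rw [mul_pow, hσ, one_mul]
  simp_rw [e]
  refine (setIntegral_le_integral h.int ?_).trans h.lt.le
  filter_upwards with x
  exact sq_nonneg _

/-- XClose. Uniform closeness outside a ball. -/
theorem d_close {δ C ρ : ℝ} (hC : 0 ≤ C) (hρ : 1 ≤ ρ) (c : ℝ) {τ' : ℝ} (hτ : 0 < τ') :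
    ∃ τ : ℝ, 0 < τ ∧ ∀ X : SD, X.Ok δ C ρ → X.Close C c τ →
      ∀ᵐ x : R3, ρ + 1 < ‖x‖ → |X.d x - c * KD.chi 4 x| ≤ τ' := by
  obtain ⟨K, hK0, hK⟩ := weak_sup
  obtain ⟨g, hg, hg2⟩ := chi4_H1
  set M : ℝ := √(3 * (C ^ 2 + (2 + C) ^ 2 + (1 + 2 * C) ^ 2 * c ^ 2 * ∫ x, KD.chi 4 x ^ 2)) with hM
  have hM0 : 0 ≤ M := Real.sqrt_nonneg _
  have hA : 0 < K * (1 + M) + 1 := by (clear * - hK0 hC; positivity)
  refine ⟨min 1 ((τ' / (K * (1 + M) + 1)) ^ 2), lt_min one_pos (by (clear * - hτ hK0 hC; positivity)), ?_⟩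
  intro X hX hcl
  set τ : ℝ := min 1 ((τ' / (K * (1 + M) + 1)) ^ 2) with hτd
  have hτ1 : τ ≤ 1 := min_le_left _ _
  have hsq : √τ ≤ τ' / (K * (1 + M) + 1) :=
    (Real.sqrt_le_sqrt (min_le_right _ _)).trans_eq (Real.sqrt_sq (by (clear * - hτ hK0 hC; positivity)))
  have hfin : K * (√τ * (1 + M)) ≤ τ' := by
    rw [le_div_iff₀ hA] at hsq
    linarith only [Real.sqrt_nonneg τ, hsq]
  apply ae_of_balls
  intro x0 hx0
  filter_upwards [dcl_ball hC hρ hX (σ := 1) (by norm_num) hcl hτ1 hg hg2 hK0 hK x0 hx0,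
    dcl_ball hC hρ hX (σ := -1) (by norm_num) hcl hτ1 hg hg2 hK0 hK x0 hx0] with x hx1 hx2 hxB
  have b1 := (hx1 hxB).trans hfin
  have b2 := (hx2 hxB).trans hfin
  rw [abs_le]
  constructor <;> linarith only [b1, b2]

end

end Vale.Agent.P363.D
end
end

section

section

/-!
# P363, block X: (E1)
-/

namespace Vale.Agent.P363.D

open MeasureTheory Set Filter Topology
open scoped ENNReal ContDiff

noncomputable section

lemma XE1_gamma {κ q η : ℝ} (h1 : 2 / 5 ≤ κ) (h3 : 1 / 2 ≤ q) (h4 : q ≤ 3 / 2)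
    (hη : 0 < η) (hη1 : η ≤ 1 / 32) : |q / κ - 1 + η| ≤ 10 := by
  have hκ : 0 < κ := by linarith only [h1]
  have a1 : q / κ ≤ 4 := by
    rw [div_le_iff₀ hκ]
    linarith only [h1, h4]
  have a2 : 0 ≤ q / κ := by positivity
  rw [abs_le]
  constructor <;> linarith only [hη, a2, hη1, a1]

lemma XE1_V {κ q ε C R r : ℝ} (hp : Par κ q ε) (hC : 0 ≤ C) (hR : 100 * (1 + C) ≤ R)
    (hr : R < r) :
    |κ ^ 2 / 2 - q / r - ε * C / r ^ 2| ≤ 3 + C ∧ 0 < κ ^ 2 / 2 - q / r - ε * C / r ^ 2 := by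
  have hr1 : 100 * (1 + C) ≤ r := by linarith only [hR, hr]
  have hr100 : 100 ≤ r := by linarith
  have hr0 : 0 < r := by linarith
  have h1 := hp.κl
  have h2 := hp.κu
  have h3 := hp.ql
  have h4 := hp.qu
  have h5 := hp.ε0
  have h6 := hp.ε1
  have b1 : q / r ≤ 3 / 200 := by
    rw [div_le_iff₀ hr0]
    linarith only [hC, hR, hr, h4]
  have b2 : 0 ≤ q / r := by positivity
  have b3 : 0 ≤ ε * C / r ^ 2 := by positivity
  have b4 : ε * C / r ^ 2 ≤ 1 / 100 := by
    rw [div_le_iff₀ (by positivity)]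
    have c1 : ε * C ≤ 1 * C := mul_le_mul_of_nonneg_right h6 hC
    have c2 : r * 1 ≤ r ^ 2 := by nlinarith only [hC, hR, hr]
    (clear * - hR hr c1 c2; linarith only [c2, c1, hr, hR])
  have b5 : κ ^ 2 / 2 ≤ 1 := by nlinarith only [h2, h1]
  have b6 : 2 / 25 ≤ κ ^ 2 / 2 := by nlinarith only [h1]
  constructor
  · rw [abs_le]
    constructor <;> linarith only [hC, b1, b4, b6, b2, b3, b5]
  · linarith only [b1, b4, b6]

/-- XE1. (E1), uniform in the parameters. -/
theorem E1_holds {δ C ρ η : ℝ} (hC : 0 ≤ C) (hρ : 1 ≤ ρ) (hη : 0 < η) (hη1 : η ≤ 1 / 32) :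
    ∃ R1 C1 : ℝ, ρ + 1 ≤ R1 ∧ 0 < C1 ∧ ∀ X : SD, X.Ok δ C ρ → X.E1 η R1 C1 := by
  obtain ⟨K0, hK0, hs⟩ := s_bdd (δ := δ) hC hρ
  obtain ⟨Rb, hRb, hbar⟩ := barrier1 hη (by linarith only [hη1]) C
  set R1 : ℝ := max (ρ + 1) (max Rb (100 * (1 + C))) with hR1
  have r1 : ρ + 1 ≤ R1 := le_max_left _ _
  have r2 : Rb ≤ R1 := (le_max_left _ _).trans (le_max_right _ _)
  have r3 : 100 * (1 + C) ≤ R1 := (le_max_right _ _).trans (le_max_right _ _)
  have hR0 : 0 < R1 := by linarith only [hC, r3]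
  obtain ⟨m, M, hm, hM, hw⟩ := wt_bounds (R := R1 + 1) (by linarith only [hC, r3])
  refine ⟨R1, K0 / m, r1, div_pos hK0 hm, ?_⟩
  intro X hX
  have hX' : Scal X.κ X.q X.ε δ C ρ X.C' X.n X.D X.d X.dg X.s X.sg X.p X.pg X.V X.S X.TP := hX
  have hp := hX'.par
  have hκ : 0 < X.κ := by
    have := hp.κl
    linarith only [this]
  have hγ : |X.q / X.κ - 1 + η| ≤ 10 := XE1_gamma hp.κl hp.ql hp.qu hη hη1
  have hCm := (barr_wt hκ (X.q / X.κ - 1 + η)).const_mul (K0 / m)
  have hC1 : 0 < K0 / m := div_pos hK0 hm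
  have hV : ∀ x : R3, R1 < ‖x‖ →
      |X.κ ^ 2 / 2 - X.q / ‖x‖ - X.ε * C / ‖x‖ ^ 2| ≤ 3 + C ∧
        0 < X.κ ^ 2 / 2 - X.q / ‖x‖ - X.ε * C / ‖x‖ ^ 2 := fun x hx => XE1_V hp hC r3 hx
  refine compare_ext (ρ := ρ) (R := R1) (K := 3 + C) (f := fun _ => 0)
    (V := fun x => X.κ ^ 2 / 2 - X.q / ‖x‖ - X.ε * C / ‖x‖ ^ 2) hR0 (by linarith only [r1])
    hX'.s_H1 hCm.1 ?_ (fun x hx => (hV x hx).1) (fun x hx => (hV x hx).2) ?_ ?_ ?_ ?_
  · exact ((measurable_const.sub (measurable_const.div measurable_norm)).sub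
      (measurable_const.div (measurable_norm.pow_const 2)))
  · have h0 : ({x : R3 | R1 < ‖x‖}.indicator (fun _ => (0 : ℝ))) = fun _ => 0 := by
      funext x
      simp only [indicator_zero]
    rw [h0]
    exact MemLp.zero' 
  · intro h hg hT h0
    have h1 := hX'.s_ineq h hg hT h0
    simpa only [one_div, zero_mul, integral_zero, ge_iff_le] using h1
  · filter_upwards with x hx
    rw [hCm.2 x]
    have h1 := hbar X.κ X.q x hp.κl hp.κu hp.ql hp.qu (r2.trans hx.le)
    have hx0 : 0 < ‖x‖ := hR0.trans hx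
    have hwp : 0 < wt (X.q / X.κ - 1 + η) X.κ x := wt_pos _ _ _
    have h2 : X.ε * C / ‖x‖ ^ 2 ≤ C / ‖x‖ ^ 2 := by
      apply div_le_div_of_nonneg_right _ (by (clear * - hx0; positivity))
      calc X.ε * C ≤ 1 * C := mul_le_mul_of_nonneg_right hp.ε1 hC
        _ = C := one_mul C
    have h3 : (X.κ ^ 2 / 2 - X.q / ‖x‖ - C / ‖x‖ ^ 2) * wt (X.q / X.κ - 1 + η) X.κ x ≤
        (X.κ ^ 2 / 2 - X.q / ‖x‖ - X.ε * C / ‖x‖ ^ 2) * wt (X.q / X.κ - 1 + η) X.κ x :=
      mul_le_mul_of_nonneg_right (by linarith only [h2]) hwp.le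
    have h4 := mul_le_mul_of_nonneg_left (h1.trans h3) hC1.le
    linarith only [h4]
  · filter_upwards [hs X hX] with x hx h1 h2
    have h3 := hx (r1.trans_lt h1)
    have h4 := (hw X.κ (X.q / X.κ - 1 + η) x hp.κl hp.κu hγ h2.le).1
    calc X.s x ≤ K0 := h3
      _ = K0 / m * m := by (clear * - hm hK0; field_simp)
      _ ≤ K0 / m * wt (X.q / X.κ - 1 + η) X.κ x := mul_le_mul_of_nonneg_left h4 hC1.le

end

end Vale.Agent.P363.D
end
end

section

section

/-!
# P363, block X: Caccioppoli inequalities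
-/

namespace Vale.Agent.P363.D

open MeasureTheory Set Filter Topology
open scoped ENNReal ContDiff

noncomputable section

/-- integrals of functions bounded on a ball and vanishing outside -/
theorem xc_int_le {f : R3 → ℝ} {x : R3} {r B : ℝ}
    (h0 : ∀ᵐ y : R3, y ∈ Metric.ball x r → |f y| ≤ B)
    (h1 : ∀ y, y ∉ Metric.ball x r → f y = 0) :
    |∫ y, f y| ≤ B * (volume : Measure R3).real (Metric.ball (0 : R3) r) := by
  have hb : ∀ᵐ y : R3, ‖f y‖ ≤ (Metric.ball x r).indicator (fun _ => B) y := by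
    filter_upwards [h0] with y hy
    by_cases hm : y ∈ Metric.ball x r
    · rw [indicator_of_mem hm]
      exact hy hm
    · rw [indicator_of_notMem hm, h1 y hm, norm_zero]
  have hi : Integrable ((Metric.ball x r).indicator (fun _ : R3 => B)) :=
    (integrable_indicator_iff measurableSet_ball).2
      (integrableOn_const measure_ball_lt_top.ne)
  rw [← Real.norm_eq_abs]
  refine (norm_integral_le_of_norm_le hi hb).trans (le_of_eq ?_)
  rw [integral_indicator measurableSet_ball, setIntegral_const, smul_eq_mul, mul_comm]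
  congr 1
  unfold Measure.real
  rw [Measure.addHaar_ball_center]

theorem xc_pdv_cont {χ : R3 → ℝ} (h1 : ContDiff ℝ ∞ χ) (k : Fin 3) : Continuous (pdv k χ) := by
  unfold pdv
  exact ((h1.continuous_fderiv (by simp)).clm_apply continuous_const)

theorem xc_pdv_bdd {χ : R3 → ℝ} (h1 : ContDiff ℝ ∞ χ) (h2 : HasCompactSupport χ) (k : Fin 3) :
    ∃ B : ℝ, ∀ y, |pdv k χ y| ≤ B := by
  have h3 : HasCompactSupport (pdv k χ) := h2.fderiv_apply ℝ (dir3 k)
  obtain ⟨B, hB⟩ := h3.exists_bound_of_continuous (xc_pdv_cont h1 k)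
  exact ⟨B, hB⟩

theorem xc_memLp {f g : R3 → ℝ} (hf : MemLp f 2 volume) (hg : Continuous g) {B : ℝ}
    (hB : ∀ y, |g y| ≤ B) : MemLp (fun y => g y * f y) 2 volume := by
  refine hf.of_le_mul (c := B) (hg.aestronglyMeasurable.mul hf.1) (Eventually.of_forall fun y => ?_)
  rw [norm_mul]
  exact mul_le_mul_of_nonneg_right (hB y) (norm_nonneg _)

/-- product of an `H¹` function with the square of a cutoff -/
theorem xc_H1o {χ d : R3 → ℝ} {dg : Fin 3 → R3 → ℝ} (hd : H1o d dg) (h1 : ContDiff ℝ ∞ χ)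
    (h2 : HasCompactSupport χ) :
    H1o (fun y => χ y ^ 2 * d y)
      (fun k y => 2 * χ y * pdv k χ y * d y + χ y ^ 2 * dg k y) := by
  obtain ⟨B, hB⟩ := h2.exists_bound_of_continuous h1.continuous
  have hB' : ∀ y, |χ y ^ 2| ≤ B ^ 2 := by
    intro y
    rw [abs_pow]
    exact pow_le_pow_left₀ (abs_nonneg _) (hB y) 2
  refine ⟨xc_memLp hd.memLp (h1.continuous.pow 2) hB', fun k => ?_, fun k => ?_⟩
  · obtain ⟨B2, hB2⟩ := xc_pdv_bdd h1 h2 k
    refine MemLp.add ?_ (xc_memLp (hd.memLp' k) (h1.continuous.pow 2) hB')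
    refine xc_memLp (B := 2 * B * B2) hd.memLp
      ((continuous_const.mul h1.continuous).mul (xc_pdv_cont h1 k)) fun y => ?_
    rw [abs_mul, abs_mul, abs_two]
    have h3 := hB y
    have h4 := hB2 y
    rw [Real.norm_eq_abs] at h3
    have h5 : 0 ≤ |χ y| := abs_nonneg _
    have h6 : 0 ≤ B := h5.trans h3
    (clear * - h3 h4 h6; gcongr)
  · have h3 : ContDiff ℝ 1 χ := h1.of_le (by exact_mod_cast le_top)
    have h4 : ACL volume (dir3 k) χ (fun y => pdv k χ y) := ACL.of_contDiff h3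
    refine ((h4.mul h4).mul (hd.acl k)).congr (Eventually.of_forall fun y => ?_)
      (Eventually.of_forall fun y => ?_)
    · ring
    · ring

variable {δ C ρ η K R4 : ℝ} {X : SD}

/-- pointwise bounds in balls -/
theorem xc_bounds (hX : X.Ok δ C ρ) {w1 w3 : ℝ} {x : R3}
    (hK : ∀ᵐ y : R3, y ∈ Metric.ball x 6 → X.s y ≤ K * w1 ∧ X.p y ≤ K * w3) :
    ∀ᵐ y : R3, y ∈ Metric.ball x 6 → |X.d y| ≤ K * w1 ∧ X.p y ≤ K * w3 ∧ X.p y ≤ K * w1 := by
  filter_upwards [hK, hX.sq] with y h1 h2 hy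
  obtain ⟨h3, h4⟩ := h1 hy
  have h5 : |X.d y| ≤ X.s y := by
    apply abs_le_of_sq_le_sq _ (hX.s_nonneg y)
    rw [h2]
    (by_contra nlg; linarith [mul_pos (sub_pos.2 (not_le.1 nlg)) (sub_pos.2 (not_le.1 nlg)), mul_nonneg (sq_nonneg (X.p y : ℝ)) (le_of_lt (sub_pos.2 (not_le.1 nlg)))])
  have h6 : X.p y ≤ X.s y := by
    have h7 : |X.p y| ≤ X.s y := by
      apply abs_le_of_sq_le_sq _ (hX.s_nonneg y)
      rw [h2]
      linarith [sq_nonneg (X.d y)]
    exact (le_abs_self _).trans h7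
  exact ⟨h5.trans h3, h4, h6.trans h3⟩

theorem xc_far {x y : R3} {t r : ℝ} (hy : y ∈ Metric.ball x t) (hx : r + t ≤ ‖x‖) : r < ‖y‖ := by
  rw [Metric.mem_ball, dist_eq_norm] at hy
  have h1 : ‖x‖ ≤ ‖y‖ + ‖y - x‖ := by
    have h2 := norm_sub_le y (y - x)
    rwa [sub_sub_cancel] at h2
  linarith only [hy, hx, h1]

/-- XCacc. Energy of the perpendicular part in balls. -/
theorem TP_ball {δ C ρ η K R4 : ℝ} (hC : 0 ≤ C) (hρ : 1 ≤ ρ) {X : SD} (hX : X.Ok δ C ρ)
    (hK : ∀ x : R3, R4 ≤ ‖x‖ → ∀ᵐ y : R3, y ∈ Metric.ball x 6 →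
      X.s y ≤ K * wt (X.q / X.κ - 1 + η) X.κ x ∧ X.p y ≤ K * wt (X.q / X.κ - 3 + η) X.κ x) :
    ∃ K' R5 : ℝ, 0 < K' ∧ 1 ≤ R5 ∧ ∀ x : R3, R5 ≤ ‖x‖ →
      ∫ y in Metric.ball x 1, X.TP y ≤ K' * wt (X.q / X.κ - 3 + η) X.κ x ^ 2 := by
  obtain ⟨Kc, hKc, hcut⟩ := exists_cutoff (r := 1) one_pos
  set v : ℝ := (volume : Measure R3).real (Metric.ball (0 : R3) (2 * 1)) with hv
  have hv0 : 0 ≤ v := measureReal_nonneg
  have hC' := hX.C'_nonneg
  refine ⟨X.C' * ((1 + Kc) * K ^ 2 * v) + X.C' * (16 * K ^ 2 * v) + 1, max R4 (ρ + 7),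
    by (clear * - hC' hKc; positivity), le_max_of_le_right (by linarith only [hρ]), fun x hx => ?_⟩
  have hxR : R4 ≤ ‖x‖ := (le_max_left _ _).trans hx
  have hxρ : ρ + 7 ≤ ‖x‖ := (le_max_right _ _).trans hx
  obtain ⟨χ, c1, c2, c3, c4, c5, c6, c7⟩ := hcut x
  set w1 : ℝ := wt (X.q / X.κ - 1 + η) X.κ x with hw1
  set w3 : ℝ := wt (X.q / X.κ - 3 + η) X.κ x with hw3
  have hw3p : 0 < w3 := wt_pos _ _ _
  have hw : w1 = rad x ^ 2 * w3 := by
    rw [hw1, wt_eq _ (X.q / X.κ - 3 + η)]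
    congr 1
    rw [show X.q / X.κ - 1 + η - (X.q / X.κ - 3 + η) = (2 : ℕ) by push_cast; ring,
      Real.rpow_natCast]
  have hb := xc_bounds hX (hK x hxR)
  have hsub : Metric.ball x (2 * 1) ⊆ Metric.ball x 6 := Metric.ball_subset_ball (by norm_num)
  -- the first integral
  have i1 : ∫ y, (χ y ^ 2 + ∑ k, pdv k χ y ^ 2) * X.p y ^ 2 ≤ (1 + Kc) * (K * w3) ^ 2 * v := by
    refine (le_abs_self _).trans (xc_int_le (x := x) ?_ ?_)
    · filter_upwards [hb] with y hy hm
      obtain ⟨-, h2, -⟩ := hy (hsub hm)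
      have h3 := hX.p_nonneg y
      have h4 : X.p y ^ 2 ≤ (K * w3) ^ 2 := pow_le_pow_left₀ h3 h2 2
      have h5 : χ y ^ 2 + ∑ k, pdv k χ y ^ 2 ≤ 1 + Kc := by
        rw [Fin.sum_univ_three]
        have h6 : χ y ^ 2 ≤ 1 := pow_le_one₀ (c3 y).1 (c3 y).2
        have h7 := c6 y
        linarith only [h6, h7]
      have h8 : 0 ≤ χ y ^ 2 + ∑ k, pdv k χ y ^ 2 :=
        add_nonneg (sq_nonneg _) (Finset.sum_nonneg fun k _ => sq_nonneg _)
      rw [abs_of_nonneg (mul_nonneg h8 (sq_nonneg _))]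
      exact mul_le_mul h5 h4 (sq_nonneg _) (by linarith only [hKc])
    · intro y hy
      have h1 : χ y = 0 := by
        by_contra h
        exact hy (c5 y h)
      have h2 : ∀ k, pdv k χ y = 0 := by
        intro k
        by_contra h
        exact hy (c7 k y h)
      simp [h1, h2]
  -- the second integral
  have i2 : ∫ y, χ y ^ 2 / ‖y‖ ^ 4 * X.d y ^ 2 ≤ 16 * (K * w3) ^ 2 * v := by
    refine (le_abs_self _).trans (xc_int_le (x := x) ?_ ?_)
    · filter_upwards [hb] with y hy hm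
      obtain ⟨h2, -, -⟩ := hy (hsub hm)
      have h3 : (1 + ‖x‖) / 2 < ‖y‖ := xc_far hm (by linarith only [hρ, hxρ])
      have h4 : rad x ≤ 2 * ‖y‖ := (rad_le x).trans (by linarith only [h3])
      have h5 : 0 < ‖y‖ := by
        have := norm_nonneg x
        linarith only [hρ, hxρ, h3]
      have h6 : 0 ≤ rad x := zero_le_one.trans (one_le_rad x)
      have h7 : X.d y ^ 2 ≤ (K * w1) ^ 2 := by
        rw [← sq_abs (X.d y)]
        exact pow_le_pow_left₀ (abs_nonneg _) h2 2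
      have h8 : (K * w1) ^ 2 = rad x ^ 4 * (K * w3) ^ 2 := by
        rw [hw]
        ring
      have h9 : rad x ^ 4 ≤ 16 * ‖y‖ ^ 4 := by
        calc rad x ^ 4 ≤ (2 * ‖y‖) ^ 4 := pow_le_pow_left₀ h6 h4 4
          _ = 16 * ‖y‖ ^ 4 := by ring
      have h10 : χ y ^ 2 ≤ 1 := pow_le_one₀ (c3 y).1 (c3 y).2
      have h11 : 0 < ‖y‖ ^ 4 := by (clear * - h5; positivity)
      rw [abs_of_nonneg (by (clear * - h5; positivity)), div_mul_eq_mul_div, div_le_iff₀ h11]
      calc χ y ^ 2 * X.d y ^ 2 ≤ 1 * (rad x ^ 4 * (K * w3) ^ 2) := by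
            rw [h8] at h7
            exact mul_le_mul h10 h7 (sq_nonneg _) zero_le_one
        _ ≤ 1 * (16 * ‖y‖ ^ 4 * (K * w3) ^ 2) := by (clear * - h9; gcongr)
        _ = 16 * (K * w3) ^ 2 * ‖y‖ ^ 4 := by ring
    · intro y hy
      have h1 : χ y = 0 := by
        by_contra h
        exact hy (c5 y h)
      simp [h1]
  have hc := hX.cacc χ c1 c2 fun y hy => xc_far (c5 y hy) (by linarith only [hxρ])
  have i3 : ∫ y in Metric.ball x 1, X.TP y ≤ ∫ y, χ y ^ 2 * X.TP y := by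
    rw [← integral_indicator measurableSet_ball]
    refine integral_mono_of_nonneg (Eventually.of_forall fun y => ?_) ?_
      (Eventually.of_forall fun y => ?_)
    · exact indicator_nonneg (fun y _ => hX.TP_nonneg y) y
    · refine hX.TP_int.bdd_mul (c := 1) (c1.continuous.pow 2).aestronglyMeasurable
        (Eventually.of_forall fun y => ?_)
      rw [Real.norm_eq_abs, abs_of_nonneg (sq_nonneg _)]
      exact pow_le_one₀ (c3 y).1 (c3 y).2
    · by_cases hy : y ∈ Metric.ball x 1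
      · simp only [indicator_of_mem hy, c4 y hy, one_pow, one_mul, le_refl]
      · simp only [indicator_of_notMem hy]
        exact mul_nonneg (sq_nonneg _) (hX.TP_nonneg y)
  calc ∫ y in Metric.ball x 1, X.TP y ≤ X.C' * ((1 + Kc) * (K * w3) ^ 2 * v) +
        X.C' * (16 * (K * w3) ^ 2 * v) := by
        refine i3.trans (hc.trans (add_le_add ?_ ?_))
        · exact mul_le_mul_of_nonneg_left i1 hC'
        · exact mul_le_mul_of_nonneg_left i2 hC'
    _ ≤ X.C' * ((1 + Kc) * (K * w3) ^ 2 * v) +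
        X.C' * (16 * (K * w3) ^ 2 * v) + w3 ^ 2 := by linarith only [sq_nonneg w3]
    _ = (X.C' * ((1 + Kc) * K ^ 2 * v) + X.C' * (16 * K ^ 2 * v) + 1) * w3 ^ 2 := by ring

/-- XCacc. Gradient of `d` in balls. -/
theorem dg_ball {δ C ρ η K R4 : ℝ} (hC : 0 ≤ C) (hρ : 1 ≤ ρ) {X : SD} (hX : X.Ok δ C ρ)
    (hK : ∀ x : R3, R4 ≤ ‖x‖ → ∀ᵐ y : R3, y ∈ Metric.ball x 6 →
      X.s y ≤ K * wt (X.q / X.κ - 1 + η) X.κ x ∧ X.p y ≤ K * wt (X.q / X.κ - 3 + η) X.κ x) :
    ∃ K' R5 : ℝ, 0 < K' ∧ 1 ≤ R5 ∧ ∀ x : R3, R5 ≤ ‖x‖ →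
      ∑ k, ∫ y in Metric.ball x 3, X.dg k y ^ 2 ≤ K' * wt (X.q / X.κ - 1 + η) X.κ x ^ 2 := by
  obtain ⟨Kc, hKc, hcut⟩ := exists_cutoff (r := 3) three_pos
  set v : ℝ := (volume : Measure R3).real (Metric.ball (0 : R3) (2 * 3)) with hv
  have hv0 : 0 ≤ v := measureReal_nonneg
  refine ⟨4 * (3 * (Kc * K ^ 2 * v) + (C * K ^ 2 * v) + ((3 + C) * K ^ 2 * v)) + 1,
    max R4 (ρ + 7), by (clear * - hKc hC; positivity), le_max_of_le_right (by linarith only [hρ]), fun x hx => ?_⟩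
  have hxR : R4 ≤ ‖x‖ := (le_max_left _ _).trans hx
  have hxρ : ρ + 7 ≤ ‖x‖ := (le_max_right _ _).trans hx
  obtain ⟨χ, c1, c2, c3, c4, c5, c6, c7⟩ := hcut x
  set w1 : ℝ := wt (X.q / X.κ - 1 + η) X.κ x with hw1
  have hw1p : 0 < w1 := wt_pos _ _ _
  have hb := xc_bounds hX (hK x hxR)
  have hsub : Metric.ball x (2 * 3) ⊆ Metric.ball x 6 := Metric.ball_subset_ball (by norm_num)
  have hH := xc_H1o hX.d_H1 c1 c2
  have hχ0 : ∀ y, y ∉ Metric.ball x (2 * 3) → χ y = 0 := by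
    intro y hy
    by_contra h
    exact hy (c5 y h)
  have hfar : ∀ y, χ y ≠ 0 → ρ < ‖y‖ := fun y hy => xc_far (c5 y hy) (by linarith only [hxρ])
  have hχ1 : ∀ y, χ y ^ 2 ≤ 1 := fun y => pow_le_one₀ (c3 y).1 (c3 y).2
  -- the test function
  have hT : Test ρ (fun y => χ y ^ 2 * X.d y)
      (fun k y => 2 * χ y * pdv k χ y * X.d y + χ y ^ 2 * X.dg k y) := by
    refine ⟨hH, ⟨|K * w1|, ?_⟩, Eventually.of_forall fun y hy => ?_⟩
    · filter_upwards [hb] with y hy
      by_cases hm : y ∈ Metric.ball x (2 * 3)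
      · have h2 := (hy (hsub hm)).1
        rw [abs_mul, abs_of_nonneg (sq_nonneg (χ y))]
        calc χ y ^ 2 * |X.d y| ≤ 1 * |K * w1| :=
              mul_le_mul (hχ1 y) (h2.trans (le_abs_self _)) (abs_nonneg _) zero_le_one
          _ = |K * w1| := one_mul _
      · rw [show χ y ^ 2 * X.d y = 0 by rw [hχ0 y hm]; ring, abs_zero]
        exact abs_nonneg _
    · have h1 : χ y = 0 := by
        by_contra h
        exact absurd hy (not_le.2 (hfar y h))
      simp [h1]
  have heq := hX.d_eq _ _ hT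
  -- the source
  have iS : |∫ y, X.S y * (χ y ^ 2 * X.d y)| ≤ C * (K * w1) ^ 2 * v := by
    refine xc_int_le (x := x) ?_ ?_
    · filter_upwards [hb, hX.S_le] with y hy hS hm
      obtain ⟨h2, -, h4⟩ := hy (hsub hm)
      have hyρ : ρ < ‖y‖ := xc_far hm (by linarith only [hxρ])
      have hy0 : 0 < ‖y‖ := by linarith only [hρ, hyρ]
      have h5 := hS hyρ
      have h6 : X.ε * C / ‖y‖ ^ 2 ≤ C := by
        rw [div_le_iff₀ (by (clear * - hy0; positivity))]
        have h7 : 1 ≤ ‖y‖ ^ 2 := one_le_pow₀ (by linarith only [hρ, hyρ])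
        have h8 : X.ε * C ≤ 1 * C := mul_le_mul_of_nonneg_right hX.par.ε1 hC
        have h9 : C ≤ C * ‖y‖ ^ 2 := le_mul_of_one_le_right hC h7
        linarith only [h8, h9]
      have h9 : |X.S y| ≤ C * (K * w1) := by
        refine h5.trans (mul_le_mul h6 h4 (hX.p_nonneg y) hC)
      have h10 : 0 ≤ K * w1 := (abs_nonneg _).trans h2
      rw [abs_mul, abs_mul, abs_of_nonneg (sq_nonneg (χ y))]
      calc |X.S y| * (χ y ^ 2 * |X.d y|) ≤ C * (K * w1) * (1 * (K * w1)) := by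
            have := hχ1 y
            (clear * - h9 this h2 hC h10; gcongr)
        _ = C * (K * w1) ^ 2 := by ring
    · intro y hy
      simp [hχ0 y hy]
  -- the potential
  have iV : |∫ y, X.V y * X.d y * (χ y ^ 2 * X.d y)| ≤ (3 + C) * (K * w1) ^ 2 * v := by
    refine xc_int_le (x := x) ?_ ?_
    · filter_upwards [hb] with y hy hm
      obtain ⟨h2, -, -⟩ := hy (hsub hm)
      have hyρ : ρ < ‖y‖ := xc_far hm (by linarith only [hxρ])
      have hy0 : 0 < ‖y‖ := by linarith only [hρ, hyρ]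
      have h5 := hX.V_le y hyρ
      have h6 : X.ε * C / ‖y‖ ^ 2 ≤ C := by
        rw [div_le_iff₀ (by (clear * - hy0; positivity))]
        have h7 : 1 ≤ ‖y‖ ^ 2 := one_le_pow₀ (by linarith only [hρ, hyρ])
        have h8 : X.ε * C ≤ 1 * C := mul_le_mul_of_nonneg_right hX.par.ε1 hC
        have h9 : C ≤ C * ‖y‖ ^ 2 := le_mul_of_one_le_right hC h7
        linarith only [h8, h9]
      have h7 : |X.V y| ≤ 3 + C := by
        have k1 := hX.par.κl
        have k2 := hX.par.κu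
        have k3 := hX.par.ql
        have k4 := hX.par.qu
        have k5 : 0 ≤ X.q / ‖y‖ := div_nonneg (by linarith only [k3]) (norm_nonneg _)
        have k6 : X.q / ‖y‖ ≤ 3 / 2 := by
          rw [div_le_iff₀ (by linarith only [hρ, hyρ])]
          (clear * - hρ hyρ k4; linarith)
        have k7 : X.κ ^ 2 ≤ 1 := pow_le_one₀ (by linarith only [k1]) (by linarith only [k2])
        have k8 : 0 ≤ X.κ ^ 2 / 2 := by (clear * - k1; positivity)
        rw [abs_le] at h5 ⊢
        constructor <;> linarith only [h5, h6, k5, k7, k6, k8]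
      have h10 : 0 ≤ K * w1 := (abs_nonneg _).trans h2
      rw [abs_mul, abs_mul, abs_mul, abs_of_nonneg (sq_nonneg (χ y))]
      calc |X.V y| * |X.d y| * (χ y ^ 2 * |X.d y|) ≤
            (3 + C) * (K * w1) * (1 * (K * w1)) := by
            have := hχ1 y
            (clear * - h7 h2 hC this h10; gcongr)
        _ = (3 + C) * (K * w1) ^ 2 := by ring
    · intro y hy
      simp [hχ0 y hy]
  -- the gradient of the cutoff
  have iG : ∀ k, ∫ y, pdv k χ y ^ 2 * X.d y ^ 2 ≤ Kc * (K * w1) ^ 2 * v := by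
    intro k
    refine (le_abs_self _).trans (xc_int_le (x := x) ?_ ?_)
    · filter_upwards [hb] with y hy hm
      obtain ⟨h2, -, -⟩ := hy (hsub hm)
      have h3 : pdv k χ y ^ 2 ≤ Kc := by
        have h4 := c6 y
        fin_cases k <;> simp only [Fin.zero_eta, Fin.mk_one, Fin.reduceFinMk] <;>
          linarith only [h4, sq_nonneg (pdv 0 χ y), sq_nonneg (pdv 1 χ y), sq_nonneg (pdv 2 χ y)]
      have h5 : X.d y ^ 2 ≤ (K * w1) ^ 2 := by
        rw [← sq_abs (X.d y)]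
        exact pow_le_pow_left₀ (abs_nonneg _) h2 2
      rw [abs_of_nonneg (by (clear * -; positivity))]
      exact mul_le_mul h3 h5 (sq_nonneg _) hKc
    · intro y hy
      have h2 : pdv k χ y = 0 := by
        by_contra h
        exact hy (c7 k y h)
      simp [h2]
  -- integrability
  have j1 : ∀ k, Integrable (fun y => χ y ^ 2 * X.dg k y ^ 2) := by
    intro k
    refine (hX.d_H1.memLp' k).integrable_sq.bdd_mul (c := 1)
      (c1.continuous.pow 2).aestronglyMeasurable (Eventually.of_forall fun y => ?_)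
    rw [Real.norm_eq_abs, abs_of_nonneg (sq_nonneg _)]
    exact hχ1 y
  have j2 : ∀ k, Integrable (fun y => pdv k χ y ^ 2 * X.d y ^ 2) := by
    intro k
    refine hX.d_H1.memLp.integrable_sq.bdd_mul (c := Kc)
      ((xc_pdv_cont c1 k).pow 2).aestronglyMeasurable (Eventually.of_forall fun y => ?_)
    rw [Real.norm_eq_abs, abs_of_nonneg (sq_nonneg _)]
    have h4 := c6 y
    fin_cases k <;> simp only [Fin.zero_eta, Fin.mk_one, Fin.reduceFinMk] <;>
      linarith only [h4, sq_nonneg (pdv 0 χ y), sq_nonneg (pdv 1 χ y), sq_nonneg (pdv 2 χ y)]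
  have j3 : ∀ k, Integrable (fun y => X.dg k y *
      (2 * χ y * pdv k χ y * X.d y + χ y ^ 2 * X.dg k y)) := fun k =>
    (hX.d_H1.memLp' k).integrable_mul (hH.memLp' k)
  have key : ∀ k, 1 / 2 * (∫ y, χ y ^ 2 * X.dg k y ^ 2) - 2 * (∫ y, pdv k χ y ^ 2 * X.d y ^ 2) ≤
      ∫ y, X.dg k y * (2 * χ y * pdv k χ y * X.d y + χ y ^ 2 * X.dg k y) := by
    intro k
    rw [← integral_const_mul, ← integral_const_mul, ← integral_sub ((j1 k).const_mul _)
      ((j2 k).const_mul _)]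
    refine integral_mono (((j1 k).const_mul _).sub ((j2 k).const_mul _)) (j3 k) fun y => ?_
    have h1 : X.dg k y * (2 * χ y * pdv k χ y * X.d y + χ y ^ 2 * X.dg k y) -
        (1 / 2 * (χ y ^ 2 * X.dg k y ^ 2) - 2 * (pdv k χ y ^ 2 * X.d y ^ 2)) =
        1 / 2 * (χ y * X.dg k y + 2 * (pdv k χ y * X.d y)) ^ 2 := by ring
    simp only
    linarith only [sq_nonneg (χ y * X.dg k y + 2 * (pdv k χ y * X.d y))]
  have hsum := Finset.sum_le_sum fun k (_ : k ∈ (Finset.univ : Finset (Fin 3))) => key k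
  rw [Finset.sum_sub_distrib, ← Finset.mul_sum, ← Finset.mul_sum] at hsum
  have hG : ∑ k, ∫ y, pdv k χ y ^ 2 * X.d y ^ 2 ≤ 3 * (Kc * (K * w1) ^ 2 * v) := by
    calc ∑ k, ∫ y, pdv k χ y ^ 2 * X.d y ^ 2 ≤ ∑ _k : Fin 3, Kc * (K * w1) ^ 2 * v :=
          Finset.sum_le_sum fun k _ => iG k
      _ = 3 * (Kc * (K * w1) ^ 2 * v) := by simp
  have hball : ∑ k, ∫ y in Metric.ball x 3, X.dg k y ^ 2 ≤ ∑ k, ∫ y, χ y ^ 2 * X.dg k y ^ 2 := by
    refine Finset.sum_le_sum fun k _ => ?_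
    rw [← integral_indicator measurableSet_ball]
    refine integral_mono_of_nonneg (Eventually.of_forall fun y => ?_) (j1 k)
      (Eventually.of_forall fun y => ?_)
    · exact indicator_nonneg (fun y _ => sq_nonneg _) y
    · by_cases hy : y ∈ Metric.ball x 3
      · simp only [indicator_of_mem hy, c4 y hy, one_pow, one_mul, le_refl]
      · simp only [indicator_of_notMem hy]
        (clear * -; positivity)
  have e1 := (abs_le.1 iS).2
  have e2 := (abs_le.1 iV).1
  calc ∑ k, ∫ y in Metric.ball x 3, X.dg k y ^ 2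
      ≤ ∑ k, ∫ y, χ y ^ 2 * X.dg k y ^ 2 := hball
    _ ≤ 4 * (3 * (Kc * (K * w1) ^ 2 * v) + (C * (K * w1) ^ 2 * v) +
        ((3 + C) * (K * w1) ^ 2 * v)) := by
        linarith only [e2, e1, hG, hsum, heq]
    _ ≤ 4 * (3 * (Kc * (K * w1) ^ 2 * v) + (C * (K * w1) ^ 2 * v) +
        ((3 + C) * (K * w1) ^ 2 * v)) + w1 ^ 2 := by linarith only [sq_nonneg w1]
    _ = (4 * (3 * (Kc * K ^ 2 * v) + (C * K ^ 2 * v) + ((3 + C) * K ^ 2 * v)) + 1) *
        w1 ^ 2 := by ring

end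

end Vale.Agent.P363.D
end
end

section

section

/-!
# P363, block X: the averaged effective potential, identity
-/

namespace Vale.Agent.P363.D

open MeasureTheory Set Filter Topology
open scoped ENNReal ContDiff

noncomputable section

/-- A `C¹` function on `ℝ` which coincides with `1 / t` for `t ≥ c`. -/
theorem xupa_Phi {c : ℝ} (hc : 0 < c) : ∃ Φ Φ' : ℝ → ℝ, (∀ t, HasDerivAt Φ (Φ' t) t) ∧
    Continuous Φ' ∧ (∀ t, c ≤ t → Φ t = 1 / t) ∧ (∀ t, c ≤ t → Φ' t = -(1 / t ^ 2)) := by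
  have hm : ∀ t : ℝ, 0 < max t c := fun t => lt_max_of_lt_right hc
  have hcont : Continuous (fun t : ℝ => -(1 / (max t c) ^ 2)) := by
    refine (continuous_const.div ((continuous_id.max continuous_const).pow 2) ?_).neg
    intro t
    exact (pow_pos (hm t) 2).ne'
  refine ⟨fun t => 1 / c + ∫ s in c..t, -(1 / (max s c) ^ 2), fun t => -(1 / (max t c) ^ 2),
    ?_, hcont, ?_, ?_⟩
  · intro t
    exact ((hcont.integral_hasStrictDerivAt c t).hasDerivAt).const_add (1 / c)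
  · intro t ht
    have h1 : ∀ x ∈ uIcc c t, HasDerivAt (fun s : ℝ => s⁻¹) (-(1 / (max x c) ^ 2)) x := by
      intro x hx
      rw [uIcc_of_le ht] at hx
      rw [max_eq_left hx.1, one_div]
      exact hasDerivAt_inv (lt_of_lt_of_le hc hx.1).ne'
    have h2 := intervalIntegral.integral_eq_sub_of_hasDerivAt h1 (hcont.intervalIntegrable c t)
    show 1 / c + ∫ s in c..t, -(1 / (max s c) ^ 2) = 1 / t
    rw [h2, one_div, one_div]
    ring
  · intro t ht
    show -(1 / (max t c) ^ 2) = -(1 / t ^ 2)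
    rw [max_eq_left ht]

/-- A nonnegative differentiable function has zero derivative at its zeros. -/
theorem xupa_fderiv {θ : R3 → ℝ} (h3 : ∀ y, 0 ≤ θ y) {y : R3} (hy : θ y = 0) (v : R3) :
    fderiv ℝ θ y v = 0 := by
  have h : IsLocalMin θ y := Filter.Eventually.of_forall (fun z => by rw [hy]; exact h3 z)
  rw [h.fderiv_eq_zero]
  rfl

/-- XUpA. The energy inequality tested with `θ / n`. -/
theorem up_identity {δ C ρ : ℝ} {X : SD} (hX : X.Ok δ C ρ) {x : R3} {c M : ℝ} (hc : 0 < c)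
    (hx : ρ + 1 < ‖x‖) (hn : ∀ᵐ y : R3, y ∈ Metric.ball x 1 → c ≤ X.n y)
    (hM : ∀ᵐ y : R3, y ∈ Metric.ball x 1 → X.n y ≤ M)
    {θ : R3 → ℝ} (h1 : ContDiff ℝ ∞ θ) (h2 : Function.support θ ⊆ Metric.ball x 1)
    (h3 : ∀ y, 0 ≤ θ y) :
    -(1 / 2) * (∑ k, ∫ y, X.D k y / X.n y * fderiv ℝ θ y (dir3 k)) +
      (1 / 2) * (∑ k, ∫ y, θ y * (X.D k y / X.n y) ^ 2) ≤
    ∫ y, θ y * ((X.κ ^ 2 / 2 - X.q / ‖y‖ + X.C' / ‖y‖ ^ 2) + X.C' * (X.TP y / X.n y) +
      X.C' * ((∑ k, X.dg k y ^ 2) * X.p y ^ 2 / X.n y ^ 2)) := by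
  obtain ⟨Φ, Φ', hΦ, hΦ'c, hΦv, hΦ'v⟩ := xupa_Phi hc
  have hΦc : Continuous Φ := continuous_iff_continuousAt.2 (fun t => (hΦ t).continuousAt)
  have hθ1 : ContDiff ℝ 1 θ := h1.of_le (by exact_mod_cast le_top)
  have hθc : Continuous θ := h1.continuous
  have hsupp : HasCompactSupport θ := by
    refine HasCompactSupport.intro (isCompact_closedBall x 1) (fun y hy => ?_)
    by_contra h0
    exact hy (Metric.ball_subset_closedBall (h2 h0))
  have hdc : ∀ k, Continuous (fun y => fderiv ℝ θ y (dir3 k)) := fun k =>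
    (hθ1.continuous_fderiv (by norm_num)).clm_apply continuous_const
  have hdsupp : ∀ k, HasCompactSupport (fun y => fderiv ℝ θ y (dir3 k)) := fun k => by
    refine HasCompactSupport.intro (isCompact_closedBall x 1) (fun y hy => ?_)
    refine xupa_fderiv h3 ?_ _
    by_contra h0
    exact hy (Metric.ball_subset_closedBall (h2 h0))
  obtain ⟨B0, hB0⟩ := hsupp.exists_bound_of_continuous hθc
  have hB0' : ∀ y, θ y ≤ B0 := fun y => (le_abs_self _).trans (hB0 y)
  have hB0nn : 0 ≤ B0 := (h3 x).trans (hB0' x)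
  -- the dichotomy
  have hdich : ∀ᵐ y : R3, (θ y = 0 ∧ ∀ v, fderiv ℝ θ y v = 0) ∨ (c ≤ X.n y ∧ X.n y ≤ M) := by
    filter_upwards [hn, hM] with y hy1 hy2
    by_cases h0 : θ y = 0
    · exact Or.inl ⟨h0, fun v => xupa_fderiv h3 h0 v⟩
    · exact Or.inr ⟨hy1 (h2 h0), hy2 (h2 h0)⟩
  have hnm : AEMeasurable X.n volume := hX.n_int.1.aemeasurable
  have hDm : ∀ k, AEMeasurable (X.D k) volume := fun k => (hX.D_int k).1.aemeasurable
  -- the test function
  set g : R3 → ℝ := fun y => θ y * Φ (X.n y) with hg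
  set gg : Fin 3 → R3 → ℝ := fun k y => fderiv ℝ θ y (dir3 k) * Φ (X.n y) +
    θ y * (Φ' (X.n y) * (2 * X.D k y)) with hgg
  have hΦm : AEStronglyMeasurable (fun y => Φ (X.n y)) volume :=
    hΦc.comp_aestronglyMeasurable hX.n_int.1
  have hΦ'm : AEStronglyMeasurable (fun y => Φ' (X.n y)) volume :=
    hΦ'c.comp_aestronglyMeasurable hX.n_int.1
  have hacl : ∀ k, ACL volume (dir3 k) g (gg k) := fun k =>
    (ACL.of_contDiff hθ1).mul ((hX.n_acl k).comp (Ω := univ) (fun y _ => hΦ y)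
      hΦ'c.continuousOn hΦm hΦ'm (Eventually.of_forall (fun _ _ => mem_univ _)))
  have hgv : ∀ᵐ y : R3, g y = θ y / X.n y := by
    filter_upwards [hdich] with y hy
    rcases hy with ⟨h0, _⟩ | ⟨h0, _⟩
    · simp only [hg, h0, zero_mul, zero_div]
    · simp only [hg, hΦv _ h0, mul_one_div]
  have hggv : ∀ k, ∀ᵐ y : R3, gg k y = fderiv ℝ θ y (dir3 k) / X.n y -
      2 * θ y * X.D k y / X.n y ^ 2 := by
    intro k
    filter_upwards [hdich] with y hy
    rcases hy with ⟨h0, h0'⟩ | ⟨h0, _⟩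
    · simp only [hgg, h0, h0', zero_mul, zero_div, mul_zero, sub_zero, add_zero]
    · simp only [hgg, hΦv _ h0, hΦ'v _ h0]
      ring
  -- integrability
  have hI2 : ∀ k, Integrable (fun y => θ y * (X.D k y / X.n y) ^ 2) volume := by
    intro k
    refine Integrable.mono' ((hX.D2_int k).const_mul (B0 / c)) ?_ ?_
    · exact (hθc.aemeasurable.mul (((hDm k).div hnm).pow_const 2)).aestronglyMeasurable
    · filter_upwards [hdich] with y hy
      rcases hy with ⟨h0, _⟩ | ⟨h0, _⟩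
      · rw [h0, zero_mul, norm_zero]
        have := hX.n_nonneg y
        (clear * - hB0nn hc this; positivity)
      · have hn0 : 0 < X.n y := hc.trans_le h0
        rw [Real.norm_of_nonneg (mul_nonneg (h3 y) (sq_nonneg _))]
        have e1 : θ y * (X.D k y / X.n y) ^ 2 = θ y / X.n y * (X.D k y ^ 2 / X.n y) := by
          (clear * - hn0; field_simp)
        rw [e1]
        have e2 : θ y / X.n y ≤ B0 / c := div_le_div₀ hB0nn (hB0' y) hc h0
        exact mul_le_mul_of_nonneg_right e2 (by (clear * - hn0; positivity))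
  have hI1 : ∀ k, Integrable (fun y => X.D k y / X.n y * fderiv ℝ θ y (dir3 k)) volume := by
    intro k
    obtain ⟨B1, hB1⟩ := (hdsupp k).exists_bound_of_continuous (hdc k)
    refine Integrable.mono' ((hX.D_int k).norm.const_mul (B1 / c)) ?_ ?_
    · exact (((hDm k).div hnm).mul (hdc k).aemeasurable).aestronglyMeasurable
    · filter_upwards [hdich] with y hy
      have hb := hB1 y
      have hB1nn : 0 ≤ B1 := (norm_nonneg _).trans hb
      rcases hy with ⟨_, h0⟩ | ⟨h0, _⟩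
      · rw [h0, mul_zero, norm_zero]
        (clear * - hB1nn hc; positivity)
      · have hn0 : 0 < X.n y := hc.trans_le h0
        rw [norm_mul, norm_div, Real.norm_of_nonneg hn0.le]
        have e1 : ‖X.D k y‖ / X.n y * ‖fderiv ℝ θ y (dir3 k)‖ =
          ‖fderiv ℝ θ y (dir3 k)‖ / X.n y * ‖X.D k y‖ := by ring
        rw [e1]
        have e2 : ‖fderiv ℝ θ y (dir3 k)‖ / X.n y ≤ B1 / c := div_le_div₀ hB1nn hb hc h0
        exact mul_le_mul_of_nonneg_right e2 (norm_nonneg _)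
  -- `g` is `H¹`
  have hgL : MemLp g 2 volume := by
    refine MemLp.of_le_mul (c := 1 / c) (hθc.memLp_of_hasCompactSupport hsupp)
      (hθc.aestronglyMeasurable.mul hΦm) ?_
    filter_upwards [hdich] with y hy
    rcases hy with ⟨h0, _⟩ | ⟨h0, _⟩
    · simp only [hg, h0, zero_mul, norm_zero, mul_zero, le_refl]
    · have hn0 : 0 < X.n y := hc.trans_le h0
      simp only [hg, hΦv _ h0]
      rw [norm_mul, mul_comm, Real.norm_of_nonneg (by (clear * - hn0; positivity) : (0:ℝ) ≤ 1 / X.n y)]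
      exact mul_le_mul_of_nonneg_right (one_div_le_one_div_of_le hc h0) (norm_nonneg _)
  have hggL1 : ∀ k, MemLp (fun y => fderiv ℝ θ y (dir3 k) * Φ (X.n y)) 2 volume := by
    intro k
    refine MemLp.of_le_mul (c := 1 / c) ((hdc k).memLp_of_hasCompactSupport (hdsupp k))
      ((hdc k).aestronglyMeasurable.mul hΦm) ?_
    filter_upwards [hdich] with y hy
    rcases hy with ⟨_, h0⟩ | ⟨h0, _⟩
    · simp only [h0, zero_mul, norm_zero, mul_zero, le_refl]
    · have hn0 : 0 < X.n y := hc.trans_le h0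
      simp only [hΦv _ h0]
      rw [norm_mul, mul_comm, Real.norm_of_nonneg (by (clear * - hn0; positivity) : (0:ℝ) ≤ 1 / X.n y)]
      exact mul_le_mul_of_nonneg_right (one_div_le_one_div_of_le hc h0) (norm_nonneg _)
  have hggL2 : ∀ k, MemLp (fun y => θ y * (Φ' (X.n y) * (2 * X.D k y))) 2 volume := by
    intro k
    have hm : AEStronglyMeasurable (fun y => θ y * (Φ' (X.n y) * (2 * X.D k y))) volume :=
      hθc.aestronglyMeasurable.mul (hΦ'm.mul ((hX.D_int k).1.const_mul 2))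
    rw [memLp_two_iff_integrable_sq hm]
    refine Integrable.mono' ((hI2 k).const_mul (4 * B0 / c ^ 2)) (hm.pow 2) ?_
    filter_upwards [hdich] with y hy
    rcases hy with ⟨h0, _⟩ | ⟨h0, _⟩
    · simp only [h0, zero_mul, norm_zero, mul_zero, le_refl, ne_eq, OfNat.ofNat_ne_zero,
        not_false_eq_true, zero_pow]
    · have hn0 : 0 < X.n y := hc.trans_le h0
      rw [hΦ'v _ h0, Real.norm_of_nonneg (sq_nonneg _)]
      have e1 : (θ y * (-(1 / X.n y ^ 2) * (2 * X.D k y))) ^ 2 =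
          4 * θ y / X.n y ^ 2 * (θ y * (X.D k y / X.n y) ^ 2) := by
        field_simp
        ring
      rw [e1]
      have e2 : 4 * θ y / X.n y ^ 2 ≤ 4 * B0 / c ^ 2 :=
        div_le_div₀ (by (clear * - hB0nn; positivity)) (by linarith only [hB0' y]) (by positivity)
          (pow_le_pow_left₀ hc.le h0 2)
      exact mul_le_mul_of_nonneg_right e2 (mul_nonneg (h3 y) (sq_nonneg _))
  have hggL : ∀ k, MemLp (gg k) 2 volume := fun k => (hggL1 k).add (hggL2 k)
  have hH : H1o g gg := ⟨hgL, hggL, hacl⟩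
  have hg0 : ∀ᵐ y : R3, 0 ≤ g y := by
    filter_upwards [hgv] with y hy
    rw [hy]
    exact div_nonneg (h3 y) (hX.n_nonneg y)
  have hgB : ∃ B : ℝ, ∀ᵐ y : R3, g y ≤ B := by
    refine ⟨B0 / c, ?_⟩
    filter_upwards [hgv, hdich] with y hy hy2
    rw [hy]
    rcases hy2 with ⟨h0, _⟩ | ⟨h0, _⟩
    · rw [h0, zero_div]
      (clear * - hB0nn hc; positivity)
    · exact div_le_div₀ hB0nn (hB0' y) hc h0
  have hgz : ∀ y : R3, ‖y‖ ≤ ρ → g y = 0 := by
    intro y hy
    have h0 : θ y = 0 := by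
      by_contra h0
      have h4 : dist y x < 1 := h2 h0
      have h5 : ‖x‖ ≤ ‖y‖ + dist y x := by
        rw [dist_eq_norm, norm_sub_rev]
        have := norm_add_le y (x - y)
        rwa [add_sub_cancel] at this
      linarith only [hx, hy, h4, h5]
    simp only [hg, h0, zero_mul]
  have hgn : ∀ᵐ y : R3, g y ≠ 0 → 0 < X.n y := by
    filter_upwards [hdich] with y hy hne
    rcases hy with ⟨h0, _⟩ | ⟨h0, _⟩
    · exact absurd (by simp only [hg, h0, zero_mul]) hne
    · exact hc.trans_le h0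
  have hggn : ∀ k, Integrable (fun y => gg k y ^ 2 * X.n y) volume := by
    intro k
    refine Integrable.mono' ((hggL k).integrable_sq.const_mul M)
      (((hggL k).1.pow 2).mul hX.n_int.1) ?_
    filter_upwards [hdich] with y hy
    rcases hy with ⟨h0, h0'⟩ | ⟨h0, h0'⟩
    · simp only [hgg, h0, h0', zero_mul, norm_zero, mul_zero, le_refl, ne_eq,
        OfNat.ofNat_ne_zero, not_false_eq_true, zero_pow, add_zero]
    · have hn0 : 0 < X.n y := hc.trans_le h0
      rw [Real.norm_of_nonneg (mul_nonneg (sq_nonneg _) hn0.le), mul_comm]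
      exact mul_le_mul_of_nonneg_right h0' (sq_nonneg _)
  have hE := hX.energy g gg hH hg0 hgB hgz hgn hggn
  have hA : ∀ k, ∫ y, X.D k y * gg k y = (∫ y, X.D k y / X.n y * fderiv ℝ θ y (dir3 k)) -
      2 * ∫ y, θ y * (X.D k y / X.n y) ^ 2 := by
    intro k
    rw [← integral_const_mul, ← integral_sub (hI1 k) ((hI2 k).const_mul 2)]
    refine integral_congr_ae ?_
    filter_upwards [hggv k, hdich] with y hy hy2
    rw [hy]
    rcases hy2 with ⟨h0, h0'⟩ | ⟨h0, _⟩
    · simp only [h0, h0', zero_mul, zero_div, mul_zero, sub_zero]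
    · have hn0 : X.n y ≠ 0 := (hc.trans_le h0).ne'
      (clear * - hn0; field_simp)
  have hB : ∀ k, ∫ y, g y * (X.D k y ^ 2 / X.n y) = ∫ y, θ y * (X.D k y / X.n y) ^ 2 := by
    intro k
    refine integral_congr_ae ?_
    filter_upwards [hgv, hdich] with y hy hy2
    rw [hy]
    rcases hy2 with ⟨h0, h0'⟩ | ⟨h0, _⟩
    · simp only [h0, zero_mul, zero_div]
    · have hn0 : X.n y ≠ 0 := (hc.trans_le h0).ne'
      (clear * - hn0; field_simp)
  have hR : ∫ y, g y * ((X.κ ^ 2 / 2 - X.q / ‖y‖ + X.C' / ‖y‖ ^ 2) * X.n y + X.C' * X.TP y +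
        X.C' * ((∑ k, X.dg k y ^ 2) * X.p y ^ 2 / X.n y)) =
      ∫ y, θ y * ((X.κ ^ 2 / 2 - X.q / ‖y‖ + X.C' / ‖y‖ ^ 2) + X.C' * (X.TP y / X.n y) +
      X.C' * ((∑ k, X.dg k y ^ 2) * X.p y ^ 2 / X.n y ^ 2)) := by
    refine integral_congr_ae ?_
    filter_upwards [hgv, hdich] with y hy hy2
    rw [hy]
    rcases hy2 with ⟨h0, h0'⟩ | ⟨h0, _⟩
    · simp only [h0, zero_mul, zero_div]
    · have hn0 : X.n y ≠ 0 := (hc.trans_le h0).ne'
      generalize (X.κ ^ 2 / 2 - X.q / ‖y‖ + X.C' / ‖y‖ ^ 2) = V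
      generalize (∑ k, X.dg k y ^ 2) = W
      (clear * - hn0; field_simp)
  rw [hR] at hE
  simp only [hA, hB, Finset.sum_sub_distrib, ← Finset.mul_sum] at hE
  linarith only [hE]

end

end Vale.Agent.P363.D
end
end

section

section

/-!
# P363, block X: the averaged effective potential
-/

namespace Vale.Agent.P363.D

open MeasureTheory Set Filter Topology
open scoped ENNReal ContDiff

noncomputable section

/-- XUp. Choice of the radius. -/
theorem xup_radius (a b η' : ℝ) (hη' : 0 < η') : ∃ R : ℝ, 1 ≤ R ∧ ∀ r : ℝ, R ≤ r →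
    a / r ^ 2 + b * r ^ (-(3 / 2) : ℝ) ≤ η' / r := by
  have h1 : Tendsto (fun r : ℝ => a / r + b * r ^ (-(1 / 2) : ℝ)) atTop (𝓝 (0 + b * 0)) := by
    apply Tendsto.add
    · exact tendsto_const_nhds.div_atTop tendsto_id
    · exact (tendsto_rpow_neg_atTop (by norm_num : (0 : ℝ) < 1 / 2)).const_mul b
  rw [mul_zero, add_zero] at h1
  obtain ⟨R, hR⟩ := eventually_atTop.1 (h1.eventually (ge_mem_nhds hη'))
  refine ⟨max R 1, le_max_right _ _, fun r hr => ?_⟩
  have h2 := hR r ((le_max_left _ _).trans hr)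
  have hr1 : 1 ≤ r := (le_max_right _ _).trans hr
  have hr0 : 0 < r := by linarith only [hr1]
  have h3 : r ^ (-(3 / 2) : ℝ) = r ^ (-(1 / 2) : ℝ) / r := by
    rw [show (-(3 / 2) : ℝ) = -(1 / 2) - 1 by norm_num, Real.rpow_sub_one hr0.ne']
  have h4 : a / r ^ 2 + b * r ^ (-(3 / 2) : ℝ) = (a / r + b * r ^ (-(1 / 2) : ℝ)) / r := by
    rw [h3]
    (clear * - hr1; field_simp)
  rw [h4]
  exact div_le_div_of_nonneg_right h2 hr0.le

/-- XUp. Ratio of the weights. -/
theorem xup_ratio {g3 g2 κ η : ℝ} (h : g3 - g2 = -1 + 2 * η) (hη1 : η ≤ 1 / 32) {x : R3}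
    (hx : 1 ≤ ‖x‖) : wt g3 κ x ^ 2 ≤ ‖x‖ ^ (-(3 / 2) : ℝ) * wt g2 κ x ^ 2 := by
  have hr := one_le_rad x
  have hr0 : 0 < rad x := by linarith only [hr]
  rw [wt_eq g3 g2 κ x, mul_pow]
  apply mul_le_mul_of_nonneg_right _ (sq_nonneg _)
  rw [← Real.rpow_natCast, ← Real.rpow_mul hr0.le, h]
  calc rad x ^ ((-1 + 2 * η) * ((2 : ℕ) : ℝ)) ≤ rad x ^ (-(3 / 2) : ℝ) := by
        apply Real.rpow_le_rpow_of_exponent_le hr
        push_cast
        linarith only [hη1]
    _ ≤ ‖x‖ ^ (-(3 / 2) : ℝ) :=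
        Real.rpow_le_rpow_of_nonpos (by linarith) (norm_le_rad x) (by norm_num)

/-- XUp. Lower bound of the density. -/
theorem xup_n_lower {δ C ρ η R4 c4 : ℝ} (hc4 : 0 < c4) {X : SD} (hX : X.Ok δ C ρ)
    (hc : ∀ x : R3, R4 ≤ ‖x‖ → 7 ≤ x 2 →
      ∀ᵐ y : R3, y ∈ Metric.ball x 2 → c4 * wt (X.q / X.κ - 2 - η) X.κ x ≤ X.d y) {x : R3}
    (h1 : R4 ≤ ‖x‖) (h2 : 7 ≤ x 2) : ∀ᵐ y : R3, y ∈ Metric.ball x 1 →
      c4 * wt (X.q / X.κ - 2 - η) X.κ x ≤ X.d y ∧ 4 * X.d y ^ 2 ≤ X.n y ∧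
      4 * (c4 * wt (X.q / X.κ - 2 - η) X.κ x) ^ 2 ≤ X.n y := by
  have hS : Scal X.κ X.q X.ε δ C ρ X.C' X.n X.D X.d X.dg X.s X.sg X.p X.pg X.V X.S X.TP := hX
  have hW := wt_pos (X.q / X.κ - 2 - η) X.κ x
  filter_upwards [hc x h1 h2, hS.n_eq, hS.sq] with y h3 h4 h5 hy
  have h6 := h3 (Metric.ball_subset_ball (by norm_num) hy)
  have h7 : (c4 * wt (X.q / X.κ - 2 - η) X.κ x) ^ 2 ≤ X.d y ^ 2 :=
    pow_le_pow_left₀ (by positivity) h6 2
  have h8 := sq_nonneg (X.p y)
  refine ⟨h6, ?_, ?_⟩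
  · rw [h4, h5]; linarith only [h8]
  · rw [h4, h5]; linarith

/-- XUp. Upper bound of the explicit part of the potential. -/
theorem xup_pot {κ q C' : ℝ} (hq : 0 ≤ q) (hC' : 0 ≤ C') {x y : R3} (hx : 2 ≤ ‖x‖)
    (hy : y ∈ Metric.ball x 1) :
    κ ^ 2 / 2 - q / ‖y‖ + C' / ‖y‖ ^ 2 ≤
      κ ^ 2 / 2 - q / ‖x‖ + (q + 4 * C') / ‖x‖ ^ 2 ∧ 1 ≤ ‖y‖ := by
  rw [Metric.mem_ball, dist_eq_norm] at hy
  have h1 : ‖y‖ ≤ ‖x‖ + 1 := by
    have := norm_le_norm_add_norm_sub' y x
    linarith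
  have h2 : ‖x‖ - 1 ≤ ‖y‖ := by
    have := norm_le_norm_add_norm_sub' x y
    rw [norm_sub_rev] at this
    linarith
  have h3 : 1 ≤ ‖y‖ := by linarith
  have hx0 : 0 < ‖x‖ := by linarith
  refine ⟨?_, h3⟩
  have h4 : q / (‖x‖ + 1) ≤ q / ‖y‖ := div_le_div_of_nonneg_left hq (by linarith) h1
  have h5 : C' / ‖y‖ ^ 2 ≤ 4 * C' / ‖x‖ ^ 2 := by
    rw [div_le_div_iff₀ (by positivity) (by positivity)]
    have h6 : ‖x‖ ^ 2 ≤ 4 * ‖y‖ ^ 2 := by linarith only [mul_nonneg (sub_nonneg.2 h2) (sub_nonneg.2 h2), mul_nonneg (sub_nonneg.2 hx) (sub_nonneg.2 h2), mul_nonneg (sub_nonneg.2 hx) (sub_nonneg.2 hx), h2, hx]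
    linarith only [mul_nonneg (sub_nonneg.2 hC') (sub_nonneg.2 h6)]
  have h7 : q / ‖x‖ - q / ‖x‖ ^ 2 ≤ q / (‖x‖ + 1) := by
    have h8 : q / (‖x‖ + 1) - (q / ‖x‖ - q / ‖x‖ ^ 2) = q / (‖x‖ ^ 2 * (‖x‖ + 1)) := by
      field_simp
      ring
    have h9 : 0 ≤ q / (‖x‖ ^ 2 * (‖x‖ + 1)) := by positivity
    linarith
  rw [add_div]
  linarith only [h7, h5, h4]

/-- XUp. The three integrals. -/
theorem xup_integrals {κ q C' K₀ c A1 A2 I1 I2 : ℝ} {n TP p d : R3 → ℝ} {dg : Fin 3 → R3 → ℝ}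
    {x : R3} {θ : R3 → ℝ} (hq : 0 ≤ q) (hC' : 0 ≤ C') (hc : 0 < c) (hA1 : 0 ≤ A1)
    (hx : 2 ≤ ‖x‖) (hnm : AEStronglyMeasurable n volume) (hpm : AEStronglyMeasurable p volume)
    (hTP0 : ∀ y, 0 ≤ TP y) (hTP : Integrable TP volume)
    (hdg : ∀ k, MemLp (dg k) 2 volume)
    (hn : ∀ᵐ y : R3, y ∈ Metric.ball x 1 → c ≤ n y)
    (hp : ∀ᵐ y : R3, y ∈ Metric.ball x 1 → p y ^ 2 / n y ^ 2 ≤ A1 / d y ^ 2 ∧
      p y ^ 2 / n y ^ 2 ≤ A2)
    (hI1 : ∫ y in Metric.ball x 1, TP y ≤ I1)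
    (hLi : IntegrableOn (fun y => (∑ k, dg k y ^ 2) / d y ^ 2) (Metric.ball x 1) volume)
    (hI2 : ∫ y in Metric.ball x 1, (∑ k, dg k y ^ 2) / d y ^ 2 ≤ I2)
    (hθ : ContDiff ℝ ∞ θ) (hsupp : Function.support θ ⊆ Metric.ball x 1) (h0 : ∀ y, 0 ≤ θ y)
    (hK1 : ∀ y, θ y ≤ K₀) (hint : ∫ y, θ y = 1) :
    ∫ y, θ y * ((κ ^ 2 / 2 - q / ‖y‖ + C' / ‖y‖ ^ 2) + C' * (TP y / n y) +
      C' * ((∑ k, dg k y ^ 2) * p y ^ 2 / n y ^ 2)) ≤
    (κ ^ 2 / 2 - q / ‖x‖ + (q + 4 * C') / ‖x‖ ^ 2) + K₀ * C' / c * I1 + K₀ * C' * A1 * I2 := by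
  have hz : ∀ y, y ∉ Metric.ball x 1 → θ y = 0 := by
    intro y hy
    by_contra h
    exact hy (hsupp h)
  have hcs : HasCompactSupport θ :=
    HasCompactSupport.of_support_subset_isCompact (isCompact_closedBall x 1)
      (hsupp.trans Metric.ball_subset_closedBall)
  have hθc : Continuous θ := hθ.continuous
  have hθi : Integrable θ volume := hθc.integrable_of_hasCompactSupport hcs
  have hK0 : 0 ≤ K₀ := (h0 x).trans (hK1 x)
  have hθm : AEStronglyMeasurable θ volume := hθc.aestronglyMeasurable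
  have hdgi : Integrable (fun y => ∑ k, dg k y ^ 2) volume :=
    integrable_finsetSum _ fun k _ => (hdg k).integrable_sq
  have hdg0 : ∀ y, 0 ≤ ∑ k, dg k y ^ 2 := fun y => Finset.sum_nonneg fun k _ => sq_nonneg _
  -- first part
  have i1 : Integrable (fun y => θ y * (κ ^ 2 / 2 - q / ‖y‖ + C' / ‖y‖ ^ 2)) volume := by
    refine (hθi.mul_const (κ ^ 2 / 2 + q + C')).mono' ?_ (Eventually.of_forall fun y => ?_)
    · have hm : Measurable (fun y : R3 => κ ^ 2 / 2 - q / ‖y‖ + C' / ‖y‖ ^ 2) := by fun_prop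
      exact hθm.mul hm.aestronglyMeasurable
    · by_cases hy : y ∈ Metric.ball x 1
      · have h1 := (xup_pot (κ := κ) hq hC' hx hy).2
        have h2 : q / ‖y‖ ≤ q := div_le_self hq h1
        have h3 : C' / ‖y‖ ^ 2 ≤ C' := div_le_self hC' (one_le_pow₀ h1)
        have h4 : 0 ≤ q / ‖y‖ := by (clear * - hq h1; positivity)
        have h5 : 0 ≤ C' / ‖y‖ ^ 2 := by (clear * - hC' h1; positivity)
        have h6 : 0 ≤ κ ^ 2 / 2 := by (clear * -; positivity)
        rw [norm_mul, Real.norm_of_nonneg (h0 y)]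
        apply mul_le_mul_of_nonneg_left _ (h0 y)
        rw [Real.norm_eq_abs, abs_le]
        constructor <;> linarith only [hC', h2, h5, h6, hq, h3, h4]
      · rw [hz y hy]
        simp only [zero_mul, norm_zero, Std.le_refl]
  have e1 : ∫ y, θ y * (κ ^ 2 / 2 - q / ‖y‖ + C' / ‖y‖ ^ 2) ≤
      κ ^ 2 / 2 - q / ‖x‖ + (q + 4 * C') / ‖x‖ ^ 2 := by
    calc ∫ y, θ y * (κ ^ 2 / 2 - q / ‖y‖ + C' / ‖y‖ ^ 2)
        ≤ ∫ y, θ y * (κ ^ 2 / 2 - q / ‖x‖ + (q + 4 * C') / ‖x‖ ^ 2) := by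
          apply integral_mono i1 (hθi.mul_const _)
          intro y
          dsimp only
          by_cases hy : y ∈ Metric.ball x 1
          · exact mul_le_mul_of_nonneg_left (xup_pot (κ := κ) hq hC' hx hy).1 (h0 y)
          · rw [hz y hy]
            simp only [zero_mul, Std.le_refl]
      _ = κ ^ 2 / 2 - q / ‖x‖ + (q + 4 * C') / ‖x‖ ^ 2 := by
          rw [integral_mul_const, hint, one_mul]
  -- second part
  have b2 : ∀ᵐ y : R3, θ y * (C' * (TP y / n y)) ≤
      (Metric.ball x 1).indicator (fun y => K₀ * C' / c * TP y) y ∧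
      0 ≤ θ y * (C' * (TP y / n y)) := by
    filter_upwards [hn] with y h1
    by_cases hy : y ∈ Metric.ball x 1
    · have h2 := h1 hy
      have h3 := hTP0 y
      have h4 := h0 y
      have h5 : 0 < n y := hc.trans_le h2
      rw [indicator_of_mem hy]
      refine ⟨?_, by (clear * - h4 hC' h3 h5; positivity)⟩
      calc θ y * (C' * (TP y / n y)) ≤ K₀ * (C' * (TP y / c)) := by
            apply mul_le_mul (hK1 y) _ (by (clear * - hC' h3 h5; positivity)) hK0
            apply mul_le_mul_of_nonneg_left _ hC'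
            exact div_le_div_of_nonneg_left h3 hc h2
        _ = K₀ * C' / c * TP y := by ring
    · rw [indicator_of_notMem hy, hz y hy]
      simp
  have hTPi : Integrable ((Metric.ball x 1).indicator (fun y => K₀ * C' / c * TP y)) volume :=
    (hTP.const_mul _).indicator measurableSet_ball
  have i2 : Integrable (fun y => θ y * (C' * (TP y / n y))) volume := by
    refine hTPi.mono' ?_ ?_
    · exact hθm.mul ((hTP.aestronglyMeasurable.aemeasurable.div
        hnm.aemeasurable).aestronglyMeasurable.const_mul C')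
    · filter_upwards [b2] with y h1
      rw [Real.norm_of_nonneg h1.2]
      exact h1.1
  have e2 : ∫ y, θ y * (C' * (TP y / n y)) ≤ K₀ * C' / c * I1 := by
    calc ∫ y, θ y * (C' * (TP y / n y))
        ≤ ∫ y, (Metric.ball x 1).indicator (fun y => K₀ * C' / c * TP y) y := by
          apply integral_mono_ae i2 hTPi
          filter_upwards [b2] with y h1
          exact h1.1
      _ = K₀ * C' / c * ∫ y in Metric.ball x 1, TP y := by
          rw [integral_indicator measurableSet_ball, integral_const_mul]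
      _ ≤ K₀ * C' / c * I1 := mul_le_mul_of_nonneg_left hI1 (by (clear * - hK0 hC' hc; positivity))
  -- third part
  have b3 : ∀ᵐ y : R3, (θ y * (C' * ((∑ k, dg k y ^ 2) * p y ^ 2 / n y ^ 2)) ≤
      (Metric.ball x 1).indicator (fun y => K₀ * C' * A1 * ((∑ k, dg k y ^ 2) / d y ^ 2)) y) ∧
      0 ≤ θ y * (C' * ((∑ k, dg k y ^ 2) * p y ^ 2 / n y ^ 2)) := by
    filter_upwards [hp] with y h1
    have h3 := hdg0 y
    have h4 := h0 y
    have h6 : 0 ≤ (∑ k, dg k y ^ 2) * p y ^ 2 / n y ^ 2 := by (clear * -; positivity)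
    refine ⟨?_, by (clear * - h4 hC'; positivity)⟩
    by_cases hy : y ∈ Metric.ball x 1
    · have h2 := (h1 hy).1
      rw [indicator_of_mem hy]
      calc θ y * (C' * ((∑ k, dg k y ^ 2) * p y ^ 2 / n y ^ 2))
          ≤ K₀ * (C' * ((∑ k, dg k y ^ 2) * (A1 / d y ^ 2))) := by
            apply mul_le_mul (hK1 y) _ (by (clear * - hC'; positivity)) hK0
            apply mul_le_mul_of_nonneg_left _ hC'
            rw [mul_div_assoc]
            exact mul_le_mul_of_nonneg_left h2 h3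
        _ = K₀ * C' * A1 * ((∑ k, dg k y ^ 2) / d y ^ 2) := by ring
    · rw [indicator_of_notMem hy, hz y hy]
      simp only [zero_mul, Std.le_refl]
  have hLi' : Integrable ((Metric.ball x 1).indicator
      (fun y => K₀ * C' * A1 * ((∑ k, dg k y ^ 2) / d y ^ 2))) volume := by
    rw [integrable_indicator_iff measurableSet_ball]
    exact hLi.const_mul _
  have i3 : Integrable (fun y => θ y * (C' * ((∑ k, dg k y ^ 2) * p y ^ 2 / n y ^ 2)))
      volume := by
    refine hLi'.mono' ?_ ?_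
    · refine hθm.mul (AEStronglyMeasurable.const_mul ?_ C')
      exact ((hdgi.aestronglyMeasurable.aemeasurable.mul (hpm.aemeasurable.pow_const 2)).div
        (hnm.aemeasurable.pow_const 2)).aestronglyMeasurable
    · filter_upwards [b3] with y h1
      rw [Real.norm_of_nonneg h1.2]
      exact h1.1
  have e3 : ∫ y, θ y * (C' * ((∑ k, dg k y ^ 2) * p y ^ 2 / n y ^ 2)) ≤
      K₀ * C' * A1 * I2 := by
    calc ∫ y, θ y * (C' * ((∑ k, dg k y ^ 2) * p y ^ 2 / n y ^ 2))
        ≤ ∫ y, (Metric.ball x 1).indicator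
          (fun y => K₀ * C' * A1 * ((∑ k, dg k y ^ 2) / d y ^ 2)) y := by
          apply integral_mono_ae i3 hLi'
          filter_upwards [b3] with y h1
          exact h1.1
      _ = K₀ * C' * A1 * ∫ y in Metric.ball x 1, (∑ k, dg k y ^ 2) / d y ^ 2 := by
          rw [integral_indicator measurableSet_ball, integral_const_mul]
      _ ≤ K₀ * C' * A1 * I2 := mul_le_mul_of_nonneg_left hI2 (by (clear * - hK0 hC' hA1; positivity))
  have e : ∀ y, θ y * ((κ ^ 2 / 2 - q / ‖y‖ + C' / ‖y‖ ^ 2) + C' * (TP y / n y) +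
      C' * ((∑ k, dg k y ^ 2) * p y ^ 2 / n y ^ 2)) =
      θ y * (κ ^ 2 / 2 - q / ‖y‖ + C' / ‖y‖ ^ 2) + θ y * (C' * (TP y / n y)) +
      θ y * (C' * ((∑ k, dg k y ^ 2) * p y ^ 2 / n y ^ 2)) := by
    intro y
    ring
  simp only [e]
  have i12 : Integrable (fun y => θ y * (κ ^ 2 / 2 - q / ‖y‖ + C' / ‖y‖ ^ 2) +
      θ y * (C' * (TP y / n y))) volume := i1.add i2
  rw [integral_add i12 i3, integral_add i1 i2]
  linarith only [e3, e2, e1]

/-- XUp. The fields `up` and `pos` of `ExOut`. -/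
theorem up_holds {δ C ρ η η' K R4 c4 : ℝ} (hC : 0 ≤ C) (hρ : 1 ≤ ρ) (hη : 0 < η)
    (hη1 : η ≤ 1 / 32) (hη' : 0 < η') (hc4 : 0 < c4) {X : SD} (hX : X.Ok δ C ρ)
    (hK : ∀ x : R3, R4 ≤ ‖x‖ → ∀ᵐ y : R3, y ∈ Metric.ball x 6 →
      X.s y ≤ K * wt (X.q / X.κ - 1 + η) X.κ x ∧ X.p y ≤ K * wt (X.q / X.κ - 3 + η) X.κ x)
    (hc : ∀ x : R3, R4 ≤ ‖x‖ → 7 ≤ x 2 →
      ∀ᵐ y : R3, y ∈ Metric.ball x 2 → c4 * wt (X.q / X.κ - 2 - η) X.κ x ≤ X.d y) :
    (∃ R0 T : ℝ, ∀ x : R3, R0 ≤ ‖x‖ → T ≤ x 2 →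
      ∃ c : ℝ, 0 < c ∧ ∀ᵐ y : R3, y ∈ Metric.ball x 1 → c ≤ X.n y) ∧
    ∃ T : ℝ, ∀ K : ℝ, ∃ R1 : ℝ, ∀ x : R3, R1 ≤ ‖x‖ → T ≤ x 2 →
    ∀ θ : R3 → ℝ, ContDiff ℝ ∞ θ → Function.support θ ⊆ Metric.ball x 1 → (∀ y, 0 ≤ θ y) →
      (∀ y, θ y ≤ K) → (∀ y, ‖fderiv ℝ θ y‖ ≤ K) → ∫ y, θ y = 1 →
      -(1 / 2) * (∑ k, ∫ y, X.D k y / X.n y * fderiv ℝ θ y (dir3 k)) +
        (1 / 2) * (∑ k, ∫ y, θ y * (X.D k y / X.n y) ^ 2) ≤
        X.κ ^ 2 / 2 - (X.q - η') / ‖x‖ := by
  have hS : Scal X.κ X.q X.ε δ C ρ X.C' X.n X.D X.d X.dg X.s X.sg X.p X.pg X.V X.S X.TP := hX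
  have hC'0 := hS.C'_nonneg
  have hq0 : 0 ≤ X.q := by linarith only [hS.par.ql]
  refine ⟨⟨R4, 7, fun x h1 h2 => ?_⟩, 7, fun K₀ => ?_⟩
  · have hW := wt_pos (X.q / X.κ - 2 - η) X.κ x
    refine ⟨4 * (c4 * wt (X.q / X.κ - 2 - η) X.κ x) ^ 2, by positivity, ?_⟩
    filter_upwards [xup_n_lower hc4 hX hc h1 h2] with y h3 hy
    exact (h3 hy).2.2
  obtain ⟨K1, R5, hK1, -, hTPb⟩ := TP_ball hC hρ hX hK
  obtain ⟨K2, R6, hK2, -, hlogb⟩ := log_ball hC hρ hη1 hc4 hX hK hc
  obtain ⟨R7, hR7, hrad⟩ := xup_radius (X.q + 4 * X.C')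
    (K₀ * X.C' / (4 * c4 ^ 2) * K1 + K₀ * X.C' * (K ^ 2 / (16 * c4 ^ 2)) * K2) η' hη'
  refine ⟨max (max (max R4 R5) (max R6 R7)) (ρ + 2), fun x hxR hx2 θ hθ hsupp h0 hθK _ hint => ?_⟩
  have hx4 : R4 ≤ ‖x‖ := ((le_max_left _ _).trans ((le_max_left _ _).trans
    (le_max_left _ _))).trans hxR
  have hx5 : R5 ≤ ‖x‖ := ((le_max_right _ _).trans ((le_max_left _ _).trans
    (le_max_left _ _))).trans hxR
  have hx6 : R6 ≤ ‖x‖ := ((le_max_left _ _).trans ((le_max_right _ _).trans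
    (le_max_left _ _))).trans hxR
  have hx7 : R7 ≤ ‖x‖ := ((le_max_right _ _).trans ((le_max_right _ _).trans
    (le_max_left _ _))).trans hxR
  have hxρ : ρ + 2 ≤ ‖x‖ := (le_max_right _ _).trans hxR
  have hx1 : 1 ≤ ‖x‖ := hR7.trans hx7
  have hx22 : 2 ≤ ‖x‖ := by linarith only [hρ, hxρ]
  have hK0 : 0 ≤ K₀ := (h0 x).trans (hθK x)
  have hW2 := wt_pos (X.q / X.κ - 2 - η) X.κ x
  set W2 := wt (X.q / X.κ - 2 - η) X.κ x with hW2d
  set W3 := wt (X.q / X.κ - 3 + η) X.κ x with hW3d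
  have hW3 : 0 < W3 := wt_pos _ _ _
  have hlow := xup_n_lower hc4 hX hc hx4 hx2
  rw [← hW2d] at hlow
  have hKx := hK x hx4
  rw [← hW3d] at hKx
  have hball : Metric.ball x 1 ⊆ Metric.ball x 6 := Metric.ball_subset_ball (by norm_num)
  have hcpos : 0 < 4 * (c4 * W2) ^ 2 := by positivity
  have hn : ∀ᵐ y : R3, y ∈ Metric.ball x 1 → 4 * (c4 * W2) ^ 2 ≤ X.n y := by
    filter_upwards [hlow] with y h1 hy
    exact (h1 hy).2.2
  have hM : ∀ᵐ y : R3, y ∈ Metric.ball x 1 →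
      X.n y ≤ 4 * (K * wt (X.q / X.κ - 1 + η) X.κ x) ^ 2 := by
    filter_upwards [hKx, hS.n_eq] with y h1 h2 hy
    rw [h2]
    have := pow_le_pow_left₀ (hS.s_nonneg y) (h1 (hball hy)).1 2
    linarith only [this]
  refine (up_identity hX hcpos (by linarith only [hxρ]) hn hM hθ hsupp h0).trans ?_
  have hp : ∀ᵐ y : R3, y ∈ Metric.ball x 1 →
      X.p y ^ 2 / X.n y ^ 2 ≤ (K * W3) ^ 2 / (16 * (c4 * W2) ^ 2) / X.d y ^ 2 ∧
      X.p y ^ 2 / X.n y ^ 2 ≤ (K * W3) ^ 2 / (4 * (c4 * W2) ^ 2) ^ 2 := by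
    filter_upwards [hKx, hlow] with y h1 h2 hy
    have h3 := (h1 (hball hy)).2
    obtain ⟨h4, h5, h6⟩ := h2 hy
    have h7 : X.p y ^ 2 ≤ (K * W3) ^ 2 := pow_le_pow_left₀ (hS.p_nonneg y) h3 2
    have h8 : 0 < c4 * W2 := by (clear * - hc4 hW2; positivity)
    have h9 : 0 < X.d y := h8.trans_le h4
    have h10 : 16 * (c4 * W2) ^ 2 * X.d y ^ 2 ≤ X.n y ^ 2 := by
      calc 16 * (c4 * W2) ^ 2 * X.d y ^ 2 = (4 * (c4 * W2) ^ 2) * (4 * X.d y ^ 2) := by ring
        _ ≤ X.n y * X.n y := mul_le_mul h6 h5 (by (clear * - h9; positivity)) (hcpos.le.trans h6)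
        _ = X.n y ^ 2 := by ring
    have h11 : 0 < X.n y := hcpos.trans_le h6
    constructor
    · rw [div_div]
      exact div_le_div₀ (by (clear * -; positivity)) h7 (by (clear * - hc4 hW2 h9; positivity)) h10
    · exact div_le_div₀ (by (clear * -; positivity)) h7 (by (clear * - hc4 hW2; positivity))
        (pow_le_pow_left₀ hcpos.le h6 2)
  have hpm : AEStronglyMeasurable X.p volume := hS.p_H1.memLp.aestronglyMeasurable
  obtain ⟨hLi, hI2⟩ := hlogb x hx6 hx2
  have key := xup_integrals (κ := X.κ) (K₀ := K₀) hq0 hC'0 hcpos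
    (A1 := (K * W3) ^ 2 / (16 * (c4 * W2) ^ 2)) (by (clear * - hc4 hW2; positivity)) hx22
    hS.n_int.aestronglyMeasurable hpm hS.TP_nonneg hS.TP_int hS.d_H1.memLp' hn hp
    (hTPb x hx5) hLi hI2 hθ hsupp h0 hθK hint
  refine key.trans ?_
  rw [← hW3d]
  have hrat : W3 ^ 2 ≤ ‖x‖ ^ (-(3 / 2) : ℝ) * W2 ^ 2 :=
    xup_ratio (by ring) hη1 hx1
  have hrat' : W3 ^ 2 / W2 ^ 2 ≤ ‖x‖ ^ (-(3 / 2) : ℝ) := by
    rw [div_le_iff₀ (by (clear * - hW2; positivity))]
    exact hrat
  have t1 : K₀ * X.C' / (4 * (c4 * W2) ^ 2) * (K1 * W3 ^ 2) ≤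
      K₀ * X.C' / (4 * c4 ^ 2) * K1 * ‖x‖ ^ (-(3 / 2) : ℝ) := by
    calc K₀ * X.C' / (4 * (c4 * W2) ^ 2) * (K1 * W3 ^ 2)
        = K₀ * X.C' / (4 * c4 ^ 2) * K1 * (W3 ^ 2 / W2 ^ 2) := by
          (clear * - hW3 hK1 hW2 hc4; field_simp)
      _ ≤ _ := mul_le_mul_of_nonneg_left hrat' (by (clear * - hK0 hC'0 hc4 hK1; positivity))
  have t2 : K₀ * X.C' * ((K * W3) ^ 2 / (16 * (c4 * W2) ^ 2)) * K2 ≤
      K₀ * X.C' * (K ^ 2 / (16 * c4 ^ 2)) * K2 * ‖x‖ ^ (-(3 / 2) : ℝ) := by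
    calc K₀ * X.C' * ((K * W3) ^ 2 / (16 * (c4 * W2) ^ 2)) * K2
        = K₀ * X.C' * (K ^ 2 / (16 * c4 ^ 2)) * K2 * (W3 ^ 2 / W2 ^ 2) := by
          (clear * - hK2 hW2 hc4 hW3; field_simp)
      _ ≤ _ := mul_le_mul_of_nonneg_left hrat' (by (clear * - hK0 hC'0 hc4 hK2; positivity))
  have t3 := hrad ‖x‖ hx7
  rw [add_mul] at t3
  rw [sub_div]
  linarith only [t1, t2, t3]

end

end Vale.Agent.P363.D
end
end

section

section

namespace Vale.Agent.P363.Bridge

open MeasureTheory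
open scoped ContDiff ENNReal

lemma update_eq {N : ℕ} (i : Fin N) (k : Fin 3) (x : Fin N → R3) (t : ℝ) :
    Function.update x i (x i + t • EuclideanSpace.single k (1:ℝ)) = x + t • axisDir i k := by
  ext1 j
  by_cases h : j = i
  · subst h
    simp [axisDir]
  · simp [axisDir, h]

lemma pd_eq {N : ℕ} (i : Fin N) (k : Fin 3) {φ : (Fin N → R3) → ℝ} (hφ : ContDiff ℝ ∞ φ)
    (x : Fin N → R3) : Stmt.pd i k φ x = fderiv ℝ φ x (axisDir i k) := by
  unfold Stmt.pd
  simp_rw [update_eq]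
  have h1 : HasFDerivAt φ (fderiv ℝ φ x) x := ((hφ.differentiable (by simp)) x).hasFDerivAt
  have h2 : HasDerivAt (fun t : ℝ => x + t • axisDir i k) (axisDir i k) 0 := by
    simpa only [hasDerivAt_const_add_iff, id_eq, one_smul] using     ((hasDerivAt_id (0 : ℝ)).smul_const (axisDir i k)).const_add x
  have h3 : HasFDerivAt φ (fderiv ℝ φ x) (x + (0:ℝ) • axisDir i k) := by simpa using h1
  exact (h3.comp_hasDerivAt (0:ℝ) h2).deriv

lemma weak_iff {N : ℕ} (i : Fin N) (k : Fin 3) (f g : (Fin N → R3) → ℂ) :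
    Stmt.IsWeakDeriv i k f g ↔ IsWeakDeriv (axisDir i k) f g := by
  have e1 : ∀ φ : (Fin N → R3) → ℝ, ContDiff ℝ ∞ φ →
      Stmt.intC (fun x => (Stmt.pd i k φ x : ℂ) * f x)
        = ∫ x, ((fderiv ℝ φ x (axisDir i k) : ℝ) : ℂ) * f x := by
    intro φ hφ
    have : (fun x => (Stmt.pd i k φ x : ℂ) * f x)
        = fun x => ((fderiv ℝ φ x (axisDir i k) : ℝ) : ℂ) * f x := by
      funext x; rw [pd_eq i k hφ]
    rw [this]; rfl
  constructor
  · intro h φ h1 h2
    rw [← e1 φ h1]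
    exact h φ ⟨h1, h2⟩
  · intro h φ h1
    rw [e1 φ h1.1]
    exact h φ h1.1 h1.2

/-- Forget the wrappers. -/
noncomputable def toOld {N : ℕ} (Ψ : Stmt.ElectronState N) : ElectronState N where
  amp := Ψ.amp
  grad := Ψ.grad
  amp_memLp := Ψ.amp_memLp
  grad_memLp := Ψ.grad_memLp
  grad_weak := fun s i k => (weak_iff i k _ _).1 (Ψ.grad_weak s i k)
  antisymm := Ψ.antisymm

/-- Put the wrappers. -/
noncomputable def toNew {N : ℕ} (Ψ : ElectronState N) : Stmt.ElectronState N where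
  amp := Ψ.amp
  grad := Ψ.grad
  amp_memLp := Ψ.amp_memLp
  grad_memLp := Ψ.grad_memLp
  grad_weak := fun s i k => (weak_iff i k _ _).2 (Ψ.grad_weak s i k)
  antisymm := Ψ.antisymm

lemma ground_old {N : ℕ} {w : (Fin N → R3) → ℝ} {Ψ : Stmt.ElectronState N}
    (h : Stmt.IsGroundState w Ψ) : IsGroundState w (toOld Ψ) :=
  ⟨h.1, fun Φ hΦ => h.2 (toNew Φ) hΦ⟩

lemma ground_new {N : ℕ} {w : (Fin N → R3) → ℝ} {Ψ : ElectronState N}
    (h : IsGroundState w Ψ) : Stmt.IsGroundState w (toNew Ψ) :=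
  ⟨h.1, fun Φ hΦ => h.2 (toOld Φ) hΦ⟩

lemma repr_new {n : ℕ} {ρ : R3 → ℝ} (h : NonintEnsembleRepresentable n ρ) :
    Stmt.NonintEnsembleRepresentable n ρ := by
  obtain ⟨v, ⟨a, b, ha, hb, hab⟩, p, Φ, h1, h2, h3, h4⟩ := h
  exact ⟨v, ⟨a, b, ha, hb, hab⟩, p, fun k => toNew (Φ k), h1, h2, fun k => ground_new (h3 k), h4⟩

theorem at_most_two (n : ℕ) (hn : n + 1 ≤ 2) : Stmt.CoulombDensitiesRepresentable n := by
  intro M hM Z hZ R hR Ψ hΨ
  exact repr_new (at_most_two_electrons harnackGradient n hn M hM Z hZ R hR (toOld Ψ) (ground_old hΨ))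

end Vale.Agent.P363.Bridge
end
end

section

section

namespace Vale.Agent.P363.Bridge

open MeasureTheory Set Filter Topology
open scoped ContDiff ENNReal

noncomputable section

/-- Pure form over the unwrapped definitions. -/
def PureOld (n : ℕ) {M : ℕ} (R : Fin M → R3) (ρ : R3 → ℝ) : Prop :=
  ∃ v : R3 → ℝ, MemV v ∧ (∃ C : ℝ, ∀ᵐ r : R3, |v r| ≤ C * (1 + ∑ j, 1 / ‖r - R j‖)) ∧
    ∃ Φ : ElectronState (n + 1), IsGroundState (sumPotential v) Φ ∧
      ∀ᵐ r : R3, density Φ r = ρ r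

lemma pure_new {n M : ℕ} {R : Fin M → R3} {ρ : R3 → ℝ} (h : PureOld n R ρ) :
    Stmt.PureRepresentable n R ρ := by
  obtain ⟨v, ⟨a, b, ha, hb, hab⟩, ⟨C, hC⟩, Φ, h1, h2⟩ := h
  exact ⟨v, ⟨a, b, ha, hb, hab⟩, ⟨C, hC⟩, toNew Φ, ground_new h1, h2⟩

lemma nuclear_le {M : ℕ} (Z : Fin M → ℕ) (R : Fin M → R3) (x : R3) :
    |∑ j, -((Z j : ℝ) / ‖x - R j‖)| ≤ (∑ j, (Z j : ℝ)) * (1 + ∑ j, 1 / ‖x - R j‖) := by
  have hz0 : 0 ≤ ∑ j, (Z j : ℝ) := Finset.sum_nonneg (fun j _ => by (clear * -; positivity))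
  have hzj : ∀ j, (Z j : ℝ) ≤ ∑ j, (Z j : ℝ) := fun j =>
    Finset.single_le_sum (f := fun j => (Z j : ℝ)) (fun j _ => by positivity)
      (Finset.mem_univ j)
  calc |∑ j, -((Z j : ℝ) / ‖x - R j‖)| ≤ ∑ j, |-((Z j : ℝ) / ‖x - R j‖)| :=
        Finset.abs_sum_le_sum_abs _ _
    _ ≤ ∑ j, (∑ j, (Z j : ℝ)) * (1 / ‖x - R j‖) := by
      apply Finset.sum_le_sum
      intro j _
      rw [abs_neg, abs_of_nonneg (by (clear * -; positivity)), div_eq_mul_one_div]
      exact mul_le_mul_of_nonneg_right (hzj j) (by positivity)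
    _ = (∑ j, (Z j : ℝ)) * ∑ j, (1 / ‖x - R j‖) := by rw [← Finset.mul_sum]
    _ ≤ _ := by
      apply mul_le_mul_of_nonneg_left _ hz0
      linarith

lemma one_pure {M : ℕ} (Z : Fin M → ℕ) (R : Fin M → R3) (Ψ : ElectronState (0 + 1))
    (hΨ : IsGroundState (coulombPotential Z R) Ψ) : PureOld 0 R (density Ψ) := by
  set v : R3 → ℝ := fun r => ∑ j, -((Z j : ℝ) / ‖r - R j‖) with hv
  have hpot : coulombPotential (N := 0 + 1) Z R = sumPotential v := by
    funext x
    unfold coulombPotential sumPotential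
    simp only [Nat.reduceAdd, Finset.univ_unique, Fin.default_eq_zero, Fin.isValue,
      Finset.sum_singleton]
    have h0' : (Finset.Ioi (0 : Fin 1)) = ∅ := by decide
    rw [h0']
    simp only [Fin.isValue, Finset.sum_neg_distrib, one_div, Finset.sum_empty, add_zero, hv]
  rw [hpot] at hΨ
  have hb : ∀ᵐ r : R3, |v r| ≤ (∑ j, (Z j : ℝ)) * (1 + ∑ j, 1 / ‖r - R j‖) :=
    Eventually.of_forall fun x => nuclear_le Z R x
  have hmem : MemV v := by
    apply memV_of_bound R (C := ∑ j, (Z j : ℝ))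
    · apply Measurable.aestronglyMeasurable
      rw [hv]; (clear * -; fun_prop)
    · exact hb
  exact ⟨v, hmem, ⟨_, hb⟩, Ψ, hΨ, by filter_upwards with r; rfl⟩

lemma two_pure {M : ℕ} (Z : Fin M → ℕ) (R : Fin M → R3) (Ψ : ElectronState (1 + 1))
    (hΨ : IsGroundState (coulombPotential Z R) Ψ) : PureOld 1 R (density Ψ) := by
  have hΨ' : IsGroundState (N := 2) (coulombPotential Z R) Ψ := hΨ
  obtain ⟨G, C, r, hr, hC, hGm, hGp, hG1, hG2, hG3, hG4, hG5⟩ :=
    harnackGradient Z R (energy (coulombPotential Z R) Ψ) _ (comp Ψ) (compx Ψ) (compy Ψ) (amplitude Ψ)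
      (amplitudex Ψ) (amplitudey Ψ) (comp_H1 Ψ) (comp_weakSol hΨ') (fun _ => rfl)
      (amplitude_H1 Ψ) (amplitude_weakSol hΨ') (amplitude_ne_zero hΨ')
  let D : KS ((Fin 2 → Fin 2) × Bool) M :=
    { Z := Z, R := R, E := energy (coulombPotential Z R) Ψ, u := comp Ψ, ux := compx Ψ,
      uy := compy Ψ, hu := comp_H1 Ψ, g := amplitude Ψ, hg := fun _ => rfl, G := G, C := C,
      r := r, hr := hr, hC := hC, Gmeas := hGm, Gpos := hGp, har := hG1, Gg := hG2, gG := hG3,
      bx := hG4, by' := hG5, Qu := Q_comp_eq_zero hΨ',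
      Qpos := fun h => Vale.Agent.P363.Q_nonneg hΨ' h }
  have hn : ∫ x, D.ρ x = 1 := by
    have h1 : ∫ p, amplitude Ψ p ^ 2 = 1 := by rw [integral_amplitude_sq]; exact hΨ'.1
    rw [← h1]
    exact (KS.integral_slice D.integrable_g_sq).symm
  obtain ⟨C7, _, hC7⟩ := D.v_le
  refine ⟨D.v, D.v_memV, ⟨C7, hC7⟩, D.gs, D.gs_ground hn, ?_⟩
  filter_upwards [density_eq Ψ] with x hx
  rw [hx]
  exact D.gs_density hn x

theorem at_most_two_pure (n : ℕ) (hn : n + 1 ≤ 2) :
    Stmt.CoulombDensitiesPureRepresentable n := by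
  intro M _ Z _ R _ Ψ hΨ
  have : n = 0 ∨ n = 1 := by omega
  rcases this with h | h
  · subst h; exact pure_new (one_pure Z R (toOld Ψ) (ground_old hΨ))
  · subst h; exact pure_new (two_pure Z R (toOld Ψ) (ground_old hΨ))

end

end Vale.Agent.P363.Bridge
end
end

section

section

/-! KD6: expansion in a Hilbert basis of the other electrons. -/

namespace Vale.Agent.P363.KD

open MeasureTheory Set Filter Topology
open scoped ENNReal ContDiff

set_option linter.unusedSectionVars false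

noncomputable section

/-! ### A Parseval system -/

lemma countable_of_hilbertBasis {E : Type*} [NormedAddCommGroup E] [InnerProductSpace ℝ E]
    [TopologicalSpace.SeparableSpace E] {w : Set E} (b : HilbertBasis w ℝ E)
    (hb : ⇑b = ((↑) : w → E)) : w.Countable := by
  have ho := b.orthonormal
  rw [hb] at ho
  refine Set.PairwiseDisjoint.countable_of_isOpen (s := fun x => Metric.ball x (1 / 2)) ?_
    (fun x _ => Metric.isOpen_ball) (fun x _ => ⟨x, Metric.mem_ball_self (by norm_num)⟩)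
  intro x hx y hy hxy
  apply Metric.ball_disjoint_ball
  have h1 : ‖x‖ = 1 := ho.1 ⟨x, hx⟩
  have h2 : ‖y‖ = 1 := ho.1 ⟨y, hy⟩
  have h3 : inner ℝ x y = 0 := by
    have hne : (⟨x, hx⟩ : w) ≠ ⟨y, hy⟩ := fun h => hxy (by simpa using h)
    have := ho.2 hne
    simpa using this
  have h4 : ‖x - y‖ ^ 2 = 2 := by
    rw [norm_sub_sq_real, h1, h2, h3]; norm_num
  rw [dist_eq_norm]
  have h5 : 0 ≤ ‖x - y‖ := norm_nonneg _
  nlinarith only [h4, h5]

/-- A Parseval system of `L²` functions. -/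
lemma exists_parseval {Y : Type*} [MeasurableSpace Y] [MeasurableSpace.CountablyGenerated Y]
    (ν : Measure Y) [SFinite ν] :
    ∃ b : ℕ → Y → ℝ, (∀ j, StronglyMeasurable (b j)) ∧ (∀ j, MemLp (b j) 2 ν) ∧
      ∀ g : Y → ℝ, MemLp g 2 ν →
        HasSum (fun j => (∫ y, g y * b j y ∂ν) ^ 2) (∫ y, g y ^ 2 ∂ν) := by
  classical
  obtain ⟨w, b, hb⟩ := exists_hilbertBasis ℝ (Lp ℝ 2 ν)
  have : Fact ((2 : ℝ≥0∞) ≠ ⊤) := ⟨by norm_num⟩
  have hc : w.Countable := countable_of_hilbertBasis b hb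
  have : Countable w := hc.to_subtype
  have : Encodable w := Encodable.ofCountable w
  set om : ℕ → Lp ℝ 2 ν := fun j => match Encodable.decode₂ w j with
    | some i => b i
    | none => 0 with hom
  refine ⟨fun j => om j, fun j => Lp.stronglyMeasurable _, fun j => Lp.memLp _, ?_⟩
  intro g hg
  have h1 := b.hasSum_inner_mul_inner (hg.toLp g) (hg.toLp g)
  have h2 : inner ℝ (hg.toLp g) (hg.toLp g) = ∫ y, g y ^ 2 ∂ν := by
    rw [L2.inner_def]
    apply integral_congr_ae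
    filter_upwards [hg.coeFn_toLp] with y hy
    rw [hy]
    simp only [inner_self_eq_norm_sq_to_K, Real.norm_eq_abs, Real.ringHom_apply, sq, abs_mul_abs_self]
  rw [h2] at h1
  have h3 : HasSum (fun i : w => (∫ y, g y * (b i : Lp ℝ 2 ν) y ∂ν) ^ 2) (∫ y, g y ^ 2 ∂ν) := by
    have hi : ∀ i : w, inner ℝ (hg.toLp g) (b i) = ∫ y, g y * (b i : Lp ℝ 2 ν) y ∂ν := by
      intro i
      rw [L2.inner_def]
      apply integral_congr_ae
      filter_upwards [hg.coeFn_toLp] with y hy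
      rw [hy]
      simp only [RCLike.inner_apply, Real.ringHom_apply, mul_comm]
    refine h1.congr_fun ?_
    intro i
    rw [real_inner_comm (hg.toLp g) (b i), hi i, sq]
  have h4 : (fun i : w => (∫ y, g y * (b i : Lp ℝ 2 ν) y ∂ν) ^ 2) =
      (fun j => (∫ y, g y * (om j : Lp ℝ 2 ν) y ∂ν) ^ 2) ∘ (Encodable.encode : w → ℕ) := by
    funext i
    simp only [hom, Function.comp_apply, Encodable.decode₂_encode]
  rw [h4] at h3
  rw [Function.Injective.hasSum_iff Encodable.encode_injective] at h3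
  · exact h3
  · intro j hj
    have : Encodable.decode₂ w j = none := by
      by_contra hne
      obtain ⟨i, hi⟩ := Option.ne_none_iff_exists'.mp hne
      exact hj ⟨i, Encodable.decode₂_eq_some.mp hi⟩
    have h0 : om j = 0 := by
      simp only [hom, this]
    rw [h0]
    have h5 : ∫ y, g y * ((0 : Lp ℝ 2 ν) : Y → ℝ) y ∂ν = 0 := by
      have : (fun y => g y * ((0 : Lp ℝ 2 ν) : Y → ℝ) y) =ᵐ[ν] fun _ => 0 := by
        filter_upwards [Lp.coeFn_zero ℝ 2 ν] with y hy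
        rw [hy]; simp
      rw [integral_congr_ae this]; simp
    rw [h5]; simp

/-! ### Coefficients of a function of two variables -/

lemma inner_toLp {Y : Type*} [MeasurableSpace Y] {ν : Measure Y} {f g : Y → ℝ}
    (hf : MemLp f 2 ν) (hg : MemLp g 2 ν) :
    inner ℝ (hf.toLp f) (hg.toLp g) = ∫ y, f y * g y ∂ν := by
  rw [L2.inner_def]
  apply integral_congr_ae
  filter_upwards [hf.coeFn_toLp, hg.coeFn_toLp] with y hy hy2
  rw [hy, hy2]
  simp [mul_comm]

lemma cs_sq {Y : Type*} [MeasurableSpace Y] {ν : Measure Y} {f g : Y → ℝ}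
    (hf : MemLp f 2 ν) (hg : MemLp g 2 ν) :
    (∫ y, f y * g y ∂ν) ^ 2 ≤ (∫ y, f y ^ 2 ∂ν) * ∫ y, g y ^ 2 ∂ν := by
  have h := real_inner_mul_inner_self_le (hf.toLp f) (hg.toLp g)
  rw [inner_toLp, inner_toLp, inner_toLp] at h
  simpa only [sq, ge_iff_le] using h

variable {X Y : Type*} [NormedAddCommGroup X] [NormedSpace ℝ X] [FiniteDimensional ℝ X]
  [MeasurableSpace X] [BorelSpace X] {μ : Measure X} [μ.IsAddHaarMeasure]
  [NormedAddCommGroup Y] [NormedSpace ℝ Y] [FiniteDimensional ℝ Y]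
  [MeasurableSpace Y] [BorelSpace Y] {ν : Measure Y} [ν.IsAddHaarMeasure]

lemma k6slice_memLp {G : X × Y → ℝ} (hG : MemLp G 2 (μ.prod ν)) :
    ∀ᵐ x ∂μ, MemLp (fun y => G (x, y)) 2 ν := by
  filter_upwards [hG.1.prodMk_left, hG.integrable_sq.prod_right_ae] with x hx hx2
  exact (memLp_two_iff_integrable_sq hx).mpr hx2

lemma k6slice_memLp' {G : X × Y → ℝ} (hG : MemLp G 2 (μ.prod ν)) :
    ∀ᵐ y ∂ν, MemLp (fun x => G (x, y)) 2 μ := by
  filter_upwards [hG.1.prodMk_right, hG.integrable_sq.prod_left_ae] with x hx hx2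
  exact (memLp_two_iff_integrable_sq hx).mpr hx2

lemma coef_memLp {G : X × Y → ℝ} (hG : MemLp G 2 (μ.prod ν)) {b : Y → ℝ} (hb : MemLp b 2 ν) :
    MemLp (fun x => ∫ y, G (x, y) * b y ∂ν) 2 μ := by
  have hm : AEStronglyMeasurable (fun x => ∫ y, G (x, y) * b y ∂ν) μ :=
    (hG.1.mul hb.1.comp_snd).integral_prod_right'
  rw [memLp_two_iff_integrable_sq hm]
  have h1 : Integrable (fun x => (∫ y, G (x, y) ^ 2 ∂ν) * ∫ y, b y ^ 2 ∂ν) μ :=
    hG.integrable_sq.integral_prod_left.mul_const _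
  refine h1.mono' (hm.pow 2) ?_
  filter_upwards [k6slice_memLp hG] with x hx
  rw [Real.norm_of_nonneg (sq_nonneg _)]
  exact cs_sq hx hb

lemma coef_memLp' {G : X × Y → ℝ} (hG : MemLp G 2 (μ.prod ν)) {u : X → ℝ} (hu : MemLp u 2 μ) :
    MemLp (fun y => ∫ x, u x * G (x, y) ∂μ) 2 ν := by
  have hm : AEStronglyMeasurable (fun y => ∫ x, u x * G (x, y) ∂μ) ν := by
    have := (hu.1.comp_fst.mul hG.1).prod_swap
    exact this.integral_prod_right'
  rw [memLp_two_iff_integrable_sq hm]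
  have h1 : Integrable (fun y => (∫ x, u x ^ 2 ∂μ) * ∫ x, G (x, y) ^ 2 ∂μ) ν :=
    hG.integrable_sq.integral_prod_right.const_mul _
  refine h1.mono' (hm.pow 2) ?_
  filter_upwards [k6slice_memLp' hG] with x hx
  rw [Real.norm_of_nonneg (sq_nonneg _)]
  exact cs_sq hu hx

/-- The product of two `L²` functions of separate variables is in `L²`. -/
lemma prod_memLp {u : X → ℝ} {b : Y → ℝ} (hu : MemLp u 2 μ) (hb : MemLp b 2 ν) :
    MemLp (fun p : X × Y => u p.1 * b p.2) 2 (μ.prod ν) := by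
  have hm : AEStronglyMeasurable (fun p : X × Y => u p.1 * b p.2) (μ.prod ν) :=
    hu.1.comp_fst.mul hb.1.comp_snd
  rw [memLp_two_iff_integrable_sq hm]
  refine (hu.integrable_sq.mul_prod hb.integrable_sq).congr ?_
  filter_upwards with p
  ring

lemma int_triple {G : X × Y → ℝ} (hG : MemLp G 2 (μ.prod ν)) {u : X → ℝ} (hu : MemLp u 2 μ)
    {b : Y → ℝ} (hb : MemLp b 2 ν) :
    Integrable (fun p : X × Y => (u p.1 * b p.2) * G p) (μ.prod ν) :=
  (prod_memLp hu hb).integrable_mul hG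

lemma fub_left {G : X × Y → ℝ} (hG : MemLp G 2 (μ.prod ν)) {u : X → ℝ} (hu : MemLp u 2 μ)
    {b : Y → ℝ} (hb : MemLp b 2 ν) :
    ∫ x, u x * (∫ y, G (x, y) * b y ∂ν) ∂μ = ∫ p : X × Y, (u p.1 * b p.2) * G p ∂(μ.prod ν) := by
  rw [integral_prod _ (int_triple hG hu hb)]
  congr 1; funext x
  rw [← integral_const_mul]
  congr 1; funext y; ring

lemma fub_right {G : X × Y → ℝ} (hG : MemLp G 2 (μ.prod ν)) {u : X → ℝ} (hu : MemLp u 2 μ)
    {b : Y → ℝ} (hb : MemLp b 2 ν) :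
    ∫ y, (∫ x, u x * G (x, y) ∂μ) * b y ∂ν = ∫ p : X × Y, (u p.1 * b p.2) * G p ∂(μ.prod ν) := by
  rw [integral_prod_symm _ (int_triple hG hu hb)]
  congr 1; funext y
  rw [← integral_mul_const]
  congr 1; funext x; ring

lemma coef_acl {e : X} {G G' : X × Y → ℝ} (hG : MemLp G 2 (μ.prod ν))
    (hG' : MemLp G' 2 (μ.prod ν)) (h : ACL (μ.prod ν) ((e, 0) : X × Y) G G') {b : Y → ℝ}
    (hb : MemLp b 2 ν) :
    ACL μ e (fun x => ∫ y, G (x, y) * b y ∂ν) (fun x => ∫ y, G' (x, y) * b y ∂ν) := by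
  apply ACL.of_weak ((coef_memLp hG hb).locallyIntegrable (by norm_num))
    ((coef_memLp hG' hb).locallyIntegrable (by norm_num))
  intro φ hφ hc
  have hφ1 : ContDiff ℝ 1 φ := hφ.of_le (by exact_mod_cast le_top)
  have hd : Continuous (fun x => fderiv ℝ φ x e) :=
    (hφ1.continuous_fderiv (by norm_num)).clm_apply continuous_const
  have hdc : HasCompactSupport (fun x => fderiv ℝ φ x e) := hc.fderiv_apply ℝ e
  have m1 : MemLp φ 2 μ := hφ.continuous.memLp_of_hasCompactSupport hc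
  have m2 : MemLp (fun x => fderiv ℝ φ x e) 2 μ := hd.memLp_of_hasCompactSupport hdc
  rw [fub_left hG m2 hb, fub_left hG' m1 hb]
  have a1 : ACL (μ.prod ν) ((e, 0) : X × Y) (fun p => φ p.1) (fun p => fderiv ℝ φ p.1 e) :=
    ACL.comp_qmp Measure.quasiMeasurePreserving_fst (fun p t => by simp) (ACL.of_contDiff hφ1)
  have a2 : ACL (μ.prod ν) ((e, 0) : X × Y) (fun p => b p.2) (fun _ => 0) :=
    ACL.comp_qmp Measure.quasiMeasurePreserving_snd (fun p t => by simp)
      (ACL.zero_dir (X := Y) hb.1)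
  have a3 := (a1.mul a2).mul h
  have i1 := int_triple hG m1 hb
  have i2 := int_triple hG m2 hb
  have i3 := int_triple hG' m1 hb
  have a4 : ACL (μ.prod ν) ((e, 0) : X × Y) (fun p => (φ p.1 * b p.2) * G p)
      (fun p => ((fderiv ℝ φ p.1 e) * b p.2) * G p + (φ p.1 * b p.2) * G' p) := by
    refine a3.congr ?_ ?_
    · filter_upwards with p; ring
    · filter_upwards with p; ring
  have h0 := a4.integral_eq_zero i1 (i2.add i3)
  rw [integral_add i2 i3] at h0
  linarith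

/-- Parseval for almost every slice. -/
lemma hasSum_slice {b : ℕ → Y → ℝ} (hp : ∀ g : Y → ℝ, MemLp g 2 ν →
      HasSum (fun j => (∫ y, g y * b j y ∂ν) ^ 2) (∫ y, g y ^ 2 ∂ν))
    {G : X × Y → ℝ} (hG : MemLp G 2 (μ.prod ν)) :
    ∀ᵐ x ∂μ, HasSum (fun j => (∫ y, G (x, y) * b j y ∂ν) ^ 2) (∫ y, G (x, y) ^ 2 ∂ν) := by
  filter_upwards [k6slice_memLp hG] with x hx
  exact hp _ hx

/-- Parseval, integrated. -/
lemma hasSum_total {b : ℕ → Y → ℝ} (hb : ∀ j, MemLp (b j) 2 ν)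
    (hp : ∀ g : Y → ℝ, MemLp g 2 ν →
      HasSum (fun j => (∫ y, g y * b j y ∂ν) ^ 2) (∫ y, g y ^ 2 ∂ν))
    {G : X × Y → ℝ} (hG : MemLp G 2 (μ.prod ν)) :
    HasSum (fun j => ∫ x, (∫ y, G (x, y) * b j y ∂ν) ^ 2 ∂μ) (∫ p, G p ^ 2 ∂(μ.prod ν)) := by
  rw [integral_prod _ hG.integrable_sq]
  have hs := hasSum_slice hp hG
  apply hasSum_integral_of_dominated_convergence
    (bound := fun j x => (∫ y, G (x, y) * b j y ∂ν) ^ 2)
  · intro j
    exact ((coef_memLp hG (hb j)).1.pow 2)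
  · intro j
    filter_upwards with x
    rw [Real.norm_of_nonneg (sq_nonneg _)]
  · filter_upwards [hs] with x hx
    exact hx.summable
  · refine hG.integrable_sq.integral_prod_left.congr ?_
    filter_upwards [hs] with x hx
    exact hx.tsum_eq.symm
  · exact hs

/-- Parseval for the pairing with a function of the first variable. -/
lemma k6hasSum_pair {b : ℕ → Y → ℝ} (hb : ∀ j, MemLp (b j) 2 ν)
    (hp : ∀ g : Y → ℝ, MemLp g 2 ν →
      HasSum (fun j => (∫ y, g y * b j y ∂ν) ^ 2) (∫ y, g y ^ 2 ∂ν))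
    {G : X × Y → ℝ} (hG : MemLp G 2 (μ.prod ν)) {u : X → ℝ} (hu : MemLp u 2 μ) :
    HasSum (fun j => (∫ x, (∫ y, G (x, y) * b j y ∂ν) * u x ∂μ) ^ 2)
      (∫ y, (∫ x, u x * G (x, y) ∂μ) ^ 2 ∂ν) := by
  have h := hp _ (coef_memLp' hG hu)
  refine h.congr_fun ?_
  intro j
  rw [fub_right hG hu (hb j), ← fub_left hG hu (hb j)]
  congr 2; funext x; ring


/-! ### Transport -/

/-- Adding the first electron. -/
def cns {n : ℕ} (p : R3 × (Fin n → R3)) : Fin (n + 1) → R3 := Fin.cons p.1 p.2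

lemma cns_eq (n : ℕ) : (MeasurableEquiv.piFinSuccAbove (fun _ : Fin (n + 1) => R3) 0).symm =
    (cns : R3 × (Fin n → R3) → (Fin (n + 1) → R3)) := by
  funext p
  simp [cns, MeasurableEquiv.piFinSuccAbove]
  rfl

lemma mp_cns (n : ℕ) : MeasurePreserving (cns : R3 × (Fin n → R3) → (Fin (n + 1) → R3))
    (volume.prod volume) volume := by
  have h := (volume_preserving_piFinSuccAbove (fun _ : Fin (n + 1) => R3) 0).symm
  rw [cns_eq] at h
  exact h

lemma me_cns (n : ℕ) :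
    MeasurableEmbedding (cns : R3 × (Fin n → R3) → (Fin (n + 1) → R3)) := by
  rw [← cns_eq]
  exact MeasurableEquiv.measurableEmbedding _

lemma cns_add_smul {n : ℕ} (p : R3 × (Fin n → R3)) (k : Fin 3) (t : ℝ) :
    cns (p + t • ((dir3 k, 0) : R3 × (Fin n → R3))) = cns p + t • axisDir 0 k := by
  funext i
  refine Fin.cases ?_ (fun i => ?_) i
  · simp [cns, axisDir, dir3]
  · simp [cns, axisDir]

lemma acl_cns {n : ℕ} {k : Fin 3} {G G' : (Fin (n + 1) → R3) → ℝ}
    (h : ACL volume (axisDir 0 k) G G') :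
    ACL (volume.prod volume) ((dir3 k, 0) : R3 × (Fin n → R3)) (fun p => G (cns p))
      (fun p => G' (cns p)) := by
  have : ((volume : Measure R3).prod (volume : Measure (Fin n → R3))).IsAddHaarMeasure :=
    Measure.prod.instIsAddHaarMeasure _ _
  exact ACL.comp_qmp (mp_cns n).quasiMeasurePreserving (fun p t => cns_add_smul p k t) h

/-- Coefficients. -/
def cf {n : ℕ} (G : (Fin (n + 1) → R3) → ℝ) (b : (Fin n → R3) → ℝ) (x : R3) : ℝ :=
  ∫ y, G (cns (x, y)) * b y

lemma cf_H1o {n : ℕ} {G : (Fin (n + 1) → R3) → ℝ} {G' : Fin 3 → (Fin (n + 1) → R3) → ℝ}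
    (hG : MemLp G 2 volume) (hG' : ∀ k, MemLp (G' k) 2 volume)
    (h : ∀ k, ACL volume (axisDir 0 k) G (G' k)) {b : (Fin n → R3) → ℝ} (hb : MemLp b 2 volume) :
    H1o (cf G b) (fun k => cf (G' k) b) := by
  have h1 := hG.comp_measurePreserving (mp_cns n)
  have h2 := fun k => (hG' k).comp_measurePreserving (mp_cns n)
  exact ⟨coef_memLp h1 hb, fun k => coef_memLp (h2 k) hb,
    fun k => coef_acl h1 (h2 k) (acl_cns (h k)) hb⟩

/-- Interlacing of two sequences. -/
def ilv {α : Type*} (a c : ℕ → α) (i : ℕ) : α := if i % 2 = 0 then a (i / 2) else c (i / 2)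

lemma ilv_even {α : Type*} (a c : ℕ → α) (k : ℕ) : ilv a c (2 * k) = a k := by
  simp [ilv]

lemma ilv_odd {α : Type*} (a c : ℕ → α) (k : ℕ) : ilv a c (2 * k + 1) = c k := by
  have h1 : (2 * k + 1) / 2 = k := by omega
  have h2 : (2 * k + 1) % 2 = 1 := by omega
  simp [ilv, h1, h2]

lemma hasSum_ilv {α : Type*} {a c : ℕ → α} {Φ : α → ℝ} {s t : ℝ}
    (ha : HasSum (fun j => Φ (a j)) s) (hc : HasSum (fun j => Φ (c j)) t) :
    HasSum (fun i => Φ (ilv a c i)) (s + t) := by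
  apply HasSum.even_add_odd
  · simpa only [ilv_even] using ha
  · simpa only [ilv_odd] using hc

lemma norm_sq_re_im (z : ℂ) : ‖z‖ ^ 2 = z.re ^ 2 + z.im ^ 2 := by
  rw [← Complex.normSq_eq_norm_sq, Complex.normSq_apply]; ring

lemma int_norm_sq {α : Type*} [MeasurableSpace α] {m : Measure α} {F : α → ℂ}
    (hF : MemLp F 2 m) : ∫ x, ‖F x‖ ^ 2 ∂m = ∫ x, (F x).re ^ 2 ∂m + ∫ x, (F x).im ^ 2 ∂m := by
  have h1 : Integrable (fun x => (F x).re ^ 2) m := hF.re.integrable_sq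
  have h2 : Integrable (fun x => (F x).im ^ 2) m := hF.im.integrable_sq
  rw [← integral_add h1 h2]
  congr 1; funext x
  exact norm_sq_re_im _

lemma tot {n : ℕ} {G : (Fin (n + 1) → R3) → ℝ} (_hG : MemLp G 2 volume) : ∫ x, G x ^ 2 =
    ∫ p : R3 × (Fin n → R3), G (cns p) ^ 2 ∂(volume.prod volume) :=
  ((mp_cns n).integral_comp (me_cns n) (fun x => G x ^ 2)).symm

/-- KD6. Discretization of a function of two groups of variables: expansion in a Hilbert basis
of the second group. -/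
theorem exists_expansion {n : ℕ} (F : (Fin (n + 1) → R3) → ℂ)
    (F' : Fin 3 → (Fin (n + 1) → R3) → ℂ) (hF : MemLp F 2 volume)
    (hF' : ∀ k, MemLp (F' k) 2 volume) (hw : ∀ k, IsWeakDeriv (axisDir 0 k) F (F' k)) :
    ∃ (f : ℕ → R3 → ℝ) (f' : ℕ → Fin 3 → R3 → ℝ), (∀ i, H1o (f i) (f' i)) ∧
      (∀ᵐ x : R3, HasSum (fun i => f i x ^ 2) (∫ y : Fin n → R3, ‖F (Fin.cons x y)‖ ^ 2)) ∧
      HasSum (fun i => ∫ x, f i x ^ 2) (∫ x, ‖F x‖ ^ 2) ∧
      (∀ k, HasSum (fun i => ∫ x, f' i k x ^ 2) (∫ x, ‖F' k x‖ ^ 2)) ∧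
      (∀ u : R3 → ℝ, MemLp u 2 volume → HasSum (fun i => (∫ x, f i x * u x) ^ 2)
        (∫ y : Fin n → R3, ‖∫ x : R3, (u x : ℂ) * F (Fin.cons x y)‖ ^ 2)) := by
  obtain ⟨b, -, hb, hp⟩ := exists_parseval (volume : Measure (Fin n → R3))
  have mr : MemLp (fun x => (F x).re) 2 volume := hF.re
  have mi : MemLp (fun x => (F x).im) 2 volume := hF.im
  have mr' : ∀ k, MemLp (fun x => (F' k x).re) 2 volume := fun k => (hF' k).re
  have mi' : ∀ k, MemLp (fun x => (F' k x).im) 2 volume := fun k => (hF' k).im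
  have nr : MemLp (fun p : R3 × (Fin n → R3) => (F (cns p)).re) 2 (volume.prod volume) :=
    mr.comp_measurePreserving (mp_cns n)
  have ni : MemLp (fun p : R3 × (Fin n → R3) => (F (cns p)).im) 2 (volume.prod volume) :=
    mi.comp_measurePreserving (mp_cns n)
  refine ⟨ilv (fun j => cf (fun x => (F x).re) (b j)) (fun j => cf (fun x => (F x).im) (b j)),
    ilv (fun j k => cf (fun x => (F' k x).re) (b j)) (fun j k => cf (fun x => (F' k x).im) (b j)),
    ?_, ?_, ?_, ?_, ?_⟩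
  · intro i
    unfold ilv
    split_ifs
    · exact cf_H1o mr mr' (fun k => (hw k).re_acl hF (hF' k)) (hb _)
    · exact cf_H1o mi mi' (fun k => (hw k).im_acl hF (hF' k)) (hb _)
  · filter_upwards [hasSum_slice hp nr, hasSum_slice hp ni, k6slice_memLp nr, k6slice_memLp ni]
      with x h1 h2 h3 h4
    have h5 : ∫ y : Fin n → R3, ‖F (Fin.cons x y)‖ ^ 2 =
        (∫ y : Fin n → R3, (F (cns (x, y))).re ^ 2) +
          ∫ y : Fin n → R3, (F (cns (x, y))).im ^ 2 := by
      rw [← integral_add h3.integrable_sq h4.integrable_sq]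
      congr 1; funext y
      exact norm_sq_re_im _
    rw [h5]
    have h6 := hasSum_ilv (Φ := fun g : R3 → ℝ => g x ^ 2)
      (a := fun j => cf (fun x => (F x).re) (b j)) (c := fun j => cf (fun x => (F x).im) (b j))
      h1 h2
    exact h6
  · rw [int_norm_sq hF, tot mr, tot mi]
    have h1 := hasSum_total hb hp nr
    have h2 := hasSum_total hb hp ni
    have h6 := hasSum_ilv (Φ := fun g : R3 → ℝ => ∫ x, g x ^ 2)
      (a := fun j => cf (fun x => (F x).re) (b j)) (c := fun j => cf (fun x => (F x).im) (b j))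
      h1 h2
    exact h6
  · intro k
    rw [int_norm_sq (hF' k), tot (mr' k), tot (mi' k)]
    have h1 := hasSum_total hb hp ((mr' k).comp_measurePreserving (mp_cns n))
    have h2 := hasSum_total hb hp ((mi' k).comp_measurePreserving (mp_cns n))
    have h6 := hasSum_ilv (Φ := fun g : Fin 3 → R3 → ℝ => ∫ x, g k x ^ 2)
      (a := fun j k => cf (fun x => (F' k x).re) (b j))
      (c := fun j k => cf (fun x => (F' k x).im) (b j)) h1 h2
    exact h6
  · intro u hu
    have h5 : ∫ y : Fin n → R3, ‖∫ x : R3, (u x : ℂ) * F (Fin.cons x y)‖ ^ 2 =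
        (∫ y : Fin n → R3, (∫ x : R3, u x * (F (cns (x, y))).re) ^ 2) +
        ∫ y : Fin n → R3, (∫ x : R3, u x * (F (cns (x, y))).im) ^ 2 := by
      rw [← integral_add (coef_memLp' nr hu).integrable_sq (coef_memLp' ni hu).integrable_sq]
      apply integral_congr_ae
      filter_upwards [k6slice_memLp' nr, k6slice_memLp' ni] with y h3 h4
      have i1 : Integrable (fun x => u x * (F (cns (x, y))).re) := hu.integrable_mul h3
      have i2 : Integrable (fun x => u x * (F (cns (x, y))).im) := hu.integrable_mul h4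
      have h6 : ∫ x : R3, (u x : ℂ) * F (Fin.cons x y) =
          ((∫ x : R3, u x * (F (cns (x, y))).re : ℝ) : ℂ) +
          ((∫ x : R3, u x * (F (cns (x, y))).im : ℝ) : ℂ) * Complex.I := by
        rw [← integral_complex_ofReal, ← integral_complex_ofReal, ← integral_mul_const,
          ← integral_add (i1.ofReal) (i2.ofReal.mul_const _)]
        congr 1; funext x
        apply Complex.ext
        · simp only [Complex.mul_re, Complex.ofReal_re, Complex.ofReal_im, zero_mul, sub_zero, cns, Complex.ofReal_mul, Complex.add_re, mul_zero, Complex.I_re, Complex.mul_im, add_zero, Complex.I_im, mul_one, sub_self]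
        · simp [cns]
      rw [h6, norm_sq_re_im]
      simp
    rw [h5]
    have h1 := k6hasSum_pair hb hp nr hu
    have h2 := k6hasSum_pair hb hp ni hu
    have h6 := hasSum_ilv (Φ := fun g : R3 → ℝ => (∫ x, g x * u x) ^ 2)
      (a := fun j => cf (fun x => (F x).re) (b j)) (c := fun j => cf (fun x => (F x).im) (b j))
      h1 h2
    exact h6

end

end Vale.Agent.P363.KD
end
end

section

section

/-! KD7: the density matrix of an electron state. -/

namespace Vale.Agent.P363.KD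

open MeasureTheory Set Filter Topology
open scoped ENNReal ContDiff

noncomputable section

namespace K7

/-- Sums over pairs, the first index being finite. -/
lemma hasSum_pair {S : Type} [Fintype S] {a : S → ℕ → ℝ} {A : S → ℝ}
    (h : ∀ s, HasSum (a s) (A s)) : HasSum (fun p : S × ℕ => a p.1 p.2) (∑ s, A s) := by
  classical
  have h1 : ∀ s ∈ (Finset.univ : Finset S),
      HasSum (fun p : S × ℕ => if p.1 = s then a s p.2 else 0) (A s) := by
    intro s _
    have hinj : Function.Injective (fun i : ℕ => (s, i)) := fun i j hij => by simpa using hij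
    refine (hinj.hasSum_iff ?_).mp ?_
    · rintro ⟨t, i⟩ hx
      have : t ≠ s := fun hts => hx ⟨i, by rw [hts]⟩
      simp [this]
    · simpa [Function.comp_def] using h s
  have h2 := hasSum_sum h1
  refine h2.congr_fun ?_
  rintro ⟨t, i⟩
  simp only [Finset.sum_ite_eq, Finset.mem_univ, ↓reduceIte]

/-- Permutation of the electrons preserves the measure. -/
lemma measurePreserving_perm {N : ℕ} (σ : Equiv.Perm (Fin N)) :
    MeasurePreserving (fun x : Fin N → R3 => x ∘ σ) volume volume := by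
  have h := volume_measurePreserving_piCongrLeft (fun _ : Fin N => R3) σ.symm
  have he : (fun x : Fin N → R3 => x ∘ σ) =
      MeasurableEquiv.piCongrLeft (fun _ : Fin N => R3) σ.symm := by
    funext x
    funext j
    have := MeasurableEquiv.piCongrLeft_apply_apply (β := fun _ : Fin N => R3) σ.symm x (σ j)
    simpa using this.symm
  rw [he]
  exact h

/-- The measurable equivalence splitting off the first electron. -/
def consE (n : ℕ) : R3 × (Fin n → R3) ≃ᵐ (Fin (n + 1) → R3) :=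
  (MeasurableEquiv.piFinSuccAbove (fun _ : Fin (n + 1) => R3) 0).symm

lemma consE_apply {n : ℕ} (p : R3 × (Fin n → R3)) : consE n p = Fin.cons p.1 p.2 := by
  unfold consE
  exact Fin.insertNth_zero' p.1 p.2

lemma mp_consE (n : ℕ) : MeasurePreserving (consE n) (volume.prod volume) volume :=
  (volume_preserving_piFinSuccAbove (fun _ : Fin (n + 1) => R3) 0).symm

/-- Splitting off the first electron: integrability. -/
lemma integrable_cons {n : ℕ} {G : (Fin (n + 1) → R3) → ℝ} (hG : Integrable G) :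
    Integrable (fun p : R3 × (Fin n → R3) => G (Fin.cons p.1 p.2)) (volume.prod volume) := by
  have h := (mp_consE n).integrable_comp_of_integrable hG
  refine h.congr (Eventually.of_forall fun p => ?_)
  simp [consE_apply]

/-- Splitting off the first electron: integrals. -/
lemma integral_cons {n : ℕ} (G : (Fin (n + 1) → R3) → ℝ) :
    ∫ x, G x = ∫ p : R3 × (Fin n → R3), G (Fin.cons p.1 p.2) ∂(volume.prod volume) := by
  rw [← (mp_consE n).integral_comp (consE n).measurableEmbedding G]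
  simp_rw [consE_apply]

/-- Potentials of the class are measurable. -/
lemma memV_aesm {v : R3 → ℝ} (hv : MemV v) : AEStronglyMeasurable v volume := by
  obtain ⟨a, b, ha, hb, rfl⟩ := hv
  exact ha.1.add hb.1

variable {n : ℕ}

/-- Density of one spin configuration. -/
def dens (Φ : ElectronState (n + 1)) (s : Fin (n + 1) → Fin 2) (x : R3) : ℝ :=
  ∫ y : Fin n → R3, ‖Φ.amp s (Fin.cons x y)‖ ^ 2

lemma density_eq_dens (Φ : ElectronState (n + 1)) (x : R3) :
    density Φ x = (n + 1 : ℝ) * ∑ s, dens Φ s x := rfl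

lemma dens_nonneg (Φ : ElectronState (n + 1)) (s : Fin (n + 1) → Fin 2) (x : R3) :
    0 ≤ dens Φ s x := integral_nonneg fun _ => by positivity

lemma integrable_amp (Φ : ElectronState (n + 1)) (s : Fin (n + 1) → Fin 2) :
    Integrable (fun x => ‖Φ.amp s x‖ ^ 2) := by
  have h := (Φ.amp_memLp s).norm
  exact h.integrable_sq

lemma integrable_dens (Φ : ElectronState (n + 1)) (s : Fin (n + 1) → Fin 2) :
    Integrable (dens Φ s) := (integrable_cons (integrable_amp Φ s)).integral_prod_left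

lemma dens_le (Φ : ElectronState (n + 1)) (s : Fin (n + 1) → Fin 2) (x : R3) :
    dens Φ s x ≤ density Φ x := by
  rw [density_eq_dens]
  have h1 : dens Φ s x ≤ ∑ t, dens Φ t x :=
    Finset.single_le_sum (fun t _ => dens_nonneg Φ t x) (Finset.mem_univ s)
  have h2 : 0 ≤ ∑ t, dens Φ t x := (dens_nonneg Φ s x).trans h1
  have h3 : (0 : ℝ) ≤ n := Nat.cast_nonneg n
  linarith only [mul_nonneg (sub_nonneg.2 h2) (sub_nonneg.2 h3), h1]

/-- The potential energy of the first electron. -/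
lemma integrable_pot0 (Φ : ElectronState (n + 1)) {v : R3 → ℝ} (hv : MemV v)
    (hi : Integrable (fun x => v x * density Φ x)) (s : Fin (n + 1) → Fin 2) :
    Integrable (fun x : Fin (n + 1) → R3 => v (x 0) * ‖Φ.amp s x‖ ^ 2) ∧
      ∫ x : Fin (n + 1) → R3, v (x 0) * ‖Φ.amp s x‖ ^ 2 = ∫ x, v x * dens Φ s x := by
  have hA := integrable_cons (integrable_amp Φ s)
  have hvm := memV_aesm hv
  have hm : AEStronglyMeasurable (fun p : R3 × (Fin n → R3) =>
      v p.1 * ‖Φ.amp s (Fin.cons p.1 p.2)‖ ^ 2) (volume.prod volume) :=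
    hvm.comp_fst.mul hA.1
  have hD : Integrable (fun x => v x * dens Φ s x) := by
    refine hi.mono (hvm.mul (integrable_dens Φ s).1) (Eventually.of_forall fun x => ?_)
    rw [norm_mul, norm_mul]
    refine mul_le_mul_of_nonneg_left ?_ (norm_nonneg _)
    rw [Real.norm_of_nonneg (dens_nonneg Φ s x),
      Real.norm_of_nonneg ((dens_nonneg Φ s x).trans (dens_le Φ s x))]
    exact dens_le Φ s x
  have hI : Integrable (fun p : R3 × (Fin n → R3) =>
      v p.1 * ‖Φ.amp s (Fin.cons p.1 p.2)‖ ^ 2) (volume.prod volume) := by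
    rw [integrable_prod_iff hm]
    refine ⟨?_, ?_⟩
    · filter_upwards [hA.prod_right_ae] with x hx
      exact hx.const_mul (v x)
    · refine hD.norm.congr (Eventually.of_forall fun x => ?_)
      simp only [norm_mul, norm_pow, norm_norm]
      rw [integral_const_mul, Real.norm_of_nonneg (dens_nonneg Φ s x)]
      rfl
  refine ⟨?_, ?_⟩
  · have h := ((mp_consE n).integrable_comp_emb (consE n).measurableEmbedding
      (g := fun x : Fin (n + 1) → R3 => v (x 0) * ‖Φ.amp s x‖ ^ 2)).mp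
    apply h
    refine hI.congr (Eventually.of_forall fun p => ?_)
    simp [consE_apply]
  · rw [integral_cons]
    simp only [Fin.cons_zero]
    rw [integral_prod _ hI]
    refine integral_congr_ae (Eventually.of_forall fun x => ?_)
    simp only
    rw [integral_const_mul]
    rfl

/-- The potential energy of the `i`-th electron. -/
lemma integrable_pot (Φ : ElectronState (n + 1)) {v : R3 → ℝ} (hv : MemV v)
    (hi : Integrable (fun x => v x * density Φ x)) (i : Fin (n + 1)) :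
    (∀ s, Integrable (fun x : Fin (n + 1) → R3 => v (x i) * ‖Φ.amp s x‖ ^ 2)) ∧
      ∑ s, ∫ x : Fin (n + 1) → R3, v (x i) * ‖Φ.amp s x‖ ^ 2 = ∑ s, ∫ x, v x * dens Φ s x := by
  set σ : Equiv.Perm (Fin (n + 1)) := Equiv.swap 0 i with hσ
  have key : ∀ s : Fin (n + 1) → Fin 2, (fun x : Fin (n + 1) → R3 => v (x i) * ‖Φ.amp s x‖ ^ 2)
      =ᵐ[volume] (fun x : Fin (n + 1) → R3 => v (x 0) * ‖Φ.amp (s ∘ σ) x‖ ^ 2) ∘ (fun x => x ∘ σ) := by
    intro s
    filter_upwards [Φ.antisymm σ s] with x hx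
    simp only [Function.comp_apply]
    rw [hx, norm_mul]
    have h1 : ‖(((Equiv.Perm.sign σ : ℤ) : ℂ))‖ = 1 := by
      rcases Int.units_eq_one_or (Equiv.Perm.sign σ) with h | h <;> simp only [h, Units.val_neg, Units.val_one, Int.reduceNeg, Int.cast_neg, Int.cast_one, norm_neg, norm_one]
    rw [h1, one_mul]
    simp [hσ]
  have hmp := measurePreserving_perm (N := n + 1) σ
  refine ⟨fun s => ?_, ?_⟩
  · have h := hmp.integrable_comp_of_integrable (integrable_pot0 Φ hv hi (s ∘ σ)).1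
    exact h.congr (key s).symm
  · have h2 : ∀ s : Fin (n + 1) → Fin 2, ∫ x : Fin (n + 1) → R3, v (x i) * ‖Φ.amp s x‖ ^ 2 =
        ∫ x, v x * dens Φ (s ∘ σ) x := by
      intro s
      rw [integral_congr_ae (key s)]
      have h3 := (integrable_pot0 Φ hv hi (s ∘ σ))
      rw [← h3.2]
      have h4 := integral_map (μ := (volume : Measure (Fin (n + 1) → R3)))
        hmp.measurable.aemeasurable (f := fun x : Fin (n + 1) → R3 =>
          v (x 0) * ‖Φ.amp (s ∘ σ) x‖ ^ 2) (by rw [hmp.map_eq]; exact h3.1.1)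
      rw [hmp.map_eq] at h4
      exact h4.symm
    simp_rw [h2]
    exact Equiv.sum_comp (Equiv.arrowCongr σ.symm (Equiv.refl (Fin 2)))
      (fun s => ∫ x, v x * dens Φ s x)

/-- The potential energy of a state. -/
lemma pot_state (Φ : ElectronState (n + 1)) {v : R3 → ℝ} (hv : MemV v)
    (hi : Integrable (fun x => v x * density Φ x)) :
    ∑ s, ∫ x, sumPotential v x * ‖Φ.amp s x‖ ^ 2 = ∫ x, v x * density Φ x := by
  have h1 : ∀ s : Fin (n + 1) → Fin 2, ∫ x, sumPotential v x * ‖Φ.amp s x‖ ^ 2 =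
      ∑ i, ∫ x : Fin (n + 1) → R3, v (x i) * ‖Φ.amp s x‖ ^ 2 := by
    intro s
    unfold sumPotential
    simp_rw [Finset.sum_mul]
    exact integral_finsetSum _ (fun i _ => (integrable_pot Φ hv hi i).1 s)
  simp_rw [h1]
  rw [Finset.sum_comm]
  rw [Finset.sum_congr rfl (fun i _ => (integrable_pot Φ hv hi i).2)]
  rw [Finset.sum_const, Finset.card_univ, Fintype.card_fin, nsmul_eq_mul]
  have hD : ∀ s : Fin (n + 1) → Fin 2, Integrable (fun x => v x * dens Φ s x) := by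
    intro s
    refine hi.mono ((memV_aesm hv).mul (integrable_dens Φ s).1) (Eventually.of_forall fun x => ?_)
    rw [norm_mul, norm_mul]
    refine mul_le_mul_of_nonneg_left ?_ (norm_nonneg _)
    rw [Real.norm_of_nonneg (dens_nonneg Φ s x),
      Real.norm_of_nonneg ((dens_nonneg Φ s x).trans (dens_le Φ s x))]
    exact dens_le Φ s x
  rw [← integral_finsetSum _ (fun s _ => hD s), ← integral_const_mul]
  refine integral_congr_ae (Eventually.of_forall fun x => ?_)
  simp only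
  rw [density_eq_dens, ← Finset.mul_sum]
  push_cast
  ring

end K7

open K7 in
/-- KD7. The family of a state. -/
theorem exists_fam_of_state {n : ℕ} (Φ : ElectronState (n + 1)) (hΦ : normSq Φ = 1) :
    ∃ (f : ℕ → R3 → ℝ) (f' : ℕ → Fin 3 → R3 → ℝ), IsFam f f' ∧ tr f = n + 1 ∧
      (∀ᵐ x, HasSum (fun i => f i x ^ 2) (density Φ x)) ∧
      ∀ v, MemV v → hE v f f' = energy (sumPotential v) Φ := by
  choose g g' h1 hrho htr hkin hpau using fun s : Fin (n + 1) → Fin 2 =>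
    exists_expansion (Φ.amp s) (fun k => Φ.grad s 0 k) (Φ.amp_memLp s)
      (fun k => Φ.grad_memLp s 0 k) (fun k => Φ.grad_weak s 0 k)
  have : Infinite ((Fin (n + 1) → Fin 2) × ℕ) :=
    Infinite.of_injective (fun i : ℕ => ((fun _ => 0 : Fin (n + 1) → Fin 2), i))
      (fun i j hij => (Prod.mk.inj hij).2)
  obtain ⟨e⟩ := nonempty_equiv_of_countable (α := ℕ) (β := (Fin (n + 1) → Fin 2) × ℕ)
  set c : ℝ := √(n + 1 : ℝ) with hc
  have hc2 : c ^ 2 = n + 1 := Real.sq_sqrt (by (clear * -; positivity))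
  set f : ℕ → R3 → ℝ := fun j x => c * g (e j).1 (e j).2 x with hf
  set f' : ℕ → Fin 3 → R3 → ℝ := fun j k x => c * g' (e j).1 (e j).2 k x with hf'
  have hsumN : ∀ {a : (Fin (n + 1) → Fin 2) → ℕ → ℝ} {A : (Fin (n + 1) → Fin 2) → ℝ},
      (∀ s, HasSum (a s) (A s)) → HasSum (fun j : ℕ => a (e j).1 (e j).2) (∑ s, A s) := by
    intro a A h
    exact (e.hasSum_iff (f := fun p : (Fin (n + 1) → Fin 2) × ℕ => a p.1 p.2)).mpr (hasSum_pair h)
  have H0 : HasSum (fun j => ∫ x, f j x ^ 2) ((n + 1 : ℝ) * normSq Φ) := by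
    have h := (hsumN htr).mul_left (n + 1 : ℝ)
    refine h.congr_fun fun j => ?_
    simp only [hf, mul_pow, hc2]
    rw [integral_const_mul]
  have H1 : ∀ k, HasSum (fun j => ∫ x, f' j k x ^ 2)
      ((n + 1 : ℝ) * ∑ s, ∫ x, ‖Φ.grad s 0 k x‖ ^ 2) := by
    intro k
    have h := (hsumN (fun s => hkin s k)).mul_left (n + 1 : ℝ)
    refine h.congr_fun fun j => ?_
    simp only [hf', mul_pow, hc2]
    rw [integral_const_mul]
  have HP : ∀ u : R3 → ℝ, MemLp u 2 volume → HasSum (fun j => (∫ x, f j x * u x) ^ 2)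
      ((n + 1 : ℝ) * ∑ s : Fin (n + 1) → Fin 2, ∫ y : Fin n → R3,
        ‖∫ x : R3, (u x : ℂ) * Φ.amp s (Fin.cons x y)‖ ^ 2) := by
    intro u hu
    have h := (hsumN (fun s => hpau s u hu)).mul_left (n + 1 : ℝ)
    refine h.congr_fun fun j => ?_
    simp only [hf, mul_assoc]
    rw [integral_const_mul, mul_pow, hc2]
  have HR : ∀ᵐ x, HasSum (fun i => f i x ^ 2) (density Φ x) := by
    filter_upwards [ae_all_iff.mpr hrho] with x hx
    have h := (hsumN hx).mul_left (n + 1 : ℝ)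
    refine h.congr_fun fun j => ?_
    simp only [hf, mul_pow, hc2]
  have hfam : IsFam f f' := by
    refine ⟨fun j => ?_, H0.summable, fun k => (H1 k).summable, fun u hu => ?_⟩
    · have h := h1 (e j).1 (e j).2
      exact ⟨h.memLp.const_mul c, fun k => (h.memLp' k).const_mul c,
        fun k => (h.acl k).const_mul c⟩
    · rw [(HP u hu).tsum_eq]
      have hsplit : ∑ s : Fin (n + 1) → Fin 2, ∫ y : Fin n → R3,
            ‖∫ x : R3, (u x : ℂ) * Φ.amp s (Fin.cons x y)‖ ^ 2 =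
          ∑ σ : Fin 2, ∑ s : Fin n → Fin 2, ∫ y : Fin n → R3,
            ‖∫ x : R3, (u x : ℂ) * Φ.amp (Fin.cons σ s) (Fin.cons x y)‖ ^ 2 := by
        rw [← (Fin.consEquiv (fun _ : Fin (n + 1) => Fin 2)).sum_comp, Fintype.sum_prod_type]
        rfl
      rw [hsplit, Finset.mul_sum]
      have hle : ∀ σ ∈ (Finset.univ : Finset (Fin 2)), (n + 1 : ℝ) * ∑ s : Fin n → Fin 2,
          ∫ y : Fin n → R3, ‖∫ x : R3, (u x : ℂ) * Φ.amp (Fin.cons σ s) (Fin.cons x y)‖ ^ 2 ≤
          ∫ x, u x ^ 2 := by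
        intro σ _
        have := pauli_state Φ σ u hu
        rwa [hΦ, one_mul] at this
      have := Finset.sum_le_sum hle
      simpa only [Fin.sum_univ_two, Fin.isValue, ge_iff_le, Finset.sum_const, Finset.card_univ, Fintype.card_fin,     nsmul_eq_mul, Nat.cast_ofNat] using this
  refine ⟨f, f', hfam, ?_, HR, fun v hv => ?_⟩
  · unfold tr
    rw [H0.tsum_eq, hΦ, mul_one]
  · obtain ⟨_, _, hvi, hE⟩ := hE_eq hv hfam
    have hrd : ∀ᵐ x, rho f x = density Φ x := by
      filter_upwards [HR] with x hx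
      exact hx.tsum_eq
    have hi : Integrable (fun x => v x * density Φ x) := by
      refine hvi.congr ?_
      filter_upwards [hrd] with x hx
      rw [hx]
    rw [hE]
    unfold energy
    congr 1
    · have hk : HasSum (fun i => (1 / 2 : ℝ) * ∑ k, ∫ x, f' i k x ^ 2)
          ((1 / 2) * ∑ k, ((n + 1 : ℝ) * ∑ s, ∫ x, ‖Φ.grad s 0 k x‖ ^ 2)) :=
        (hasSum_sum fun k _ => H1 k).mul_left _
      unfold kin
      rw [hk.tsum_eq, kinetic_state Φ, ← Finset.mul_sum, Finset.sum_comm]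
    · rw [pot_state Φ hv hi]
      refine integral_congr_ae ?_
      filter_upwards [hrd] with x hx
      rw [hx]

end

end Vale.Agent.P363.KD
end
end

section

section

/-! KD10: minimizing density matrix. -/

namespace Vale.Agent.P363.KD

open MeasureTheory Set Filter Topology
open scoped ENNReal ContDiff

noncomputable section

lemma k10_h1o_mul {f : R3 → ℝ} {f' : Fin 3 → R3 → ℝ} (c : ℝ) (h : H1o f f') :
    H1o (fun x => c * f x) (fun k x => c * f' k x) :=
  ⟨h.memLp.const_mul c, fun k => (h.memLp' k).const_mul c, fun k => (h.acl k).const_mul c⟩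

lemma k10_int_sq_mul (c : ℝ) (f : R3 → ℝ) : ∫ x, (c * f x) ^ 2 = c ^ 2 * ∫ x, f x ^ 2 := by
  rw [← integral_const_mul]
  congr 1
  funext x
  ring

lemma k10_hform_mul (v : R3 → ℝ) (c : ℝ) (f : R3 → ℝ) (f' : Fin 3 → R3 → ℝ) :
    hform v (fun x => c * f x) (fun k x => c * f' k x) = c ^ 2 * hform v f f' := by
  unfold hform
  have h1 : ∀ k, ∫ x, (c * f' k x) ^ 2 = c ^ 2 * ∫ x, f' k x ^ 2 := fun k => k10_int_sq_mul c (f' k)
  have h2 : ∫ x, v x * (c * f x) ^ 2 = c ^ 2 * ∫ x, v x * f x ^ 2 := by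
    rw [← integral_const_mul]
    congr 1
    funext x
    ring
  simp only [h1, h2]
  rw [← Finset.mul_sum]
  ring

/-- Uniform bound of the kinetic energy by the energy. -/
lemma k10_kin_bound {v : R3 → ℝ} (hv : MemV v) : ∃ C : ℝ, 0 ≤ C ∧
    ∀ (f : ℕ → R3 → ℝ) (f' : ℕ → Fin 3 → R3 → ℝ), IsFam f f' → ∀ k,
      ∑' i, ∫ x, f' i k x ^ 2 ≤ 4 * (hE v f f' + C * tr f) := by
  obtain ⟨C, hC, hb⟩ := form_bound hv (δ := 1 / 4) (by norm_num)
  refine ⟨C, hC, ?_⟩
  intro f f' hF k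
  have hs := summable_hform hv hF
  have h1 : ∀ i, ∫ x, f' i k x ^ 2 ≤ 4 * (hform v (f i) (f' i) + C * ∫ x, f i x ^ 2) := by
    intro i
    obtain ⟨hi, hle⟩ := hb (f i) (f' i) (hF.h1 i)
    have h2 : - ∫ x, |v x| * f i x ^ 2 ≤ ∫ x, v x * f i x ^ 2 := by
      have h3 : |∫ x, v x * f i x ^ 2| ≤ ∫ x, |v x * f i x ^ 2| := abs_integral_le_integral_abs
      have h4 : ∫ x, |v x * f i x ^ 2| = ∫ x, |v x| * f i x ^ 2 := by
        congr 1
        funext x
        rw [abs_mul, abs_of_nonneg (sq_nonneg (f i x))]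
      rw [h4] at h3
      linarith only [h3, neg_abs_le (∫ x, v x * f i x ^ 2)]
    have h5 : ∫ x, f' i k x ^ 2 ≤ ∑ k, ∫ x, f' i k x ^ 2 :=
      Finset.single_le_sum (f := fun k => ∫ x, f' i k x ^ 2)
        (fun j _ => integral_nonneg (fun x => sq_nonneg _)) (Finset.mem_univ k)
    unfold hform
    linarith only [h5, h2, hle]
  calc ∑' i, ∫ x, f' i k x ^ 2
      ≤ ∑' i, 4 * (hform v (f i) (f' i) + C * ∫ x, f i x ^ 2) := by
        apply Summable.tsum_le_tsum h1 (hF.sum1 k)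
        exact (hs.add (hF.sum0.mul_left C)).mul_left 4
    _ = 4 * (hE v f f' + C * tr f) := by
        rw [tsum_mul_left, (hs.tsum_add (hF.sum0.mul_left C)), tsum_mul_left]
        rfl

/-- Mixtures of density matrices. -/
lemma k10_mix {p : ℕ → ℝ} (hp : ∀ k, 0 ≤ p k) (hp1 : HasSum p 1)
    {f : ℕ → ℕ → R3 → ℝ} {f' : ℕ → ℕ → Fin 3 → R3 → ℝ} (hF : ∀ k, IsFam (f k) (f' k))
    {T K : ℝ} (hT : ∀ k, tr (f k) = T)
    (hK : ∀ m k, ∑' i, ∫ x, f' m i k x ^ 2 ≤ K) :
    IsFam (fun (q : ℕ × ℕ) x => √(p q.1) * f q.1 q.2 x)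
      (fun (q : ℕ × ℕ) k x => √(p q.1) * f' q.1 q.2 k x) ∧
    tr (fun (q : ℕ × ℕ) x => √(p q.1) * f q.1 q.2 x) = T := by
  have hsq : ∀ m, √(p m) ^ 2 = p m := fun m => Real.sq_sqrt (hp m)
  have hS0 : Summable (fun q : ℕ × ℕ => ∫ x, (√(p q.1) * f q.1 q.2 x) ^ 2) := by
    rw [summable_prod_of_nonneg (fun q => integral_nonneg (fun x => sq_nonneg _))]
    refine ⟨?_, ?_⟩
    · intro m
      simp only [k10_int_sq_mul]
      exact ((hF m).sum0).mul_left _
    · simp only [k10_int_sq_mul, tsum_mul_left, hsq]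
      have : (fun m => p m * ∑' i, ∫ x, f m i x ^ 2) = fun m => p m * T := by
        funext m
        rw [← hT m]
        rfl
      rw [this]
      exact hp1.summable.mul_right T
  refine ⟨⟨?_, hS0, ?_, ?_⟩, ?_⟩
  · rintro ⟨m, i⟩
    exact k10_h1o_mul _ ((hF m).h1 i)
  · intro k
    rw [summable_prod_of_nonneg (fun q => integral_nonneg (fun x => sq_nonneg _))]
    refine ⟨?_, ?_⟩
    · intro m
      simp only [k10_int_sq_mul]
      exact ((hF m).sum1 k).mul_left _
    · simp only [k10_int_sq_mul, hsq, tsum_mul_left]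
      refine Summable.of_nonneg_of_le (fun m => mul_nonneg (hp m)
        (tsum_nonneg (fun i => integral_nonneg (fun x => sq_nonneg _)))) (fun m => ?_)
        (hp1.summable.mul_right K)
      exact mul_le_mul_of_nonneg_left (hK m k) (hp m)
  · intro u hu
    have hu0 : 0 ≤ ∫ x, u x ^ 2 := integral_nonneg (fun x => sq_nonneg _)
    have he : ∀ q : ℕ × ℕ, (∫ x, √(p q.1) * f q.1 q.2 x * u x) ^ 2 =
        p q.1 * (∫ x, f q.1 q.2 x * u x) ^ 2 := by
      intro q
      have h1 : ∫ x, √(p q.1) * f q.1 q.2 x * u x = √(p q.1) * ∫ x, f q.1 q.2 x * u x := by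
        rw [← integral_const_mul]
        congr 1
        funext x
        ring
      rw [h1, mul_pow, hsq]
    simp only [he]
    by_cases hs : Summable (fun q : ℕ × ℕ => p q.1 * (∫ x, f q.1 q.2 x * u x) ^ 2)
    · rw [hs.tsum_prod]
      have h2 : ∀ m, ∑' i, p m * (∫ x, f m i x * u x) ^ 2 ≤ p m * (2 * ∫ x, u x ^ 2) := by
        intro m
        rw [tsum_mul_left]
        exact mul_le_mul_of_nonneg_left ((hF m).pauli u hu) (hp m)
      calc ∑' m, ∑' i, p m * (∫ x, f m i x * u x) ^ 2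
          ≤ ∑' m, p m * (2 * ∫ x, u x ^ 2) := by
            apply Summable.tsum_le_tsum h2 hs.prod (hp1.summable.mul_right _)
        _ = 2 * ∫ x, u x ^ 2 := by
            rw [tsum_mul_right, hp1.tsum_eq, one_mul]
    · rw [tsum_eq_zero_of_not_summable hs]
      (clear * -; positivity)
  · unfold tr
    rw [hS0.tsum_prod]
    simp only [k10_int_sq_mul, hsq, tsum_mul_left]
    have : (fun m => p m * ∑' i, ∫ x, f m i x ^ 2) = fun m => p m * T := by
      funext m
      rw [← hT m]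
      rfl
    rw [this, tsum_mul_right, hp1.tsum_eq, one_mul]

lemma k10_mix_energy {p : ℕ → ℝ} (hp : ∀ k, 0 ≤ p k) (hp1 : HasSum p 1) {v : R3 → ℝ}
    (hv : MemV v) {f : ℕ → ℕ → R3 → ℝ} {f' : ℕ → ℕ → Fin 3 → R3 → ℝ}
    (hF : IsFam (fun (q : ℕ × ℕ) x => √(p q.1) * f q.1 q.2 x)
      (fun (q : ℕ × ℕ) k x => √(p q.1) * f' q.1 q.2 k x))
    {E : ℝ} (hE : ∀ m, hE v (f m) (f' m) = E) :
    KD.hE v (fun (q : ℕ × ℕ) x => √(p q.1) * f q.1 q.2 x)
      (fun (q : ℕ × ℕ) k x => √(p q.1) * f' q.1 q.2 k x) = E := by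
  have hsq : ∀ m, √(p m) ^ 2 = p m := fun m => Real.sq_sqrt (hp m)
  have hs := summable_hform hv hF
  have h1 : (fun q : ℕ × ℕ => hform v (fun x => √(p q.1) * f q.1 q.2 x)
      (fun k x => √(p q.1) * f' q.1 q.2 k x)) =
      fun q : ℕ × ℕ => p q.1 * hform v (f q.1 q.2) (f' q.1 q.2) := by
    funext q
    rw [k10_hform_mul, hsq]
  unfold KD.hE
  rw [h1] at hs ⊢
  rw [hs.tsum_prod]
  have h2 : ∀ m, ∑' i, p m * hform v (f m i) (f' m i) = p m * E := by
    intro m
    rw [tsum_mul_left, ← hE m]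
    rfl
  simp only [h2]
  rw [tsum_mul_right, hp1.tsum_eq, one_mul]

lemma k10_sum {p : ℕ → ℝ} (hp : ∀ k, 0 ≤ p k) {f : ℕ → ℕ → ℝ} {d : ℕ → ℝ}
    {n : ℝ} (hr : ∀ k, HasSum (fun i => f k i ^ 2) (d k))
    (hn : HasSum (fun k => p k * d k) n) :
    ∑' q : ℕ × ℕ, (√(p q.1) * f q.1 q.2) ^ 2 = n := by
  have h1 : (fun q : ℕ × ℕ => (√(p q.1) * f q.1 q.2) ^ 2) =
      fun q : ℕ × ℕ => p q.1 * f q.1 q.2 ^ 2 := by
    funext q
    rw [mul_pow, Real.sq_sqrt (hp q.1)]
  have h3 : ∀ m, ∑' i, p m * f m i ^ 2 = p m * d m := by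
    intro m
    rw [tsum_mul_left, (hr m).tsum_eq]
  have h2 : (fun m => ∑' i, p m * f m i ^ 2) = fun m => p m * d m := by
    funext m
    exact h3 m
  have hs : Summable (fun q : ℕ × ℕ => p q.1 * f q.1 q.2 ^ 2) := by
    rw [summable_prod_of_nonneg (fun q => mul_nonneg (hp _) (sq_nonneg _))]
    refine ⟨fun m => ?_, ?_⟩
    · have h4 : Summable (fun i => p m * f m i ^ 2) := (hr m).summable.mul_left (p m)
      exact h4
    · show Summable (fun m => ∑' i, p m * f m i ^ 2)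
      rw [h2]
      exact hn.summable
  rw [h1, hs.tsum_prod]
  show ∑' m, ∑' i, p m * f m i ^ 2 = n
  rw [h2]
  exact hn.tsum_eq

lemma k10_mix_rho {p : ℕ → ℝ} (hp : ∀ k, 0 ≤ p k) {f : ℕ → ℕ → R3 → ℝ} {d : ℕ → R3 → ℝ}
    {n : R3 → ℝ} (hr : ∀ k, ∀ᵐ x, HasSum (fun i => f k i x ^ 2) (d k x))
    (hn : ∀ᵐ x, HasSum (fun k => p k * d k x) (n x)) :
    ∀ᵐ x, rho (fun (q : ℕ × ℕ) x => √(p q.1) * f q.1 q.2 x) x = n x := by
  filter_upwards [ae_all_iff.mpr hr, hn] with x hx hnx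
  exact k10_sum hp (f := fun k i => f k i x) hx hnx

/-- KD10. From representability to a minimizing density matrix. -/
theorem exists_isMin {n : R3 → ℝ} (h : NonintEnsembleRepresentable 3 n) :
    ∃ (v : R3 → ℝ) (f : ℕ × ℕ → R3 → ℝ) (f' : ℕ × ℕ → Fin 3 → R3 → ℝ), IsMin v f f' n := by
  obtain ⟨v, hv, p, Φ, hp, hp1, hG, hn⟩ := h
  choose f f' hF ht hr hE using fun k => exists_fam_of_state (Φ k) (hG k).1
  set E : ℝ := energy (sumPotential v) (Φ 0) with hEdef
  have hEk : ∀ k, energy (sumPotential v) (Φ k) = E := by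
    intro k
    apply le_antisymm
    · exact (hG k).2 (Φ 0) (hG 0).1
    · exact (hG 0).2 (Φ k) (hG k).1
  have ht4 : ∀ k, tr (f k) = 4 := by
    intro k
    rw [ht k]
    norm_num
  obtain ⟨C, hC, hkin⟩ := k10_kin_bound hv
  have hmix := k10_mix hp hp1 hF ht4 (K := 4 * (E + C * 4)) (by
    intro m k
    have := hkin (f m) (f' m) (hF m) k
    rwa [hE m v hv, hEk m, ht4 m] at this)
  have hsq : ∀ m, √(p m) ^ 2 = p m := fun m => Real.sq_sqrt (hp m)
  refine ⟨v, fun q x => √(p q.1) * f q.1 q.2 x, fun q k x => √(p q.1) * f' q.1 q.2 k x,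
    hv, hmix.1, hmix.2, ?_, ?_⟩
  · exact k10_mix_rho hp hr hn
  · intro κ _ g g' hg hgt
    rw [k10_mix_energy hp hp1 hv hmix.1 (fun m => (hE m v hv).trans (hEk m))]
    refine fam_lower hv ?_ hg hgt
    intro u w u' w' hu hw nu nw huw
    obtain ⟨Ψ, hΨ, hΨE⟩ := exists_closed_shell hv hu hw nu nw huw
    rw [← hΨE]
    exact (hG 0).2 Ψ hΨ

end

end Vale.Agent.P363.KD
end
end

section

section

/-! KD11: symmetrization. -/

namespace Vale.Agent.P363.KD

open MeasureTheory Set Filter Topology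
open scoped ENNReal ContDiff

noncomputable section

/-- Sum of a nonnegative family over `ι × Bool`. -/
private lemma k11_prod {ι : Type} {a : ι × Bool → ℝ} {s : ι → ℝ} (ha : ∀ p, 0 ≤ a p)
    (hs : ∀ i, a (i, false) + a (i, true) = s i) (h : Summable s) :
    Summable a ∧ ∑' p, a p = ∑' i, s i := by
  have h1 : ∀ i, ∑' b, a (i, b) = s i := fun i => by
    rw [tsum_bool, hs i]
  have h2 : Summable a := by
    rw [summable_prod_of_nonneg ha]
    refine ⟨fun i => (hasSum_fintype _).summable, ?_⟩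
    simp_rw [h1]
    exact h
  refine ⟨h2, ?_⟩
  rw [h2.tsum_prod]
  simp_rw [h1]

private lemma k11_qmp (k : Fin 3) : Measure.QuasiMeasurePreserving (refl k) volume volume :=
  (mp_refl k).quasiMeasurePreserving

private lemma k11_memV_refl {v : R3 → ℝ} (hv : MemV v) (k : Fin 3) :
    MemV (fun x => v (refl k x)) := by
  obtain ⟨a, b, ha, hb, hab⟩ := hv
  refine ⟨fun x => a (refl k x), fun x => b (refl k x), ha.comp_measurePreserving (mp_refl k),
    hb.comp_measurePreserving (mp_refl k), ?_⟩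
  rw [hab]
  rfl

private lemma k11_memV_avg {v w : R3 → ℝ} (hv : MemV v) (hw : MemV w) :
    MemV (fun x => (v x + w x) / 2) := by
  obtain ⟨a, b, ha, hb, hab⟩ := hv
  obtain ⟨a', b', ha', hb', hab'⟩ := hw
  refine ⟨fun x => (1 / 2) * (a x + a' x), fun x => (1 / 2) * (b x + b' x),
    (ha.add ha').const_mul _, (hb.add hb').const_mul _, ?_⟩
  rw [hab, hab']
  funext x
  simp only [Pi.add_apply]
  ring

/-- The reflected family. -/
private def rF {ι : Type} (k : Fin 3) (f : ι → R3 → ℝ) : ι → R3 → ℝ := fun i x => f i (refl k x)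

private def rF' {ι : Type} (k : Fin 3) (f' : ι → Fin 3 → R3 → ℝ) : ι → Fin 3 → R3 → ℝ :=
  fun i j x => if j = k then - f' i j (refl k x) else f' i j (refl k x)

private lemma rF'_sq {ι : Type} (k : Fin 3) (f' : ι → Fin 3 → R3 → ℝ) (i : ι) (j : Fin 3) :
    ∫ x, rF' k f' i j x ^ 2 = ∫ x, f' i j x ^ 2 := by
  have h2 : ∀ x, rF' k f' i j x ^ 2 = f' i j (refl k x) ^ 2 := by
    intro x
    unfold rF'
    split_ifs
    · rw [neg_sq]
    · rfl
  simp_rw [h2]
  exact integral_refl k (fun x => f' i j x ^ 2)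

private lemma rF_fam {ι : Type} (k : Fin 3) {f : ι → R3 → ℝ} {f' : ι → Fin 3 → R3 → ℝ}
    (h : IsFam f f') : IsFam (rF k f) (rF' k f') := by
  refine ⟨fun i => H1o_refl (h.h1 i) k, ?_, fun j => ?_, ?_⟩
  · have h1 : ∀ i, ∫ x, rF k f i x ^ 2 = ∫ x, f i x ^ 2 := fun i =>
      integral_refl k (fun x => f i x ^ 2)
    simp_rw [h1]
    exact h.sum0
  · simp_rw [rF'_sq]
    exact h.sum1 j
  · intro u hu
    have h1 : ∀ i, ∫ x, rF k f i x * u x = ∫ x, f i x * u (refl k x) := by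
      intro i
      have h2 := integral_refl k (fun x => f i x * u (refl k x))
      simp only [refl_refl] at h2
      exact h2
    have h2 : ∫ x, u x ^ 2 = ∫ x, u (refl k x) ^ 2 := (integral_refl k (fun x => u x ^ 2)).symm
    simp_rw [h1]
    rw [h2]
    exact h.pauli _ (hu.comp_measurePreserving (mp_refl k))

private lemma rF_tr {ι : Type} (k : Fin 3) (f : ι → R3 → ℝ) : tr (rF k f) = tr f := by
  unfold tr
  congr 1
  funext i
  exact integral_refl k (fun x => f i x ^ 2)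

private lemma rF_kin {ι : Type} (k : Fin 3) (f' : ι → Fin 3 → R3 → ℝ) :
    kin (rF' k f') = kin f' := by
  unfold kin
  congr 1
  funext i
  simp_rw [rF'_sq]

/-- Energy in the symmetrized potential. -/
private lemma hE_avg {ι : Type} [Countable ι] {v : R3 → ℝ} (hv : MemV v) (k : Fin 3)
    {g : ι → R3 → ℝ} {g' : ι → Fin 3 → R3 → ℝ} (hg : IsFam g g') :
    hE (fun x => (v x + v (refl k x)) / 2) g g' =
      (hE v g g' + hE v (rF k g) (rF' k g')) / 2 := by
  have hv2 := k11_memV_refl hv k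
  obtain ⟨-, -, -, e1⟩ := hE_eq (k11_memV_avg hv hv2) hg
  obtain ⟨-, -, i2, e2⟩ := hE_eq hv hg
  obtain ⟨-, -, i3, -⟩ := hE_eq hv2 hg
  obtain ⟨-, -, -, e4⟩ := hE_eq hv (rF_fam k hg)
  rw [e1, e2, e4, rF_kin]
  have h1 : ∫ x, v x * rho (rF k g) x = ∫ x, v (refl k x) * rho g x := by
    have h2 := integral_refl k (fun x => v (refl k x) * rho g x)
    simp only [refl_refl] at h2
    exact h2
  have h2 : ∫ x, (v x + v (refl k x)) / 2 * rho g x =
      ((∫ x, v x * rho g x) + ∫ x, v (refl k x) * rho g x) / 2 := by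
    rw [← integral_add i2 i3, ← integral_div]
    congr 1
    funext x
    ring
  rw [h1, h2]
  ring

/-- The sign of a parity. -/
private def sgK (b : Bool) : ℝ := if b then -1 else 1

/-- Even and odd part of a function. -/
private def spl (k : Fin 3) (b : Bool) (u : R3 → ℝ) : R3 → ℝ :=
  fun x => (1 / 2) * (u x + sgK b * u (refl k x))

private def sF {ι : Type} (k : Fin 3) (f : ι → R3 → ℝ) : ι × Bool → R3 → ℝ :=
  fun p => spl k p.2 (f p.1)

private def sF' {ι : Type} (k : Fin 3) (f' : ι → Fin 3 → R3 → ℝ) : ι × Bool → Fin 3 → R3 → ℝ :=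
  fun p j x => (1 / 2) * (f' p.1 j x + sgK p.2 *
    (if j = k then - f' p.1 j (refl k x) else f' p.1 j (refl k x)))

private lemma spl_memLp {u : R3 → ℝ} (hu : MemLp u 2 volume) (k : Fin 3) (b : Bool) :
    MemLp (spl k b u) 2 volume :=
  (hu.add ((hu.comp_measurePreserving (mp_refl k)).const_mul (sgK b))).const_mul (1 / 2)

private lemma spl_sq {u w : R3 → ℝ} (hu : MemLp u 2 volume) (hw : MemLp w 2 volume)
    (huw : ∫ x, w x ^ 2 = ∫ x, u x ^ 2) :
    (∫ x, ((1 / 2) * (u x + sgK false * w x)) ^ 2) + ∫ x, ((1 / 2) * (u x + sgK true * w x)) ^ 2 =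
      ∫ x, u x ^ 2 := by
  have i1 : ∀ b, Integrable (fun x => ((1 / 2) * (u x + sgK b * w x)) ^ 2) := fun b =>
    ((hu.add (hw.const_mul (sgK b))).const_mul (1 / 2)).integrable_sq
  rw [← integral_add (i1 false) (i1 true)]
  have h1 : ∀ x, ((1 / 2) * (u x + sgK false * w x)) ^ 2 + ((1 / 2) * (u x + sgK true * w x)) ^ 2 =
      (1 / 2) * u x ^ 2 + (1 / 2) * w x ^ 2 := by
    intro x
    simp only [sgK]
    norm_num
    ring
  simp_rw [h1]
  rw [integral_add (hu.integrable_sq.const_mul _) (hw.integrable_sq.const_mul _),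
    integral_const_mul, integral_const_mul, huw]
  ring

private lemma sF_sq {ι : Type} (k : Fin 3) {f : ι → R3 → ℝ} {f' : ι → Fin 3 → R3 → ℝ}
    (h : IsFam f f') (i : ι) : (∫ x, sF k f (i, false) x ^ 2) + ∫ x, sF k f (i, true) x ^ 2 =
      ∫ x, f i x ^ 2 :=
  spl_sq (h.h1 i).memLp ((h.h1 i).memLp.comp_measurePreserving (mp_refl k))
    (integral_refl k (fun x => f i x ^ 2))

private lemma sF'_sq {ι : Type} (k : Fin 3) {f : ι → R3 → ℝ} {f' : ι → Fin 3 → R3 → ℝ}
    (h : IsFam f f') (i : ι) (j : Fin 3) :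
    (∫ x, sF' k f' (i, false) j x ^ 2) + ∫ x, sF' k f' (i, true) j x ^ 2 =
      ∫ x, f' i j x ^ 2 :=
  spl_sq ((h.h1 i).memLp' j) ((H1o_refl (h.h1 i) k).memLp' j) (rF'_sq k f' i j)

private lemma sF_fam {ι : Type} (k : Fin 3) {f : ι → R3 → ℝ} {f' : ι → Fin 3 → R3 → ℝ}
    (h : IsFam f f') : IsFam (sF k f) (sF' k f') := by
  refine ⟨fun p => ?_, ?_, fun j => ?_, ?_⟩
  · exact H1o_smul (H1o_add (h.h1 p.1) (H1o_smul (H1o_refl (h.h1 p.1) k) (sgK p.2))) (1 / 2)
  · exact (k11_prod (fun p => integral_nonneg fun x => sq_nonneg _) (sF_sq k h) h.sum0).1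
  · exact (k11_prod (fun p => integral_nonneg fun x => sq_nonneg _)
      (fun i => sF'_sq k h i j) (h.sum1 j)).1
  · intro u hu
    have hs : ∀ p : ι × Bool, ∫ x, sF k f p x * u x = ∫ x, f p.1 x * spl k p.2 u x := by
      intro p
      have hu2 := hu.comp_measurePreserving (mp_refl k)
      have hf := (h.h1 p.1).memLp
      have hf2 := hf.comp_measurePreserving (mp_refl k)
      have i1 : Integrable (fun x => f p.1 x * u x) := hf.integrable_mul hu
      have i2 : Integrable (fun x => f p.1 (refl k x) * u x) := hf2.integrable_mul hu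
      have i3 : Integrable (fun x => f p.1 x * u (refl k x)) := hf.integrable_mul hu2
      have e1 : ∫ x, f p.1 (refl k x) * u x = ∫ x, f p.1 x * u (refl k x) := by
        have h2 := integral_refl k (fun x => f p.1 x * u (refl k x))
        simp only [refl_refl] at h2
        exact h2
      have e2 : ∫ x, sF k f p x * u x = (1 / 2) * (∫ x, f p.1 x * u x) +
          (1 / 2) * sgK p.2 * ∫ x, f p.1 (refl k x) * u x := by
        rw [← integral_const_mul, ← integral_const_mul, ← integral_add (i1.const_mul _)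
          (i2.const_mul _)]
        congr 1
        funext x
        unfold sF spl
        ring
      have e3 : ∫ x, f p.1 x * spl k p.2 u x = (1 / 2) * (∫ x, f p.1 x * u x) +
          (1 / 2) * sgK p.2 * ∫ x, f p.1 x * u (refl k x) := by
        rw [← integral_const_mul, ← integral_const_mul, ← integral_add (i1.const_mul _)
          (i3.const_mul _)]
        congr 1
        funext x
        unfold spl
        ring
      rw [e2, e3, e1]
    simp_rw [hs]
    by_cases hsum : Summable (fun p : ι × Bool => (∫ x, f p.1 x * spl k p.2 u x) ^ 2)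
    · rw [hsum.tsum_prod]
      have s1 : ∀ b : Bool, Summable (fun i => (∫ x, f i x * spl k b u x) ^ 2) := fun b =>
        hsum.comp_injective (i := fun i : ι => (i, b)) (fun i j hij => (Prod.mk.inj hij).1)
      simp_rw [tsum_bool]
      rw [(s1 false).tsum_add (s1 true)]
      have p1 := h.pauli _ (spl_memLp hu k false)
      have p2 := h.pauli _ (spl_memLp hu k true)
      have p3 := spl_sq hu (hu.comp_measurePreserving (mp_refl k))
        (integral_refl k (fun x => u x ^ 2))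
      have e1 : ∀ b, ∫ x, spl k b u x ^ 2 = ∫ x, ((1 / 2) * (u x + sgK b * (u ∘ refl k) x)) ^ 2 :=
        fun b => rfl
      rw [e1] at p1 p2
      linarith only [p1, p2, p3]
    · rw [tsum_eq_zero_of_not_summable hsum]
      have : 0 ≤ ∫ x, u x ^ 2 := integral_nonneg fun x => sq_nonneg _
      linarith

private lemma sF_tr {ι : Type} (k : Fin 3) {f : ι → R3 → ℝ} {f' : ι → Fin 3 → R3 → ℝ}
    (h : IsFam f f') : tr (sF k f) = tr f :=
  (k11_prod (fun _ => integral_nonneg fun _ => sq_nonneg _) (sF_sq k h) h.sum0).2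

private lemma sF_kin {ι : Type} (k : Fin 3) {f : ι → R3 → ℝ} {f' : ι → Fin 3 → R3 → ℝ}
    (h : IsFam f f') : kin (sF' k f') = kin f' := by
  refine (k11_prod (a := fun p : ι × Bool => (1 / 2) * ∑ j, ∫ x, sF' k f' p j x ^ 2)
    (s := fun i => (1 / 2) * ∑ j, ∫ x, f' i j x ^ 2) ?_ ?_ ?_).2
  · intro p
    exact mul_nonneg (by norm_num) (Finset.sum_nonneg fun j _ => integral_nonneg fun x =>
      sq_nonneg _)
  · intro i
    rw [← mul_add, ← Finset.sum_add_distrib]
    congr 1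
    exact Finset.sum_congr rfl fun j _ => sF'_sq k h i j
  · apply Summable.mul_left
    exact summable_sum fun j _ => h.sum1 j

private lemma sF_rho {ι : Type} [Countable ι] {v : R3 → ℝ} (hv : MemV v) (k : Fin 3)
    {f : ι → R3 → ℝ} {f' : ι → Fin 3 → R3 → ℝ} (h : IsFam f f') :
    ∀ᵐ x, rho (sF k f) x = (rho f x + rho f (refl k x)) / 2 := by
  have h1 := (hE_eq hv h).1
  filter_upwards [h1, (k11_qmp k).ae h1] with x s1 s2
  have h2 := (k11_prod (a := fun p : ι × Bool => sF k f p x ^ 2)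
    (s := fun i => (1 / 2) * (f i x ^ 2 + f i (refl k x) ^ 2)) (fun p => sq_nonneg _)
    (fun i => by
      simp only [sF, spl, sgK]
      norm_num
      ring)
    ((s1.add s2).mul_left _)).2
  unfold rho
  rw [h2, tsum_mul_left, s1.tsum_add s2]
  ring

/-- One step of the symmetrization. -/
private lemma k11_step {v : R3 → ℝ} {ι : Type} [Countable ι] {f : ι → R3 → ℝ}
    {f' : ι → Fin 3 → R3 → ℝ} {n : R3 → ℝ} (h : IsMin v f f' n) (k : Fin 3)
    (hn : ∀ᵐ x, n (refl k x) = n x) :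
    IsMin (fun x => (v x + v (refl k x)) / 2) (sF k f) (sF' k f') n := by
  have hv := h.memV
  have hv2 := k11_memV_refl hv k
  have hF := sF_fam k h.fam
  have hrho : ∀ᵐ x, rho (sF k f) x = n x := by
    filter_upwards [sF_rho hv k h.fam, h.rho, (k11_qmp k).ae h.rho, hn] with x a1 a2 a3 a4
    rw [a1, a2, a3, a4]
    ring
  have hrho2 : ∀ᵐ x, rho (rF k (sF k f)) x = n x := by
    filter_upwards [(k11_qmp k).ae hrho, hn] with x a1 a2
    exact a1.trans a2
  have hE0 : hE v f f' = kin f' + ∫ x, v x * n x := by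
    rw [(hE_eq hv h.fam).2.2.2]
    congr 1
    apply integral_congr_ae
    filter_upwards [h.rho] with x hx
    rw [hx]
  have hE1 : hE v (sF k f) (sF' k f') = hE v f f' := by
    rw [(hE_eq hv hF).2.2.2, hE0, sF_kin k h.fam]
    congr 1
    apply integral_congr_ae
    filter_upwards [hrho] with x hx
    rw [hx]
  have hE2 : hE v (rF k (sF k f)) (rF' k (sF' k f')) = hE v f f' := by
    rw [(hE_eq hv (rF_fam k hF)).2.2.2, hE0, rF_kin, sF_kin k h.fam]
    congr 1
    apply integral_congr_ae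
    filter_upwards [hrho2] with x hx
    rw [hx]
  refine ⟨k11_memV_avg hv hv2, hF, ?_, hrho, ?_⟩
  · rw [sF_tr k h.fam, h.tr]
  · intro κ _ g g' hg htr
    rw [hE_avg hv k hF, hE_avg hv k hg, hE1, hE2]
    have m1 := h.min κ g g' hg htr
    have m2 := h.min κ (rF k g) (rF' k g') (rF_fam k hg) (by rw [rF_tr, htr])
    linarith only [m1, m2]

/-- KD11. Symmetrization of the potential and of the density matrix. -/
theorem exists_adapted {v : R3 → ℝ} {ι : Type} [Countable ι] {f : ι → R3 → ℝ}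
    {f' : ι → Fin 3 → R3 → ℝ} {n : R3 → ℝ} (h : IsMin v f f' n)
    (hn : ∀ᵐ x, n (refl 0 x) = n x) :
    ∃ (v₁ : R3 → ℝ) (f₁ : ι × Bool → R3 → ℝ) (f₁' : ι × Bool → Fin 3 → R3 → ℝ),
      IsMin v₁ f₁ f₁' n ∧ (∀ x, v₁ (refl 0 x) = v₁ x) ∧ Adapted (fun i => i.2) f₁ := by
  refine ⟨_, sF 0 f, sF' 0 f', k11_step h 0 hn, ?_, ?_⟩
  · intro x
    rw [refl_refl]
    ring
  · intro p
    filter_upwards with x
    unfold sF spl
    rw [refl_refl]
    rcases p with ⟨i, b⟩
    cases b <;> simp [sgK] <;> ring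

end

end Vale.Agent.P363.KD
end
end

section

section

/-! KD20: output of the Kohn-Sham side. -/

namespace Vale.Agent.P363.KD

open MeasureTheory Set Filter Topology
open scoped ENNReal ContDiff

noncomputable section

/-- The hydrogenic potential is admissible. -/
theorem memV_v0 : MemV v0 := by
  have hm : Measurable v0 := by
    unfold v0
    fun_prop
  refine memV_of_bound (M := 1) (fun _ => (0 : R3)) hm.aestronglyMeasurable (C := 1) ?_
  filter_upwards with x
  unfold v0 Kw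
  rw [abs_neg, abs_of_nonneg (by positivity)]
  simp only [one_div, Finset.univ_unique, Fin.default_eq_zero, Fin.isValue, sub_zero, Finset.sum_const, Finset.card_singleton, one_smul, one_mul, le_add_iff_nonneg_left, zero_le_one]

/-- KD20. OUTPUT OF THE KOHN-SHAM SIDE. -/
theorem ks_main (hyd : HydIneq) {q : Fin 4 → ℝ} (hq0 : 0 < q 1) (hq2 : q 1 < 2) :
    ∃ δ : ℝ, 0 < δ ∧ ∀ Ψ : ElectronState 4, normSq Ψ = 1 →
      (∀ᵐ x, density (n := 3) Ψ (refl 0 x) = density (n := 3) Ψ x) →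
      energy (sumPotential v0) Ψ ≤ -(5 / 4) + δ →
      (∫ x, |density (n := 3) Ψ x - n0 q x| ≤ δ) →
      NonintEnsembleRepresentable 3 (density (n := 3) Ψ) →
      ∃ (v : R3 → ℝ) (e : ℝ) (φ : R3 → ℝ) (φ' : Fin 3 → R3 → ℝ),
        KSOut (density (n := 3) Ψ) v e φ φ' := by
  obtain ⟨δ, hδ, H⟩ := occ_of_close hyd hq0 hq2
  refine ⟨δ, hδ, ?_⟩
  intro Ψ hΨ hsym hen hclose hrep
  obtain ⟨v, f, f', hmin⟩ := exists_isMin hrep
  obtain ⟨v₁, g, g', hmin₁, hv₁, hc⟩ := exists_adapted hmin hsym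
  obtain ⟨F, F', hF, htF, hrF, hEF⟩ := exists_fam_of_state (n := 3) Ψ hΨ
  have htF4 : tr F = 4 := by rw [htF]; norm_num
  -- densities
  have hrhoF : ∀ᵐ x, rho F x = density (n := 3) Ψ x := by
    filter_upwards [hrF] with x hx
    exact hx.tsum_eq
  have hrg := hmin₁.rho
  have hle : hE v₁ g g' ≤ hE v₁ F F' := hmin₁.min ℕ F F' hF htF4
  obtain ⟨-, -, -, e1⟩ := hE_eq hmin₁.memV hmin₁.fam
  obtain ⟨-, -, -, e2⟩ := hE_eq hmin₁.memV hF
  obtain ⟨-, -, -, e3⟩ := hE_eq memV_v0 hmin₁.fam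
  obtain ⟨-, -, -, e4⟩ := hE_eq memV_v0 hF
  have hi : ∀ w : R3 → ℝ, ∫ x, w x * rho g x = ∫ x, w x * rho F x := by
    intro w
    apply integral_congr_ae
    filter_upwards [hrhoF, hrg] with x h1 h2
    rw [h1, h2]
  have hkin : kin g' ≤ kin F' := by
    rw [e1, e2, hi v₁] at hle
    linarith only [hle]
  have hE0 : hE v0 g g' ≤ -(5 / 4) + δ := by
    have h5 : hE v0 F F' = energy (sumPotential v0) Ψ := hEF v0 memV_v0
    rw [e4] at h5
    rw [e3, hi v0]
    linarith only [hen, hkin, h5]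
  have hcl : (∫ x, |rho g x - n0 q x|) ≤ δ := by
    refine le_trans (le_of_eq ?_) hclose
    apply integral_congr_ae
    filter_upwards [hrg] with x h2
    rw [h2]
  obtain ⟨o1, o2⟩ := H _ g g' _ hmin₁.fam hmin₁.tr hc hE0 hcl
  obtain ⟨e, φ, φ', hout⟩ := ksOut_of_adapted hmin₁ hv₁ hc o1 o2
  exact ⟨v₁, e, φ, φ', hout⟩

end

end Vale.Agent.P363.KD
end
end

section

section

/-! # Spin: the `S₄` argument -/

namespace Vale.Agent.P363.D

open MeasureTheory Set Filter Topology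
open scoped ENNReal ContDiff

noncomputable section

namespace SpinA

/-- `H¹` function with its gradient. -/
structure Pr where
  f : Conf 4 → ℝ
  g : Fin 4 → Fin 3 → Conf 4 → ℝ
  h : HN f g

def Pr.add (P Q : Pr) : Pr := ⟨_, _, P.h.add Q.h⟩

def Pr.smul (c : ℝ) (P : Pr) : Pr := ⟨_, _, P.h.const_mul c⟩

def Pr.perm (σ : Equiv.Perm (Fin 4)) (P : Pr) : Pr := ⟨_, _, P.h.perm σ⟩

def BQ (w : Conf 4 → ℝ) (P Q : Pr) : ℝ := bN w P.f P.g Q.f Q.g

variable {w : Conf 4 → ℝ}

lemma BQ_comm (P Q : Pr) : BQ w P Q = BQ w Q P := bN_comm _ _ _ _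

lemma BQ_add_right (hw : FBd w) (P Q R : Pr) : BQ w P (Q.add R) = BQ w P Q + BQ w P R :=
  bN_add_right hw P.h Q.h R.h

lemma BQ_smul_right (c : ℝ) (P Q : Pr) : BQ w P (Pr.smul c Q) = c * BQ w P Q :=
  bN_const_mul_right c

lemma BQ_add_left (hw : FBd w) (P Q R : Pr) : BQ w (P.add Q) R = BQ w P R + BQ w Q R := by
  rw [BQ_comm, BQ_add_right hw, BQ_comm R P, BQ_comm R Q]

lemma BQ_smul_left (c : ℝ) (P Q : Pr) : BQ w (Pr.smul c P) Q = c * BQ w P Q := by
  rw [BQ_comm, BQ_smul_right, BQ_comm]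

lemma BQ_perm (σ : Equiv.Perm (Fin 4)) (hw : ∀ x, w (x ∘ σ) = w x) (P Q : Pr) :
    BQ w (P.perm σ) (Q.perm σ) = BQ w P Q := bN_perm σ hw _ _ _ _

lemma BQ_congr {P P' Q Q' : Pr} (h1 : P.f =ᵐ[volume] P'.f) (h2 : Q.f =ᵐ[volume] Q'.f) :
    BQ w P Q = BQ w P' Q' :=
  bN_congr h1 (P.h.grad_unique P'.h h1) h2 (Q.h.grad_unique Q'.h h2)

lemma BQ_congr' {P P' Q Q' : Pr} {s t : ℝ} (h1 : ∀ᵐ x, P.f x = s * P'.f x)
    (h2 : ∀ᵐ x, Q.f x = t * Q'.f x) : BQ w P Q = s * t * BQ w P' Q' := by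
  rw [BQ_congr (P' := Pr.smul s P') (Q' := Pr.smul t Q') h1 h2, BQ_smul_left, BQ_smul_right]
  ring

/-- `P` is antisymmetric under `σ`. -/
def An (σ : Equiv.Perm (Fin 4)) (f : Conf 4 → ℝ) : Prop := ∀ᵐ x : Conf 4, f (x ∘ σ) = -f x

lemma ae_perm {p : Conf 4 → Prop} (h : ∀ᵐ x, p x) (σ : Equiv.Perm (Fin 4)) :
    ∀ᵐ x : Conf 4, p (x ∘ σ) := (mp_perm σ).quasiMeasurePreserving.ae h

/-- the main relation: if `ρ τ = σ s` and `f` is antisymmetric under `s` then
`f (x ∘ ρ ∘ τ) = - f (x ∘ σ)` -/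
lemma rel {f : Conf 4 → ℝ} {s : Equiv.Perm (Fin 4)} (hs : An s f) {ρ τ σ : Equiv.Perm (Fin 4)}
    (e : ρ * τ = σ * s) : ∀ᵐ x : Conf 4, f ((x ∘ ρ) ∘ τ) = -f (x ∘ σ) := by
  filter_upwards [ae_perm hs σ] with x hx
  have h1 : (x ∘ ρ) ∘ τ = (x ∘ σ) ∘ s := by
    have := congrArg (fun π : Equiv.Perm (Fin 4) => x ∘ π) e
    simpa only [Function.comp_assoc, Equiv.Perm.coe_mul] using this
  rw [h1, hx]

lemma rel1 (f : Conf 4 → ℝ) {ρ τ : Equiv.Perm (Fin 4)}
    (e : ρ * τ = 1) (x : Conf 4) : f ((x ∘ ρ) ∘ τ) = f x := by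
  have h1 : (x ∘ ρ) ∘ τ = x := by
    have := congrArg (fun π : Equiv.Perm (Fin 4) => x ∘ π) e
    simpa only [Function.comp_assoc, Equiv.Perm.coe_mul, Equiv.Perm.coe_one, CompTriple.comp_eq] using this
  rw [h1]

lemma An_conj {f : Conf 4 → ℝ} {s t π : Equiv.Perm (Fin 4)} (hs : An s f) (ht : An t f)
    (e : t * s * t = π) : An π f := by
  filter_upwards [ht, ae_perm hs t, ae_perm ht (t * s)] with x k1 k2 k3
  have e2 : x ∘ π = (x ∘ (t * s : Equiv.Perm (Fin 4))) ∘ t := by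
    rw [← e]
    rfl
  have e3 : x ∘ (t * s : Equiv.Perm (Fin 4)) = (x ∘ t) ∘ s := rfl
  rw [e2, k3, e3, k2, k1]
  ring

/-- constants are form bounded -/
lemma FBd_const (c : ℝ) : FBd (N := 4) (fun _ : Conf 4 => c) := by
  refine ⟨aestronglyMeasurable_const, |c|, abs_nonneg c, fun f g h => ⟨?_, ?_⟩⟩
  · exact (h.memLp.integrable_sq).const_mul c
  · rw [integral_const_mul]
    apply mul_le_mul_of_nonneg_left _ (abs_nonneg c)
    have : 0 ≤ ∑ i, ∑ k, ∫ x, g i k x ^ 2 := Finset.sum_nonneg fun i _ =>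
      Finset.sum_nonneg fun k _ => integral_nonneg fun x => sq_nonneg _
    linarith

end SpinA

open SpinA

theorem s4_argument {w : Conf 4 → ℝ} (hw : FBd w)
    (hsym : ∀ (σ : Equiv.Perm (Fin 4)) x, w (x ∘ σ) = w x) {E : ℝ}
    (h2 : ∀ f g, HN f g → Sec4 f → E * ∫ x, f x ^ 2 ≤ qN w f g) {f : Conf 4 → ℝ}
    {g : Fin 4 → Fin 3 → Conf 4 → ℝ} (h : HN f g) (h01 : AntiSw 0 1 f) (h12 : AntiSw 1 2 f) :
    E * ∫ x, f x ^ 2 ≤ qN w f g := by
  have a01 : An (Equiv.swap 0 1) f := h01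
  have a12 : An (Equiv.swap 1 2) f := h12
  have a02 : An (Equiv.swap 0 2) f := by
    exact An_conj a01 a12 (by decide)
  -- the four functions
  set F : Pr := ⟨f, g, h⟩ with hF
  set F0 : Pr := F.perm (Equiv.swap 0 3) with hF0
  set F1 : Pr := F.perm (Equiv.swap 1 3) with hF1
  set F2 : Pr := F.perm (Equiv.swap 2 3) with hF2
  set G4 : Pr := ((Pr.smul (1 / 4) F).add (Pr.smul (-1 / 4) F0)).add
    ((Pr.smul (-1 / 4) F1).add (Pr.smul (-1 / 4) F2)) with hG4
  set G2 : Pr := ((Pr.smul (1 / 2) F).add (Pr.smul (1 / 2) F0)).add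
    ((Pr.smul (1 / 2) F1).add (Pr.smul (-1 / 2) F2)) with hG2
  have g4 : ∀ x, G4.f x = 1 / 4 * f x + -1 / 4 * f (x ∘ (Equiv.swap 0 3 : Equiv.Perm (Fin 4))) +
      (-1 / 4 * f (x ∘ (Equiv.swap 1 3 : Equiv.Perm (Fin 4))) +
        -1 / 4 * f (x ∘ (Equiv.swap 2 3 : Equiv.Perm (Fin 4)))) := fun x => rfl
  have g2 : ∀ x, G2.f x = 1 / 2 * f x + 1 / 2 * f (x ∘ (Equiv.swap 0 3 : Equiv.Perm (Fin 4))) +
      (1 / 2 * f (x ∘ (Equiv.swap 1 3 : Equiv.Perm (Fin 4))) +
        -1 / 2 * f (x ∘ (Equiv.swap 2 3 : Equiv.Perm (Fin 4)))) := fun x => rfl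
  -- relations
  have r1 := rel (ρ := Equiv.swap 0 1) (τ := Equiv.swap 0 3) (σ := Equiv.swap 1 3) a01 (by decide)
  have r2 := rel (ρ := Equiv.swap 0 1) (τ := Equiv.swap 1 3) (σ := Equiv.swap 0 3) a01 (by decide)
  have r3 := rel (ρ := Equiv.swap 0 1) (τ := Equiv.swap 2 3) (σ := Equiv.swap 2 3) a01 (by decide)
  have r4 := rel (ρ := Equiv.swap 2 3) (τ := Equiv.swap 0 3) (σ := Equiv.swap 0 3) a02 (by decide)
  have r5 := rel (ρ := Equiv.swap 2 3) (τ := Equiv.swap 1 3) (σ := Equiv.swap 1 3) a12 (by decide)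
  have r6 := rel1 f (ρ := Equiv.swap 2 3) (τ := Equiv.swap 2 3) (by decide)
  have s4 : Sec4 G4.f := by
    constructor
    · filter_upwards [a01, r1, r2, r3] with x k0 k1 k2 k3
      simp only [g4]
      rw [k1, k2, k3, k0]
      ring
    · filter_upwards [r4, r5] with x k4 k5
      simp only [g4]
      rw [k4, k5, r6 x]
      ring
  have s2 : Sec4 G2.f := by
    constructor
    · filter_upwards [a01, r1, r2, r3] with x k0 k1 k2 k3
      simp only [g2]
      rw [k1, k2, k3, k0]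
      ring
    · filter_upwards [r4, r5] with x k4 k5
      simp only [g2]
      rw [k4, k5, r6 x]
      ring
  -- the key identity
  have key : ∀ w : Conf 4 → ℝ, FBd w → (∀ (σ : Equiv.Perm (Fin 4)) x, w (x ∘ σ) = w x) →
      qN w f g = qN w G4.f G4.g + 3 / 4 * qN w G2.f G2.g := by
    intro w hw hsym
    have ea0 : BQ w F0 F0 = BQ w F F := BQ_perm _ (hsym _) _ _
    have ea1 : BQ w F1 F1 = BQ w F F := BQ_perm _ (hsym _) _ _
    have ea2 : BQ w F2 F2 = BQ w F F := BQ_perm _ (hsym _) _ _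
    -- off-diagonal
    have hq : ∀ (ρ τ σ s : Equiv.Perm (Fin 4)), An s f → ρ * τ = σ * s →
        ∀ᵐ x, ((F.perm τ).perm ρ).f x = (-1) * (F.perm σ).f x := by
      intro ρ τ σ s hs e
      filter_upwards [rel hs e] with x hx
      change f ((x ∘ ρ) ∘ τ) = (-1) * f (x ∘ σ)
      rw [hx]
      ring
    have hq1 : ∀ (ρ : Equiv.Perm (Fin 4)), An ρ f → ∀ᵐ x, (F.perm ρ).f x = (-1) * F.f x := by
      intro ρ hs
      filter_upwards [hs] with x hx
      change f (x ∘ ρ) = (-1) * f x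
      rw [hx]
      ring
    have hq2 : ∀ (ρ : Equiv.Perm (Fin 4)), ρ * ρ = 1 → ∀ᵐ x, ((F.perm ρ).perm ρ).f x = 1 * F.f x := by
      intro ρ e
      refine Eventually.of_forall fun x => ?_
      change f ((x ∘ ρ) ∘ ρ) = 1 * f x
      rw [rel1 f e x]
      ring
    have eb1 : BQ w F F0 = BQ w F F1 := by
      rw [← BQ_perm (Equiv.swap 0 1) (hsym _) F F0,
        BQ_congr' (hq1 _ a01) (hq (Equiv.swap 0 1) (Equiv.swap 0 3) (Equiv.swap 1 3) _ a01
          (by decide))]
      ring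
    have eb2 : BQ w F F1 = BQ w F F2 := by
      rw [← BQ_perm (Equiv.swap 1 2) (hsym _) F F1,
        BQ_congr' (hq1 _ a12) (hq (Equiv.swap 1 2) (Equiv.swap 1 3) (Equiv.swap 2 3) _ a12
          (by decide))]
      ring
    have ec1 : BQ w F0 F1 = - BQ w F F1 := by
      rw [← BQ_perm (Equiv.swap 0 3) (hsym _) F0 F1,
        BQ_congr' (hq2 (Equiv.swap 0 3) (by decide)) (hq (Equiv.swap 0 3) (Equiv.swap 1 3)
          (Equiv.swap 1 3) _ a01 (by decide))]
      ring
    have ec2 : BQ w F0 F2 = - BQ w F F2 := by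
      rw [← BQ_perm (Equiv.swap 0 3) (hsym _) F0 F2,
        BQ_congr' (hq2 (Equiv.swap 0 3) (by decide)) (hq (Equiv.swap 0 3) (Equiv.swap 2 3)
          (Equiv.swap 2 3) _ a02 (by decide))]
      ring
    have ec3 : BQ w F1 F2 = - BQ w F F2 := by
      rw [← BQ_perm (Equiv.swap 1 3) (hsym _) F1 F2,
        BQ_congr' (hq2 (Equiv.swap 1 3) (by decide)) (hq (Equiv.swap 1 3) (Equiv.swap 2 3)
          (Equiv.swap 2 3) _ a12 (by decide))]
      ring
    have q0 : qN w f g = BQ w F F := (bN_self _ _).symm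
    have q4 : qN w G4.f G4.g = BQ w G4 G4 := (bN_self _ _).symm
    have q2 : qN w G2.f G2.g = BQ w G2 G2 := (bN_self _ _).symm
    rw [q0, q4, q2]
    simp only [hG4, hG2, BQ_add_left hw, BQ_add_right hw, BQ_smul_left, BQ_smul_right]
    rw [BQ_comm F0 F, BQ_comm F1 F, BQ_comm F2 F, BQ_comm F1 F0, BQ_comm F2 F0, BQ_comm F2 F1,
      ea0, ea1, ea2, ec1, ec2, ec3, eb1, eb2]
    ring
  have k0 := key (fun _ => 0) (FBd_const 0) (fun _ _ => rfl)
  have k1 := key (fun _ => 1) (FBd_const 1) (fun _ _ => rfl)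
  have kw := key w hw hsym
  have hL : ∀ (u : Conf 4 → ℝ) (gu : Fin 4 → Fin 3 → Conf 4 → ℝ),
      qN (fun _ => 1) u gu - qN (fun _ => 0) u gu = ∫ x, u x ^ 2 := by
    intro u gu
    unfold qN
    simp only [one_div, one_mul, zero_mul, integral_zero, add_zero, add_sub_cancel_left]
  have hN : ∫ x, f x ^ 2 = (∫ x, G4.f x ^ 2) + 3 / 4 * ∫ x, G2.f x ^ 2 := by
    rw [← hL f g, ← hL G4.f G4.g, ← hL G2.f G2.g]
    linarith
  have b4 := h2 _ _ G4.h s4
  have b2 := h2 _ _ G2.h s2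
  rw [kw, hN]
  linarith only [b4, b2]

end

end Vale.Agent.P363.D
end
end

section

section

/-! # Spin: the electron state of a sector function -/

namespace Vale.Agent.P363.D.St

open MeasureTheory Set Filter Topology
open scoped ENNReal ContDiff

noncomputable section

/-! ### combinatorics of the permutations of four electrons -/

/-- the spin configuration `(0, 0, 1, 1)` -/
def sst : Fin 4 → Fin 2 := ![0, 0, 1, 1]

/-- real sign -/
def sg (σ : Equiv.Perm (Fin 4)) : ℝ := ((Equiv.Perm.sign σ : ℤ) : ℝ)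

/-- indicator of `s ∘ σ = (0, 0, 1, 1)` -/
def cf (s : Fin 4 → Fin 2) (σ : Equiv.Perm (Fin 4)) : ℝ := if s ∘ σ = sst then 1 else 0

theorem sg_mul (σ τ : Equiv.Perm (Fin 4)) : sg (σ * τ) = sg σ * sg τ := by
  unfold sg
  rw [Equiv.Perm.sign_mul]
  push_cast
  ring

theorem sg_sq (σ : Equiv.Perm (Fin 4)) : sg σ * sg σ = 1 := by
  unfold sg
  rcases Int.units_eq_one_or (Equiv.Perm.sign σ) with h | h <;> rw [h] <;> simp

theorem sg_swap {i j : Fin 4} (h : i ≠ j) : sg (Equiv.swap i j) = -1 := by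
  unfold sg
  rw [Equiv.Perm.sign_swap h]
  simp

theorem cf_mul {s : Fin 4 → Fin 2} {σ : Equiv.Perm (Fin 4)} (h : s ∘ σ = sst)
    (ρ : Equiv.Perm (Fin 4)) : cf s (σ * ρ) = cf sst ρ := by
  unfold cf
  have : s ∘ (σ * ρ : Equiv.Perm (Fin 4)) = sst ∘ ρ := by
    rw [← h]; rfl
  rw [this]

theorem stab_cases : ∀ ρ : Equiv.Perm (Fin 4), sst ∘ ρ = sst →
    ρ = 1 ∨ ρ = Equiv.swap 0 1 ∨ ρ = Equiv.swap 2 3 ∨ ρ = Equiv.swap 0 1 * Equiv.swap 2 3 := by
  decide

theorem stab_card : ∑ ρ, cf sst ρ = 4 := by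
  unfold cf
  rw [Finset.sum_boole]
  have : (Finset.univ.filter fun ρ : Equiv.Perm (Fin 4) => sst ∘ ρ = sst).card = 4 := by
    decide
  rw [this]
  norm_num

theorem sum_cf (σ : Equiv.Perm (Fin 4)) : ∑ s, cf s σ = 1 := by
  unfold cf
  have h : ∀ s : Fin 4 → Fin 2, (s ∘ σ = sst) = (s = sst ∘ σ.symm) := fun s => by
    apply propext
    constructor
    · intro h
      rw [← h]
      funext i
      simp
    · intro h
      rw [h]
      funext i
      simp
  simp only [h]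
  rw [Finset.sum_ite_eq' Finset.univ (sst ∘ σ.symm)]
  simp

/-- the square of the alternating sum -/
theorem sq_sum {u : Equiv.Perm (Fin 4) → ℝ}
    (hu : ∀ σ ρ : Equiv.Perm (Fin 4), sst ∘ ρ = sst → u (σ * ρ) = sg ρ * u σ)
    (s : Fin 4 → Fin 2) :
    (∑ σ, sg σ * (cf s σ * u σ)) ^ 2 = 4 * ∑ σ, cf s σ * u σ ^ 2 := by
  have inner : ∀ σ : Equiv.Perm (Fin 4), s ∘ σ = sst → ∑ τ, sg τ * (cf s τ * u τ) = 4 * (sg σ * u σ) := by
    intro σ h
    rw [← Equiv.sum_comp (Equiv.mulLeft σ)]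
    have e : ∀ ρ : Equiv.Perm (Fin 4), sg (σ * ρ) * (cf s (σ * ρ) * u (σ * ρ)) =
        cf sst ρ * (sg σ * u σ) := by
      intro ρ
      rw [cf_mul h, sg_mul]
      by_cases hr : sst ∘ ρ = sst
      · rw [hu σ ρ hr]
        linear_combination (sg σ * cf sst ρ * u σ) * sg_sq ρ
      · have : cf sst ρ = 0 := by unfold cf; rw [if_neg hr]
        rw [this]; ring
    simp only [Equiv.coe_mulLeft, e]
    rw [← Finset.sum_mul, stab_card]
  rw [sq]
  nth_rewrite 1 [Finset.sum_mul]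
  rw [Finset.mul_sum]
  refine Finset.sum_congr rfl fun σ _ => ?_
  by_cases h : s ∘ σ = sst
  · rw [inner σ h]
    have : cf s σ = 1 := by unfold cf; rw [if_pos h]
    rw [this]
    linear_combination (4 * u σ ^ 2) * sg_sq σ
  · have : cf s σ = 0 := by unfold cf; rw [if_neg h]
    rw [this]; ring

/-- the alternating sum -/
def comb (s : Fin 4 → Fin 2) (u : Equiv.Perm (Fin 4) → Conf 4 → ℝ) (x : Conf 4) : ℝ :=
  (√96)⁻¹ * ∑ σ, sg σ * (cf s σ * u σ x)

/-- covariance of a family under the stabilizer -/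
def Cov (u : Equiv.Perm (Fin 4) → Conf 4 → ℝ) : Prop :=
  ∀ᵐ x : Conf 4, ∀ σ ρ : Equiv.Perm (Fin 4), sst ∘ ρ = sst → u (σ * ρ) x = sg ρ * u σ x

theorem comb_sq {u : Equiv.Perm (Fin 4) → Conf 4 → ℝ} (hu : Cov u) (s : Fin 4 → Fin 2) :
    ∀ᵐ x : Conf 4, comb s u x ^ 2 = (1 / 24) * ∑ σ, cf s σ * u σ x ^ 2 := by
  filter_upwards [hu] with x hx
  unfold comb
  rw [mul_pow, sq_sum hx s, inv_pow, Real.sq_sqrt (by norm_num)]
  ring

theorem sum_gen {Ω : Type*} [MeasurableSpace Ω] {μ : Measure Ω}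
    {U : Equiv.Perm (Fin 4) → Ω → ℝ} (hi : ∀ σ, Integrable (U σ) μ)
    {V : (Fin 4 → Fin 2) → Ω → ℝ}
    (hV : ∀ s, ∀ᵐ x ∂μ, V s x = (1 / 24) * ∑ σ, cf s σ * U σ x) :
    ∑ s, ∫ x, V s x ∂μ = (1 / 24) * ∑ σ, ∫ x, U σ x ∂μ := by
  have h1 : ∀ s, ∫ x, V s x ∂μ = (1 / 24) * ∑ σ, cf s σ * ∫ x, U σ x ∂μ := by
    intro s
    rw [integral_congr_ae (hV s), integral_const_mul,
      integral_finsetSum _ fun σ _ => (hi σ).const_mul _]
    congr 1
    exact Finset.sum_congr rfl fun σ _ => integral_const_mul _ _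
  simp only [h1]
  rw [← Finset.mul_sum, Finset.sum_comm]
  congr 1
  refine Finset.sum_congr rfl fun σ _ => ?_
  rw [← Finset.sum_mul, sum_cf, one_mul]

theorem sum_comb {u : Equiv.Perm (Fin 4) → Conf 4 → ℝ} (hu : Cov u) {W : Conf 4 → ℝ}
    (hi : ∀ σ, Integrable (fun x => W x * u σ x ^ 2) volume) :
    ∑ s, ∫ x, W x * comb s u x ^ 2 = (1 / 24) * ∑ σ, ∫ x, W x * u σ x ^ 2 := by
  refine sum_gen hi fun s => ?_
  filter_upwards [comb_sq hu s] with x hx
  rw [hx, Finset.mul_sum, Finset.mul_sum, Finset.mul_sum]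
  exact Finset.sum_congr rfl fun σ _ => by ring

/-! ### closure of `H¹` under finite combinations -/

theorem hn_zero {N : ℕ} {f : Conf N → ℝ} {g : Fin N → Fin 3 → Conf N → ℝ} (h : HN f g) :
    HN (fun _ : Conf N => (0 : ℝ)) (fun _ _ _ => 0) := by
  have := h.const_mul 0
  simpa only [zero_mul] using this

theorem hn_sum {N : ℕ} {ι : Type*} (t : Finset ι) {F : ι → Conf N → ℝ}
    {G : ι → Fin N → Fin 3 → Conf N → ℝ} (h0 : HN (fun _ : Conf N => (0 : ℝ)) (fun _ _ _ => 0))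
    (h : ∀ a, HN (F a) (G a)) :
    HN (fun x => ∑ a ∈ t, F a x) (fun i k x => ∑ a ∈ t, G a i k x) := by
  classical
  induction t using Finset.induction_on with
  | empty => simpa only [Finset.sum_empty] using h0
  | insert a t ha ih =>
    simp only [Finset.sum_insert ha]
    exact (h a).add ih

theorem hn_comb {F : Equiv.Perm (Fin 4) → Conf 4 → ℝ}
    {G : Equiv.Perm (Fin 4) → Fin 4 → Fin 3 → Conf 4 → ℝ} (h : ∀ σ, HN (F σ) (G σ))
    (s : Fin 4 → Fin 2) :
    HN (comb s F) (fun i k => comb s (fun σ => G σ i k)) := by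
  have h1 := hn_sum Finset.univ (hn_zero (h 1))
    (fun σ => ((h σ).const_mul (cf s σ)).const_mul (sg σ))
  exact h1.const_mul (√96)⁻¹

/-- complexification -/
theorem hn_weakC {N : ℕ} {f : Conf N → ℝ} {g : Fin N → Fin 3 → Conf N → ℝ} (h : HN f g)
    (i : Fin N) (k : Fin 3) :
    IsWeakDeriv (axisDir i k) (fun x => (f x : ℂ)) (fun x => (g i k x : ℂ)) := by
  intro φ hφ hc
  have h1 := (h.acl i k).to_weak (h.memLp.locallyIntegrable (by norm_num))
    ((h.memLp' i k).locallyIntegrable (by norm_num)) hφ hc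
  have e1 : ∫ x, ((fderiv ℝ φ x (axisDir i k) : ℝ) : ℂ) * (f x : ℂ) =
      ((∫ x, fderiv ℝ φ x (axisDir i k) * f x : ℝ) : ℂ) := by
    rw [← integral_complex_ofReal]
    refine integral_congr_ae (Eventually.of_forall fun x => ?_)
    push_cast
    rfl
  have e2 : ∫ x, ((φ x : ℝ) : ℂ) * (g i k x : ℂ) = ((∫ x, φ x * g i k x : ℝ) : ℂ) := by
    rw [← integral_complex_ofReal]
    refine integral_congr_ae (Eventually.of_forall fun x => ?_)
    push_cast
    rfl
  rw [e1, e2, h1]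
  push_cast
  rfl

/-! ### covariance of a sector function -/

theorem ae_perm {P : Conf 4 → Prop} (h : ∀ᵐ x : Conf 4, P x) (σ : Equiv.Perm (Fin 4)) :
    ∀ᵐ x : Conf 4, P (x ∘ σ) :=
  (mp_perm σ).quasiMeasurePreserving.ae h

theorem sec4_stab {f : Conf 4 → ℝ} (hs : Sec4 f) (ρ : Equiv.Perm (Fin 4)) (hρ : sst ∘ ρ = sst) :
    ∀ᵐ x : Conf 4, f (x ∘ ρ) = sg ρ * f x := by
  rcases stab_cases ρ hρ with rfl | rfl | rfl | rfl
  · refine Eventually.of_forall fun x => ?_
    have : sg 1 = 1 := by simp only [sg, Equiv.Perm.sign_one, Units.val_one, Int.cast_one]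
    rw [this, one_mul]
    rfl
  · filter_upwards [hs.1] with x hx
    rw [hx, sg_swap (by decide)]
    ring
  · filter_upwards [hs.2] with x hx
    rw [hx, sg_swap (by decide)]
    ring
  · filter_upwards [hs.1, ae_perm hs.2 (Equiv.swap 0 1)] with x hx hx2
    rw [sg_mul, sg_swap (by decide), sg_swap (by decide)]
    have : x ∘ (Equiv.swap 0 1 * Equiv.swap 2 3 : Equiv.Perm (Fin 4)) =
      (x ∘ Equiv.swap 0 1) ∘ Equiv.swap 2 3 := rfl
    rw [this, hx2, hx]
    ring

theorem cov_val {f : Conf 4 → ℝ} (hs : Sec4 f) : Cov (fun σ x => f (x ∘ σ)) := by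
  refine ae_all_iff.2 fun σ => ae_all_iff.2 fun ρ => ?_
  by_cases hρ : sst ∘ ρ = sst
  · filter_upwards [ae_perm (sec4_stab hs ρ hρ) σ] with x hx _
    exact hx
  · exact Eventually.of_forall fun x h => absurd h hρ

theorem cov_grad {f : Conf 4 → ℝ} {g : Fin 4 → Fin 3 → Conf 4 → ℝ} (h : HN f g) (hs : Sec4 f)
    (i : Fin 4) (k : Fin 3) : Cov (fun σ x => g (σ.symm i) k (x ∘ σ)) := by
  refine ae_all_iff.2 fun σ => ae_all_iff.2 fun ρ => ?_
  by_cases hρ : sst ∘ ρ = sst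
  · have h1 := HN.grad_unique (h.perm ρ) (h.const_mul (sg ρ)) (sec4_stab hs ρ hρ) (σ.symm i) k
    filter_upwards [ae_perm h1 σ] with x hx _
    exact hx
  · exact Eventually.of_forall fun x h => absurd h hρ

/-! ### the state -/

theorem comb_anti (f : Conf 4 → ℝ) (s : Fin 4 → Fin 2) (τ : Equiv.Perm (Fin 4)) (x : Conf 4) :
    comb (s ∘ τ) (fun σ x => f (x ∘ σ)) (x ∘ τ) = sg τ * comb s (fun σ x => f (x ∘ σ)) x := by
  unfold comb
  rw [mul_left_comm]
  congr 1
  rw [← Equiv.sum_comp (Equiv.mulLeft τ) (fun σ => sg σ * (cf s σ * f (x ∘ σ))), Finset.mul_sum]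
  refine Finset.sum_congr rfl fun σ _ => ?_
  show sg σ * (cf s (τ * σ) * f (x ∘ (τ * σ : Equiv.Perm (Fin 4)))) =
    sg τ * (sg (τ * σ) * (cf s (τ * σ) * f (x ∘ (τ * σ : Equiv.Perm (Fin 4)))))
  rw [sg_mul]
  linear_combination (-(sg σ * cf s (τ * σ) * f (x ∘ (τ * σ : Equiv.Perm (Fin 4))))) * sg_sq τ

/-- the electron state of a function -/
def mkSt {f : Conf 4 → ℝ} {g : Fin 4 → Fin 3 → Conf 4 → ℝ} (h : HN f g) : ElectronState 4 where
  amp s x := ((comb s (fun σ x => f (x ∘ σ)) x : ℝ) : ℂ)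
  grad s i k x := ((comb s (fun σ x => g (σ.symm i) k (x ∘ σ)) x : ℝ) : ℂ)
  amp_memLp s := (hn_comb (fun σ => h.perm σ) s).memLp.ofReal
  grad_memLp s i k := ((hn_comb (fun σ => h.perm σ) s).memLp' i k).ofReal
  grad_weak s i k := hn_weakC (hn_comb (fun σ => h.perm σ) s) i k
  antisymm τ s := Eventually.of_forall fun x => by
    rw [comb_anti]
    unfold sg
    push_cast
    rfl

theorem nsq (c : ℝ) : ‖((c : ℝ) : ℂ)‖ ^ 2 = c ^ 2 := by
  rw [Complex.norm_real, Real.norm_eq_abs, sq_abs]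

theorem sum24 (c : ℝ) : (1 / 24 : ℝ) * ∑ _σ : Equiv.Perm (Fin 4), c = c := by
  rw [Finset.sum_const, Finset.card_univ, Fintype.card_perm, Fintype.card_fin]
  norm_num [Nat.factorial]
  ring

theorem mkSt_norm {f : Conf 4 → ℝ} {g : Fin 4 → Fin 3 → Conf 4 → ℝ} (h : HN f g) (hs : Sec4 f) :
    normSq (mkSt h) = ∫ x, f x ^ 2 := by
  have h1 := sum_comb (W := fun _ => 1) (cov_val hs) (fun σ => by
    simp only [one_mul]
    exact (h.perm σ).memLp.integrable_sq)
  simp only [one_mul] at h1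
  unfold normSq
  simp only [mkSt, nsq]
  rw [h1]
  have h2 : ∀ σ : Equiv.Perm (Fin 4), ∫ x : Conf 4, f (x ∘ σ) ^ 2 = ∫ x, f x ^ 2 := fun σ =>
    integral_perm σ (fun x => f x ^ 2)
  simp only [h2]
  exact sum24 _

theorem mkSt_pot {f : Conf 4 → ℝ} {g : Fin 4 → Fin 3 → Conf 4 → ℝ} (h : HN f g) (hs : Sec4 f)
    {w : Conf 4 → ℝ} (hw : FBd w) (hsym : ∀ (σ : Equiv.Perm (Fin 4)) x, w (x ∘ σ) = w x) :
    ∑ s, ∫ x, w x * ‖(mkSt h).amp s x‖ ^ 2 = ∫ x, w x * f x ^ 2 := by
  obtain ⟨C, -, hC⟩ := hw.bound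
  have h1 := sum_comb (W := w) (cov_val hs) (fun σ => (hC _ _ (h.perm σ)).1)
  simp only [mkSt, nsq]
  rw [h1]
  have h2 : ∀ σ : Equiv.Perm (Fin 4), ∫ x : Conf 4, w x * f (x ∘ σ) ^ 2 = ∫ x, w x * f x ^ 2 := by
    intro σ
    rw [← integral_perm σ (fun x => w x * f x ^ 2)]
    simp only [hsym σ]
  simp only [h2]
  exact sum24 _

theorem mkSt_kin {f : Conf 4 → ℝ} {g : Fin 4 → Fin 3 → Conf 4 → ℝ} (h : HN f g) (hs : Sec4 f) :
    ∑ s, ∑ i, ∑ k, ∫ x, ‖(mkSt h).grad s i k x‖ ^ 2 = ∑ i, ∑ k, ∫ x, g i k x ^ 2 := by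
  simp only [mkSt, nsq]
  rw [Finset.sum_comm]
  have h1 : ∀ i k, ∑ s, ∫ x, comb s (fun σ x => g (σ.symm i) k (x ∘ σ)) x ^ 2 =
      (1 / 24) * ∑ σ : Equiv.Perm (Fin 4), ∫ x, g (σ.symm i) k x ^ 2 := by
    intro i k
    have h2 := sum_comb (W := fun _ => 1) (cov_grad h hs i k) (fun σ => by
      simp only [one_mul]
      exact ((h.perm σ).memLp' i k).integrable_sq)
    simp only [one_mul] at h2
    rw [h2]
    congr 1
    exact Finset.sum_congr rfl fun σ _ => integral_perm σ (fun x => g (σ.symm i) k x ^ 2)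
  have h3 : ∀ i, ∑ s, ∑ k, ∫ x, comb s (fun σ x => g (σ.symm i) k (x ∘ σ)) x ^ 2 =
      (1 / 24) * ∑ σ : Equiv.Perm (Fin 4), ∑ k, ∫ x, g (σ.symm i) k x ^ 2 := by
    intro i
    rw [Finset.sum_comm, Finset.sum_comm (s := (Finset.univ : Finset (Equiv.Perm (Fin 4)))),
      Finset.mul_sum]
    exact Finset.sum_congr rfl fun k _ => h1 i k
  rw [Finset.sum_congr rfl fun i _ => h3 i, ← Finset.mul_sum, Finset.sum_comm]
  have h4 : ∀ σ : Equiv.Perm (Fin 4), ∑ i, ∑ k, ∫ x, g (σ.symm i) k x ^ 2 =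
      ∑ i, ∑ k, ∫ x, g i k x ^ 2 := fun σ =>
    Equiv.sum_comp σ.symm (fun i => ∑ k, ∫ x, g i k x ^ 2)
  simp only [h4]
  exact sum24 _

/-! ### the density -/

theorem ae_cons {P : Conf 4 → Prop} (h : ∀ᵐ x : Conf 4, P x) :
    ∀ᵐ r : R3, ∀ᵐ y : Conf 3, P (Fin.cons r y) := by
  have mp := (volume_preserving_piFinSuccAbove (fun _ : Fin 4 => R3) 0).symm
  have h1 := Measure.ae_ae_of_ae_prod (mp.quasiMeasurePreserving.ae h)
  filter_upwards [h1] with r hr
  filter_upwards [hr] with y hy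
  have e : (MeasurableEquiv.piFinSuccAbove (fun _ : Fin 4 => R3) 0).symm (r, y) =
      (Fin.cons r y : Conf 4) := Fin.insertNth_zero' r y
  rwa [e] at hy

theorem int_cons {G : Conf 4 → ℝ} (h : Integrable G) :
    ∀ᵐ r : R3, Integrable (fun y : Conf 3 => G (Fin.cons r y)) := by
  have mp := (volume_preserving_piFinSuccAbove (fun _ : Fin 4 => R3) 0).symm
  have h1 := (mp.integrable_comp_of_integrable h).prod_right_ae
  filter_upwards [h1] with r hr
  refine hr.congr (Eventually.of_forall fun y => ?_)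
  have e : (MeasurableEquiv.piFinSuccAbove (fun _ : Fin 4 => R3) 0).symm (r, y) =
      (Fin.cons r y : Conf 4) := Fin.insertNth_zero' r y
  simp only [Function.comp, e]

theorem fix_zero : ∀ ρ : Equiv.Perm (Fin 4), ρ 0 = 0 →
    ∃ τ : Equiv.Perm (Fin 3), ∀ i : Fin 3, ρ i.succ = (τ i).succ := by
  decide

/-- exchange of the two spins -/
def flp : Equiv.Perm (Fin 4) := Equiv.swap 0 2 * Equiv.swap 1 3

theorem exists_pi {f : Conf 4 → ℝ} (hs : Sec4 f)
    (hflip : ∀ᵐ x : Conf 4, f (x ∘ flp) ^ 2 = f x ^ 2) (j : Fin 4) :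
    ∃ π : Equiv.Perm (Fin 4), π 0 = j ∧ ∀ᵐ x : Conf 4, f (x ∘ π) ^ 2 = f x ^ 2 := by
  have h01 : ∀ᵐ x : Conf 4, f (x ∘ Equiv.swap 0 1) ^ 2 = f x ^ 2 := by
    filter_upwards [hs.1] with x hx
    rw [hx]; ring
  fin_cases j
  · exact ⟨1, rfl, Eventually.of_forall fun x => rfl⟩
  · exact ⟨Equiv.swap 0 1, rfl, h01⟩
  · exact ⟨flp, by decide, hflip⟩
  · refine ⟨flp * Equiv.swap 0 1, by decide, ?_⟩
    filter_upwards [hflip, ae_perm h01 flp] with x hx hx2
    rw [← hx, ← hx2]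
    rfl

theorem int_perm_cons {f : Conf 4 → ℝ} (hs : Sec4 f)
    (hflip : ∀ᵐ x : Conf 4, f (x ∘ flp) ^ 2 = f x ^ 2) (σ : Equiv.Perm (Fin 4)) :
    ∀ᵐ r : R3, ∫ y : Conf 3, f ((Fin.cons r y : Conf 4) ∘ σ) ^ 2 =
      ∫ y : Conf 3, f (Fin.cons r y) ^ 2 := by
  obtain ⟨π, hπ0, hπ⟩ := exists_pi hs hflip (σ.symm 0)
  obtain ⟨τ, hτ⟩ := fix_zero (σ * π) (by
    rw [Equiv.Perm.mul_apply, hπ0, Equiv.apply_symm_apply])
  have h0 : (σ * π) 0 = 0 := by
    rw [Equiv.Perm.mul_apply, hπ0, Equiv.apply_symm_apply]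
  filter_upwards [ae_cons (ae_perm hπ σ)] with r hr
  rw [← integral_perm τ (fun y : Conf 3 => f (Fin.cons r y) ^ 2)]
  refine integral_congr_ae ?_
  filter_upwards [hr] with y hy
  have e : (Fin.cons r (y ∘ τ) : Conf 4) = ((Fin.cons r y : Conf 4) ∘ σ) ∘ π := by
    funext i
    refine Fin.cases ?_ (fun i => ?_) i
    · show r = (Fin.cons r y : Conf 4) ((σ * π) 0)
      rw [h0]; rfl
    · show y (τ i) = (Fin.cons r y : Conf 4) ((σ * π) i.succ)
      rw [hτ i]; rfl
  rw [e]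
  exact hy.symm

theorem mkSt_density {f : Conf 4 → ℝ} {g : Fin 4 → Fin 3 → Conf 4 → ℝ} (h : HN f g)
    (hs : Sec4 f) (hflip : ∀ᵐ x : Conf 4, f (x ∘ flp) ^ 2 = f x ^ 2) :
    ∀ᵐ r : R3, density (n := 3) (mkSt h) r = 4 * ∫ y : Conf 3, f (Fin.cons r y) ^ 2 := by
  have h1 : ∀ᵐ r : R3, ∀ σ : Equiv.Perm (Fin 4),
      ∫ y : Conf 3, f ((Fin.cons r y : Conf 4) ∘ σ) ^ 2 =
        ∫ y : Conf 3, f (Fin.cons r y) ^ 2 := ae_all_iff.2 fun σ => int_perm_cons hs hflip σ
  have h2 : ∀ᵐ r : R3, ∀ σ : Equiv.Perm (Fin 4),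
      Integrable (fun y : Conf 3 => f ((Fin.cons r y : Conf 4) ∘ σ) ^ 2) :=
    ae_all_iff.2 fun σ => (int_cons (h.perm σ).memLp.integrable_sq :)
  have h3 : ∀ᵐ r : R3, ∀ s, ∀ᵐ y : Conf 3,
      comb s (fun σ x => f (x ∘ σ)) (Fin.cons r y) ^ 2 =
        (1 / 24) * ∑ σ : Equiv.Perm (Fin 4), cf s σ * f ((Fin.cons r y : Conf 4) ∘ σ) ^ 2 :=
    ae_all_iff.2 fun s => (ae_cons (comb_sq (cov_val hs) s) :)
  filter_upwards [h1, h2, h3] with r hr1 hr2 hr3
  have h4 := sum_gen hr2 hr3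
  unfold density
  simp only [mkSt, nsq]
  rw [h4]
  simp only [hr1]
  rw [sum24]
  norm_num

theorem exists_state_aux {f : Conf 4 → ℝ} {g : Fin 4 → Fin 3 → Conf 4 → ℝ} (h : HN f g)
    (hs : Sec4 f) (hn : ∫ x, f x ^ 2 = 1) (hflip : ∀ᵐ x : Conf 4, f (x ∘ flp) ^ 2 = f x ^ 2) :
    ∃ Ψ : ElectronState 4, normSq Ψ = 1 ∧
      (∀ w : Conf 4 → ℝ, FBd w → (∀ (σ : Equiv.Perm (Fin 4)) x, w (x ∘ σ) = w x) →
        energy w Ψ = qN w f g) ∧
      ∀ᵐ r : R3, density (n := 3) Ψ r = 4 * ∫ y : Conf 3, f (Fin.cons r y) ^ 2 := by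
  refine ⟨mkSt h, (mkSt_norm h hs).trans hn, fun w hw hsym => ?_, mkSt_density h hs hflip⟩
  unfold energy qN
  rw [mkSt_kin h hs, mkSt_pot h hs hw hsym]

end

end Vale.Agent.P363.D.St
end
end

section

section

/-! # Spin: from the sector (2,2) to all four-electron states -/

namespace Vale.Agent.P363.D

open MeasureTheory Set Filter Topology
open scoped ENNReal ContDiff

noncomputable section

/-- lower bound for all electron states -/
theorem all_spins {w : Conf 4 → ℝ} (hw : FBd w)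
    (hsym : ∀ (σ : Equiv.Perm (Fin 4)) x, w (x ∘ σ) = w x) {E : ℝ}
    (h2 : ∀ f g, HN f g → Sec4 f → E * ∫ x, f x ^ 2 ≤ qN w f g) (Ψ : ElectronState 4) :
    E * normSq Ψ ≤ energy w Ψ :=
  all_spins_of hw hsym h2 (fun _ _ h h01 h12 => s4_argument hw hsym h2 h h01 h12) Ψ

/-- exchange of the two spins -/
def flip4 : Equiv.Perm (Fin 4) := Equiv.swap 0 2 * Equiv.swap 1 3

/-- the electron state of a sector function:
`amp s x = (1/√96) ∑ σ, sign σ * [s ∘ σ = (0,0,1,1)] * f (x ∘ σ)` -/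
theorem exists_state {f : Conf 4 → ℝ} {g : Fin 4 → Fin 3 → Conf 4 → ℝ} (h : HN f g)
    (hs : Sec4 f) (hn : ∫ x, f x ^ 2 = 1) (hflip : ∀ᵐ x : Conf 4, f (x ∘ flip4) ^ 2 = f x ^ 2) :
    ∃ Ψ : ElectronState 4, normSq Ψ = 1 ∧
      (∀ w : Conf 4 → ℝ, FBd w → (∀ (σ : Equiv.Perm (Fin 4)) x, w (x ∘ σ) = w x) →
        energy w Ψ = qN w f g) ∧
      ∀ᵐ r : R3, density (n := 3) Ψ r = 4 * ∫ y : Conf 3, f (Fin.cons r y) ^ 2 := by
  exact St.exists_state_aux h hs hn hflip

end

end Vale.Agent.P363.D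
end
end

section

section

/-! # Continuity of the Dyson orbital and of the density; reflection symmetry of the density -/

namespace Vale.Agent.P363.D

open MeasureTheory Set Filter Topology
open scoped ENNReal ContDiff

noncomputable section

/-- Cauchy-Schwarz for real functions. -/
theorem cs_sq {α : Type*} [MeasurableSpace α] {μ : Measure α} {a b : α → ℝ}
    (ha : MemLp a 2 μ) (hb : MemLp b 2 μ) :
    (∫ y, a y * b y ∂μ) ^ 2 ≤ (∫ y, a y ^ 2 ∂μ) * ∫ y, b y ^ 2 ∂μ := by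
  have hi : Integrable (fun y => a y * b y) μ := MemLp.integrable_mul ha hb
  have h2a : Integrable (fun y => a y ^ 2) μ := ha.integrable_sq
  have h2b : Integrable (fun y => b y ^ 2) μ := hb.integrable_sq
  set A := ∫ y, a y ^ 2 ∂μ with hA
  set B := ∫ y, b y ^ 2 ∂μ with hB
  set C := ∫ y, a y * b y ∂μ with hC
  have hA0 : 0 ≤ A := integral_nonneg fun y => sq_nonneg _
  have hB0 : 0 ≤ B := integral_nonneg fun y => sq_nonneg _
  have key : ∀ s t : ℝ, 0 ≤ s ^ 2 * A - 2 * s * t * C + t ^ 2 * B := by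
    intro s t
    have h0 : 0 ≤ ∫ y, (s * a y - t * b y) ^ 2 ∂μ := integral_nonneg fun y => sq_nonneg _
    have h1 : ∫ y, (s * a y - t * b y) ^ 2 ∂μ = s ^ 2 * A - 2 * s * t * C + t ^ 2 * B := by
      have he : ∀ y, (s * a y - t * b y) ^ 2 = s ^ 2 * a y ^ 2 - 2 * s * t * (a y * b y)
          + t ^ 2 * b y ^ 2 := fun y => by ring
      simp only [he]
      have i1 : Integrable (fun y => s ^ 2 * a y ^ 2) μ := h2a.const_mul _
      have i2 : Integrable (fun y => 2 * s * t * (a y * b y)) μ := hi.const_mul _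
      have i3 : Integrable (fun y => t ^ 2 * b y ^ 2) μ := h2b.const_mul _
      have i12 : Integrable (fun y => s ^ 2 * a y ^ 2 - 2 * s * t * (a y * b y)) μ := i1.sub i2
      rw [integral_add i12 i3, integral_sub i1 i2, integral_const_mul, integral_const_mul,
        integral_const_mul]
    rwa [h1] at h0
  rcases eq_or_lt_of_le hA0 with h | h
  · have hk := key (C * (B + 1)) (C ^ 2 * 0 + 1)
    have hk2 := fun r : ℝ => key r 1
    have : C = 0 := by
      by_contra hC0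
      have h3 := hk2 ((B + 1) / (2 * C))
      have e : 2 * ((B + 1) / (2 * C)) * 1 * C = B + 1 := by field_simp
      rw [e, ← h] at h3
      linarith only [h3]
    rw [this, ← h]; simp
  · have hk := key C A
    (by_contra nlg; linarith only [nlg, mul_pos (sub_pos.2 (not_le.1 nlg)) (sub_pos.2 h), hk])

/-- The fibre of an `L²` function. -/
theorem fib_memLp {F : X4 → ℝ} (hF : MemLp F 2 volume) :
    ∀ᵐ x : R3, MemLp (fun y => F (x, y)) 2 volume := by
  have h1 : ∀ᵐ x : R3, AEStronglyMeasurable (fun y => F (x, y)) volume :=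
    hF.aestronglyMeasurable.prodMk_left
  have h2 : ∀ᵐ x : R3, Integrable (fun y => F (x, y) ^ 2) volume :=
    (show Integrable (fun p : X4 => F p ^ 2) (volume.prod volume) from
      hF.integrable_sq).prod_right_ae
  filter_upwards [h1, h2] with x hx1 hx2
  exact (memLp_two_iff_integrable_sq hx1).2 hx2

/-- continuity of the Dyson orbital -/
theorem dys_close {F F0 : X4 → ℝ} {Φ Φ0 : Conf 3 → ℝ} (hF : MemLp F 2 volume)
    (hF0 : MemLp F0 2 volume) (hΦ : MemLp Φ 2 volume) (hΦ0 : MemLp Φ0 2 volume) :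
    Integrable (fun x => (dys F Φ x - dys F0 Φ0 x) ^ 2) volume ∧
      ∫ x, (dys F Φ x - dys F0 Φ0 x) ^ 2 ≤
        2 * (∫ p, (F p - F0 p) ^ 2) * (∫ y, Φ y ^ 2) +
          2 * (∫ p, F0 p ^ 2) * (∫ y, (Φ y - Φ0 y) ^ 2) := by
  have hFd : MemLp (fun p => F p - F0 p) 2 volume := hF.sub hF0
  have hΦd : MemLp (fun y => Φ y - Φ0 y) 2 volume := hΦ.sub hΦ0
  have hI1 : Integrable (fun p : X4 => (F p - F0 p) ^ 2) (volume.prod volume) := hFd.integrable_sq
  have hI2 : Integrable (fun p : X4 => F0 p ^ 2) (volume.prod volume) := hF0.integrable_sq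
  -- pointwise bound
  have hpt : ∀ᵐ x : R3, (dys F Φ x - dys F0 Φ0 x) ^ 2 ≤
      2 * (∫ y, (F (x, y) - F0 (x, y)) ^ 2) * (∫ y, Φ y ^ 2) +
        2 * (∫ y, F0 (x, y) ^ 2) * (∫ y, (Φ y - Φ0 y) ^ 2) := by
    filter_upwards [fib_memLp hF, fib_memLp hF0, fib_memLp hFd] with x h1 h2 h3
    have e : dys F Φ x - dys F0 Φ0 x = (∫ y, Φ y * (F (x, y) - F0 (x, y))) +
        ∫ y, (Φ y - Φ0 y) * F0 (x, y) := by
      unfold dys
      have i1 : Integrable (fun y => Φ y * F (x, y)) volume := MemLp.integrable_mul hΦ h1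
      have i2 : Integrable (fun y => Φ0 y * F0 (x, y)) volume := MemLp.integrable_mul hΦ0 h2
      have i3 : Integrable (fun y => Φ y * (F (x, y) - F0 (x, y))) volume :=
        MemLp.integrable_mul hΦ h3
      have i4 : Integrable (fun y => (Φ y - Φ0 y) * F0 (x, y)) volume :=
        MemLp.integrable_mul hΦd h2
      rw [← integral_sub i1 i2, ← integral_add i3 i4]
      congr 1
      ext y
      ring
    rw [e]
    have c1 := cs_sq hΦ h3
    have c2 := cs_sq hΦd h2
    linarith only [sq_nonneg ((∫ y, Φ y * (F (x, y) - F0 (x, y))) - ∫ y, (Φ y - Φ0 y) * F0 (x, y)), c2, c1]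
  have hJ1 : Integrable (fun x : R3 => ∫ y, (F (x, y) - F0 (x, y)) ^ 2) volume :=
    hI1.integral_prod_left
  have hJ2 : Integrable (fun x : R3 => ∫ y, F0 (x, y) ^ 2) volume :=
    hI2.integral_prod_left
  have hmeas : ∀ {H : X4 → ℝ} {Ψ : Conf 3 → ℝ}, MemLp H 2 volume → MemLp Ψ 2 volume →
      AEStronglyMeasurable (fun x : R3 => dys H Ψ x) volume := by
    intro H Ψ hH hΨ
    have h1 : AEStronglyMeasurable (fun p : X4 => Ψ p.2 * H p) (volume.prod volume) :=
      (hΨ.aestronglyMeasurable.comp_snd).mul hH.aestronglyMeasurable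
    exact h1.integral_prod_right'
  have hdom : Integrable (fun x : R3 =>
      2 * (∫ y, (F (x, y) - F0 (x, y)) ^ 2) * (∫ y, Φ y ^ 2) +
        2 * (∫ y, F0 (x, y) ^ 2) * (∫ y, (Φ y - Φ0 y) ^ 2)) volume :=
    ((hJ1.const_mul 2).mul_const _).add ((hJ2.const_mul 2).mul_const _)
  have hint : Integrable (fun x => (dys F Φ x - dys F0 Φ0 x) ^ 2) volume := by
    refine hdom.mono' (((hmeas hF hΦ).sub (hmeas hF0 hΦ0)).pow 2) ?_
    filter_upwards [hpt] with x hx
    rw [Real.norm_eq_abs, abs_of_nonneg (sq_nonneg _)]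
    exact hx
  refine ⟨hint, (integral_mono_ae hint hdom hpt).trans (le_of_eq ?_)⟩
  rw [integral_add ((hJ1.const_mul 2).mul_const _) ((hJ2.const_mul 2).mul_const _),
    integral_mul_const, integral_mul_const, integral_const_mul, integral_const_mul]
  have e1 : ∫ x : R3, ∫ y, (F (x, y) - F0 (x, y)) ^ 2 = ∫ p : X4, (F p - F0 p) ^ 2 :=
    (integral_prod (fun p : X4 => (F p - F0 p) ^ 2) hI1).symm
  have e2 : ∫ x : R3, ∫ y, F0 (x, y) ^ 2 = ∫ p : X4, F0 p ^ 2 :=
    (integral_prod (fun p : X4 => F0 p ^ 2) hI2).symm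
  rw [e1, e2]

/-- continuity of the density -/
theorem dens_close {F F0 : X4 → ℝ} (hF : MemLp F 2 volume) (hF0 : MemLp F0 2 volume) :
    Integrable (fun x => dens F x - dens F0 x) volume ∧
      ∫ x, |dens F x - dens F0 x| ≤
        4 * √(∫ p, (F p - F0 p) ^ 2) * (√(∫ p, F p ^ 2) + √(∫ p, F0 p ^ 2)) := by
  have hFd : MemLp (fun p => F p - F0 p) 2 volume := hF.sub hF0
  have hI1 : Integrable (fun p : X4 => F p ^ 2) (volume.prod volume) := hF.integrable_sq
  have hI2 : Integrable (fun p : X4 => F0 p ^ 2) (volume.prod volume) := hF0.integrable_sq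
  have hJ1 : Integrable (fun x : R3 => ∫ y, F (x, y) ^ 2) volume := hI1.integral_prod_left
  have hJ2 : Integrable (fun x : R3 => ∫ y, F0 (x, y) ^ 2) volume := hI2.integral_prod_left
  have hint : Integrable (fun x => dens F x - dens F0 x) volume :=
    (hJ1.const_mul 4).sub (hJ2.const_mul 4)
  refine ⟨hint, ?_⟩
  have hK : Integrable (fun p : X4 => |(F p - F0 p)| * |F p| + |(F p - F0 p)| * |F0 p|)
      (volume.prod volume) :=
    (hFd.abs.integrable_mul hF.abs).add (hFd.abs.integrable_mul hF0.abs)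
  have hK' : Integrable (fun x : R3 => ∫ y, (|(F (x, y) - F0 (x, y))| * |F (x, y)| +
      |(F (x, y) - F0 (x, y))| * |F0 (x, y)|)) volume := hK.integral_prod_left
  have hpt : ∀ᵐ x : R3, |dens F x - dens F0 x| ≤
      4 * ∫ y, (|(F (x, y) - F0 (x, y))| * |F (x, y)| +
        |(F (x, y) - F0 (x, y))| * |F0 (x, y)|) := by
    filter_upwards [fib_memLp hF, fib_memLp hF0, fib_memLp hFd] with x h1 h2 h3
    unfold dens
    rw [← mul_sub, ← integral_sub h1.integrable_sq h2.integrable_sq, abs_mul,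
      abs_of_pos (by norm_num : (0 : ℝ) < 4)]
    refine mul_le_mul_of_nonneg_left ?_ (by norm_num)
    refine (abs_integral_le_integral_abs).trans ?_
    refine integral_mono (h1.integrable_sq.sub h2.integrable_sq).abs
      ((h3.abs.integrable_mul h1.abs).add (h3.abs.integrable_mul h2.abs)) fun y => ?_
    show |F (x, y) ^ 2 - F0 (x, y) ^ 2| ≤ |(F (x, y) - F0 (x, y))| * |F (x, y)| +
        |(F (x, y) - F0 (x, y))| * |F0 (x, y)|
    have : F (x, y) ^ 2 - F0 (x, y) ^ 2 = (F (x, y) - F0 (x, y)) * (F (x, y) + F0 (x, y)) := by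
      ring
    rw [this, abs_mul, ← mul_add]
    exact mul_le_mul_of_nonneg_left (abs_add_le _ _) (abs_nonneg _)
  have hle := integral_mono_ae hint.abs (hK'.const_mul 4) hpt
  refine hle.trans ?_
  rw [integral_const_mul]
  have e1 : ∫ x : R3, ∫ y, (|(F (x, y) - F0 (x, y))| * |F (x, y)| +
        |(F (x, y) - F0 (x, y))| * |F0 (x, y)|) =
      ∫ p : X4, (|(F p - F0 p)| * |F p| + |(F p - F0 p)| * |F0 p|) :=
    (integral_prod (fun p : X4 => |(F p - F0 p)| * |F p| + |(F p - F0 p)| * |F0 p|) hK).symm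
  rw [e1]
  have e2 : ∫ p : X4, (|(F p - F0 p)| * |F p| + |(F p - F0 p)| * |F0 p|) =
      (∫ p : X4, |(F p - F0 p)| * |F p|) + ∫ p : X4, |(F p - F0 p)| * |F0 p| :=
    integral_add (hFd.abs.integrable_mul hF.abs) (hFd.abs.integrable_mul hF0.abs)
  rw [e2]
  have cs : ∀ {H : X4 → ℝ}, MemLp H 2 volume → ∫ p : X4, |(F p - F0 p)| * |H p| ≤
      √(∫ p, (F p - F0 p) ^ 2) * √(∫ p, H p ^ 2) := by
    intro H hH
    have h := cs_sq hFd.abs hH.abs
    have e3 : ∀ p : X4, |F p - F0 p| ^ 2 = (F p - F0 p) ^ 2 := fun p => sq_abs _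
    have e4 : ∀ p : X4, |H p| ^ 2 = H p ^ 2 := fun p => sq_abs _
    simp only [e3, e4, Pi.abs_apply] at h
    rw [← Real.sqrt_mul (integral_nonneg fun p => sq_nonneg _)]
    exact Real.le_sqrt_of_sq_le h
  have c1 := cs hF
  have c2 := cs hF0
  linarith

/-- reflection symmetry of the density -/
theorem dens_refl {F : X4 → ℝ} {k : Fin 3} (hF : ∀ᵐ p : X4, F (refl k p.1, reflN k p.2) = F p) :
    ∀ᵐ x : R3, dens F (refl k x) = dens F x := by
  have h1 : ∀ᵐ x : R3, ∀ᵐ y : Conf 3, F (refl k x, reflN k y) = F (x, y) :=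
    (Measure.ae_ae_of_ae_prod hF :)
  filter_upwards [h1] with x hx
  unfold dens
  rw [← integral_reflN k (fun y : Conf 3 => F (refl k x, y) ^ 2)]
  congr 1
  refine integral_congr_ae ?_
  filter_upwards [hx] with y hy
  show F (refl k x, reflN k y) ^ 2 = F (x, y) ^ 2
  rw [hy]

end

end Vale.Agent.P363.D
end
end

section

section

/-! # The exchange matrix element -/

namespace Vale.Agent.P363.D

open MeasureTheory Set Filter Topology
open scoped ENNReal ContDiff

noncomputable section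

namespace XZ

theorem exp_int {c : ℝ} (hc : 0 < c) :
    Integrable (fun x : R3 => Real.exp (-(c * ‖x‖))) := by
  simpa only [neg_mul] using P370.Hyd.integrable_exp hc

theorem exp_div_int {c : ℝ} (hc : 0 < c) :
    Integrable (fun x : R3 => Real.exp (-(c * ‖x‖)) / ‖x‖) := by
  simpa only [neg_mul] using P370.Hyd.integrable_exp_div hc

/-- potential of an exponentially decaying density, uniformly in the point -/
theorem exp_pot {c : ℝ} (hc : 0 < c) : ∃ B : ℝ, 0 ≤ B ∧ ∀ y : R3,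
    Integrable (fun x : R3 => Real.exp (-(c * ‖x‖)) / dist x y) ∧
      ∫ x : R3, Real.exp (-(c * ‖x‖)) / dist x y ≤ B := by
  have h1 := exp_int hc
  have h2 := exp_div_int one_pos
  have h3 : ∀ y : R3, Integrable (fun x : R3 => Real.exp (-(1 * ‖x - y‖)) / ‖x - y‖) := fun y =>
    h2.comp_sub_right y
  have h4 : ∀ y : R3, ∫ x : R3, Real.exp (-(1 * ‖x - y‖)) / ‖x - y‖ =
      ∫ x : R3, Real.exp (-(1 * ‖x‖)) / ‖x‖ := fun y =>
    integral_sub_right_eq_self (fun x : R3 => Real.exp (-(1 * ‖x‖)) / ‖x‖) y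
  have h5 : ∀ x y : R3, Real.exp (-(c * ‖x‖)) / dist x y ≤
      Real.exp (-(c * ‖x‖)) + Real.exp 1 * (Real.exp (-(1 * ‖x - y‖)) / ‖x - y‖) := by
    intro x y
    rw [dist_eq_norm]
    have e0 := Real.exp_pos (-(c * ‖x‖))
    have e1 : Real.exp (-(c * ‖x‖)) ≤ 1 := Real.exp_le_one_iff.2 (by
      have := norm_nonneg x
      linarith [mul_nonneg (le_of_lt (sub_pos.2 hc)) (sub_nonneg.2 this)])
    rcases le_or_gt 1 ‖x - y‖ with h | h
    · have : Real.exp (-(c * ‖x‖)) / ‖x - y‖ ≤ Real.exp (-(c * ‖x‖)) := div_le_self e0.le h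
      have : 0 ≤ Real.exp 1 * (Real.exp (-(1 * ‖x - y‖)) / ‖x - y‖) := by positivity
      (clear hc h1 h2 h3 h4 e1; linarith)
    · have e2 : 1 ≤ Real.exp 1 * Real.exp (-(1 * ‖x - y‖)) := by
        rw [← Real.exp_add]
        exact Real.one_le_exp (by linarith only [h])
      have e3 : Real.exp (-(c * ‖x‖)) / ‖x - y‖ ≤
          Real.exp 1 * (Real.exp (-(1 * ‖x - y‖)) / ‖x - y‖) := by
        rw [← mul_div_assoc]
        exact div_le_div_of_nonneg_right (e1.trans e2) (norm_nonneg _)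
      linarith only [e0, e3]
  have h6 : ∀ y : R3, Integrable (fun x : R3 => Real.exp (-(c * ‖x‖)) / dist x y) := by
    intro y
    refine (h1.add ((h3 y).const_mul (Real.exp 1))).mono' ?_ (Eventually.of_forall fun x => ?_)
    · refine Measurable.aestronglyMeasurable ?_
      exact (Continuous.measurable (by (clear * -; fun_prop))).div (Continuous.measurable (by fun_prop))
    · rw [Real.norm_eq_abs, abs_of_nonneg (by (clear * -; positivity))]
      exact h5 x y
  refine ⟨(∫ x : R3, Real.exp (-(c * ‖x‖))) +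
    Real.exp 1 * ∫ x : R3, Real.exp (-(1 * ‖x‖)) / ‖x‖, ?_, fun y => ⟨h6 y, ?_⟩⟩
  · refine add_nonneg (integral_nonneg fun x => by positivity)
      (mul_nonneg (by positivity) (integral_nonneg fun x => by (clear * -; positivity)))
  · have h7 := integral_mono (h6 y) (h1.add ((h3 y).const_mul (Real.exp 1))) (h5 · y)
    refine h7.trans (le_of_eq ?_)
    rw [← h4 y, ← integral_const_mul, ← integral_add h1 ((h3 y).const_mul _)]
    rfl

/-- product of the two Slater determinants of one pair of electrons -/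
def T (x y : R3) : ℝ := wdg (KD.chi 0) (KD.chi 2) x y * wdg (KD.chi 0) (KD.chi 4) x y

theorem T_eq (x y : R3) : T x y = 1 / 2 * (KD.chi 0 x ^ 2 * (KD.chi 2 y * KD.chi 4 y) -
    (KD.chi 0 x * KD.chi 4 x) * (KD.chi 2 y * KD.chi 0 y) -
    (KD.chi 2 x * KD.chi 0 x) * (KD.chi 0 y * KD.chi 4 y) +
    (KD.chi 2 x * KD.chi 4 x) * KD.chi 0 y ^ 2) := by
  unfold T wdg
  have h2 : (√2 : ℝ) ≠ 0 := by positivity
  have h3 : (√2 : ℝ) ^ 2 = 2 := Real.sq_sqrt (by norm_num)
  field_simp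
  rw [h3]
  ring

theorem T_symm (x y : R3) : T x y = T y x := by
  rw [T_eq, T_eq]
  ring

theorem T_cont : Continuous fun p : R3 × R3 => T p.1 p.2 := by
  have h := chi_cont
  unfold T wdg
  exact (((((h 0).comp continuous_fst).mul ((h 2).comp continuous_snd)).sub
    (((h 2).comp continuous_fst).mul ((h 0).comp continuous_snd))).div_const _).mul
    (((((h 0).comp continuous_fst).mul ((h 4).comp continuous_snd)).sub
    (((h 4).comp continuous_fst).mul ((h 0).comp continuous_snd))).div_const _)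

/-- weight -/
def E (x : R3) : ℝ := Real.exp (-(1 / 4 * ‖x‖))

theorem E_pos (x : R3) : 0 < E x := Real.exp_pos _

theorem E_le (x : R3) : E x ≤ 1 := by
  unfold E
  have := norm_nonneg x
  exact Real.exp_le_one_iff.2 (by linarith only [this])

theorem E_int : Integrable E volume := exp_int (by (clear * -; norm_num))

theorem E_cont : Continuous E := by
  unfold E
  fun_prop

theorem chi_le : ∃ C : ℝ, 0 ≤ C ∧ ∀ a x, |KD.chi a x| ≤ C * E x := by
  choose C hC hb using chi_bound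
  refine ⟨∑ a, C a, Finset.sum_nonneg fun a _ => hC a, fun a x => ?_⟩
  refine (hb a x).trans ?_
  have e : E x = Real.exp (-(‖x‖ / 4)) := by
    unfold E
    congr 1
    ring
  rw [e]
  refine mul_le_mul_of_nonneg_right ?_ (Real.exp_pos _).le
  exact Finset.single_le_sum (f := C) (fun b _ => hC b) (Finset.mem_univ a)

theorem wdg_le : ∃ C : ℝ, 0 ≤ C ∧ ∀ a b x y,
    |wdg (KD.chi a) (KD.chi b) x y| ≤ C * (E x * E y) := by
  obtain ⟨C, hC, hb⟩ := chi_le
  refine ⟨2 * C ^ 2, by positivity, fun a b x y => ?_⟩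
  unfold wdg
  have h2 : (1 : ℝ) ≤ √2 := by
    rw [Real.one_le_sqrt]
    norm_num
  rw [abs_div, abs_of_nonneg (Real.sqrt_nonneg 2)]
  have h3 : |KD.chi a x * KD.chi b y - KD.chi b x * KD.chi a y| ≤ 2 * C ^ 2 * (E x * E y) := by
    have e1 : |KD.chi a x * KD.chi b y| ≤ (C * E x) * (C * E y) := by
      rw [abs_mul]
      exact mul_le_mul (hb a x) (hb b y) (abs_nonneg _) (mul_nonneg hC (E_pos x).le)
    have e2 : |KD.chi b x * KD.chi a y| ≤ (C * E x) * (C * E y) := by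
      rw [abs_mul]
      exact mul_le_mul (hb b x) (hb a y) (abs_nonneg _) (mul_nonneg hC (E_pos x).le)
    calc |KD.chi a x * KD.chi b y - KD.chi b x * KD.chi a y|
        ≤ |KD.chi a x * KD.chi b y| + |KD.chi b x * KD.chi a y| := abs_sub _ _
      _ ≤ (C * E x) * (C * E y) + (C * E x) * (C * E y) := add_le_add e1 e2
      _ = 2 * C ^ 2 * (E x * E y) := by ring
  exact (div_le_self (abs_nonneg _) h2).trans h3

theorem T_le : ∃ C : ℝ, 0 ≤ C ∧ ∀ x y, |T x y| ≤ C * (E x * E y) := by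
  obtain ⟨C, hC, hb⟩ := wdg_le
  refine ⟨C * C, by positivity, fun x y => ?_⟩
  unfold T
  rw [abs_mul]
  have h1 := hb 0 2 x y
  have h2 : |wdg (KD.chi 0) (KD.chi 4) x y| ≤ C := by
    refine (hb 0 4 x y).trans ?_
    refine mul_le_of_le_one_right hC ?_
    exact mul_le_one₀ (E_le x) (E_pos y).le (E_le y)
  calc |wdg (KD.chi 0) (KD.chi 2) x y| * |wdg (KD.chi 0) (KD.chi 4) x y|
      ≤ (C * (E x * E y)) * C := mul_le_mul h1 h2 (abs_nonneg _)
        (mul_nonneg hC (mul_pos (E_pos x) (E_pos y)).le)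
    _ = C * C * (E x * E y) := by ring

/-- the Coulomb kernel against the weight -/
theorem kerE : Integrable (fun p : R3 × R3 => 1 / ‖p.1 - p.2‖ * (E p.1 * E p.2)) volume := by
  obtain ⟨B, hB, hp⟩ := exp_pot (c := 1 / 4) (by (clear * -; norm_num))
  have hm : AEStronglyMeasurable (fun p : R3 × R3 => 1 / ‖p.1 - p.2‖ * (E p.1 * E p.2))
      (volume.prod volume) := by
    refine Measurable.aestronglyMeasurable ?_
    have h1 : Measurable fun p : R3 × R3 => ‖p.1 - p.2‖ :=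
      (Continuous.measurable (by fun_prop))
    have h2 : Measurable fun p : R3 × R3 => E p.1 * E p.2 :=
      ((E_cont.comp continuous_fst).mul (E_cont.comp continuous_snd)).measurable
    exact (measurable_const.div h1).mul h2
  have hn : ∀ x y : R3, 1 / ‖x - y‖ * (E x * E y) =
      (Real.exp (-(1 / 4 * ‖x‖)) / dist x y) * E y := by
    intro x y
    rw [dist_eq_norm]
    unfold E
    ring
  rw [Measure.volume_eq_prod, integrable_prod_iff' hm]
  refine ⟨Eventually.of_forall fun y => ?_, ?_⟩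
  · simp only [hn]
    exact (hp y).1.mul_const _
  · have h3 : ∀ y : R3, (∫ x : R3, ‖1 / ‖x - y‖ * (E x * E y)‖) =
        (∫ x : R3, Real.exp (-(1 / 4 * ‖x‖)) / dist x y) * E y := by
      intro y
      rw [← integral_mul_const]
      refine integral_congr_ae (Eventually.of_forall fun x => ?_)
      simp only
      rw [Real.norm_eq_abs, abs_of_nonneg, hn]
      have := E_pos x
      have := E_pos y
      (clear B hB hp hm hn; positivity)
    have h4 : AEStronglyMeasurable (fun y : R3 => ∫ x : R3, ‖1 / ‖x - y‖ * (E x * E y)‖)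
        volume := hm.norm.prod_swap.integral_prod_right'
    refine (E_int.const_mul B).mono' h4 (Eventually.of_forall fun y => ?_)
    rw [h3, Real.norm_eq_abs, abs_of_nonneg]
    · exact mul_le_mul_of_nonneg_right (hp y).2 (E_pos y).le
    · refine mul_nonneg (integral_nonneg fun x => ?_) (E_pos y).le
      (clear * -; positivity)

theorem exists_perm {i j : Fin 4} (h : i ≠ j) : ∃ σ : Equiv.Perm (Fin 4), σ 0 = i ∧ σ 1 = j := by
  refine ⟨Equiv.swap 0 i * Equiv.swap 1 (Equiv.swap 0 i j), ?_, ?_⟩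
  · have h1 : Equiv.swap (1 : Fin 4) (Equiv.swap 0 i j) 0 = 0 := by
      refine Equiv.swap_apply_of_ne_of_ne (by decide) fun h0 => ?_
      have h2 := congrArg (Equiv.swap 0 i) h0
      rw [Equiv.swap_apply_left, Equiv.swap_apply_self] at h2
      exact h h2
    rw [Equiv.Perm.mul_apply, h1, Equiv.swap_apply_left]
  · rw [Equiv.Perm.mul_apply, Equiv.swap_apply_left, Equiv.swap_apply_self]

/-- domination of all pair terms -/
theorem domE {i j : Fin 4} (h : i ≠ j) :
    Integrable (fun x : Conf 4 => 1 / ‖x i - x j‖ * ∏ l, E (x l)) volume := by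
  obtain ⟨σ, h0, h1⟩ := exists_perm h
  have hb : Integrable (fun x : Conf 4 => 1 / ‖x 0 - x 1‖ * ∏ l, E (x l)) volume := by
    rw [integrable_conf4]
    have h2 : Integrable (fun p : R3 × R3 => E p.1 * E p.2) volume := E_int.mul_prod E_int
    refine (kerE.mul_prod h2).congr (Eventually.of_forall fun p => ?_)
    simp only [one_div, Fin.isValue, Matrix.cons_val_zero, Matrix.cons_val_one, Fin.prod_univ_four, Matrix.cons_val]
    ring
  have h3 := (KD.mp_perm σ).integrable_comp_of_integrable hb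
  refine h3.congr (Eventually.of_forall fun x => ?_)
  simp only [Function.comp_apply, h0, h1]
  congr 1
  exact Equiv.prod_comp σ fun l => E (x l)

/-- the pair terms -/
def K (i j : Fin 4) (x : Conf 4) : ℝ := 1 / ‖x i - x j‖ * (T (x 0) (x 1) * T (x 2) (x 3))

theorem T_comp (i j : Fin 4) : Continuous fun x : Conf 4 => T (x i) (x j) := by
  have h : Continuous fun x : Conf 4 => (x i, x j) :=
    (continuous_apply i).prodMk (continuous_apply j)
  have h2 := Continuous.comp T_cont h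
  have e : (fun x : Conf 4 => T (x i) (x j)) =
      (fun p : R3 × R3 => T p.1 p.2) ∘ fun x : Conf 4 => (x i, x j) := by
    funext x
    rfl
  rw [e]
  exact h2

theorem ker_meas (i j : Fin 4) : Measurable fun x : Conf 4 => 1 / ‖x i - x j‖ := by
  have h : Measurable fun x : Conf 4 => ‖x i - x j‖ := Continuous.measurable (by fun_prop)
  exact measurable_const.div h

theorem K_meas (i j : Fin 4) : AEStronglyMeasurable (K i j) volume := by
  have h2 : Measurable fun x : Conf 4 => T (x 0) (x 1) * T (x 2) (x 3) :=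
    ((T_comp 0 1).mul (T_comp 2 3)).measurable
  have h3 : Measurable (K i j) := (ker_meas i j).mul h2
  exact h3.aestronglyMeasurable

theorem K_le : ∃ C : ℝ, 0 ≤ C ∧ ∀ (i j : Fin 4) (x : Conf 4),
    |K i j x| ≤ C * (1 / ‖x i - x j‖ * ∏ l, E (x l)) := by
  obtain ⟨C, hC, hb⟩ := T_le
  refine ⟨C * C, by positivity, fun i j x => ?_⟩
  have h0 : 0 ≤ 1 / ‖x i - x j‖ := by positivity
  have e0 := E_pos (x 0)
  have e1 := E_pos (x 1)
  have h3 : |T (x 0) (x 1)| * |T (x 2) (x 3)| ≤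
      (C * (E (x 0) * E (x 1))) * (C * (E (x 2) * E (x 3))) :=
    mul_le_mul (hb (x 0) (x 1)) (hb (x 2) (x 3)) (abs_nonneg _) (by (clear * - hC e0 e1; positivity))
  have h4 : |K i j x| = 1 / ‖x i - x j‖ * (|T (x 0) (x 1)| * |T (x 2) (x 3)|) := by
    rw [K, abs_mul, abs_mul, abs_of_nonneg h0]
  rw [h4, Fin.prod_univ_four]
  refine (mul_le_mul_of_nonneg_left h3 h0).trans (le_of_eq ?_)
  ring

theorem K_int {i j : Fin 4} (h : i ≠ j) : Integrable (K i j) volume := by
  obtain ⟨C, hC, hb⟩ := K_le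
  exact ((domE h).const_mul C).mono' (K_meas i j) (Eventually.of_forall fun x => hb i j x)

theorem chi_mul_int (a b : Fin 5) : Integrable (fun y => KD.chi a y * KD.chi b y) volume :=
  (chi_memLp a).integrable_mul (chi_memLp b)

theorem int_T (x : R3) : ∫ y, T x y = 1 / 2 * (KD.chi 2 x * KD.chi 4 x) := by
  have i1 := (chi_mul_int 2 4).const_mul (KD.chi 0 x ^ 2)
  have i2 := (chi_mul_int 2 0).const_mul (KD.chi 0 x * KD.chi 4 x)
  have i3 := (chi_mul_int 0 4).const_mul (KD.chi 2 x * KD.chi 0 x)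
  have i4 := (chi_mul_int 0 0).const_mul (KD.chi 2 x * KD.chi 4 x)
  have e : ∀ y, T x y = 1 / 2 * (KD.chi 0 x ^ 2 * (KD.chi 2 y * KD.chi 4 y) -
    (KD.chi 0 x * KD.chi 4 x) * (KD.chi 2 y * KD.chi 0 y) -
    (KD.chi 2 x * KD.chi 0 x) * (KD.chi 0 y * KD.chi 4 y) +
    (KD.chi 2 x * KD.chi 4 x) * (KD.chi 0 y * KD.chi 0 y)) := by
    intro y
    rw [T_eq, sq (KD.chi 0 y)]
  have j2 : Integrable (fun y => KD.chi 0 x ^ 2 * (KD.chi 2 y * KD.chi 4 y) -
    (KD.chi 0 x * KD.chi 4 x) * (KD.chi 2 y * KD.chi 0 y)) volume := i1.sub i2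
  have j3 : Integrable (fun y => KD.chi 0 x ^ 2 * (KD.chi 2 y * KD.chi 4 y) -
    (KD.chi 0 x * KD.chi 4 x) * (KD.chi 2 y * KD.chi 0 y) -
    (KD.chi 2 x * KD.chi 0 x) * (KD.chi 0 y * KD.chi 4 y)) volume := j2.sub i3
  simp only [e]
  rw [integral_const_mul, integral_add j3 i4, integral_sub j2 i3,
    integral_sub i1 i2, integral_const_mul, integral_const_mul, integral_const_mul,
    integral_const_mul, chi_ortho, chi_ortho, chi_ortho, chi_ortho]
  rw [if_neg (by decide), if_neg (by decide), if_neg (by decide), if_pos rfl]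
  ring

theorem T_int : Integrable (fun p : R3 × R3 => T p.1 p.2) volume := by
  obtain ⟨C, hC, hb⟩ := T_le
  have h2 : Integrable (fun p : R3 × R3 => E p.1 * E p.2) volume := E_int.mul_prod E_int
  refine (h2.const_mul C).mono' T_cont.aestronglyMeasurable (Eventually.of_forall fun p => ?_)
  exact hb p.1 p.2

theorem int_T0 : ∫ p : R3 × R3, T p.1 p.2 = 0 := by
  have h := T_int
  rw [Measure.volume_eq_prod] at h ⊢
  rw [integral_prod _ h]
  simp only [int_T]
  rw [integral_const_mul, chi_ortho, if_neg (by decide), mul_zero]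

theorem I01 : ∫ x, K 0 1 x = 0 := by
  rw [integral_conf4]
  have e : ∀ p : (R3 × R3) × (R3 × R3), K 0 1 ![p.1.1, p.1.2, p.2.1, p.2.2] =
      (fun q : R3 × R3 => 1 / ‖q.1 - q.2‖ * T q.1 q.2) p.1 *
        (fun q : R3 × R3 => T q.1 q.2) p.2 := by
    intro p
    simp only [K, Fin.isValue, Matrix.cons_val_zero, Matrix.cons_val_one, one_div, Matrix.cons_val]
    ring
  simp only [e]
  rw [Measure.volume_eq_prod, integral_prod_mul (fun q : R3 × R3 => 1 / ‖q.1 - q.2‖ * T q.1 q.2)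
    (fun q : R3 × R3 => T q.1 q.2), int_T0, mul_zero]

theorem I23 : ∫ x, K 2 3 x = 0 := by
  rw [integral_conf4]
  have e : ∀ p : (R3 × R3) × (R3 × R3), K 2 3 ![p.1.1, p.1.2, p.2.1, p.2.2] =
      (fun q : R3 × R3 => T q.1 q.2) p.1 *
        (fun q : R3 × R3 => 1 / ‖q.1 - q.2‖ * T q.1 q.2) p.2 := by
    intro p
    simp only [K, Fin.isValue, Matrix.cons_val, one_div, Matrix.cons_val_zero, Matrix.cons_val_one]
    ring
  simp only [e]
  rw [Measure.volume_eq_prod, integral_prod_mul (fun q : R3 × R3 => T q.1 q.2)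
    (fun q : R3 × R3 => 1 / ‖q.1 - q.2‖ * T q.1 q.2), int_T0, zero_mul]

/-- the term of the electrons `0` and `2`, reordered -/
def K' (x : Conf 4) : ℝ := 1 / ‖x 0 - x 1‖ * (T (x 0) (x 2) * T (x 1) (x 3))

theorem K'_eq (x : Conf 4) : K' x = K 0 2 (x ∘ Equiv.swap (1 : Fin 4) 2) := by
  have h0 : Equiv.swap (1 : Fin 4) 2 0 = 0 := by decide
  have h1 : Equiv.swap (1 : Fin 4) 2 1 = 2 := by decide
  have h2 : Equiv.swap (1 : Fin 4) 2 2 = 1 := by decide
  have h3 : Equiv.swap (1 : Fin 4) 2 3 = 3 := by decide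
  simp only [K', K, Function.comp_apply, h0, h2, h1, h3]

theorem I02 : ∫ x, K 0 2 x = 1 / 4 * Kxz := by
  have hi : Integrable K' volume := by
    have h := (KD.mp_perm (Equiv.swap (1 : Fin 4) 2)).integrable_comp_of_integrable
      (K_int (i := 0) (j := 2) (by decide))
    exact h.congr (Eventually.of_forall fun x => (K'_eq x).symm)
  have h1 : ∫ x, K 0 2 x = ∫ x, K' x := by
    simp only [K'_eq]
    exact (KD.integral_perm (Equiv.swap (1 : Fin 4) 2) (K 0 2)).symm
  have e : ∀ p : (R3 × R3) × (R3 × R3), K' ![p.1.1, p.1.2, p.2.1, p.2.2] =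
      1 / ‖p.1.1 - p.1.2‖ * (T p.1.1 p.2.1 * T p.1.2 p.2.2) := by
    intro p
    simp only [K', Fin.isValue, Matrix.cons_val_zero, Matrix.cons_val_one, one_div, Matrix.cons_val]
  rw [integrable_conf4] at hi
  simp only [e] at hi
  rw [h1, integral_conf4]
  simp only [e]
  rw [Measure.volume_eq_prod] at hi ⊢
  rw [integral_prod _ hi]
  have h2 : ∀ q : R3 × R3, (∫ r : R3 × R3, 1 / ‖q.1 - q.2‖ * (T q.1 r.1 * T q.2 r.2)) =
      1 / 4 * (1 / ‖q.1 - q.2‖ *
        ((KD.chi 2 q.1 * KD.chi 4 q.1) * (KD.chi 2 q.2 * KD.chi 4 q.2))) := by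
    intro q
    rw [integral_const_mul, Measure.volume_eq_prod,
      integral_prod_mul (fun r : R3 => T q.1 r) (fun r : R3 => T q.2 r), int_T, int_T]
    ring
  simp only [h2]
  rw [integral_const_mul]
  rfl

theorem I12 : ∫ x, K 1 2 x = 1 / 4 * Kxz := by
  rw [← I02, ← KD.integral_perm (Equiv.swap (0 : Fin 4) 1) (K 0 2)]
  refine integral_congr_ae (Eventually.of_forall fun x => ?_)
  have h0 : Equiv.swap (0 : Fin 4) 1 0 = 1 := by decide
  have h1 : Equiv.swap (0 : Fin 4) 1 1 = 0 := by decide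
  have h2 : Equiv.swap (0 : Fin 4) 1 2 = 2 := by decide
  have h3 : Equiv.swap (0 : Fin 4) 1 3 = 3 := by decide
  simp only [K, Function.comp_apply, h0, h1, h2, h3]
  rw [T_symm (x 1) (x 0)]

theorem I03 : ∫ x, K 0 3 x = 1 / 4 * Kxz := by
  rw [← I02, ← KD.integral_perm (Equiv.swap (2 : Fin 4) 3) (K 0 2)]
  refine integral_congr_ae (Eventually.of_forall fun x => ?_)
  have h0 : Equiv.swap (2 : Fin 4) 3 0 = 0 := by decide
  have h1 : Equiv.swap (2 : Fin 4) 3 1 = 1 := by decide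
  have h2 : Equiv.swap (2 : Fin 4) 3 2 = 3 := by decide
  have h3 : Equiv.swap (2 : Fin 4) 3 3 = 2 := by decide
  simp only [K, Function.comp_apply, h0, h1, h2, h3]
  rw [T_symm (x 3) (x 2)]

theorem I13 : ∫ x, K 1 3 x = 1 / 4 * Kxz := by
  rw [← I03, ← KD.integral_perm (Equiv.swap (0 : Fin 4) 1) (K 0 3)]
  refine integral_congr_ae (Eventually.of_forall fun x => ?_)
  have h0 : Equiv.swap (0 : Fin 4) 1 0 = 1 := by decide
  have h1 : Equiv.swap (0 : Fin 4) 1 1 = 0 := by decide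
  have h2 : Equiv.swap (0 : Fin 4) 1 2 = 2 := by decide
  have h3 : Equiv.swap (0 : Fin 4) 1 3 = 3 := by decide
  simp only [K, Function.comp_apply, h0, h1, h2, h3]
  rw [T_symm (x 1) (x 0)]

theorem rep_expand (x : Conf 4) : repN x * (sh4 (1, 1) x * sh4 (3, 3) x) =
    K 0 1 x + K 0 2 x + K 0 3 x + K 1 2 x + K 1 3 x + K 2 3 x := by
  have i0 : Finset.Ioi (0 : Fin 4) = {1, 2, 3} := by decide
  have i1 : Finset.Ioi (1 : Fin 4) = {2, 3} := by decide
  have i2 : Finset.Ioi (2 : Fin 4) = {3} := by decide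
  have i3 : Finset.Ioi (3 : Fin 4) = ∅ := by decide
  have hs : sh4 (1, 1) x * sh4 (3, 3) x = T (x 0) (x 1) * T (x 2) (x 3) := by
    have c1 : (Fin.succ (1 : Fin 4) : Fin 5) = 2 := rfl
    have c3 : (Fin.succ (3 : Fin 4) : Fin 5) = 4 := rfl
    unfold sh4 T
    rw [c1, c3]
    ring
  rw [hs]
  unfold repN K
  rw [Fin.sum_univ_four, i0, i1, i2, i3, Finset.sum_empty, Finset.sum_singleton,
    Finset.sum_pair (by decide), Finset.sum_insert (by decide), Finset.sum_pair (by decide)]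
  ring

end XZ

/-- the matrix element between `p_x p_x` and `p_z p_z` is the exchange integral -/
theorem R4_xz : R4 (1, 1) (3, 3) = Kxz := by
  have k01 := XZ.K_int (i := 0) (j := 1) (by decide)
  have k02 := XZ.K_int (i := 0) (j := 2) (by decide)
  have k03 := XZ.K_int (i := 0) (j := 3) (by decide)
  have k12 := XZ.K_int (i := 1) (j := 2) (by decide)
  have k13 := XZ.K_int (i := 1) (j := 3) (by decide)
  have k23 := XZ.K_int (i := 2) (j := 3) (by decide)
  have j2 : Integrable (fun x => XZ.K 0 1 x + XZ.K 0 2 x) volume := k01.add k02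
  have j3 : Integrable (fun x => XZ.K 0 1 x + XZ.K 0 2 x + XZ.K 0 3 x) volume := j2.add k03
  have j4 : Integrable (fun x => XZ.K 0 1 x + XZ.K 0 2 x + XZ.K 0 3 x + XZ.K 1 2 x) volume :=
    j3.add k12
  have j5 : Integrable (fun x => XZ.K 0 1 x + XZ.K 0 2 x + XZ.K 0 3 x + XZ.K 1 2 x +
    XZ.K 1 3 x) volume := j4.add k13
  unfold R4
  simp only [XZ.rep_expand]
  rw [integral_add j5 k23, integral_add j4 k13, integral_add j3 k12, integral_add j2 k03,
    integral_add k01 k02, XZ.I01, XZ.I02, XZ.I03, XZ.I12, XZ.I13, XZ.I23]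
  ring

end

end Vale.Agent.P363.D
end
end

section

section

/-! # Matrix of the perturbation on the shells -/

namespace Vale.Agent.P363.D

open MeasureTheory Set Filter Topology
open scoped ENNReal ContDiff

noncomputable section

theorem W4_eq (A L : ℝ) (p p' : Fin 4 × Fin 4) : W4 A L p p' =
    -(A * if p = p' then 2 * uD L 0 + uD L p.1.succ + uD L p.2.succ else 0) + R4 p p' :=
  W4_eq_pf A L p p'

theorem W3_eq (A L : ℝ) (a a' : Fin 4) : W3 A L a a' =
    -(A * if a = a' then 2 * uD L 0 + uD L a.succ else 0) + Rm3 a a' :=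
  W3_eq_pf A L a a'

theorem R4_symm (p p' : Fin 4 × Fin 4) : R4 p p' = R4 p' p := by
  unfold R4
  refine integral_congr_ae (Eventually.of_forall fun x => ?_)
  change repN x * (sh4 p x * sh4 p' x) = repN x * (sh4 p' x * sh4 p x)
  rw [mul_comm (sh4 p x)]

theorem Rm3_symm (a a' : Fin 4) : Rm3 a a' = Rm3 a' a := by
  unfold Rm3
  refine integral_congr_ae (Eventually.of_forall fun x => ?_)
  change repN x * (sh3 a x * sh3 a' x) = repN x * (sh3 a' x * sh3 a x)
  rw [mul_comm (sh3 a x)]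

theorem ShMat_wdg_refl (k : Fin 3) (a : Fin 4) (x y : R3) :
    wdg (KD.chi 0) (KD.chi a.succ) (refl k x) (refl k y) =
      sg k a * wdg (KD.chi 0) (KD.chi a.succ) x y := by
  unfold wdg
  rw [chi0_refl, chi0_refl, chi_refl, chi_refl]
  ring

theorem ShMat_repN_refl {N : ℕ} (k : Fin 3) (x : Conf N) : repN (reflN k x) = repN x := by
  unfold repN
  refine Finset.sum_congr rfl fun i _ => Finset.sum_congr rfl fun j _ => ?_
  change 1 / ‖refl k (x i) - refl k (x j)‖ = _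
  have h : refl k (x i) - refl k (x j) = refl k (x i - x j) :=
    ((reflE k).toLinearEquiv.toLinearMap.map_sub (x i) (x j)).symm
  rw [h, norm_refl]

theorem sh4_refl (k : Fin 3) (p : Fin 4 × Fin 4) (x : Conf 4) :
    sh4 p (reflN k x) = sg k p.1 * sg k p.2 * sh4 p x := by
  unfold sh4 reflN
  rw [ShMat_wdg_refl, ShMat_wdg_refl]
  ring

theorem sh3_refl (k : Fin 3) (a : Fin 4) (x : Conf 3) :
    sh3 a (reflN k x) = sg k a * sh3 a x := by
  unfold sh3 reflN
  rw [ShMat_wdg_refl, chi0_refl]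
  ring

theorem R4_par (k : Fin 3) (p p' : Fin 4 × Fin 4) :
    R4 p p' = (sg k p.1 * sg k p.2) * (sg k p'.1 * sg k p'.2) * R4 p p' := by
  have h : R4 p p' = ∫ x : Conf 4, repN (reflN k x) * (sh4 p (reflN k x) * sh4 p' (reflN k x)) :=
    (integral_reflN k fun x : Conf 4 => repN x * (sh4 p x * sh4 p' x)).symm
  conv_lhs => rw [h]
  unfold R4
  rw [← integral_const_mul]
  refine integral_congr_ae (Eventually.of_forall fun x => ?_)
  change repN (reflN k x) * (sh4 p (reflN k x) * sh4 p' (reflN k x)) =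
    (sg k p.1 * sg k p.2) * (sg k p'.1 * sg k p'.2) * (repN x * (sh4 p x * sh4 p' x))
  rw [ShMat_repN_refl, sh4_refl, sh4_refl]
  ring

theorem Rm3_par (k : Fin 3) (a a' : Fin 4) : Rm3 a a' = sg k a * sg k a' * Rm3 a a' := by
  have h : Rm3 a a' = ∫ x : Conf 3, repN (reflN k x) * (sh3 a (reflN k x) * sh3 a' (reflN k x)) :=
    (integral_reflN k fun x : Conf 3 => repN x * (sh3 a x * sh3 a' x)).symm
  conv_lhs => rw [h]
  unfold Rm3
  rw [← integral_const_mul]
  refine integral_congr_ae (Eventually.of_forall fun x => ?_)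
  change repN (reflN k x) * (sh3 a (reflN k x) * sh3 a' (reflN k x)) =
    sg k a * sg k a' * (repN x * (sh3 a x * sh3 a' x))
  rw [ShMat_repN_refl, sh3_refl, sh3_refl]
  ring

end

end Vale.Agent.P363.D
end
end

section

section

/-! # Positivity of the exchange integral of `2p_x` and `2p_z` -/

namespace Vale.Agent.P363.D

open MeasureTheory Set Filter Topology
open scoped ENNReal ContDiff

noncomputable section

/-- the exchange density -/
def kxz_rho (x : R3) : ℝ := KD.chi 2 x * KD.chi 4 x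

lemma kxz_rho_eq (x : R3) :
    kxz_rho x = x 0 * x 2 * Real.exp (-‖x‖) / (32 * Real.pi) := by
  have h1 : √(32 * Real.pi) * √(32 * Real.pi) = 32 * Real.pi :=
    Real.mul_self_sqrt (by positivity)
  have h2 : Real.exp (-‖x‖) = Real.exp (-‖x‖ / 2) * Real.exp (-‖x‖ / 2) := by
    rw [← Real.exp_add]; congr 1; ring
  have e : kxz_rho x = x 0 * Real.exp (-‖x‖ / 2) / √(32 * Real.pi) *
      (x 2 * Real.exp (-‖x‖ / 2) / √(32 * Real.pi)) := rfl
  rw [e, div_mul_div_comm, h1, h2]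
  congr 1
  ring

lemma kxz_rho_cont : Continuous kxz_rho := by
  have e : kxz_rho = fun x : R3 => x 0 * x 2 * Real.exp (-‖x‖) / (32 * Real.pi) :=
    funext kxz_rho_eq
  rw [e]
  fun_prop

lemma kxz_rho_bound (x : R3) : |kxz_rho x| ≤ Real.exp (-(‖x‖ / 2)) := by
  rw [kxz_rho_eq, abs_div, abs_mul, abs_mul, Real.abs_exp,
    abs_of_pos (show 0 < 32 * Real.pi by positivity)]
  have h0 : |x 0| ≤ ‖x‖ := by simpa only [Fin.isValue, Real.norm_eq_abs] using PiLp.norm_apply_le x 0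
  have h2 : |x 2| ≤ ‖x‖ := by simpa only [Fin.isValue, Real.norm_eq_abs] using PiLp.norm_apply_le x 2
  have hn := norm_nonneg x
  have h3 : |x 0| * |x 2| ≤ ‖x‖ ^ 2 := by
    rw [sq]; exact mul_le_mul h0 h2 (abs_nonneg _) hn
  have h4 : Real.exp (-‖x‖) = Real.exp (-(‖x‖ / 2)) * Real.exp (-(‖x‖ / 2)) := by
    rw [← Real.exp_add]; congr 1; ring
  have h5 : ‖x‖ ^ 2 * Real.exp (-(‖x‖ / 2)) ≤ 8 := by
    have h6 := Real.quadratic_le_exp_of_nonneg (show 0 ≤ ‖x‖ / 2 by (clear * -; positivity))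
    rw [Real.exp_neg, mul_inv_le_iff₀ (Real.exp_pos _)]
    linarith
  rw [div_le_iff₀ (by positivity)]
  have hpi := Real.pi_gt_three
  have hE := Real.exp_pos (-(‖x‖ / 2))
  calc |x 0| * |x 2| * Real.exp (-‖x‖) ≤ ‖x‖ ^ 2 * Real.exp (-‖x‖) := by gcongr
    _ = (‖x‖ ^ 2 * Real.exp (-(‖x‖ / 2))) * Real.exp (-(‖x‖ / 2)) := by rw [h4]; ring
    _ ≤ 8 * Real.exp (-(‖x‖ / 2)) := by (clear * - h5; gcongr)
    _ ≤ Real.exp (-(‖x‖ / 2)) * (32 * Real.pi) := by linarith only [mul_pos (sub_pos.2 hE) (sub_pos.2 hpi), hE]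

lemma kxz_rho_refl0 (x : R3) : kxz_rho (refl 0 x) = - kxz_rho x := by
  rw [kxz_rho_eq, kxz_rho_eq, norm_refl, refl_apply, refl_apply, if_pos rfl,
    if_neg (by decide)]
  ring

lemma kxz_rho_refl2 (x : R3) : kxz_rho (refl 2 x) = - kxz_rho x := by
  rw [kxz_rho_eq, kxz_rho_eq, norm_refl, refl_apply, refl_apply, if_neg (by decide), if_pos rfl]
  ring

/-- the integrand -/
def kxz_G (p : R3 × R3) : ℝ := 1 / ‖p.1 - p.2‖ * (kxz_rho p.1 * kxz_rho p.2)

lemma kxz_G_meas : Measurable kxz_G := by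
  have h := kxz_rho_cont.measurable
  unfold kxz_G
  exact (measurable_const.div (measurable_fst.sub measurable_snd).norm).mul
    ((h.comp measurable_fst).mul (h.comp measurable_snd))

lemma kxz_int_rad : Integrable (fun z : R3 => 1 / ‖z‖ * Real.exp (-(‖z‖ / 4))) volume := by
  rw [integrable_fun_norm_addHaar (μ := (volume : Measure R3))
    (f := fun r : ℝ => 1 / r * Real.exp (-(r / 4))), finrank_euclideanSpace_fin]
  have h := integrableOn_rpow_mul_exp_neg_mul_rpow (p := 1) (s := 1) (b := 1 / 4) (by norm_num)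
    one_pos (by norm_num)
  refine h.congr_fun (fun r hr => ?_) measurableSet_Ioi
  have hr0 : r ≠ 0 := (mem_Ioi.1 hr).ne'
  simp only [Real.rpow_one, smul_eq_mul]
  rw [show -(1 / 4) * r = -(r / 4) by ring]
  field_simp

lemma kxz_int_exp : Integrable (fun z : R3 => Real.exp (-(‖z‖ / 4))) volume := by
  rw [integrable_fun_norm_addHaar (μ := (volume : Measure R3))
    (f := fun r : ℝ => Real.exp (-(r / 4))), finrank_euclideanSpace_fin]
  have h := integrableOn_rpow_mul_exp_neg_mul_rpow (p := 1) (s := 2) (b := 1 / 4) (by norm_num)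
    one_pos (by norm_num)
  refine h.congr_fun (fun r hr => ?_) measurableSet_Ioi
  simp only [Real.rpow_one, Real.rpow_two, smul_eq_mul]
  rw [show -(1 / 4) * r = -(r / 4) by ring]

lemma kxz_G_int : Integrable kxz_G volume := by
  have h1 : Integrable (fun p : R3 × R3 => 1 / ‖p.1‖ * Real.exp (-(‖p.1‖ / 4)) *
      Real.exp (-(‖p.2‖ / 4))) (volume.prod volume) :=
    kxz_int_rad.mul_prod kxz_int_exp
  have h2 := (measurePreserving_sub_prod (volume : Measure R3) (volume : Measure R3)).integrable_comp_of_integrable h1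
  refine h2.mono' kxz_G_meas.aestronglyMeasurable (.of_forall fun p => ?_)
  simp only [Function.comp_def]
  unfold kxz_G
  rw [Real.norm_eq_abs, abs_mul, abs_mul, abs_of_nonneg (by (clear * -; positivity)), mul_assoc]
  refine mul_le_mul_of_nonneg_left ?_ (by positivity)
  calc |kxz_rho p.1| * |kxz_rho p.2| ≤ Real.exp (-(‖p.1‖ / 2)) * Real.exp (-(‖p.2‖ / 2)) :=
        mul_le_mul (kxz_rho_bound _) (kxz_rho_bound _) (abs_nonneg _) (Real.exp_pos _).le
    _ ≤ Real.exp (-(‖p.1 - p.2‖ / 4)) * Real.exp (-(‖p.2‖ / 4)) := by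
        rw [← Real.exp_add, ← Real.exp_add]
        apply Real.exp_le_exp.2
        have := norm_sub_le p.1 p.2
        have := norm_nonneg p.1
        linarith

/-- the algebraic inequality, `A` the smallest distance and `D` the largest one -/
lemma kxz_alg {A B C D : ℝ} (hA : 0 < A) (hB : A < B) (hC : A < C) (hD : 0 < D)
    (h : A ^ 2 + D ^ 2 = B ^ 2 + C ^ 2) : 0 < 1 / A - 1 / B - 1 / C + 1 / D := by
  have hB0 : 0 < B := hA.trans hB
  have hC0 : 0 < C := hA.trans hC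
  have h1 : A ^ 2 * D ^ 2 < B ^ 2 * C ^ 2 := by
    have : 0 < (B ^ 2 - A ^ 2) * (C ^ 2 - A ^ 2) := mul_pos (by nlinarith only [hA, hB]) (by nlinarith only [hA, hC])
    nlinarith only [this, h]
  have h2 : A * D < B * C := by
    have : (A * D) ^ 2 < (B * C) ^ 2 := by linarith
    exact lt_of_pow_lt_pow_left₀ 2 (by positivity) this
  have hAD : 0 < A * D := by positivity
  have hBC : 0 < B * C := by positivity
  have h3 : ((B + C) * (A * D)) ^ 2 < ((A + D) * (B * C)) ^ 2 := by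
    have h4 : ((A + D) * (B * C)) ^ 2 - ((B + C) * (A * D)) ^ 2 =
        (A ^ 2 + D ^ 2) * ((B * C) ^ 2 - (A * D) ^ 2) +
          2 * (A * D) * (B * C) * (B * C - A * D) +
          (A * D) ^ 2 * (A ^ 2 + D ^ 2 - (B ^ 2 + C ^ 2)) := by ring
    have h5 : 0 < (A ^ 2 + D ^ 2) * ((B * C) ^ 2 - (A * D) ^ 2) := by
      refine mul_pos (by positivity) ?_
      linarith
    have h6 : 0 < 2 * (A * D) * (B * C) * (B * C - A * D) :=
      mul_pos (by positivity) (by linarith only [h2])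
    rw [h, sub_self, mul_zero] at h4
    rw [h] at h5
    linarith only [h4, h5, h6]
  have h4 : (B + C) * (A * D) < (A + D) * (B * C) :=
    lt_of_pow_lt_pow_left₀ 2 (by (clear * - hA hD hB0 hC0; positivity)) h3
  have h5 : 1 / A - 1 / B - 1 / C + 1 / D =
      ((A + D) * (B * C) - (B + C) * (A * D)) / (A * B * C * D) := by
    field_simp
    ring
  rw [h5]
  exact div_pos (by linarith only [h4]) (by (clear * - hA hB0 hC0 hD; positivity))

/-- sign of the second difference -/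
lemma kxz_alg' {A B C D P Q : ℝ} (hA : 0 < A) (hB : 0 < B) (hC : 0 < C) (hD : 0 < D)
    (h1 : B ^ 2 = A ^ 2 + P) (h2 : C ^ 2 = A ^ 2 + Q) (h3 : D ^ 2 = A ^ 2 + P + Q)
    (hP : P ≠ 0) (hQ : Q ≠ 0) : 0 < P * Q * (1 / A - 1 / B - 1 / C + 1 / D) := by
  have hlt : ∀ {a b : ℝ}, 0 < a → 0 < b → a ^ 2 < b ^ 2 → a < b := fun _ hb h =>
    lt_of_pow_lt_pow_left₀ 2 hb.le h
  rcases lt_or_gt_of_ne hP with hP | hP <;> rcases lt_or_gt_of_ne hQ with hQ | hQ
  · -- `D` smallest
    have := kxz_alg hD (hlt hD hB (by linarith only [h1, h3, hQ])) (hlt hD hC (by linarith only [h2, h3, hP])) hA (by linarith only [h1, h2, h3])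
    refine mul_pos (mul_pos_of_neg_of_neg hP hQ) (by linarith only [this])
  · -- `B` smallest
    have := kxz_alg hB (hlt hB hA (by linarith only [h1, hP])) (hlt hB hD (by linarith only [h1, h3, hQ])) hC (by linarith only [h1, h2, h3])
    refine mul_pos_of_neg_of_neg (mul_neg_of_neg_of_pos hP hQ) (by linarith only [this])
  · -- `C` smallest
    have := kxz_alg hC (hlt hC hA (by linarith only [h2, hQ])) (hlt hC hD (by linarith only [h2, h3, hP])) hB (by linarith)
    refine mul_pos_of_neg_of_neg (mul_neg_of_pos_of_neg hP hQ) (by linarith)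
  · have := kxz_alg hA (hlt hA hB (by linarith only [h1, hP])) (hlt hA hC (by linarith only [h2, hQ])) hD (by linarith only [h1, h2, h3])
    exact mul_pos (mul_pos hP hQ) this

lemma kxz_dist_sq (x y : R3) :
    ‖x - y‖ ^ 2 = (x 0 - y 0) ^ 2 + (x 1 - y 1) ^ 2 + (x 2 - y 2) ^ 2 := by
  rw [EuclideanSpace.norm_sq_eq, Fin.sum_univ_three]
  simp only [PiLp.sub_apply, Real.norm_eq_abs, sq_abs]

lemma kxz_q0 (x y : R3) : ‖x - refl 0 y‖ ^ 2 = ‖x - y‖ ^ 2 + 4 * (x 0 * y 0) := by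
  have a0 : refl 0 y 0 = - y 0 := by rw [refl_apply, if_pos rfl]
  have a1 : refl 0 y 1 = y 1 := by rw [refl_apply, if_neg (by decide)]
  have a2 : refl 0 y 2 = y 2 := by rw [refl_apply, if_neg (by decide)]
  rw [kxz_dist_sq, kxz_dist_sq, a0, a1, a2]
  ring

lemma kxz_q2 (x y : R3) : ‖x - refl 2 y‖ ^ 2 = ‖x - y‖ ^ 2 + 4 * (x 2 * y 2) := by
  have a0 : refl 2 y 0 = y 0 := by rw [refl_apply, if_neg (by decide)]
  have a1 : refl 2 y 1 = y 1 := by rw [refl_apply, if_neg (by decide)]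
  have a2 : refl 2 y 2 = - y 2 := by rw [refl_apply, if_pos rfl]
  rw [kxz_dist_sq, kxz_dist_sq, a0, a1, a2]
  ring

lemma kxz_ae (L : (R3 × R3) →ₗ[ℝ] ℝ) (v : R3 × R3) (hv : L v ≠ 0) :
    ∀ᵐ p : R3 × R3, L p ≠ 0 := by
  have h : LinearMap.ker L ≠ ⊤ := by
    intro h
    exact hv (LinearMap.mem_ker.1 (h ▸ Submodule.mem_top))
  have h2 := Measure.addHaar_submodule (volume : Measure (R3 × R3)) (LinearMap.ker L) h
  rw [ae_iff]
  refine measure_mono_null (fun p hp => ?_) h2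
  simpa only [SetLike.mem_coe, LinearMap.mem_ker, ne_eq, Decidable.not_not, mem_ofPred_eq] using hp

/-- coordinate functional -/
def kxz_L (a b : ℝ) (i : Fin 3) : (R3 × R3) →ₗ[ℝ] ℝ where
  toFun p := a * p.1 i + b * p.2 i
  map_add' p q := by
    simp only [Prod.fst_add, Prod.snd_add, PiLp.add_apply]; ring
  map_smul' c p := by
    simp only [Prod.smul_fst, Prod.smul_snd, PiLp.smul_apply, smul_eq_mul, RingHom.id_apply]; ring

lemma kxz_ae' {a b : ℝ} (h : a ^ 2 + b ^ 2 ≠ 0) (i : Fin 3) :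
    ∀ᵐ p : R3 × R3, a * p.1 i + b * p.2 i ≠ 0 := by
  refine kxz_ae (kxz_L a b i) (EuclideanSpace.single i a, EuclideanSpace.single i b) ?_
  change a * (EuclideanSpace.single i a : R3) i + b * (EuclideanSpace.single i b : R3) i ≠ 0
  simpa only [PiLp.single_eq_same, ne_eq, sq] using h

theorem Kxz_pos_pf : 0 < Kxz := by
  have hK : Kxz = ∫ p, kxz_G p := rfl
  have mp : ∀ k : Fin 3, MeasurePreserving (fun p : R3 × R3 => (p.1, refl k p.2))
      volume volume := fun k => (MeasurePreserving.id volume).prod (mp_refl k)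
  have me : ∀ k : Fin 3, MeasurableEmbedding (fun p : R3 × R3 => (p.1, refl k p.2)) := fun k =>
    ((MeasurableEquiv.refl R3).prodCongr
      (reflE k).toHomeomorph.toMeasurableEquiv).measurableEmbedding
  have hi : ∀ (k : Fin 3) (f : R3 × R3 → ℝ), ∫ p : R3 × R3, f (p.1, refl k p.2) = ∫ p, f p :=
    fun k f => (mp k).integral_comp (me k) f
  have hI : ∀ (k : Fin 3) {f : R3 × R3 → ℝ}, Integrable f volume →
      Integrable (fun p : R3 × R3 => f (p.1, refl k p.2)) volume :=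
    fun k f hf => (mp k).integrable_comp_of_integrable hf
  -- the four copies
  set G0 : R3 × R3 → ℝ := fun p => kxz_G (p.1, refl 0 p.2) with hG0
  set G2 : R3 × R3 → ℝ := fun p => kxz_G (p.1, refl 2 p.2) with hG2
  set G02 : R3 × R3 → ℝ := fun p => G0 (p.1, refl 2 p.2) with hG02
  have i0 : Integrable G0 volume := hI 0 kxz_G_int
  have i2 : Integrable G2 volume := hI 2 kxz_G_int
  have i02 : Integrable G02 volume := hI 2 i0
  have e0 : ∫ p, G0 p = Kxz := by rw [hK, hG0]; exact hi 0 kxz_G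
  have e2 : ∫ p, G2 p = Kxz := by rw [hK, hG2]; exact hi 2 kxz_G
  have e02 : ∫ p, G02 p = Kxz := by rw [← e0, hG02]; exact hi 2 G0
  have hsum : ∫ p, (kxz_G p + G0 p + G2 p + G02 p) = 4 * Kxz := by
    have s1 : ∫ p, (kxz_G p + G0 p + G2 p + G02 p) = (∫ p, (kxz_G p + G0 p + G2 p)) + ∫ p, G02 p :=
      integral_add ((kxz_G_int.add i0).add i2) i02
    have s2 : ∫ p, (kxz_G p + G0 p + G2 p) = (∫ p, (kxz_G p + G0 p)) + ∫ p, G2 p :=
      integral_add (kxz_G_int.add i0) i2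
    have s3 : ∫ p, (kxz_G p + G0 p) = (∫ p, kxz_G p) + ∫ p, G0 p := integral_add kxz_G_int i0
    rw [s1, s2, s3, e0, e2, e02, ← hK]
    ring
  have hint : Integrable (fun p => kxz_G p + G0 p + G2 p + G02 p) volume :=
    ((kxz_G_int.add i0).add i2).add i02
  have hpos : ∀ᵐ p : R3 × R3, 0 < kxz_G p + G0 p + G2 p + G02 p := by
    filter_upwards [kxz_ae' (a := 1) (b := 0) (by norm_num) 0,
      kxz_ae' (a := 1) (b := 0) (by norm_num) 2, kxz_ae' (a := 0) (b := 1) (by norm_num) 0,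
      kxz_ae' (a := 0) (b := 1) (by norm_num) 2, kxz_ae' (a := 1) (b := -1) (by norm_num) 0,
      kxz_ae' (a := 1) (b := 1) (by norm_num) 0] with p h1 h2 h3 h4 h5 h6
    obtain ⟨x, y⟩ := p
    simp only [one_mul, zero_mul, add_zero, zero_add] at h1 h2 h3 h4 h5 h6
    have hx5 : x 0 ≠ y 0 := fun h => h5 (by rw [h]; ring)
    have hx6 : x 0 ≠ - y 0 := fun h => h6 (by rw [h]; ring)
    have n1 : 0 < ‖x - y‖ := by
      rw [norm_pos_iff, sub_ne_zero]
      exact fun h => hx5 (by rw [h])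
    have n2 : 0 < ‖x - refl 0 y‖ := by
      rw [norm_pos_iff, sub_ne_zero]
      exact fun h => hx6 (by rw [h, refl_apply, if_pos rfl])
    have n3 : 0 < ‖x - refl 2 y‖ := by
      rw [norm_pos_iff, sub_ne_zero]
      exact fun h => hx5 (by rw [h, refl_apply, if_neg (by decide)])
    have n4 : 0 < ‖x - refl 0 (refl 2 y)‖ := by
      rw [norm_pos_iff, sub_ne_zero]
      exact fun h => hx6 (by rw [h, refl_apply, if_pos rfl, refl_apply, if_neg (by decide)])
    have q2 : ‖x - refl 0 y‖ ^ 2 = ‖x - y‖ ^ 2 + 4 * (x 0 * y 0) := by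
      exact kxz_q0 x y
    have q3 : ‖x - refl 2 y‖ ^ 2 = ‖x - y‖ ^ 2 + 4 * (x 2 * y 2) := by
      exact kxz_q2 x y
    have q4 : ‖x - refl 0 (refl 2 y)‖ ^ 2 =
        ‖x - y‖ ^ 2 + 4 * (x 0 * y 0) + 4 * (x 2 * y 2) := by
      rw [kxz_q0, kxz_q2, refl_apply, if_neg (by decide)]; ring
    have key := kxz_alg' n1 n2 n3 n4 q2 q3 q4
      (mul_ne_zero four_ne_zero (mul_ne_zero h1 h3))
      (mul_ne_zero four_ne_zero (mul_ne_zero h2 h4))
    have e : kxz_G (x, y) + G0 (x, y) + G2 (x, y) + G02 (x, y) =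
        4 * (x 0 * y 0) * (4 * (x 2 * y 2)) *
          (1 / ‖x - y‖ - 1 / ‖x - refl 0 y‖ - 1 / ‖x - refl 2 y‖ +
            1 / ‖x - refl 0 (refl 2 y)‖) *
          (Real.exp (-‖x‖) * Real.exp (-‖y‖) / (16 * (32 * Real.pi) ^ 2)) := by
      have hpi : Real.pi ≠ 0 := Real.pi_ne_zero
      simp only [hG02, hG0, hG2, kxz_G, kxz_rho_refl0, kxz_rho_refl2]
      rw [kxz_rho_eq, kxz_rho_eq]
      field_simp
      ring
    rw [e]
    exact mul_pos key (by positivity)
  have h4 : 0 < ∫ p, (kxz_G p + G0 p + G2 p + G02 p) := by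
    rw [integral_pos_iff_support_of_nonneg_ae (hpos.mono fun p hp => hp.le) hint]
    have hs : Function.support (fun p => kxz_G p + G0 p + G2 p + G02 p) =ᵐ[volume]
        (univ : Set (R3 × R3)) := by
      refine eventuallyEq_univ.2 (hpos.mono fun p hp => ?_)
      exact hp.ne'
    rw [measure_congr hs]
    exact isOpen_univ.measure_pos _ univ_nonempty
  rw [hsum] at h4
  linarith only [h4]

end

end Vale.Agent.P363.D
end
end

section

section

/-! # Expectations of the potential of the light nuclei in the `2p` orbitals -/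

namespace Vale.Agent.P363.D

open MeasureTheory Set Filter Topology
open scoped ENNReal ContDiff

noncomputable section

namespace ShIntB

/-- exchange of two coordinates -/
def sw (i j : Fin 3) : R3 ≃ₗᵢ[ℝ] R3 := LinearIsometryEquiv.piLpCongrLeft 2 ℝ ℝ (Equiv.swap i j)

theorem sw_apply (i j k : Fin 3) (x : R3) : sw i j x k = x (Equiv.swap i j k) := by
  unfold sw
  rw [LinearIsometryEquiv.piLpCongrLeft_apply]
  simp only [Equiv.piCongrLeft', Equiv.symm_swap, Equiv.coe_fn_mk]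

theorem sw_norm (i j : Fin 3) (x : R3) : ‖sw i j x‖ = ‖x‖ := (sw i j).norm_map x

theorem sw_integral (i j : Fin 3) (f : R3 → ℝ) : ∫ x, f (sw i j x) = ∫ x, f x :=
  (sw i j).measurePreserving.integral_comp (sw i j).toHomeomorph.measurableEmbedding f

theorem sw_integrable (i j : Fin 3) {f : R3 → ℝ} (hf : Integrable f) :
    Integrable (fun x => f (sw i j x)) :=
  (sw i j).measurePreserving.integrable_comp_of_integrable hf

/-- the `2p` orbitals -/
def pk (k : Fin 3) (x : R3) : ℝ := x k * Real.exp (-‖x‖ / 2) / √(32 * Real.pi)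

theorem pk_zero : KD.chi 2 = pk 0 := rfl

theorem pk_one : KD.chi 3 = pk 1 := rfl

theorem pk_two : KD.chi 4 = pk 2 := rfl

theorem pk_sw (i j k : Fin 3) (x : R3) : pk k (sw i j x) = pk (Equiv.swap i j k) x := by
  unfold pk
  rw [sw_norm, sw_apply]

/-- the potential as a function of the square radius and the coordinate -/
def HH (m a : ℝ) : ℝ := 1 / √(m - a) + 1 / √(m + a)

theorem HH_sq {m c : ℝ} (h0 : 0 ≤ c) (h1 : c < m) :
    HH m c ^ 2 = (2 * m + 2 * √(m ^ 2 - c ^ 2)) / (m ^ 2 - c ^ 2) := by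
  have hu : 0 < √(m - c) := Real.sqrt_pos.mpr (by linarith)
  have hw : 0 < √(m + c) := Real.sqrt_pos.mpr (by linarith only [h0, h1])
  have hu2 : √(m - c) ^ 2 = m - c := Real.sq_sqrt (by linarith only [h1])
  have hw2 : √(m + c) ^ 2 = m + c := Real.sq_sqrt (by linarith)
  have hq : √(m ^ 2 - c ^ 2) = √(m - c) * √(m + c) := by
    rw [← Real.sqrt_mul (by linarith)]
    congr 1
    ring
  have hd : m ^ 2 - c ^ 2 = (√(m - c) * √(m + c)) ^ 2 := by
    rw [mul_pow, hu2, hw2]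
    ring
  unfold HH
  rw [hq, hd]
  rw [div_add_div _ _ hu.ne' hw.ne', div_pow]
  congr 1
  have : (1 * √(m + c) + √(m - c) * 1) ^ 2 = √(m + c) ^ 2 + √(m - c) ^ 2
      + 2 * (√(m - c) * √(m + c)) := by ring
  rw [this, hu2, hw2]
  ring

theorem HH_lt {m a b : ℝ} (hb : 0 ≤ b) (hab : b < a) (ham : a < m) : HH m b < HH m a := by
  have hpos : 0 ≤ HH m a := by
    unfold HH
    positivity
  apply lt_of_pow_lt_pow_left₀ 2 hpos
  rw [HH_sq hb (hab.trans ham), HH_sq (hb.trans hab.le) ham]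
  have h1 : 0 < m ^ 2 - a ^ 2 := by linarith [mul_pos (sub_pos.2 ham) (sub_pos.2 hab), mul_pos (sub_pos.2 ham) (sub_pos.2 ham), mul_nonneg (sub_nonneg.2 hb) (le_of_lt (sub_pos.2 ham))]
  have h2 : m ^ 2 - a ^ 2 < m ^ 2 - b ^ 2 := by linarith [mul_pos (sub_pos.2 hab) (sub_pos.2 hab), mul_nonneg (sub_nonneg.2 hb) (le_of_lt (sub_pos.2 hab))]
  set P := m ^ 2 - a ^ 2 with hP
  set Q := m ^ 2 - b ^ 2 with hQ
  have hQ0 : 0 < Q := h1.trans h2
  have hm : 0 < m := lt_of_le_of_lt (hb.trans hab.le) ham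
  have e : ∀ S : ℝ, 0 < S → (2 * m + 2 * √S) / S = 2 * m / S + 2 / √S := by
    intro S hS
    have h3 : 0 < √S := Real.sqrt_pos.mpr hS
    have h4 : S = √S * √S := (Real.mul_self_sqrt hS.le).symm
    rw [add_div]
    congr 1
    rw [div_eq_div_iff hS.ne' h3.ne']
    linarith
  rw [e Q hQ0, e P h1]
  have h5 : 2 * m / Q < 2 * m / P := by
    apply div_lt_div_of_pos_left (by positivity) h1 h2
  have h6 : 2 / √Q ≤ 2 / √P := by
    apply div_le_div_of_nonneg_left (by norm_num) (Real.sqrt_pos.mpr h1)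
    exact Real.sqrt_le_sqrt h2.le
  linarith only [h5, h6]

theorem HH_neg (m a : ℝ) : HH m (-a) = HH m a := by
  unfold HH
  rw [sub_neg_eq_add, ← sub_eq_add_neg, add_comm]

theorem norm_pm (L : ℝ) (x : R3) : ‖x - L • ez‖ = √(‖x‖ ^ 2 + L ^ 2 - 2 * L * x 2) ∧
    ‖x + L • ez‖ = √(‖x‖ ^ 2 + L ^ 2 + 2 * L * x 2) := by
  have hi : inner ℝ x (L • ez) = L * x 2 := by
    rw [inner_smul_right]
    unfold ez
    rw [EuclideanSpace.inner_single_right]
    simp
  have hn : ‖L • ez‖ ^ 2 = L ^ 2 := by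
    rw [norm_smul, mul_pow, Real.norm_eq_abs, sq_abs]
    unfold ez
    simp
  constructor
  · rw [← Real.sqrt_sq (norm_nonneg (x - L • ez)), norm_sub_sq_real, hi, hn]
    congr 1
    ring
  · rw [← Real.sqrt_sq (norm_nonneg (x + L • ez)), norm_add_sq_real, hi, hn]
    congr 1
    ring

theorem UU_eq (L : ℝ) (x : R3) : UU L x = HH (‖x‖ ^ 2 + L ^ 2) (2 * L * x 2) := by
  unfold UU HH
  rw [(norm_pm L x).1, (norm_pm L x).2]

theorem UU_abs {L : ℝ} (x : R3) :
    UU L x = HH (‖x‖ ^ 2 + L ^ 2) (2 * L * |x 2|) := by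
  rw [UU_eq]
  rcases abs_choice (x 2) with h | h
  · rw [h]
  · rw [h, mul_neg, HH_neg]

theorem UU_sw {L : ℝ} {k : Fin 3} (x : R3) :
    UU L (sw k 2 x) = HH (‖x‖ ^ 2 + L ^ 2) (2 * L * |x k|) := by
  rw [UU_abs, sw_norm, sw_apply, Equiv.swap_apply_right]

end ShIntB

open ShIntB

theorem uD_int_pf (L : ℝ) (a : Fin 5) :
    Integrable (fun x => UU L x * KD.chi a x ^ 2) volume := by
  have h := chi_H1o a
  have h1 : Integrable (fun x : R3 => KD.chi a x ^ 2 / ‖x - L • ez‖) := by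
    apply (hardy (a := fun x : R3 => x - L • ez) (e := dir3) (by fun_prop) _ h.memLp h.memLp'
      h.acl).1
    intro x k t
    simp only [dir3]; abel
  have h2 : Integrable (fun x : R3 => KD.chi a x ^ 2 / ‖x + L • ez‖) := by
    apply (hardy (a := fun x : R3 => x + L • ez) (e := dir3) (by fun_prop) _ h.memLp h.memLp'
      h.acl).1
    intro x k t
    simp only [dir3]; abel
  refine (h1.add h2).congr (Eventually.of_forall fun x => ?_)
  unfold UU
  simp only [Pi.add_apply]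
  ring

theorem ShIntB.ae_ne_coord {i j : Fin 3} (hij : i ≠ j) (ε : ℝ) :
    ∀ᵐ x : R3, x i ≠ ε * x j := by
  let f : R3 →ₗ[ℝ] ℝ :=
    (EuclideanSpace.proj i : R3 →L[ℝ] ℝ).toLinearMap - ε • (EuclideanSpace.proj j : R3 →L[ℝ] ℝ).toLinearMap
  have hf : LinearMap.ker f ≠ ⊤ := by
    intro h
    have h1 : EuclideanSpace.single i (1 : ℝ) ∈ LinearMap.ker f := by
      rw [h]
      trivial
    rw [LinearMap.mem_ker] at h1
    have h2 : f (EuclideanSpace.single i (1 : ℝ)) = 1 := by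
      simp [f, hij.symm]
    rw [h2] at h1
    exact one_ne_zero h1
  have h0 := Measure.addHaar_submodule (volume : Measure R3) _ hf
  rw [ae_iff]
  refine measure_mono_null (fun x hx => ?_) h0
  simp only [ne_eq, not_not] at hx
  have hx' : x i = ε * x j := by simpa using hx
  change f x = 0
  simp only [LinearMap.sub_apply, ContinuousLinearMap.coe_coe, PiLp.proj_apply, hx', LinearMap.smul_apply, smul_eq_mul, sub_self, f]

theorem ShIntB.ae_norm_ne {L : ℝ} (hL : 0 < L) : ∀ᵐ x : R3, ‖x‖ ≠ L := by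
  have h0 := Measure.addHaar_sphere_of_ne_zero (volume : Measure R3) (0 : R3) hL.ne'
  rw [ae_iff]
  refine measure_mono_null (fun x hx => ?_) h0
  have hx' : ‖x‖ = L := by simpa using hx
  simpa only [mem_sphere_iff_norm, sub_zero] using hx'

theorem ShIntB.coord_le (k : Fin 3) (x : R3) : |x k| ≤ ‖x‖ := by
  have := PiLp.norm_apply_le x k
  simpa only [ge_iff_le, Real.norm_eq_abs] using this

theorem ShIntB.main {L : ℝ} (hL : 0 < L) {k : Fin 3} (hk : k ≠ 2)
    (i1 : Integrable (fun x => UU L x * pk k x ^ 2))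
    (i2 : Integrable (fun x => UU L x * pk 2 x ^ 2)) :
    ∫ x, UU L x * pk k x ^ 2 < ∫ x, UU L x * pk 2 x ^ 2 := by
  have e1 : ∫ x, UU L (sw k 2 x) * pk 2 x ^ 2 = ∫ x, UU L x * pk k x ^ 2 := by
    rw [← sw_integral k 2 (fun x => UU L x * pk k x ^ 2)]
    simp only [pk_sw, Equiv.swap_apply_left]
  have e2 : ∫ x, UU L (sw k 2 x) * pk k x ^ 2 = ∫ x, UU L x * pk 2 x ^ 2 := by
    rw [← sw_integral k 2 (fun x => UU L x * pk 2 x ^ 2)]
    simp only [pk_sw, Equiv.swap_apply_right]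
  have j1 : Integrable (fun x => UU L (sw k 2 x) * pk 2 x ^ 2) := by
    have := sw_integrable k 2 i1
    simpa only [pk_sw, Equiv.swap_apply_left] using this
  have j2 : Integrable (fun x => UU L (sw k 2 x) * pk k x ^ 2) := by
    have := sw_integrable k 2 i2
    simpa only [pk_sw, Equiv.swap_apply_right] using this
  set D : R3 → ℝ := fun x => (UU L x - UU L (sw k 2 x)) * (pk 2 x ^ 2 - pk k x ^ 2) with hD
  have hDe : ∀ x, D x = (UU L x * pk 2 x ^ 2 - UU L x * pk k x ^ 2)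
      - (UU L (sw k 2 x) * pk 2 x ^ 2 - UU L (sw k 2 x) * pk k x ^ 2) := by
    intro x
    rw [hD]
    ring
  have hDi : Integrable D := by
    have := (i2.sub i1).sub (j1.sub j2)
    refine this.congr (Eventually.of_forall fun x => ?_)
    rw [hDe]
    rfl
  have hDint : ∫ x, D x = 2 * ((∫ x, UU L x * pk 2 x ^ 2) - ∫ x, UU L x * pk k x ^ 2) := by
    have k1 : Integrable (fun x => UU L x * pk 2 x ^ 2 - UU L x * pk k x ^ 2) := i2.sub i1
    have k2 : Integrable (fun x => UU L (sw k 2 x) * pk 2 x ^ 2 - UU L (sw k 2 x) * pk k x ^ 2) :=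
      j1.sub j2
    simp_rw [hDe]
    rw [integral_sub k1 k2, integral_sub i2 i1, integral_sub j1 j2, e1, e2]
    ring
  have hpos : ∀ᵐ x, 0 < D x := by
    filter_upwards [ae_ne_coord hk 1, ae_ne_coord hk (-1), ae_norm_ne hL] with x h1 h2 h3
    have hlt : ∀ i : Fin 3, 2 * L * |x i| < ‖x‖ ^ 2 + L ^ 2 := by
      intro i
      have h4 := coord_le i x
      have h5 : 0 < (‖x‖ - L) ^ 2 := by
        have : ‖x‖ - L ≠ 0 := sub_ne_zero.mpr h3
        (clear * - h3; positivity)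
      (by_contra nlg; linarith only [nlg, mul_pos (sub_pos.2 h5) (sub_pos.2 hL), mul_nonneg (sub_nonneg.2 (not_lt.1 nlg)) (le_of_lt (sub_pos.2 hL)), mul_nonneg (sq_nonneg (L : ℝ)) (sub_nonneg.2 h4)])
    have hne : |x k| ≠ |x 2| := by
      intro h
      rcases abs_eq_abs.mp h with h | h
      · exact h1 (by rw [h, one_mul])
      · exact h2 (by rw [h]; ring)
    have hc : ∀ i, pk i x ^ 2 = (Real.exp (-‖x‖ / 2) / √(32 * Real.pi)) ^ 2 * |x i| ^ 2 := by
      intro i
      unfold pk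
      rw [sq_abs]
      ring
    have hc0 : 0 < (Real.exp (-‖x‖ / 2) / √(32 * Real.pi)) ^ 2 := by positivity
    rw [hD]
    simp only
    rw [UU_abs, UU_sw, hc 2, hc k, ← mul_sub]
    rcases lt_or_gt_of_ne hne with h | h
    · have h6 := HH_lt (m := ‖x‖ ^ 2 + L ^ 2) (a := 2 * L * |x 2|) (b := 2 * L * |x k|)
        (by (clear * - hL; positivity)) (by (clear * - h hL; gcongr)) (hlt 2)
      have h7 : |x k| ^ 2 < |x 2| ^ 2 := by (clear * - h; gcongr)
      exact mul_pos (by linarith only [h6]) (mul_pos hc0 (by linarith only [h7]))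
    · have h6 := HH_lt (m := ‖x‖ ^ 2 + L ^ 2) (a := 2 * L * |x k|) (b := 2 * L * |x 2|)
        (by (clear * - hL; positivity)) (by (clear * - h hL; gcongr)) (hlt k)
      have h7 : |x 2| ^ 2 < |x k| ^ 2 := by (clear * - h; gcongr)
      exact mul_pos_of_neg_of_neg (by linarith only [h6]) (mul_neg_of_pos_of_neg hc0 (by linarith only [h7]))
  have hne0 : ∫ x, D x ≠ 0 := by
    intro h0
    have h1 := (integral_eq_zero_iff_of_nonneg_ae (hpos.mono fun x hx => hx.le) hDi).mp h0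
    have h2 : ∀ᵐ x : R3, False := by
      filter_upwards [h1, hpos] with x ha hb
      rw [ha] at hb
      exact lt_irrefl _ hb
    exact h2.exists.choose_spec
  have hge : 0 ≤ ∫ x, D x := integral_nonneg_of_ae (hpos.mono fun x hx => hx.le)
  have hgt : 0 < ∫ x, D x := lt_of_le_of_ne hge hne0.symm
  rw [hDint] at hgt
  linarith only [hgt]

theorem uD_px_pf {L : ℝ} (hL : 0 < L) : uD L 2 < uD L 4 := by
  unfold uD
  rw [pk_zero, pk_two]
  exact ShIntB.main hL (by decide) (uD_int_pf L 2) (uD_int_pf L 4)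

theorem uD_py_pf {L : ℝ} (hL : 0 < L) : uD L 3 < uD L 4 := by
  unfold uD
  rw [pk_one, pk_two]
  exact ShIntB.main hL (by decide) (uD_int_pf L 3) (uD_int_pf L 4)

end

end Vale.Agent.P363.D
end
end

section

section

/-! # Inequalities between Coulomb integrals -/

namespace Vale.Agent.P363.D

open MeasureTheory Set Filter Topology
open scoped ENNReal ContDiff

noncomputable section

theorem Kxz_pos : 0 < Kxz := Kxz_pos_pf

theorem uD_int (L : ℝ) (a : Fin 5) :
    Integrable (fun x => UU L x * KD.chi a x ^ 2) volume := uD_int_pf L a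

theorem uD_px {L : ℝ} (hL : 0 < L) : uD L 2 < uD L 4 := uD_px_pf hL

theorem uD_py {L : ℝ} (hL : 0 < L) : uD L 3 < uD L 4 := uD_py_pf hL

theorem uD_s : uD 6 1 < uD 6 4 :=
  uD_s_pf (uD_int 6) (uD_px (by norm_num)) (uD_py (by norm_num))

end

end Vale.Agent.P363.D
end
end

section

section

/-! # The finite dimensional eigenvalue problems -/

namespace Vale.Agent.P363.D

open MeasureTheory Set Filter Topology
open scoped ENNReal ContDiff

noncomputable section

theorem sg_sq (k : Fin 3) (a : Fin 4) : sg k a * sg k a = 1 := by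
  unfold sg
  split_ifs <;> norm_num

theorem sg_sep {a b : Fin 4} (h : a ≠ b) : ∃ k, sg k a * sg k b = -1 := by
  have h1 : ∀ a b : Fin 4, a ≠ b → ∃ k : Fin 3,
      (a = k.succ ∧ b ≠ k.succ) ∨ (a ≠ k.succ ∧ b = k.succ) := by decide
  obtain ⟨k, hk⟩ := h1 a b h
  refine ⟨k, ?_⟩
  unfold sg
  rcases hk with ⟨h2, h3⟩ | ⟨h2, h3⟩
  · rw [if_pos h2, if_neg h3]; norm_num
  · rw [if_neg h2, if_pos h3]; norm_num

theorem uD_lt (a : Fin 4) (h : a ≠ 3) : uD 6 a.succ < uD 6 4 := by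
  have h3 := uD_px (L := 6) (by norm_num)
  have h4 := uD_py (L := 6) (by norm_num)
  have h5 := uD_s
  fin_cases a
  · exact h5
  · exact h3
  · exact h4
  · exact absurd rfl h

/-- parity of the ground vector -/
theorem parity_zero {ι : Type*} [Fintype ι] (s w : ι → ℝ) (hs : ∀ i, s i = 1 ∨ s i = -1)
    (hw : ∑ i, w i ^ 2 = 1) (z : ι) (hz : 0 < w z) (hsz : s z = 1)
    (h : 1 ≤ (∑ i, w i * (s i * w i)) ^ 2) (i : ι) (hi : s i = -1) : w i = 0 := by
  set t := ∑ i, w i * (s i * w i) with ht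
  have h1 : ∑ i, (1 - s i) * w i ^ 2 = 1 - t := by
    have e : (∑ i, w i ^ 2) - t = 1 - t := by rw [hw]
    rw [← e, ht, ← Finset.sum_sub_distrib]
    exact Finset.sum_congr rfl fun i _ => by ring
  have h2 : ∑ i, (1 + s i) * w i ^ 2 = 1 + t := by
    have e : (∑ i, w i ^ 2) + t = 1 + t := by rw [hw]
    rw [← e, ht, ← Finset.sum_add_distrib]
    exact Finset.sum_congr rfl fun i _ => by ring
  have n1 : ∀ j ∈ Finset.univ, 0 ≤ (1 - s j) * w j ^ 2 := by
    intro j _
    rcases hs j with h | h <;> rw [h] <;> nlinarith only []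
  have n2 : ∀ j ∈ Finset.univ, 0 ≤ (1 + s j) * w j ^ 2 := by
    intro j _
    rcases hs j with h | h <;> rw [h] <;> nlinarith only []
  have h3 : 0 < 1 + t := by
    rw [← h2]
    refine lt_of_lt_of_le ?_ (Finset.single_le_sum n2 (Finset.mem_univ z))
    rw [hsz]
    positivity
  have h4 : 0 ≤ 1 - t := by
    rw [← h1]
    exact Finset.sum_nonneg n1
  have h5 : 1 - t = 0 := by nlinarith only [h4, h, h3]
  rw [h5] at h1
  have h6 := (Finset.sum_eq_zero_iff_of_nonneg n1).1 h1 i (Finset.mem_univ i)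
  rw [hi] at h6
  nlinarith only [h6]

/-- The finite dimensional eigenvalue problems: simple ground vectors with a gap. -/
theorem finite_dim' : ∃ (A : ℕ) (L : ℝ) (c : Fin 4 → ℝ) (ω4 ω3 δ : ℝ),
    0 < A ∧ 0 < L ∧ 0 < δ ∧ ∑ a, c a ^ 2 = 1 ∧ c 3 ≠ 0 ∧ c 1 ≠ 0 ∧
    ∑ a, ∑ a', c a * c a' * W4 A L (a, a) (a', a') = ω4 ∧
    (∀ b : Fin 4 × Fin 4 → ℝ,
      ω4 * (∑ p, b p ^ 2) + δ * ((∑ p, b p ^ 2) - (∑ a, c a * b (a, a)) ^ 2)
        ≤ ∑ p, ∑ p', b p * b p' * W4 A L p p') ∧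
    W3 A L 3 3 = ω3 ∧
    (∀ b : Fin 4 → ℝ,
      ω3 * (∑ a, b a ^ 2) + δ * ((∑ a, b a ^ 2) - b 3 ^ 2)
        ≤ ∑ a, ∑ a', b a * b a' * W3 A L a a') := by
  obtain ⟨A4, h4⟩ := lin_core (fun p : Fin 4 × Fin 4 =>
    -(2 * uD 6 0 + uD 6 p.1.succ + uD 6 p.2.succ)) R4 R4_symm (3, 3) (by
    intro p hp
    have e3 : ((3 : Fin 4)).succ = 4 := rfl
    simp only [e3]
    by_cases h1 : p.1 = 3
    · have h2 : p.2 ≠ 3 := fun h2 => hp (Prod.ext h1 h2)
      rw [h1, e3]
      have := uD_lt p.2 h2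
      linarith only [this]
    · have h5 := uD_lt p.1 h1
      by_cases h2 : p.2 = 3
      · rw [h2, e3]
        linarith only [h5]
      · have := uD_lt p.2 h2
        linarith)
  obtain ⟨A3, h3⟩ := lin_core (fun a : Fin 4 => -(2 * uD 6 0 + uD 6 a.succ)) Rm3 Rm3_symm 3 (by
    intro a ha
    have e3 : ((3 : Fin 4)).succ = 4 := rfl
    simp only [e3]
    have := uD_lt a ha
    linarith only [this])
  obtain ⟨A, hA⟩ := exists_nat_gt (max (max A4 A3) 0)
  have hA0 : (0 : ℝ) < A := lt_of_le_of_lt (le_max_right _ _) hA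
  obtain ⟨w, l4, δ4, hδ4, hw, hwz, hwe, hwg, hwx⟩ := h4 A
    (((le_max_left _ _).trans (le_max_left _ _)).trans hA.le)
  obtain ⟨w3, l3, δ3, hδ3, hv, hvz, hve, hvg, -⟩ := h3 A
    (((le_max_right _ _).trans (le_max_left _ _)).trans hA.le)
  clear h4 h3
  -- quadratic form of `W4`
  have hQ4 : ∀ b : Fin 4 × Fin 4 → ℝ, ∑ p, ∑ p', b p * b p' * W4 A 6 p p' =
      ∑ p, A * (-(2 * uD 6 0 + uD 6 p.1.succ + uD 6 p.2.succ)) * b p ^ 2 +
        ∑ p, ∑ p', R4 p p' * (b p * b p') := by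
    intro b
    rw [← Finset.sum_add_distrib]
    refine Finset.sum_congr rfl fun p _ => ?_
    have h1 : ∀ p', b p * b p' * W4 A 6 p p' =
        (if p = p' then A * (-(2 * uD 6 0 + uD 6 p.1.succ + uD 6 p.2.succ)) * b p ^ 2 else 0) +
          R4 p p' * (b p * b p') := by
      intro p'
      rw [W4_eq]
      by_cases h : p = p'
      · subst h
        rw [if_pos rfl, if_pos rfl]
        ring
      · rw [if_neg h, if_neg h]
        ring
    simp only [h1]
    rw [Finset.sum_add_distrib, Finset.sum_ite_eq]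
    simp only [Finset.mem_univ, ↓reduceIte, Fin.isValue, neg_add_rev]
  have hQ3 : ∀ b : Fin 4 → ℝ, ∑ a, ∑ a', b a * b a' * W3 A 6 a a' =
      ∑ a, A * (-(2 * uD 6 0 + uD 6 a.succ)) * b a ^ 2 +
        ∑ a, ∑ a', Rm3 a a' * (b a * b a') := by
    intro b
    rw [← Finset.sum_add_distrib]
    refine Finset.sum_congr rfl fun p _ => ?_
    have h1 : ∀ p', b p * b p' * W3 A 6 p p' =
        (if p = p' then A * (-(2 * uD 6 0 + uD 6 p.succ)) * b p ^ 2 else 0) +
          Rm3 p p' * (b p * b p') := by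
      intro p'
      rw [W3_eq]
      by_cases h : p = p'
      · subst h
        rw [if_pos rfl, if_pos rfl]
        ring
      · rw [if_neg h, if_neg h]
        ring
    simp only [h1]
    rw [Finset.sum_add_distrib, Finset.sum_ite_eq]
    simp only [Finset.mem_univ, ↓reduceIte, Fin.isValue, neg_add_rev]
  -- energy of the ground vector
  have hEw : ∑ p, A * (-(2 * uD 6 0 + uD 6 p.1.succ + uD 6 p.2.succ)) * w p ^ 2 +
        ∑ p, ∑ p', R4 p p' * (w p * w p') = l4 := by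
    have h1 : ∑ p, w p * (A * (-(2 * uD 6 0 + uD 6 p.1.succ + uD 6 p.2.succ)) * w p +
        ∑ p', R4 p p' * w p') = ∑ p, w p * (l4 * w p) :=
      Finset.sum_congr rfl fun p _ => by rw [hwe p]
    have h2 : ∑ p, w p * (l4 * w p) = l4 := by
      have : ∀ p, w p * (l4 * w p) = l4 * w p ^ 2 := fun p => by ring
      simp only [this]
      rw [← Finset.mul_sum, hw, mul_one]
    rw [h2] at h1
    rw [← h1, ← Finset.sum_add_distrib]
    refine Finset.sum_congr rfl fun p _ => ?_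
    rw [mul_add, Finset.mul_sum]
    congr 1
    · ring
    · exact Finset.sum_congr rfl fun p' _ => by ring
  -- off-diagonal elements of the ground vector vanish
  have hpar : ∀ p : Fin 4 × Fin 4, p.1 ≠ p.2 → w p = 0 := by
    intro p hp
    obtain ⟨k, hk⟩ := sg_sep hp
    refine parity_zero (fun p => sg k p.1 * sg k p.2) w ?_ hw (3, 3) hwz (sg_sq k 3) ?_ p hk
    · intro i
      unfold sg
      split_ifs <;> norm_num
    · have h1 := hwg (fun p => (sg k p.1 * sg k p.2) * w p)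
      have hsq : ∀ p : Fin 4 × Fin 4, ((sg k p.1 * sg k p.2) * w p) ^ 2 = w p ^ 2 := by
        intro p
        have e1 := sg_sq k p.1
        have e2 := sg_sq k p.2
        calc ((sg k p.1 * sg k p.2) * w p) ^ 2
            = (sg k p.1 * sg k p.1) * (sg k p.2 * sg k p.2) * w p ^ 2 := by ring
          _ = w p ^ 2 := by rw [e1, e2]; ring
      have hR : ∀ p p' : Fin 4 × Fin 4, R4 p p' *
          (((sg k p.1 * sg k p.2) * w p) * ((sg k p'.1 * sg k p'.2) * w p')) =
          R4 p p' * (w p * w p') := by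
        intro p p'
        conv_rhs => rw [R4_par k p p']
        ring
      simp only [hsq, hR] at h1
      rw [hEw, hw] at h1
      (by_contra nlg; linarith only [nlg, mul_pos (sub_pos.2 (not_le.1 nlg)) (sub_pos.2 hδ4), mul_nonneg (le_of_lt (sub_pos.2 (not_le.1 nlg))) (sub_nonneg.2 h1), mul_nonneg (sq_nonneg (∑ i, w i * (sg k i.1 * sg k i.2 * w i) : ℝ)) (sub_nonneg.2 h1)])
  have hsum : ∀ f : Fin 4 × Fin 4 → ℝ, (∀ p, p.1 ≠ p.2 → f p = 0) →
      ∑ p, f p = ∑ a, f (a, a) := by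
    intro f hf
    rw [Fintype.sum_prod_type]
    refine Finset.sum_congr rfl fun a _ => ?_
    rw [Finset.sum_eq_single a]
    · intro b _ hb
      exact hf (a, b) (Ne.symm hb)
    · simp
  -- the ion
  have hoff : ∀ a a' : Fin 4, a ≠ a' → Rm3 a a' = 0 := by
    intro a a' h
    obtain ⟨k, hk⟩ := sg_sep h
    have h1 := Rm3_par k a a'
    rw [hk] at h1
    linarith only [h1]
  have hrow : ∀ a, ∑ j, Rm3 a j * w3 j = Rm3 a a * w3 a := by
    intro a
    rw [Finset.sum_eq_single a]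
    · intro b _ hb
      rw [hoff a b (Ne.symm hb), zero_mul]
    · simp
  have hv0 : ∀ a, a ≠ 3 → w3 a = 0 := by
    intro a ha
    by_contra hne
    have h1 := hve a
    rw [hrow] at h1
    have h2 : A * (-(2 * uD 6 0 + uD 6 a.succ)) + Rm3 a a = l3 := by
      have : (A * (-(2 * uD 6 0 + uD 6 a.succ)) + Rm3 a a - l3) * w3 a = 0 := by linarith only [h1]
      rcases mul_eq_zero.1 this with h | h
      · linarith only [h]
      · exact absurd h hne
    have h3 := hvg (fun i => if i = a then 1 else 0)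
    have e1 : ∑ i : Fin 4, (if i = a then (1 : ℝ) else 0) ^ 2 = 1 := by
      have : ∀ i : Fin 4, (if i = a then (1 : ℝ) else 0) ^ 2 = if i = a then 1 else 0 := by
        intro i; split_ifs <;> norm_num
      simp only [this]
      simp
    have e2 : ∑ i : Fin 4, w3 i * (if i = a then (1 : ℝ) else 0) = w3 a := by simp
    have e3 : ∑ i : Fin 4, A * (-(2 * uD 6 0 + uD 6 i.succ)) * (if i = a then (1 : ℝ) else 0) ^ 2 =
        A * (-(2 * uD 6 0 + uD 6 a.succ)) := by
      have : ∀ i : Fin 4, A * (-(2 * uD 6 0 + uD 6 i.succ)) * (if i = a then (1 : ℝ) else 0) ^ 2 =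
          if i = a then A * (-(2 * uD 6 0 + uD 6 i.succ)) else 0 := by
        intro i; split_ifs <;> ring
      simp only [this]
      simp only [Fin.isValue, neg_add_rev, Finset.sum_ite_eq', Finset.mem_univ, ↓reduceIte]
    have e4 : ∑ i : Fin 4, ∑ j : Fin 4, Rm3 i j *
        ((if i = a then (1 : ℝ) else 0) * (if j = a then 1 else 0)) = Rm3 a a := by
      rw [Finset.sum_eq_single a, Finset.sum_eq_single a]
      · simp
      · intro j _ hj; simp [hj]
      · simp
      · intro i _ hi; simp [hi]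
      · simp only [Finset.mem_univ, not_true_eq_false, ↓reduceIte, mul_ite, mul_one, mul_zero, Finset.sum_ite_eq', IsEmpty.forall_iff]
    rw [e1, e2, e3, e4, h2] at h3
    have h4 : w3 a ^ 2 + w3 3 ^ 2 ≤ 1 := by
      rw [← hv]
      have h5 : ∑ i ∈ ({a, 3} : Finset (Fin 4)), w3 i ^ 2 ≤ ∑ i, w3 i ^ 2 :=
        Finset.sum_le_sum_of_subset_of_nonneg (Finset.subset_univ _) fun i _ _ => sq_nonneg _
      rwa [Finset.sum_pair ha] at h5
    nlinarith only [h3, hδ3, h4, sq_pos_of_pos hvz]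
  have hv3 : w3 3 = 1 := by
    have h1 : ∑ i, w3 i ^ 2 = w3 3 ^ 2 := by
      rw [Finset.sum_eq_single 3]
      · intro b _ hb
        rw [hv0 b hb]; norm_num
      · simp only [Fin.isValue, Finset.mem_univ, not_true_eq_false, ne_eq, OfNat.ofNat_ne_zero, not_false_eq_true, pow_eq_zero_iff, IsEmpty.forall_iff]
    rw [hv] at h1
    nlinarith only [h1, hvz]
  have hl3 : W3 A 6 3 3 = l3 := by
    have h1 := hve 3
    rw [hrow, hv3] at h1
    rw [W3_eq, if_pos rfl]
    linarith only [h1]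
  refine ⟨A, 6, fun a => w (a, a), l4, l3, min δ4 δ3, by exact_mod_cast hA0, by norm_num,
    lt_min hδ4 hδ3, ?_, hwz.ne', hwx (1, 1) (by decide) (by rw [R4_xz]; exact Kxz_pos.ne'),
    ?_, ?_, hl3, ?_⟩
  · rw [← hw]
    exact (hsum (fun p => w p ^ 2) fun p hp => by rw [hpar p hp]; norm_num).symm
  · rw [← hEw, ← hQ4]
    have h1 : ∀ p : Fin 4 × Fin 4, ∑ p', w p * w p' * W4 A 6 p p' =
        ∑ a', w p * w (a', a') * W4 A 6 p (a', a') := fun p =>
      hsum (fun p' => w p * w p' * W4 A 6 p p') fun p' hp' => by rw [hpar p' hp']; ring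
    simp only [h1]
    exact (hsum (fun p => ∑ a', w p * w (a', a') * W4 A 6 p (a', a')) fun p hp => by
      rw [hpar p hp]; simp).symm
  · intro b
    rw [hQ4]
    refine le_trans ?_ (hwg b)
    have h1 : ∑ p, w p * b p = ∑ a, w (a, a) * b (a, a) :=
      hsum (fun p => w p * b p) fun p hp => by rw [hpar p hp]; ring
    rw [← h1]
    have h2 : (∑ p, w p * b p) ^ 2 ≤ ∑ p, b p ^ 2 := by
      have := Finset.sum_mul_sq_le_sq_mul_sq Finset.univ w b
      rwa [hw, one_mul] at this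
    have h3 : min δ4 δ3 * ((∑ p, b p ^ 2) - (∑ p, w p * b p) ^ 2) ≤
        δ4 * ((∑ p, b p ^ 2) - (∑ p, w p * b p) ^ 2) :=
      mul_le_mul_of_nonneg_right (min_le_left _ _) (by linarith only [h2])
    linarith only [h3]
  · intro b
    rw [hQ3]
    refine le_trans ?_ (hvg b)
    have h1 : ∑ a, w3 a * b a = b 3 := by
      rw [Finset.sum_eq_single 3, hv3, one_mul]
      · intro i _ hi
        rw [hv0 i hi, zero_mul]
      · simp
    rw [h1]
    have h2 : b 3 ^ 2 ≤ ∑ p, b p ^ 2 :=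
      Finset.single_le_sum (f := fun p => b p ^ 2) (fun p _ => sq_nonneg _) (Finset.mem_univ 3)
    have h3 : min δ4 δ3 * ((∑ p, b p ^ 2) - b 3 ^ 2) ≤ δ3 * ((∑ p, b p ^ 2) - b 3 ^ 2) :=
      mul_le_mul_of_nonneg_right (min_le_right _ _) (by linarith only [h2])
    linarith only [h3]

end

end Vale.Agent.P363.D
end
end

section

section

/-! # Occupation number inequalities for bounded functions of compact support -/

namespace Vale.Agent.P363.D

open MeasureTheory Set Filter Topology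
open scoped ENNReal ContDiff
open Vale.Agent.P370.NB (WSp Orb Dm GT Fam Slots pm op)

noncomputable section

/-! ### combinatorics -/

/-- weight of a slot -/
def owt : Option (Fin 5) → ℝ
  | none => 0
  | some a => if a = 0 then 4 / 9 else 5 / 72

theorem slots_occ {V : Type*} [SeminormedAddCommGroup V] [InnerProductSpace ℂ V] {N : ℕ}
    (S : Slots V N (Option (Fin 5))) (u : V) {Q : Type*} [Fintype Q]
    (Jq : Q → Fin N → Option (Fin 5)) (K : ℝ) (P : Fin N → Fin N → Prop)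
    (hP : ∀ i j, P i j → S.p i (some 0) (S.p j (some 0) u) = 0)
    (hcomb : ∀ J : Fin N → Option (Fin 5), (∀ i j, P i j → ¬ (J i = some 0 ∧ J j = some 0)) →
      ∑ i, owt (J i) ≤ K ∨ (∑ i, owt (J i) ≤ K + 5 / 72 ∧ ∃ q, J = Jq q)) :
    ∑ i, ∑ b, owt b * ‖S.p i b u‖ ^ 2 ≤
      K * ‖u‖ ^ 2 + 5 / 72 * ∑ q, ‖S.cfg N le_rfl (Jq q) u‖ ^ 2 := by
  classical
  have e1 : ∀ i, ∑ b, owt b * ‖S.p i b u‖ ^ 2 =
      ∑ J : Fin N → Option (Fin 5), owt (J i) * ‖S.cfg N le_rfl J u‖ ^ 2 :=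
    fun i => S.weight_marginal owt i u
  simp_rw [e1]
  rw [Finset.sum_comm]
  have e2 : ∀ J : Fin N → Option (Fin 5), ∑ i, owt (J i) * ‖S.cfg N le_rfl J u‖ ^ 2 ≤
      K * ‖S.cfg N le_rfl J u‖ ^ 2 +
        5 / 72 * ∑ q, (if J = Jq q then ‖S.cfg N le_rfl J u‖ ^ 2 else 0) := by
    intro J
    rw [← Finset.sum_mul]
    have hc : 0 ≤ ‖S.cfg N le_rfl J u‖ ^ 2 := by positivity
    have hq : ∀ q ∈ (Finset.univ : Finset Q),
        0 ≤ (if J = Jq q then ‖S.cfg N le_rfl J u‖ ^ 2 else 0) := by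
      intro q _
      split_ifs
      · exact hc
      · exact le_rfl
    by_cases hJ : ∀ i j, P i j → ¬ (J i = some 0 ∧ J j = some 0)
    · rcases hcomb J hJ with h | ⟨h, q, hq1⟩
      · have h3 := Finset.sum_nonneg hq
        have h4 := mul_le_mul_of_nonneg_right h hc
        linarith only [h3, h4]
      · have h3 := Finset.single_le_sum hq (Finset.mem_univ q)
        rw [if_pos hq1] at h3
        have h4 := mul_le_mul_of_nonneg_right h hc
        linarith only [h3, h4]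
    · push Not at hJ
      obtain ⟨i, j, hij, hi, hj⟩ := hJ
      have h0 : S.cfg N le_rfl J u = 0 := S.cfg_eq_zero u (some 0) i j (hP i j hij) J hi hj
      rw [h0]
      simp only [norm_zero, ne_eq, OfNat.ofNat_ne_zero, not_false_eq_true, zero_pow, mul_zero, ite_self, Finset.sum_const_zero, add_zero, Std.le_refl]
  refine (Finset.sum_le_sum fun J _ => e2 J).trans (le_of_eq ?_)
  rw [Finset.sum_add_distrib, ← Finset.mul_sum, ← Finset.mul_sum, S.sum_cfg N le_rfl u,
    Finset.sum_comm]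
  congr 2
  refine Finset.sum_congr rfl fun q _ => ?_
  rw [Finset.sum_ite_eq' Finset.univ (Jq q) (fun J => ‖S.cfg N le_rfl J u‖ ^ 2),
    if_pos (Finset.mem_univ _)]

/-- the two orderings of a pair -/
def opr (a : Fin 4) (s : Bool) : Fin 5 × Fin 5 := if s then (a.succ, 0) else (0, a.succ)

theorem owt_le (x : Option (Fin 5)) : owt x ≤ 32 / 72 ∧ (x ≠ some 0 → owt x ≤ 5 / 72) := by
  rcases x with _ | a
  · simp only [owt]
    norm_num
  · simp only [owt]
    split_ifs with h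
    · subst h
      norm_num
    · norm_num

theorem owt_pair (x y : Option (Fin 5)) (h : ¬ (x = some 0 ∧ y = some 0)) :
    owt x + owt y ≤ 32 / 72 ∨
      (owt x + owt y ≤ 37 / 72 ∧ ∃ a s, x = some (opr a s).1 ∧ y = some (opr a s).2) := by
  rcases x with _ | a
  · left
    have := (owt_le y).1
    simpa only [owt, Fin.isValue, zero_add, ge_iff_le] using this
  rcases y with _ | b
  · left
    have := (owt_le (some a)).1
    simpa only [owt, Fin.isValue, add_zero, ge_iff_le] using this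
  induction a using Fin.cases with
  | zero =>
    induction b using Fin.cases with
    | zero => simp at h
    | succ b =>
      right
      refine ⟨?_, b, false, by simp [opr], by simp [opr]⟩
      simp only [owt, Fin.isValue, ↓reduceIte, Fin.succ_ne_zero]
      norm_num
  | succ a =>
    induction b using Fin.cases with
    | zero =>
      right
      refine ⟨?_, a, true, by simp [opr], by simp [opr]⟩
      simp only [owt, Fin.isValue, Fin.succ_ne_zero, ↓reduceIte]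
      norm_num
    | succ b =>
      left
      simp only [owt, Fin.isValue, Fin.succ_ne_zero, ↓reduceIte]
      norm_num

/-- good configurations, four electrons -/
def J4 (q : (Fin 4 × Fin 4) × (Bool × Bool)) : Fin 4 → Fin 5 :=
  ![(opr q.1.1 q.2.1).1, (opr q.1.1 q.2.1).2, (opr q.1.2 q.2.2).1, (opr q.1.2 q.2.2).2]

/-- good configurations, three electrons -/
def J3 (q : Fin 4 × Bool) : Fin 3 → Fin 5 := ![0, (opr q.1 q.2).1, (opr q.1 q.2).2]

theorem comb4 (J : Fin 4 → Option (Fin 5)) (h1 : ¬ (J 0 = some 0 ∧ J 1 = some 0))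
    (h2 : ¬ (J 2 = some 0 ∧ J 3 = some 0)) :
    ∑ i, owt (J i) ≤ 69 / 72 ∨
      (∑ i, owt (J i) ≤ 69 / 72 + 5 / 72 ∧ ∃ q, J = fun i => some (J4 q i)) := by
  rw [Fin.sum_univ_four]
  rcases owt_pair _ _ h1 with h | ⟨h, a, s, ha, ha'⟩
  · left
    rcases owt_pair _ _ h2 with h' | ⟨h', -⟩ <;> linarith
  · rcases owt_pair _ _ h2 with h' | ⟨h', b, t, hb, hb'⟩
    · left
      linarith only [h, h']
    · right
      refine ⟨by linarith only [h, h'], ((a, b), (s, t)), ?_⟩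
      funext i
      fin_cases i
      · exact ha
      · exact ha'
      · exact hb
      · exact hb'

theorem comb3 (J : Fin 3 → Option (Fin 5)) (h1 : ¬ (J 1 = some 0 ∧ J 2 = some 0)) :
    ∑ i, owt (J i) ≤ 64 / 72 ∨
      (∑ i, owt (J i) ≤ 64 / 72 + 5 / 72 ∧ ∃ q, J = fun i => some (J3 q i)) := by
  rw [Fin.sum_univ_three]
  have h0 := owt_le (J 0)
  rcases owt_pair _ _ h1 with h | ⟨h, a, s, ha, ha'⟩
  · left
    linarith only [h0, h]
  · by_cases hz : J 0 = some 0
    · right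
      refine ⟨by linarith only [h0, h], (a, s), ?_⟩
      funext i
      fin_cases i
      · exact hz
      · exact ha
      · exact ha'
    · left
      linarith only [h, h0.2 hz]

/-! ### the weighted space -/

/-- the weight -/
def shD : WSp R3 where
  μ := volume
  sf := inferInstance
  E y := Real.exp (-(‖y‖ / 4))
  meas := by fun_prop
  nonneg y := (Real.exp_pos _).le
  le_one y := Real.exp_le_one_iff.2 (by have := norm_nonneg y; linarith)
  int := by
    have h := Vale.Agent.P370.Hyd.integrable_exp (c := 1 / 4) (by norm_num)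
    refine h.congr (Eventually.of_forall fun y => ?_)
    simp only
    congr 1
    ring

theorem shD_E (y : R3) : shD.E y = Real.exp (-(‖y‖ / 4)) := rfl

/-- hydrogenic orbitals -/
def shF : Fam shD (Fin 5) where
  θ := KD.chi
  orb a := ⟨(chi_cont a).measurable, chi_bound a⟩
  ortho := chi_ortho

theorem shF_θ (a : Fin 5) : shF.θ a = KD.chi a := rfl

theorem dm_of_bdd {n : ℕ} {f : Conf n → ℝ} (hm : Measurable f) {C r : ℝ} (hb : ∀ x, |f x| ≤ C)
    (hs : ∀ x, f x ≠ 0 → ∀ i, ‖x i‖ ≤ r) : Dm shD (fun x => (f x : ℂ)) := by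
  have hC : 0 ≤ C := (abs_nonneg _).trans (hb fun _ => 0)
  refine ⟨Complex.measurable_ofReal.comp hm, C * Real.exp (r / 4) ^ n, by positivity,
    fun x => ?_⟩
  rw [Complex.norm_real, Real.norm_eq_abs]
  by_cases hx : f x = 0
  · rw [hx, abs_zero]
    exact mul_nonneg (by (clear * - hC; positivity)) (shD.W_nonneg x)
  · have h1 : Real.exp (-(r / 4)) ^ n ≤ shD.W x := by
      unfold WSp.W
      calc Real.exp (-(r / 4)) ^ n = ∏ _l : Fin n, Real.exp (-(r / 4)) := by simp only [Finset.prod_const, Finset.card_univ, Fintype.card_fin]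
        _ ≤ _ := by
          refine Finset.prod_le_prod (fun _ _ => (Real.exp_pos _).le) fun l _ => ?_
          rw [shD_E]
          apply Real.exp_le_exp.2
          have := hs x hx l
          linarith only [this]
    have h2 : Real.exp (r / 4) ^ n * Real.exp (-(r / 4)) ^ n = 1 := by
      rw [← mul_pow, ← Real.exp_add]
      simp
    calc |f x| ≤ C := hb x
      _ = C * (Real.exp (r / 4) ^ n * Real.exp (-(r / 4)) ^ n) := by rw [h2, mul_one]
      _ = C * Real.exp (r / 4) ^ n * Real.exp (-(r / 4)) ^ n := by ring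
      _ ≤ _ := mul_le_mul_of_nonneg_left h1 (by (clear * - hC; positivity))

theorem pauli_pair {n : ℕ} {i j : Fin n} (hij : i ≠ j) {χ : R3 → ℝ} (hχ : Orb shD χ)
    {f : Conf n → ℂ} (hf : Dm shD f) (ha : ∀ w, f (w ∘ Equiv.swap i j) = - f w)
    (θ θ' : R3 → ℝ) (w : Conf n) : op shD i θ χ (op shD j θ' χ f) w = 0 := by
  unfold op
  simp only [Function.update_of_ne hij.symm]
  have e1 : ∫ z, (χ z : ℂ) * ((θ' (w j) : ℂ) * ∫ z', (χ z' : ℂ) *
      f (Function.update (Function.update w i z) j z') ∂shD.μ) ∂shD.μ = (θ' (w j) : ℂ) *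
      ∫ z, ∫ z', (χ z : ℂ) * (χ z' : ℂ) *
        f (Function.update (Function.update w i z) j z') ∂shD.μ ∂shD.μ := by
    rw [← integral_const_mul]
    refine integral_congr_ae (Filter.Eventually.of_forall fun z => ?_)
    simp only
    rw [mul_left_comm, ← integral_const_mul]
    congr 1
    refine integral_congr_ae (Filter.Eventually.of_forall fun z' => ?_)
    ring
  have h1 := integral_integral_swap (f := fun z z' => (χ z : ℂ) * (χ z' : ℂ) *
    f (Function.update (Function.update w i z) j z')) (hf.slice₂_integrable i j hχ hχ w)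
  have h2 : ∀ z z', f (Function.update (Function.update w i z') j z) =
      -f (Function.update (Function.update w i z) j z') := by
    intro z z'
    rw [← ha]
    congr 1
    funext l
    simp only [Function.comp_apply]
    by_cases hl : l = i
    · subst hl
      rw [Equiv.swap_apply_left, Function.update_self, Function.update_of_ne hij,
        Function.update_self]
    · by_cases hl' : l = j
      · subst hl'
        rw [Equiv.swap_apply_right, Function.update_self, Function.update_of_ne hij,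
          Function.update_self]
      · rw [Equiv.swap_apply_of_ne_of_ne hl hl', Function.update_of_ne hl',
          Function.update_of_ne hl, Function.update_of_ne hl', Function.update_of_ne hl]
  have h3 : ∫ z', ∫ z, (χ z : ℂ) * (χ z' : ℂ) *
      f (Function.update (Function.update w i z) j z') ∂shD.μ ∂shD.μ =
      -∫ z, ∫ z', (χ z : ℂ) * (χ z' : ℂ) *
        f (Function.update (Function.update w i z) j z') ∂shD.μ ∂shD.μ := by
    rw [← integral_neg]
    refine integral_congr_ae (Filter.Eventually.of_forall fun z' => ?_)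
    simp only
    rw [← integral_neg]
    refine integral_congr_ae (Filter.Eventually.of_forall fun z => ?_)
    simp only
    rw [h2 z' z]
    ring
  rw [e1]
  have h4 : ∫ z, ∫ z', (χ z : ℂ) * (χ z' : ℂ) *
      f (Function.update (Function.update w i z) j z') ∂shD.μ ∂shD.μ = 0 := by
    rw [← self_eq_neg]
    exact h1.trans h3
  rw [h4]
  ring

theorem update_ins {n : ℕ} (i : Fin (n + 1)) (x z : R3) (y : Conf n) :
    Function.update (ins i x y) i z = ins i z y := by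
  unfold ins
  exact Fin.update_insertNth (α := fun _ => R3) i x z y

theorem ins_same {n : ℕ} (i : Fin (n + 1)) (x : R3) (y : Conf n) : ins i x y i = x := by
  unfold ins
  exact Fin.insertNth_apply_same (α := fun _ => R3) i x y

/-- occupation numbers as norms of slot projections -/
theorem occ_eq {n : ℕ} (i : Fin (n + 1)) (a : Fin 5) {f : Conf (n + 1) → ℝ}
    (hf : Dm shD (fun x => (f x : ℂ))) :
    occ i (KD.chi a) f =
      ∫ w, ‖op shD i (KD.chi a) (KD.chi a) (fun x => (f x : ℂ)) w‖ ^ 2 ∂(pm (Fin (n + 1)) shD.μ) := by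
  have ho := hf.op i (shF.orb a) (shF.orb a)
  have hint : Integrable (fun w => ‖op shD i (KD.chi a) (KD.chi a) (fun x => (f x : ℂ)) w‖ ^ 2)
      (volume : Measure (Conf (n + 1))) := by
    have h1 := (ho.conj.mul ho).integrable.norm
    refine h1.congr (Eventually.of_forall fun w => ?_)
    simp only [norm_mul, RCLike.norm_conj]
    rw [sq]
    rfl
  have hpm : pm (Fin (n + 1)) shD.μ = (volume : Measure (Conf (n + 1))) := rfl
  rw [hpm, integral_ins' i hint]
  unfold occ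
  refine integral_congr_ae (Eventually.of_forall fun y => ?_)
  simp only
  have h2 : ∀ x : R3, ‖op shD i (KD.chi a) (KD.chi a) (fun x => (f x : ℂ)) (ins i x y)‖ ^ 2 =
      (KD.chi a x * KD.chi a x) * (∫ z : R3, KD.chi a z * f (ins i z y)) ^ 2 := by
    intro x
    unfold op
    simp only [update_ins, ins_same]
    have h3 : ∀ z : R3, ((KD.chi a z : ℝ) : ℂ) * ((f (ins i z y) : ℝ) : ℂ) =
        ((KD.chi a z * f (ins i z y) : ℝ) : ℂ) := fun z => (Complex.ofReal_mul _ _).symm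
    simp only [h3]
    have h4 : shD.μ = volume := rfl
    rw [h4, integral_complex_ofReal, ← Complex.ofReal_mul, Complex.norm_real, Real.norm_eq_abs,
      sq_abs]
    ring
  simp only [h2]
  rw [integral_mul_const, chi_ortho, if_pos rfl, one_mul]

/-- coefficient of a configuration -/
def cof {n : ℕ} (I : Fin n → Fin 5) (f : Conf n → ℝ) : ℝ := ∫ w, shF.po I w * f w

theorem cof_eq {n : ℕ} (I : Fin n → Fin 5) (f : Conf n → ℝ) :
    ‖shF.coef I (fun x => (f x : ℂ))‖ ^ 2 = cof I f ^ 2 := by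
  unfold Fam.coef cof
  have h : ∀ w : Conf n, (shF.po I w : ℂ) * (f w : ℂ) = ((shF.po I w * f w : ℝ) : ℂ) :=
    fun w => (Complex.ofReal_mul _ _).symm
  simp only [h]
  rw [integral_complex_ofReal, Complex.norm_real, Real.norm_eq_abs, sq_abs]
  rfl

theorem integral_comp_swap {n : ℕ} (i j : Fin n) (g : Conf n → ℝ) :
    ∫ w, g (w ∘ Equiv.swap i j) = ∫ w, g w := by
  have h := volume_measurePreserving_piCongrLeft (fun _ : Fin n => R3) (Equiv.swap i j)
  have h2 := h.integral_comp' g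
  rw [← h2]
  refine integral_congr_ae (Eventually.of_forall fun w => ?_)
  simp only
  congr 1
  funext l
  have := Equiv.piCongrLeft_apply_apply (P := fun _ : Fin n => R3)
        (Equiv.swap i j) w (Equiv.swap i j l)
  rw [Equiv.swap_apply_self] at this
  rw [Function.comp_apply]
  exact this.symm

theorem po_swap {n : ℕ} (i j : Fin n) (I : Fin n → Fin 5) (w : Conf n) :
    shF.po (I ∘ Equiv.swap i j) w = shF.po I (w ∘ Equiv.swap i j) := by
  unfold Fam.po
  refine (Equiv.prod_comp (Equiv.swap i j)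
    (fun l => shF.θ ((I ∘ Equiv.swap i j) l) (w l))).symm.trans ?_
  refine Finset.prod_congr rfl fun l _ => ?_
  simp

theorem cof_swap {n : ℕ} (i j : Fin n) (I : Fin n → Fin 5) {f : Conf n → ℝ}
    (ha : ∀ w, f (w ∘ Equiv.swap i j) = - f w) : cof (I ∘ Equiv.swap i j) f = - cof I f := by
  unfold cof
  have h : ∀ w, shF.po (I ∘ Equiv.swap i j) w * f w =
      -(shF.po I (w ∘ Equiv.swap i j) * f (w ∘ Equiv.swap i j)) := by
    intro w
    rw [po_swap, ha]
    ring
  simp only [h]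
  rw [integral_neg, integral_comp_swap i j (fun w => shF.po I w * f w)]

theorem cof_int {n : ℕ} (I : Fin n → Fin 5) {f : Conf n → ℝ}
    (hf : Dm shD (fun x => (f x : ℂ))) : Integrable (fun w => shF.po I w * f w) := by
  have h1 := ((shF.po_dm I).mul hf).integrable
  have h2 := h1.re
  refine h2.congr (Eventually.of_forall fun w => ?_)
  simp only [← Complex.ofReal_mul]
  exact Complex.ofReal_re _

/-- the general inequality -/
theorem occ_gen {n : ℕ} {f : Conf (n + 1) → ℝ} (hf : Dm shD (fun x => (f x : ℂ)))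
    {Q : Type*} [Fintype Q] (Iq : Q → Fin (n + 1) → Fin 5) (K : ℝ)
    (P : Fin (n + 1) → Fin (n + 1) → Prop)
    (hP : ∀ i j, P i j → i ≠ j ∧ ∀ w, f (w ∘ Equiv.swap i j) = - f w)
    (hcomb : ∀ J : Fin (n + 1) → Option (Fin 5),
      (∀ i j, P i j → ¬ (J i = some 0 ∧ J j = some 0)) →
      ∑ i, owt (J i) ≤ K ∨
        (∑ i, owt (J i) ≤ K + 5 / 72 ∧ ∃ q, J = fun i => some (Iq q i))) :
    ∑ i : Fin (n + 1), (4 / 9 * occ i (KD.chi 0) f +
      5 / 72 * ∑ a : Fin 4, occ i (KD.chi a.succ) f) ≤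
      K * (∫ x, f x ^ 2) + 5 / 72 * ∑ q, cof (Iq q) f ^ 2 := by
  obtain ⟨u, hu⟩ : ∃ u : GT shD (Fin (n + 1)), u.fn = fun x => (f x : ℂ) := ⟨⟨_, hf⟩, rfl⟩
  have h := slots_occ (shF.pre (n + 1)).toSlots u (fun q i => some (Iq q i)) K P ?_ hcomb
  · have e1 : ‖u‖ ^ 2 = ∫ x, f x ^ 2 := by
      rw [GT.norm_sq, hu]
      refine integral_congr_ae (Eventually.of_forall fun x => ?_)
      simp only [Complex.norm_real, Real.norm_eq_abs, sq_abs]
    have e2 : ∀ q, ‖(shF.pre (n + 1)).toSlots.cfg (n + 1) le_rfl (fun i => some (Iq q i)) u‖ ^ 2 =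
        cof (Iq q) f ^ 2 := by
      intro q
      rw [← cof_eq, ← hu]
      exact shF.norm_cfg_sq (Iq q) u
    have e3 : ∀ i a, ‖(shF.pre (n + 1)).toSlots.p i (some a) u‖ ^ 2 = occ i (KD.chi a) f := by
      intro i a
      rw [occ_eq i a hf, ← hu]
      exact GT.norm_sq _
    rw [e1] at h
    simp only [e2] at h
    refine le_trans (le_of_eq ?_) h
    refine Finset.sum_congr rfl fun i _ => ?_
    have w0 : owt none = 0 := rfl
    have w1 : owt (some 0) = 4 / 9 := by simp [owt]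
    have w2 : ∀ a : Fin 4, owt (some a.succ) = 5 / 72 := fun a => by simp [owt]
    have w3 : ∑ a : Fin 5, owt (some a) * occ i (KD.chi a) f =
        4 / 9 * occ i (KD.chi 0) f + 5 / 72 * ∑ a : Fin 4, occ i (KD.chi a.succ) f := by
      rw [Fin.sum_univ_succ, w1, Finset.mul_sum]
      simp only [w2]
    rw [Fintype.sum_option]
    simp only [e3]
    rw [w3, w0]
    ring
  · intro i j hij
    obtain ⟨h1, h2⟩ := hP i j hij
    apply GT.ext
    funext w
    have h3 := pauli_pair h1 (shF.orb 0) u.dm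
      (fun w => by rw [hu]; simp only [h2 w, Complex.ofReal_neg]) (shF.θ 0) (shF.θ 0) w
    exact h3

/-! ### the two sectors -/

theorem occ4_bdd_pf {f : Conf 4 → ℝ} (hm : Measurable f) {C r : ℝ} (hb : ∀ x, |f x| ≤ C)
    (hs : ∀ x, f x ≠ 0 → ∀ i, ‖x i‖ ≤ r) (h1 : ∀ x, f (x ∘ Equiv.swap 0 1) = - f x)
    (h2 : ∀ x, f (x ∘ Equiv.swap 2 3) = - f x) :
    ∑ i : Fin 4, (4 / 9 * occ i (KD.chi 0) f + 5 / 72 * ∑ a : Fin 4, occ i (KD.chi a.succ) f)
      ≤ 69 / 72 * (∫ x, f x ^ 2) + 5 / 72 * ∑ p : Fin 4 × Fin 4, (∫ x, sh4 p x * f x) ^ 2 := by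
  have hf := dm_of_bdd hm hb hs
  have h := occ_gen hf J4 (69 / 72)
    (fun i j => (i = 0 ∧ j = 1) ∨ (i = 2 ∧ j = 3)) ?_ ?_
  · refine h.trans (le_of_eq ?_)
    congr 2
    rw [Fintype.sum_prod_type]
    refine Finset.sum_congr rfl fun p _ => ?_
    have c0 : J4 (p, (true, false)) = J4 (p, (false, false)) ∘ Equiv.swap 0 1 := by
      funext l
      fin_cases l <;> simp [J4, opr, Equiv.swap_apply_def]
    have c1 : J4 (p, (false, true)) = J4 (p, (false, false)) ∘ Equiv.swap 2 3 := by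
      funext l
      fin_cases l <;> simp [J4, opr, Equiv.swap_apply_def]
    have c2 : J4 (p, (true, true)) = J4 (p, (true, false)) ∘ Equiv.swap 2 3 := by
      funext l
      fin_cases l <;> simp [J4, opr, Equiv.swap_apply_def]
    have d0 : cof (J4 (p, (true, false))) f = - cof (J4 (p, (false, false))) f := by
      rw [c0, cof_swap 0 1 _ h1]
    have d1 : cof (J4 (p, (false, true))) f = - cof (J4 (p, (false, false))) f := by
      rw [c1, cof_swap 2 3 _ h2]
    have d2 : cof (J4 (p, (true, true))) f = cof (J4 (p, (false, false))) f := by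
      rw [c2, cof_swap 2 3 _ h2, d0, neg_neg]
    have e : ∫ x, sh4 p x * f x = 2 * cof (J4 (p, (false, false))) f := by
      have e1 : ∀ x, sh4 p x * f x = (1 / 2) * (
          shF.po (J4 (p, (false, false))) x * f x - shF.po (J4 (p, (true, false))) x * f x -
          (shF.po (J4 (p, (false, true))) x * f x - shF.po (J4 (p, (true, true))) x * f x)) := by
        intro x
        have hs2 : (√2 : ℝ) ≠ 0 := by positivity
        have hs3 : (√2 : ℝ) ^ 2 = 2 := Real.sq_sqrt (by norm_num)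
        unfold sh4 wdg Fam.po
        simp only [J4, opr, shF_θ, Fin.prod_univ_four]
        simp only [Fin.isValue, one_div, Bool.false_eq_true, ↓reduceIte, Matrix.cons_val_zero, Matrix.cons_val_one, Matrix.cons_val]
        field_simp
        rw [hs3]
        ring
      simp only [e1]
      rw [integral_const_mul, integral_sub, integral_sub, integral_sub]
      · change 1 / 2 * (cof (J4 (p, (false, false))) f - cof (J4 (p, (true, false))) f -
          (cof (J4 (p, (false, true))) f - cof (J4 (p, (true, true))) f)) = _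
        rw [d0, d1, d2]
        ring
      · exact cof_int _ hf
      · exact cof_int _ hf
      · exact cof_int _ hf
      · exact cof_int _ hf
      · exact (cof_int _ hf).sub (cof_int _ hf)
      · exact (cof_int _ hf).sub (cof_int _ hf)
    rw [e, Fintype.sum_prod_type]
    simp only [Fintype.sum_bool]
    rw [d0, d1, d2]
    ring
  · rintro i j (⟨rfl, rfl⟩ | ⟨rfl, rfl⟩)
    · exact ⟨by decide, h1⟩
    · exact ⟨by decide, h2⟩
  · intro J hJ
    exact comb4 J (hJ 0 1 (Or.inl ⟨rfl, rfl⟩)) (hJ 2 3 (Or.inr ⟨rfl, rfl⟩))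

theorem occ3_bdd_pf {f : Conf 3 → ℝ} (hm : Measurable f) {C r : ℝ} (hb : ∀ x, |f x| ≤ C)
    (hs : ∀ x, f x ≠ 0 → ∀ i, ‖x i‖ ≤ r) (h1 : ∀ x, f (x ∘ Equiv.swap 1 2) = - f x) :
    ∑ i : Fin 3, (4 / 9 * occ i (KD.chi 0) f + 5 / 72 * ∑ a : Fin 4, occ i (KD.chi a.succ) f)
      ≤ 64 / 72 * (∫ x, f x ^ 2) + 5 / 72 * ∑ a : Fin 4, (∫ x, sh3 a x * f x) ^ 2 := by
  have hf := dm_of_bdd hm hb hs
  have h := occ_gen hf J3 (64 / 72) (fun i j => i = 1 ∧ j = 2) ?_ ?_
  · refine h.trans (le_of_eq ?_)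
    congr 2
    rw [Fintype.sum_prod_type]
    refine Finset.sum_congr rfl fun p _ => ?_
    have c0 : J3 (p, true) = J3 (p, false) ∘ Equiv.swap 1 2 := by
      funext l
      fin_cases l <;> simp [J3, opr, Equiv.swap_apply_def]
    have d0 : cof (J3 (p, true)) f = - cof (J3 (p, false)) f := by
      rw [c0, cof_swap 1 2 _ h1]
    have hs2 : (√2 : ℝ) ≠ 0 := by positivity
    have hs3 : (√2 : ℝ) ^ 2 = 2 := Real.sq_sqrt (by norm_num)
    have e : ∫ x, sh3 p x * f x = √2 * cof (J3 (p, false)) f := by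
      have e1 : ∀ x, sh3 p x * f x = (1 / √2) * (
          shF.po (J3 (p, false)) x * f x - shF.po (J3 (p, true)) x * f x) := by
        intro x
        unfold sh3 wdg Fam.po
        simp only [Fin.prod_univ_three, J3, opr, shF_θ]
        simp only [Fin.isValue, one_div, Bool.false_eq_true, ↓reduceIte, Matrix.cons_val_zero, Matrix.cons_val_one, Matrix.cons_val]
        (clear * - hs2; field_simp)
      simp only [e1]
      rw [integral_const_mul, integral_sub]
      · change 1 / √2 * (cof (J3 (p, false)) f - cof (J3 (p, true)) f) = _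
        rw [d0]
        field_simp
        rw [hs3]
        ring
      · exact cof_int _ hf
      · exact cof_int _ hf
    rw [e]
    simp only [Fintype.sum_bool]
    rw [d0, mul_pow, hs3]
    ring
  · rintro i j ⟨rfl, rfl⟩
    exact ⟨by decide, h1⟩
  · intro J hJ
    exact comb3 J (hJ 1 2 ⟨rfl, rfl⟩)

end

end Vale.Agent.P363.D
end
end

section

section

/-! # Occupation number inequalities: from bounded functions to `L²` functions -/

namespace Vale.Agent.P363.D

open MeasureTheory Set Filter Topology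
open scoped ENNReal ContDiff

noncomputable section

theorem shOccB_mp {N : ℕ} (σ : Equiv.Perm (Fin N)) :
    MeasurePreserving (fun x : Conf N => x ∘ σ) volume volume := by
  have h := MeasureTheory.volume_measurePreserving_piCongrLeft (fun _ : Fin N => R3) σ.symm
  have he : (MeasurableEquiv.piCongrLeft (fun _ : Fin N => R3) σ.symm :
      (Fin N → R3) → (Fin N → R3)) = fun x => x ∘ σ := by
    funext x j
    have h := Equiv.piCongrLeft_apply (fun _ : Fin N => R3) σ.symm x j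
    simpa [MeasurableEquiv.coe_piCongrLeft] using h
  rwa [he] at h

/-- truncation -/
def shOccB_tr {N : ℕ} (g : Conf N → ℝ) (m : ℕ) (x : Conf N) : ℝ :=
  open Classical in if |g x| ≤ m ∧ ∀ i, ‖x i‖ ≤ m then g x else 0

theorem shOccB_tr_meas {N : ℕ} {g : Conf N → ℝ} (hg : Measurable g) (m : ℕ) :
    Measurable (shOccB_tr g m) := by
  classical
  have h1 : MeasurableSet {x : Conf N | |g x| ≤ m ∧ ∀ i, ‖x i‖ ≤ m} := by
    have h2 : MeasurableSet {x : Conf N | |g x| ≤ m} :=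
      measurableSet_le hg.abs measurable_const
    have h3 : MeasurableSet {x : Conf N | ∀ i, ‖x i‖ ≤ m} := by
      rw [Set.ofPred_forall]
      exact MeasurableSet.iInter fun i =>
        measurableSet_le (measurable_pi_apply i).norm measurable_const
    exact h2.inter h3
  exact Measurable.ite h1 hg measurable_const

theorem shOccB_tr_bd {N : ℕ} (g : Conf N → ℝ) (m : ℕ) (x : Conf N) : |shOccB_tr g m x| ≤ m := by
  unfold shOccB_tr
  split_ifs with h
  · exact h.1
  · simp only [abs_zero, Nat.cast_nonneg]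

theorem shOccB_tr_supp {N : ℕ} (g : Conf N → ℝ) (m : ℕ) (x : Conf N) (h : shOccB_tr g m x ≠ 0)
    (i : Fin N) : ‖x i‖ ≤ m := by
  by_contra hc
  apply h
  unfold shOccB_tr
  rw [if_neg]
  exact fun h' => hc (h'.2 i)

theorem shOccB_tr_anti {N : ℕ} {g : Conf N → ℝ} {σ : Equiv.Perm (Fin N)}
    (h : ∀ x, g (x ∘ σ) = - g x) (m : ℕ) (x : Conf N) :
    shOccB_tr g m (x ∘ σ) = - shOccB_tr g m x := by
  have hiff : (|g (x ∘ σ)| ≤ m ∧ ∀ i, ‖(x ∘ σ) i‖ ≤ m) ↔ (|g x| ≤ m ∧ ∀ i, ‖x i‖ ≤ m) := by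
    rw [h x, abs_neg]
    refine and_congr_right fun _ => ?_
    exact ⟨fun h' i => by simpa only [Function.comp_apply, Equiv.apply_symm_apply] using h' (σ.symm i), fun h' i => h' (σ i)⟩
  unfold shOccB_tr
  by_cases hc : |g x| ≤ m ∧ ∀ i, ‖x i‖ ≤ m
  · rw [if_pos (hiff.2 hc), if_pos hc, h x]
  · rw [if_neg (fun h' => hc (hiff.1 h')), if_neg hc, neg_zero]

theorem shOccB_tr_abs {N : ℕ} (g : Conf N → ℝ) (m : ℕ) (x : Conf N) :
    |shOccB_tr g m x| ≤ |g x| := by
  unfold shOccB_tr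
  split_ifs
  · exact le_rfl
  · simp only [abs_zero, abs_nonneg]

theorem shOccB_tr_memLp {N : ℕ} {g : Conf N → ℝ} (hg : Measurable g) (h2 : MemLp g 2 volume)
    (m : ℕ) : MemLp (shOccB_tr g m) 2 volume :=
  h2.mono (shOccB_tr_meas hg m).aestronglyMeasurable
    (Eventually.of_forall fun x => by
      rw [Real.norm_eq_abs, Real.norm_eq_abs]
      exact shOccB_tr_abs g m x)

theorem shOccB_tr_ev {N : ℕ} (g : Conf N → ℝ) (x : Conf N) :
    ∀ᶠ m : ℕ in atTop, shOccB_tr g m x = g x := by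
  obtain ⟨a, ha⟩ := exists_nat_ge |g x|
  obtain ⟨b, hb⟩ := exists_nat_ge (∑ i, ‖x i‖)
  filter_upwards [eventually_ge_atTop (max a b)] with m hm
  unfold shOccB_tr
  rw [if_pos]
  refine ⟨ha.trans (by exact_mod_cast (le_max_left a b).trans hm), fun i => ?_⟩
  have h1 : ‖x i‖ ≤ ∑ i, ‖x i‖ :=
    Finset.single_le_sum (f := fun i => ‖x i‖) (fun i _ => norm_nonneg _) (Finset.mem_univ i)
  exact h1.trans (hb.trans (by exact_mod_cast (le_max_right a b).trans hm))

theorem shOccB_tr_lim {N : ℕ} {f g : Conf N → ℝ} (hf : MemLp f 2 volume) (hg : Measurable g)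
    (he : g =ᵐ[volume] f) :
    Tendsto (fun m => ∫ x, (shOccB_tr g m x - f x) ^ 2) atTop (𝓝 0) := by
  have h0 : Tendsto (fun m => ∫ x, (shOccB_tr g m x - f x) ^ 2) atTop
      (𝓝 (∫ _x : Conf N, (0 : ℝ))) := by
    refine tendsto_integral_of_dominated_convergence (fun x => 4 * f x ^ 2) ?_ ?_ ?_ ?_
    · intro m
      exact ((shOccB_tr_meas hg m).aestronglyMeasurable.sub hf.aestronglyMeasurable).pow 2
    · exact hf.integrable_sq.const_mul 4
    · intro m
      filter_upwards [he] with x hx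
      rw [Real.norm_eq_abs, abs_of_nonneg (sq_nonneg _)]
      have h1 := shOccB_tr_abs g m x
      rw [hx] at h1
      have h2 : |shOccB_tr g m x - f x| ≤ 2 * |f x| := by
        calc |shOccB_tr g m x - f x| ≤ |shOccB_tr g m x| + |f x| := abs_sub _ _
          _ ≤ 2 * |f x| := by linarith only [h1]
      calc (shOccB_tr g m x - f x) ^ 2 = |shOccB_tr g m x - f x| ^ 2 := (sq_abs _).symm
        _ ≤ (2 * |f x|) ^ 2 := by (clear * - h2; gcongr)
        _ = 4 * f x ^ 2 := by rw [mul_pow, sq_abs]; norm_num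
    · filter_upwards [he] with x hx
      refine tendsto_const_nhds.congr' ?_
      filter_upwards [shOccB_tr_ev g x] with m hm
      rw [hm, hx, sub_self]
      norm_num
  simpa only [integral_zero] using h0

theorem occ4_pf
    (H : ∀ f : Conf 4 → ℝ, Measurable f → ∀ C r : ℝ, (∀ x, |f x| ≤ C) →
      (∀ x, f x ≠ 0 → ∀ i, ‖x i‖ ≤ r) → (∀ x, f (x ∘ Equiv.swap 0 1) = - f x) →
      (∀ x, f (x ∘ Equiv.swap 2 3) = - f x) →
      ∑ i : Fin 4, (4 / 9 * occ i (KD.chi 0) f + 5 / 72 * ∑ a : Fin 4, occ i (KD.chi a.succ) f)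
        ≤ 69 / 72 * (∫ x, f x ^ 2) + 5 / 72 * ∑ p : Fin 4 × Fin 4, (∫ x, sh4 p x * f x) ^ 2)
    {f : Conf 4 → ℝ} (hf : MemLp f 2 volume) (h : Sec4 f) :
    ∑ i : Fin 4, (4 / 9 * occ i (KD.chi 0) f + 5 / 72 * ∑ a : Fin 4, occ i (KD.chi a.succ) f)
      ≤ 69 / 72 * (∫ x, f x ^ 2) + 5 / 72 * ∑ p : Fin 4 × Fin 4, (∫ x, sh4 p x * f x) ^ 2 := by
  obtain ⟨h01, h23⟩ := h
  obtain ⟨f1, hf1m, hf1⟩ : ∃ f1 : Conf 4 → ℝ, Measurable f1 ∧ f =ᵐ[volume] f1 :=
    ⟨hf.1.mk f, hf.1.stronglyMeasurable_mk.measurable, hf.1.ae_eq_mk⟩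
  have hss : ∀ x : Conf 4, (x ∘ Equiv.swap (0 : Fin 4) 1) ∘ Equiv.swap (0 : Fin 4) 1 = x := by
    intro x
    funext i
    simp [Function.comp]
  have htt : ∀ x : Conf 4, (x ∘ Equiv.swap (2 : Fin 4) 3) ∘ Equiv.swap (2 : Fin 4) 3 = x := by
    intro x
    funext i
    simp [Function.comp]
  have hcomm : ∀ x : Conf 4, (x ∘ Equiv.swap (2 : Fin 4) 3) ∘ Equiv.swap (0 : Fin 4) 1 =
      (x ∘ Equiv.swap (0 : Fin 4) 1) ∘ Equiv.swap (2 : Fin 4) 3 := by
    intro x
    funext i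
    fin_cases i <;> rfl
  set f2 : Conf 4 → ℝ := fun x => (f1 x - f1 (x ∘ Equiv.swap 0 1) - f1 (x ∘ Equiv.swap 2 3) +
    f1 ((x ∘ Equiv.swap 0 1) ∘ Equiv.swap 2 3)) / 4 with hf2
  have hm01 : Measurable (fun x : Conf 4 => x ∘ Equiv.swap (0 : Fin 4) 1) :=
    (shOccB_mp (Equiv.swap (0 : Fin 4) 1)).measurable
  have hm23 : Measurable (fun x : Conf 4 => x ∘ Equiv.swap (2 : Fin 4) 3) :=
    (shOccB_mp (Equiv.swap (2 : Fin 4) 3)).measurable
  have hf2m : Measurable f2 := by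
    refine Measurable.div_const (Measurable.add (Measurable.sub (Measurable.sub hf1m ?_) ?_) ?_) 4
    · exact hf1m.comp hm01
    · exact hf1m.comp hm23
    · exact hf1m.comp (hm23.comp hm01)
  have ha01 : ∀ x, f2 (x ∘ Equiv.swap 0 1) = - f2 x := by
    intro x
    simp only [hf2, hss]
    ring
  have ha23 : ∀ x, f2 (x ∘ Equiv.swap 2 3) = - f2 x := by
    intro x
    simp only [hf2, htt, hcomm]
    ring
  have q01 := (shOccB_mp (Equiv.swap (0 : Fin 4) 1)).quasiMeasurePreserving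
  have q23 := (shOccB_mp (Equiv.swap (2 : Fin 4) 3)).quasiMeasurePreserving
  have he : f2 =ᵐ[volume] f := by
    have e1 : ∀ᵐ x : Conf 4, f (x ∘ Equiv.swap 0 1) = f1 (x ∘ Equiv.swap 0 1) := q01.ae hf1
    have e2 : ∀ᵐ x : Conf 4, f (x ∘ Equiv.swap 2 3) = f1 (x ∘ Equiv.swap 2 3) := q23.ae hf1
    have e3 : ∀ᵐ x : Conf 4, f ((x ∘ Equiv.swap 0 1) ∘ Equiv.swap 2 3) =
      f1 ((x ∘ Equiv.swap 0 1) ∘ Equiv.swap 2 3) := q01.ae e2
    have e4 : ∀ᵐ x : Conf 4, f ((x ∘ Equiv.swap 0 1) ∘ Equiv.swap 2 3) =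
      - f (x ∘ Equiv.swap 0 1) := q01.ae h23
    filter_upwards [hf1, e1, e2, e3, e4, h01, h23] with x g0 g1 g2 g3 g4 g5 g6
    simp only [hf2]
    rw [← g0, ← g1, ← g2, ← g3, g4, g5, g6]
    ring
  have h2 : MemLp f2 2 volume := (memLp_congr_ae he).2 hf
  have hF := shOccB_tr_memLp hf2m h2
  have hlim := shOccB_tr_lim hf hf2m he
  have hsq := sq_tendsto hf hF hlim
  have hL : Tendsto (fun m => ∑ i : Fin 4, (4 / 9 * occ i (KD.chi 0) (shOccB_tr f2 m) +
      5 / 72 * ∑ a : Fin 4, occ i (KD.chi a.succ) (shOccB_tr f2 m))) atTop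
      (𝓝 (∑ i : Fin 4, (4 / 9 * occ i (KD.chi 0) f +
        5 / 72 * ∑ a : Fin 4, occ i (KD.chi a.succ) f))) :=
    tendsto_finsetSum _ fun i _ =>
      ((occ_tendsto i hf hF hlim (chi_memLp 0)).const_mul _).add
        ((tendsto_finsetSum _ fun a _ => occ_tendsto i hf hF hlim (chi_memLp a.succ)).const_mul _)
  have hR : Tendsto (fun m => 69 / 72 * (∫ x, shOccB_tr f2 m x ^ 2) +
      5 / 72 * ∑ p : Fin 4 × Fin 4, (∫ x, sh4 p x * shOccB_tr f2 m x) ^ 2) atTop
      (𝓝 (69 / 72 * (∫ x, f x ^ 2) + 5 / 72 * ∑ p : Fin 4 × Fin 4, (∫ x, sh4 p x * f x) ^ 2)) :=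
    (hsq.1.const_mul _).add ((tendsto_finsetSum _ fun p _ =>
      (hsq.2 (sh4 p) (sh4_HN' p).memLp).pow 2).const_mul _)
  exact le_of_tendsto_of_tendsto' hL hR fun m => H (shOccB_tr f2 m) (shOccB_tr_meas hf2m m) m m
    (shOccB_tr_bd f2 m) (shOccB_tr_supp f2 m) (shOccB_tr_anti ha01 m) (shOccB_tr_anti ha23 m)

theorem occ3_pf
    (H : ∀ f : Conf 3 → ℝ, Measurable f → ∀ C r : ℝ, (∀ x, |f x| ≤ C) →
      (∀ x, f x ≠ 0 → ∀ i, ‖x i‖ ≤ r) → (∀ x, f (x ∘ Equiv.swap 1 2) = - f x) →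
      ∑ i : Fin 3, (4 / 9 * occ i (KD.chi 0) f + 5 / 72 * ∑ a : Fin 4, occ i (KD.chi a.succ) f)
        ≤ 64 / 72 * (∫ x, f x ^ 2) + 5 / 72 * ∑ a : Fin 4, (∫ x, sh3 a x * f x) ^ 2)
    {f : Conf 3 → ℝ} (hf : MemLp f 2 volume) (h : Sec3 f) :
    ∑ i : Fin 3, (4 / 9 * occ i (KD.chi 0) f + 5 / 72 * ∑ a : Fin 4, occ i (KD.chi a.succ) f)
      ≤ 64 / 72 * (∫ x, f x ^ 2) + 5 / 72 * ∑ a : Fin 4, (∫ x, sh3 a x * f x) ^ 2 := by
  obtain ⟨f1, hf1m, hf1⟩ : ∃ f1 : Conf 3 → ℝ, Measurable f1 ∧ f =ᵐ[volume] f1 :=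
    ⟨hf.1.mk f, hf.1.stronglyMeasurable_mk.measurable, hf.1.ae_eq_mk⟩
  have hss : ∀ x : Conf 3, (x ∘ Equiv.swap (1 : Fin 3) 2) ∘ Equiv.swap (1 : Fin 3) 2 = x := by
    intro x
    funext i
    simp [Function.comp]
  set f2 : Conf 3 → ℝ := fun x => (f1 x - f1 (x ∘ Equiv.swap 1 2)) / 2 with hf2
  have hm12 : Measurable (fun x : Conf 3 => x ∘ Equiv.swap (1 : Fin 3) 2) :=
    (shOccB_mp (Equiv.swap (1 : Fin 3) 2)).measurable
  have hf2m : Measurable f2 :=
    Measurable.div_const (Measurable.sub hf1m (hf1m.comp hm12)) 2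
  have ha12 : ∀ x, f2 (x ∘ Equiv.swap 1 2) = - f2 x := by
    intro x
    simp only [hf2, hss]
    ring
  have q12 := (shOccB_mp (Equiv.swap (1 : Fin 3) 2)).quasiMeasurePreserving
  have he : f2 =ᵐ[volume] f := by
    have e1 : ∀ᵐ x : Conf 3, f (x ∘ Equiv.swap 1 2) = f1 (x ∘ Equiv.swap 1 2) := q12.ae hf1
    have h' : ∀ᵐ x : Conf 3, f (x ∘ Equiv.swap 1 2) = - f x := h
    filter_upwards [hf1, e1, h'] with x g0 g1 g2
    simp only [hf2]
    rw [← g0, ← g1, g2]
    ring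
  have h2 : MemLp f2 2 volume := (memLp_congr_ae he).2 hf
  have hF := shOccB_tr_memLp hf2m h2
  have hlim := shOccB_tr_lim hf hf2m he
  have hsq := sq_tendsto hf hF hlim
  have hL : Tendsto (fun m => ∑ i : Fin 3, (4 / 9 * occ i (KD.chi 0) (shOccB_tr f2 m) +
      5 / 72 * ∑ a : Fin 4, occ i (KD.chi a.succ) (shOccB_tr f2 m))) atTop
      (𝓝 (∑ i : Fin 3, (4 / 9 * occ i (KD.chi 0) f +
        5 / 72 * ∑ a : Fin 4, occ i (KD.chi a.succ) f))) :=
    tendsto_finsetSum _ fun i _ =>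
      ((occ_tendsto i hf hF hlim (chi_memLp 0)).const_mul _).add
        ((tendsto_finsetSum _ fun a _ => occ_tendsto i hf hF hlim (chi_memLp a.succ)).const_mul _)
  have hR : Tendsto (fun m => 64 / 72 * (∫ x, shOccB_tr f2 m x ^ 2) +
      5 / 72 * ∑ a : Fin 4, (∫ x, sh3 a x * shOccB_tr f2 m x) ^ 2) atTop
      (𝓝 (64 / 72 * (∫ x, f x ^ 2) + 5 / 72 * ∑ a : Fin 4, (∫ x, sh3 a x * f x) ^ 2)) :=
    (hsq.1.const_mul _).add ((tendsto_finsetSum _ fun a _ =>
      (hsq.2 (sh3 a) (sh3_HN' a).memLp).pow 2).const_mul _)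
  exact le_of_tendsto_of_tendsto' hL hR fun m => H (shOccB_tr f2 m) (shOccB_tr_meas hf2m m) m m
    (shOccB_tr_bd f2 m) (shOccB_tr_supp f2 m) (shOccB_tr_anti ha12 m)

end

end Vale.Agent.P363.D
end
end

section

section

/-! # Occupation number inequalities for the sectors (2,2) and (1,2) -/

namespace Vale.Agent.P363.D

open MeasureTheory Set Filter Topology
open scoped ENNReal ContDiff

noncomputable section

/-- bounded functions of compact support which are antisymmetric everywhere -/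
theorem occ4_bdd {f : Conf 4 → ℝ} (hm : Measurable f) {C r : ℝ} (hb : ∀ x, |f x| ≤ C)
    (hs : ∀ x, f x ≠ 0 → ∀ i, ‖x i‖ ≤ r) (h1 : ∀ x, f (x ∘ Equiv.swap 0 1) = - f x)
    (h2 : ∀ x, f (x ∘ Equiv.swap 2 3) = - f x) :
    ∑ i : Fin 4, (4 / 9 * occ i (KD.chi 0) f + 5 / 72 * ∑ a : Fin 4, occ i (KD.chi a.succ) f)
      ≤ 69 / 72 * (∫ x, f x ^ 2) + 5 / 72 * ∑ p : Fin 4 × Fin 4, (∫ x, sh4 p x * f x) ^ 2 :=
  occ4_bdd_pf hm hb hs h1 h2

theorem occ3_bdd {f : Conf 3 → ℝ} (hm : Measurable f) {C r : ℝ} (hb : ∀ x, |f x| ≤ C)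
    (hs : ∀ x, f x ≠ 0 → ∀ i, ‖x i‖ ≤ r) (h1 : ∀ x, f (x ∘ Equiv.swap 1 2) = - f x) :
    ∑ i : Fin 3, (4 / 9 * occ i (KD.chi 0) f + 5 / 72 * ∑ a : Fin 4, occ i (KD.chi a.succ) f)
      ≤ 64 / 72 * (∫ x, f x ^ 2) + 5 / 72 * ∑ a : Fin 4, (∫ x, sh3 a x * f x) ^ 2 :=
  occ3_bdd_pf hm hb hs h1

theorem occ4 {f : Conf 4 → ℝ} (hf : MemLp f 2 volume) (h : Sec4 f) :
    ∑ i : Fin 4, (4 / 9 * occ i (KD.chi 0) f + 5 / 72 * ∑ a : Fin 4, occ i (KD.chi a.succ) f)
      ≤ 69 / 72 * (∫ x, f x ^ 2) + 5 / 72 * ∑ p : Fin 4 × Fin 4, (∫ x, sh4 p x * f x) ^ 2 :=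
  occ4_pf (fun _ hm _ _ hb hs h1 h2 => occ4_bdd hm hb hs h1 h2) hf h

theorem occ3 {f : Conf 3 → ℝ} (hf : MemLp f 2 volume) (h : Sec3 f) :
    ∑ i : Fin 3, (4 / 9 * occ i (KD.chi 0) f + 5 / 72 * ∑ a : Fin 4, occ i (KD.chi a.succ) f)
      ≤ 64 / 72 * (∫ x, f x ^ 2) + 5 / 72 * ∑ a : Fin 4, (∫ x, sh3 a x * f x) ^ 2 :=
  occ3_pf (fun _ hm _ _ hb hs h1 => occ3_bdd hm hb hs h1) hf h

end

end Vale.Agent.P363.D
end
end

section

section

/-! # The gap of the unperturbed Hamiltonian in the sectors (2,2) and (1,2) -/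

namespace Vale.Agent.P363.D

open MeasureTheory Set Filter Topology
open scoped ENNReal ContDiff

noncomputable section

theorem sh4_gap' {f : Conf 4 → ℝ} {g : Fin 4 → Fin 3 → Conf 4 → ℝ} (h : HN f g) (hs : Sec4 f) :
    (-(5 / 4) + 5 / 72) * (∫ x, f x ^ 2) - 5 / 72 * ∑ p, (∫ x, sh4 p x * f x) ^ 2
      ≤ qN h0N f g := by
  have h1 := slot_ineq (n := 3) h
  have h2 := occ4 h.memLp hs
  norm_num at h1
  linarith only [h2, h1]

theorem sh3_gap' {f : Conf 3 → ℝ} {g : Fin 3 → Fin 3 → Conf 3 → ℝ} (h : HN f g) (hs : Sec3 f) :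
    (-(9 / 8) + 5 / 72) * (∫ x, f x ^ 2) - 5 / 72 * ∑ a, (∫ x, sh3 a x * f x) ^ 2
      ≤ qN h0N f g := by
  have h1 := slot_ineq (n := 2) h
  have h2 := occ3 h.memLp hs
  norm_num at h1
  linarith only [h2, h1]

end

end Vale.Agent.P363.D
end
end

section

section

/-! # Polynomial moments of the shell functions -/

namespace Vale.Agent.P363.D

open MeasureTheory Set Filter Topology
open scoped ENNReal ContDiff

noncomputable section

/-- powers are dominated by exponentials -/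
theorem one_add_sq_pow_le (m : ℕ) :
    ∃ K : ℝ, 0 ≤ K ∧ ∀ s : ℝ, 0 ≤ s → (1 + s ^ 2) ^ m ≤ K * Real.exp (s / 4) := by
  set N : ℝ := 8 * m + 1 with hN
  have hN1 : 1 ≤ N := by
    have : (0 : ℝ) ≤ m := Nat.cast_nonneg m
    linarith
  have hN0 : 0 < N := by linarith
  refine ⟨N ^ (2 * m), by positivity, fun s hs => ?_⟩
  have h1 : 1 + s ≤ N * Real.exp (s / N) := by
    have h2 := Real.add_one_le_exp (s / N)
    have h3 : 1 + s ≤ N * (s / N + 1) := by
      have : N * (s / N + 1) = s + N := by (clear * - hN1 hs; field_simp)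
      rw [this]
      linarith
    exact h3.trans (mul_le_mul_of_nonneg_left h2 hN0.le)
  calc (1 + s ^ 2) ^ m ≤ ((1 + s) ^ 2) ^ m := by
        apply pow_le_pow_left₀ (by positivity)
        linarith only [hs]
    _ = (1 + s) ^ (2 * m) := by rw [pow_mul]
    _ ≤ (N * Real.exp (s / N)) ^ (2 * m) := pow_le_pow_left₀ (by positivity) h1 _
    _ = N ^ (2 * m) * Real.exp (((2 * m : ℕ) : ℝ) * (s / N)) := by
        rw [mul_pow, Real.exp_nat_mul]
    _ ≤ N ^ (2 * m) * Real.exp (s / 4) := by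
        apply mul_le_mul_of_nonneg_left _ (by (clear * -; positivity))
        apply Real.exp_le_exp.mpr
        rw [← mul_div_assoc, div_le_div_iff₀ hN0 (by norm_num)]
        push_cast
        have : (0 : ℝ) ≤ m := Nat.cast_nonneg m
        rw [hN]
        linarith only [hs]

/-- decay of the three-electron functions -/
theorem sh3_decay (a : Fin 4) : ∃ C : ℝ, 0 ≤ C ∧ ∀ y : Conf 3,
    |sh3 a y| ≤ C * Real.exp (-((‖y 0‖ + ‖y 1‖ + ‖y 2‖) / 4)) := by
  obtain ⟨C, hC, h⟩ := chi_bound 0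
  obtain ⟨D, hD, k⟩ := chi_bound a.succ
  refine ⟨2 * C * C * D / √2, by (clear * - hC hD; positivity), fun y => ?_⟩
  have e : Real.exp (-((‖y 0‖ + ‖y 1‖ + ‖y 2‖) / 4)) = Real.exp (-(‖y 0‖ / 4)) *
      (Real.exp (-(‖y 1‖ / 4)) * Real.exp (-(‖y 2‖ / 4))) := by
    rw [← Real.exp_add, ← Real.exp_add]
    congr 1
    ring
  have w : |KD.chi 0 (y 1) * KD.chi a.succ (y 2) - KD.chi a.succ (y 1) * KD.chi 0 (y 2)| ≤
      2 * C * D * (Real.exp (-(‖y 1‖ / 4)) * Real.exp (-(‖y 2‖ / 4))) := by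
    refine (abs_sub _ _).trans ?_
    rw [abs_mul, abs_mul]
    have h1 := mul_le_mul (h (y 1)) (k (y 2)) (abs_nonneg _)
      (mul_nonneg hC (Real.exp_pos _).le)
    have h2 := mul_le_mul (k (y 1)) (h (y 2)) (abs_nonneg _)
      (mul_nonneg hD (Real.exp_pos _).le)
    refine (add_le_add h1 h2).trans (le_of_eq ?_)
    ring
  unfold sh3 wdg
  rw [abs_mul, abs_div, abs_of_nonneg (Real.sqrt_nonneg 2), e]
  calc |KD.chi 0 (y 0)| *
        (|KD.chi 0 (y 1) * KD.chi a.succ (y 2) - KD.chi a.succ (y 1) * KD.chi 0 (y 2)| / √2)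
      ≤ (C * Real.exp (-(‖y 0‖ / 4))) *
        ((2 * C * D * (Real.exp (-(‖y 1‖ / 4)) * Real.exp (-(‖y 2‖ / 4)))) / √2) := by
        apply mul_le_mul (h (y 0)) _ (by positivity) (by positivity)
        exact div_le_div_of_nonneg_right w (Real.sqrt_nonneg 2)
    _ = _ := by ring

theorem sh3_continuous (a : Fin 4) : Continuous (sh3 a) := by
  have h0 := chi_cont 0
  have h1 := chi_cont a.succ
  unfold sh3 wdg
  fun_prop

theorem moment_real {m : ℕ} {K C : ℝ} (hK : 0 ≤ K)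
    (hk : ∀ s : ℝ, 0 ≤ s → (1 + s ^ 2) ^ m ≤ K * Real.exp (s / 4)) {r s t u : ℝ}
    (hr : 0 ≤ r) (hs : 0 ≤ s) (ht : 0 ≤ t) (hu : |u| ≤ C * Real.exp (-((r + s + t) / 4))) :
    (1 + (r ^ 2 + s ^ 2 + t ^ 2)) ^ m * u ^ 2 ≤ K ^ 3 * C ^ 2 *
      (Real.exp (-(1 / 4) * r) * Real.exp (-(1 / 4) * s) * Real.exp (-(1 / 4) * t)) := by
  have h1 : (1 + (r ^ 2 + s ^ 2 + t ^ 2)) ^ m ≤ K ^ 3 * Real.exp ((r + s + t) / 4) := by
    have h2 : (1 + (r ^ 2 + s ^ 2 + t ^ 2)) ^ m ≤
        ((1 + r ^ 2) * (1 + s ^ 2) * (1 + t ^ 2)) ^ m := by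
      apply pow_le_pow_left₀ (by positivity)
      have b0 : 0 ≤ r ^ 2 := sq_nonneg _
      have b1 : 0 ≤ s ^ 2 := sq_nonneg _
      have b2 : 0 ≤ t ^ 2 := sq_nonneg _
      have c0 := mul_nonneg b0 b1
      have c1 := mul_nonneg b0 b2
      have c2 := mul_nonneg b1 b2
      have c3 := mul_nonneg c0 b2
      have e : (1 + r ^ 2) * (1 + s ^ 2) * (1 + t ^ 2) =
          1 + (r ^ 2 + s ^ 2 + t ^ 2) + (r ^ 2 * s ^ 2 + r ^ 2 * t ^ 2 + s ^ 2 * t ^ 2 +
            r ^ 2 * s ^ 2 * t ^ 2) := by ring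
      rw [e]
      exact le_add_of_nonneg_right (add_nonneg (add_nonneg (add_nonneg c0 c1) c2) c3)
    refine h2.trans ?_
    rw [mul_pow, mul_pow]
    have h3 := mul_le_mul (mul_le_mul (hk _ hr) (hk _ hs) (by positivity) (by positivity))
      (hk _ ht) (by positivity) (by positivity)
    refine h3.trans (le_of_eq ?_)
    have e : Real.exp ((r + s + t) / 4) = Real.exp (r / 4) *
        Real.exp (s / 4) * Real.exp (t / 4) := by
      rw [← Real.exp_add, ← Real.exp_add]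
      congr 1
      ring
    rw [e]
    ring
  have h2 : u ^ 2 ≤ (C * Real.exp (-((r + s + t) / 4))) ^ 2 := by
    rw [← sq_abs]
    exact pow_le_pow_left₀ (abs_nonneg _) hu 2
  refine (mul_le_mul h1 h2 (sq_nonneg _) (by positivity)).trans (le_of_eq ?_)
  rw [← Real.exp_add, ← Real.exp_add]
  have e2 : Real.exp (-((r + s + t) / 4)) * Real.exp ((r + s + t) / 4) = 1 := by
    rw [← Real.exp_add, neg_add_cancel, Real.exp_zero]
  have e3 : -(1 / 4) * r + -(1 / 4) * s + -(1 / 4) * t = -((r + s + t) / 4) := by ring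
  rw [e3]
  calc K ^ 3 * Real.exp ((r + s + t) / 4) * (C * Real.exp (-((r + s + t) / 4))) ^ 2
      = K ^ 3 * C ^ 2 * Real.exp (-((r + s + t) / 4)) *
        (Real.exp (-((r + s + t) / 4)) * Real.exp ((r + s + t) / 4)) := by ring
    _ = _ := by rw [e2, mul_one]

/-- polynomial moments -/
theorem sh3_moment'_pf (a : Fin 4) (m : ℕ) : Integrable (fun y : Conf 3 =>
    (1 + ∑ i, ‖y i‖ ^ 2) ^ m * sh3 a y ^ 2) volume := by
  obtain ⟨C, hC, hs⟩ := sh3_decay a
  obtain ⟨K, hK, hk⟩ := one_add_sq_pow_le m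
  have hE : Integrable (fun x : R3 => Real.exp (-(1 / 4) * ‖x‖)) volume :=
    Vale.Agent.P370.Hyd.integrable_exp (by norm_num)
  have hI : Integrable (fun y : Conf 3 => ∏ i, Real.exp (-(1 / 4) * ‖y i‖)) volume :=
    Integrable.fintype_prod (f := fun (_ : Fin 3) (x : R3) => Real.exp (-(1 / 4) * ‖x‖))
      (fun _ => hE)
  have hcont := sh3_continuous a
  refine (hI.const_mul (K ^ 3 * C ^ 2)).mono' ?_ (Eventually.of_forall fun y => ?_)
  · apply Continuous.aestronglyMeasurable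
    fun_prop
  · rw [Real.norm_eq_abs, abs_of_nonneg (by (clear * -; positivity)), Fin.sum_univ_three,
      Fin.prod_univ_three]
    exact moment_real hK hk (norm_nonneg _) (norm_nonneg _) (norm_nonneg _) (hs y)

end

end Vale.Agent.P363.D
end
end

section

section

/-! # Dyson orbital, density, symmetries and moments of the shell functions -/

namespace Vale.Agent.P363.D

open MeasureTheory Set Filter Topology
open scoped ENNReal ContDiff

noncomputable section

/-- integral of a combination of four products -/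
theorem shLim_comb4 {X : Type*} [MeasurableSpace X] {μ : Measure X} {f g h k : X → ℝ}
    (hf : Integrable f μ) (hg : Integrable g μ) (hh : Integrable h μ) (hk : Integrable k μ)
    (α β γ δ : ℝ) :
    Integrable (fun x => α * f x + β * g x + γ * h x + δ * k x) μ ∧
    ∫ x, (α * f x + β * g x + γ * h x + δ * k x) ∂μ =
      α * (∫ x, f x ∂μ) + β * (∫ x, g x ∂μ) + γ * (∫ x, h x ∂μ) + δ * ∫ x, k x ∂μ := by
  have i1 := (hf.const_mul α)
  have i2 := (hg.const_mul β)
  have i3 := (hh.const_mul γ)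
  have i4 := (hk.const_mul δ)
  have j2 : Integrable (fun x => α * f x + β * g x) μ := i1.add i2
  have j3 : Integrable (fun x => α * f x + β * g x + γ * h x) μ := j2.add i3
  refine ⟨j3.add i4, ?_⟩
  rw [integral_add j3 i4, integral_add j2 i3, integral_add i1 i2]
  simp only [integral_const_mul]

theorem shLim_int (a b : Fin 5) : Integrable (fun x => KD.chi a x * KD.chi b x) volume :=
  (chi_memLp a).integrable_mul (chi_memLp b)

theorem shLim_half : (1 : ℝ) / √2 * (1 / √2) = 1 / 2 := by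
  rw [div_mul_div_comm, Real.mul_self_sqrt (by norm_num)]
  norm_num

theorem shLim_ww (a b : Fin 4) :
    Integrable (fun p : R3 × R3 => wdg (KD.chi 0) (KD.chi a.succ) p.1 p.2 *
      wdg (KD.chi 0) (KD.chi b.succ) p.1 p.2) volume ∧
    ∫ p : R3 × R3, wdg (KD.chi 0) (KD.chi a.succ) p.1 p.2 *
      wdg (KD.chi 0) (KD.chi b.succ) p.1 p.2 = if a = b then 1 else 0 := by
  have key : ∀ p : R3 × R3, wdg (KD.chi 0) (KD.chi a.succ) p.1 p.2 *
      wdg (KD.chi 0) (KD.chi b.succ) p.1 p.2 =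
      1 / 2 * ((KD.chi 0 p.1 * KD.chi 0 p.1) * (KD.chi a.succ p.2 * KD.chi b.succ p.2)) +
      (-(1 / 2)) * ((KD.chi 0 p.1 * KD.chi b.succ p.1) * (KD.chi a.succ p.2 * KD.chi 0 p.2)) +
      (-(1 / 2)) * ((KD.chi a.succ p.1 * KD.chi 0 p.1) * (KD.chi 0 p.2 * KD.chi b.succ p.2)) +
      1 / 2 * ((KD.chi a.succ p.1 * KD.chi b.succ p.1) * (KD.chi 0 p.2 * KD.chi 0 p.2)) := by
    intro p
    unfold wdg
    rw [← shLim_half]
    ring
  have h := shLim_comb4 (μ := (volume : Measure (R3 × R3)))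
    ((shLim_int 0 0).mul_prod (shLim_int a.succ b.succ))
    ((shLim_int 0 b.succ).mul_prod (shLim_int a.succ 0))
    ((shLim_int a.succ 0).mul_prod (shLim_int 0 b.succ))
    ((shLim_int a.succ b.succ).mul_prod (shLim_int 0 0))
    (1 / 2) (-(1 / 2)) (-(1 / 2)) (1 / 2)
  simp only [key]
  refine ⟨h.1, h.2.trans ?_⟩
  have e1 := integral_prod_mul (μ := (volume : Measure R3)) (ν := (volume : Measure R3))
    (fun x => KD.chi 0 x * KD.chi 0 x) (fun x => KD.chi a.succ x * KD.chi b.succ x)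
  have e2 := integral_prod_mul (μ := (volume : Measure R3)) (ν := (volume : Measure R3))
    (fun x => KD.chi 0 x * KD.chi b.succ x) (fun x => KD.chi a.succ x * KD.chi 0 x)
  have e3 := integral_prod_mul (μ := (volume : Measure R3)) (ν := (volume : Measure R3))
    (fun x => KD.chi a.succ x * KD.chi 0 x) (fun x => KD.chi 0 x * KD.chi b.succ x)
  have e4 := integral_prod_mul (μ := (volume : Measure R3)) (ν := (volume : Measure R3))
    (fun x => KD.chi a.succ x * KD.chi b.succ x) (fun x => KD.chi 0 x * KD.chi 0 x)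
  rw [← Measure.volume_eq_prod] at e1 e2 e3 e4
  rw [e1, e2, e3, e4, chi_ortho, chi_ortho, chi_ortho, chi_ortho]
  have n1 : ¬ ((0 : Fin 5) = b.succ) := (Fin.succ_ne_zero b).symm
  have n2 : ¬ (a.succ = (0 : Fin 5)) := Fin.succ_ne_zero a
  simp only [n1, n2, if_false, if_true, Fin.succ_inj, mul_zero, one_mul, mul_one, add_zero]
  split_ifs <;> norm_num

theorem shLim_w1 (a : Fin 4) (x : R3) :
    ∫ p : R3, KD.chi 0 p * wdg (KD.chi 0) (KD.chi a.succ) x p = -(1 / √2) * KD.chi a.succ x := by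
  have key : ∀ p : R3, KD.chi 0 p * wdg (KD.chi 0) (KD.chi a.succ) x p =
      (KD.chi 0 x / √2) * (KD.chi 0 p * KD.chi a.succ p) +
      (-(KD.chi a.succ x / √2)) * (KD.chi 0 p * KD.chi 0 p) +
      0 * (KD.chi 0 p * KD.chi 0 p) + 0 * (KD.chi 0 p * KD.chi 0 p) := by
    intro p
    unfold wdg
    ring
  have h := shLim_comb4 (μ := (volume : Measure R3))
    (shLim_int 0 a.succ) (shLim_int 0 0) (shLim_int 0 0) (shLim_int 0 0)
    (KD.chi 0 x / √2) (-(KD.chi a.succ x / √2)) 0 0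
  simp only [key]
  rw [h.2, chi_ortho, chi_ortho]
  have n1 : ¬ ((0 : Fin 5) = a.succ) := (Fin.succ_ne_zero a).symm
  simp only [n1, if_false, if_true]
  ring

theorem shLim_w2 (a : Fin 4) (x : R3) :
    ∫ p : R3, wdg (KD.chi 0) (KD.chi a.succ) x p * wdg (KD.chi 0) (KD.chi a.succ) x p =
      1 / 2 * (KD.chi 0 x ^ 2 + KD.chi a.succ x ^ 2) := by
  have key : ∀ p : R3, wdg (KD.chi 0) (KD.chi a.succ) x p *
      wdg (KD.chi 0) (KD.chi a.succ) x p =
      (1 / 2 * KD.chi 0 x ^ 2) * (KD.chi a.succ p * KD.chi a.succ p) +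
      (-(KD.chi 0 x * KD.chi a.succ x)) * (KD.chi 0 p * KD.chi a.succ p) +
      (1 / 2 * KD.chi a.succ x ^ 2) * (KD.chi 0 p * KD.chi 0 p) +
      0 * (KD.chi 0 p * KD.chi 0 p) := by
    intro p
    unfold wdg
    have : (1 : ℝ) / 2 = 1 / √2 * (1 / √2) := shLim_half.symm
    rw [this]
    have h2 : (1 : ℝ) = 2 * (1 / √2 * (1 / √2)) := by rw [shLim_half]; norm_num
    linear_combination ((KD.chi 0 x * KD.chi a.succ x) * (KD.chi 0 p * KD.chi a.succ p)) * h2
  have h := shLim_comb4 (μ := (volume : Measure R3))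
    (shLim_int a.succ a.succ) (shLim_int 0 a.succ) (shLim_int 0 0) (shLim_int 0 0)
    (1 / 2 * KD.chi 0 x ^ 2) (-(KD.chi 0 x * KD.chi a.succ x)) (1 / 2 * KD.chi a.succ x ^ 2) 0
  simp only [key]
  rw [h.2, chi_ortho, chi_ortho, chi_ortho]
  have n1 : ¬ ((0 : Fin 5) = a.succ) := (Fin.succ_ne_zero a).symm
  simp only [n1, if_false, if_true]
  ring

theorem shLim_i1 (a : Fin 4) (x : R3) :
    Integrable (fun p : R3 => KD.chi 0 p * wdg (KD.chi 0) (KD.chi a.succ) x p) volume := by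
  have h := shLim_comb4 (μ := (volume : Measure R3))
    (shLim_int 0 a.succ) (shLim_int 0 0) (shLim_int 0 0) (shLim_int 0 0)
    (KD.chi 0 x / √2) (-(KD.chi a.succ x / √2)) 0 0
  refine h.1.congr (Eventually.of_forall fun p => ?_)
  simp only [wdg]
  ring

theorem shLim_i2 (a b : Fin 4) (x : R3) :
    Integrable (fun p : R3 => wdg (KD.chi 0) (KD.chi a.succ) x p *
      wdg (KD.chi 0) (KD.chi b.succ) x p) volume := by
  have h := shLim_comb4 (μ := (volume : Measure R3))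
    (shLim_int a.succ b.succ) (shLim_int a.succ 0) (shLim_int 0 b.succ) (shLim_int 0 0)
    (1 / √2 * (1 / √2) * (KD.chi 0 x * KD.chi 0 x))
    (1 / √2 * (1 / √2) * (-(KD.chi 0 x * KD.chi b.succ x)))
    (1 / √2 * (1 / √2) * (-(KD.chi a.succ x * KD.chi 0 x)))
    (1 / √2 * (1 / √2) * (KD.chi a.succ x * KD.chi b.succ x))
  refine h.1.congr (Eventually.of_forall fun p => ?_)
  simp only [wdg]
  ring

/-- its Dyson orbital and its density -/
theorem psi4_dys' (c : Fin 4 → ℝ) (x : R3) :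
    ∫ y : Conf 3, sh3 3 y * psi4 c (Fin.cons x y) = -(c 3 / √2) * KD.chi 4 x := by
  rw [integral_conf3]
  have key : ∀ p : R3 × (R3 × R3), sh3 3 ![p.1, p.2.1, p.2.2] *
      psi4 c (Fin.cons x ![p.1, p.2.1, p.2.2]) =
      ∑ a : Fin 4, c a * ((KD.chi 0 p.1 * wdg (KD.chi 0) (KD.chi a.succ) x p.1) *
        (wdg (KD.chi 0) (KD.chi (3 : Fin 4).succ) p.2.1 p.2.2 *
          wdg (KD.chi 0) (KD.chi a.succ) p.2.1 p.2.2)) := by
    intro p
    unfold sh3 psi4 sh4
    rw [Finset.mul_sum]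
    refine Finset.sum_congr rfl fun a _ => ?_
    change KD.chi 0 p.1 * wdg (KD.chi 0) (KD.chi (3 : Fin 4).succ) p.2.1 p.2.2 *
      (c a * (wdg (KD.chi 0) (KD.chi a.succ) x p.1 *
        wdg (KD.chi 0) (KD.chi a.succ) p.2.1 p.2.2)) = _
    ring
  simp only [key]
  rw [integral_finsetSum]
  · have e : ∀ a : Fin 4, ∫ p : R3 × (R3 × R3), c a *
        ((KD.chi 0 p.1 * wdg (KD.chi 0) (KD.chi a.succ) x p.1) *
        (wdg (KD.chi 0) (KD.chi (3 : Fin 4).succ) p.2.1 p.2.2 *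
          wdg (KD.chi 0) (KD.chi a.succ) p.2.1 p.2.2)) =
        c a * ((-(1 / √2) * KD.chi a.succ x) * if (3 : Fin 4) = a then 1 else 0) := by
      intro a
      rw [integral_const_mul, ← (shLim_ww 3 a).2, ← shLim_w1 a x]
      congr 1
      exact integral_prod_mul (μ := (volume : Measure R3)) (ν := (volume : Measure (R3 × R3)))
        (fun q => KD.chi 0 q * wdg (KD.chi 0) (KD.chi a.succ) x q)
        (fun q => wdg (KD.chi 0) (KD.chi (3 : Fin 4).succ) q.1 q.2 *
          wdg (KD.chi 0) (KD.chi a.succ) q.1 q.2)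
    simp only [e]
    rw [Finset.sum_eq_single (3 : Fin 4)]
    · have : ((3 : Fin 4).succ) = (4 : Fin 5) := rfl
      rw [this]
      simp only [if_true]
      ring
    · intro b _ hb
      rw [if_neg (fun h => hb h.symm)]
      ring
    · intro h
      exact absurd (Finset.mem_univ _) h
  · intro a _
    exact ((shLim_i1 a x).mul_prod (shLim_ww 3 a).1).const_mul (c a)

theorem psi4_dens' (c : Fin 4 → ℝ) (hc : ∑ a, c a ^ 2 = 1) (x : R3) :
    4 * ∫ y : Conf 3, psi4 c (Fin.cons x y) ^ 2 = KD.n0 (fun a => 2 * c a ^ 2) x := by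
  rw [integral_conf3]
  have key : ∀ p : R3 × (R3 × R3), psi4 c (Fin.cons x ![p.1, p.2.1, p.2.2]) ^ 2 =
      ∑ a : Fin 4, ∑ b : Fin 4, c a * c b * ((wdg (KD.chi 0) (KD.chi a.succ) x p.1 *
          wdg (KD.chi 0) (KD.chi b.succ) x p.1) *
        (wdg (KD.chi 0) (KD.chi a.succ) p.2.1 p.2.2 *
          wdg (KD.chi 0) (KD.chi b.succ) p.2.1 p.2.2)) := by
    intro p
    unfold psi4 sh4
    rw [pow_two, Finset.sum_mul_sum]
    refine Finset.sum_congr rfl fun a _ => Finset.sum_congr rfl fun b _ => ?_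
    change (c a * (wdg (KD.chi 0) (KD.chi a.succ) x p.1 *
        wdg (KD.chi 0) (KD.chi a.succ) p.2.1 p.2.2)) *
      (c b * (wdg (KD.chi 0) (KD.chi b.succ) x p.1 *
        wdg (KD.chi 0) (KD.chi b.succ) p.2.1 p.2.2)) = _
    ring
  simp only [key]
  have hi : ∀ a b : Fin 4, Integrable (fun p : R3 × (R3 × R3) => c a * c b *
      ((wdg (KD.chi 0) (KD.chi a.succ) x p.1 * wdg (KD.chi 0) (KD.chi b.succ) x p.1) *
        (wdg (KD.chi 0) (KD.chi a.succ) p.2.1 p.2.2 *
          wdg (KD.chi 0) (KD.chi b.succ) p.2.1 p.2.2))) volume := fun a b =>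
    ((shLim_i2 a b x).mul_prod (shLim_ww a b).1).const_mul (c a * c b)
  have e : ∀ a b : Fin 4, ∫ p : R3 × (R3 × R3), c a * c b *
      ((wdg (KD.chi 0) (KD.chi a.succ) x p.1 * wdg (KD.chi 0) (KD.chi b.succ) x p.1) *
        (wdg (KD.chi 0) (KD.chi a.succ) p.2.1 p.2.2 *
          wdg (KD.chi 0) (KD.chi b.succ) p.2.1 p.2.2)) =
      c a * c b * ((∫ q : R3, wdg (KD.chi 0) (KD.chi a.succ) x q *
        wdg (KD.chi 0) (KD.chi b.succ) x q) * if a = b then 1 else 0) := by
    intro a b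
    rw [integral_const_mul, ← (shLim_ww a b).2]
    congr 1
    exact integral_prod_mul (μ := (volume : Measure R3)) (ν := (volume : Measure (R3 × R3)))
      (fun q => wdg (KD.chi 0) (KD.chi a.succ) x q * wdg (KD.chi 0) (KD.chi b.succ) x q)
      (fun q => wdg (KD.chi 0) (KD.chi a.succ) q.1 q.2 *
        wdg (KD.chi 0) (KD.chi b.succ) q.1 q.2)
  rw [integral_finsetSum _ (fun a _ => integrable_finsetSum _ (fun b _ => hi a b))]
  have e2 : ∀ a : Fin 4, ∫ p : R3 × (R3 × R3), ∑ b : Fin 4, c a * c b *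
      ((wdg (KD.chi 0) (KD.chi a.succ) x p.1 * wdg (KD.chi 0) (KD.chi b.succ) x p.1) *
        (wdg (KD.chi 0) (KD.chi a.succ) p.2.1 p.2.2 *
          wdg (KD.chi 0) (KD.chi b.succ) p.2.1 p.2.2)) =
      c a ^ 2 * (1 / 2 * (KD.chi 0 x ^ 2 + KD.chi a.succ x ^ 2)) := by
    intro a
    rw [integral_finsetSum _ (fun b _ => hi a b)]
    simp only [e]
    rw [Finset.sum_eq_single a]
    · rw [if_pos rfl, shLim_w2]
      ring
    · intro b _ hb
      rw [if_neg (fun h => hb h.symm)]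
      ring
    · intro h
      exact absurd (Finset.mem_univ _) h
  simp only [e2]
  unfold KD.n0
  have h1 : ∑ a : Fin 4, c a ^ 2 * (1 / 2 * (KD.chi 0 x ^ 2 + KD.chi a.succ x ^ 2)) =
      1 / 2 * KD.chi 0 x ^ 2 * (∑ a, c a ^ 2) +
        1 / 2 * ∑ a, c a ^ 2 * KD.chi a.succ x ^ 2 := by
    rw [Finset.mul_sum, Finset.mul_sum, ← Finset.sum_add_distrib]
    exact Finset.sum_congr rfl fun a _ => by ring
  have h2 : ∑ a : Fin 4, 2 * c a ^ 2 * KD.chi a.succ x ^ 2 =
      2 * ∑ a, c a ^ 2 * KD.chi a.succ x ^ 2 := by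
    rw [Finset.mul_sum]
    exact Finset.sum_congr rfl fun a _ => by ring
  rw [h1, hc, h2]
  ring

/-- polynomial moments -/
theorem sh3_moment' (a : Fin 4) (m : ℕ) : Integrable (fun y : Conf 3 =>
    (1 + ∑ i, ‖y i‖ ^ 2) ^ m * sh3 a y ^ 2) volume :=
  sh3_moment'_pf a m

end

end Vale.Agent.P363.D
end
end

section

section

/-! # Hydrogen shells for three and four electrons: final statements

The one-electron orbitals are `KD.chi`; the second shell is `KD.chi a.succ`, `a : Fin 4`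
(`0 = 2s`, `1, 2, 3 = 2p_x, 2p_y, 2p_z`).  `sh4`, `sh3`, `sh4'`, `sh3'`, `psi4`, `W4`, `W3` are
defined in `Sh0.lean`. -/

namespace Vale.Agent.P363.D

open MeasureTheory Set Filter Topology
open scoped ENNReal ContDiff

noncomputable section

theorem W4_def (A L : ℝ) (p p') : W4 A L p p' = ∫ x, wpN A L x * (sh4 p x * sh4 p' x) := rfl

theorem W3_def (A L : ℝ) (a a') : W3 A L a a' = ∫ x, wpN A L x * (sh3 a x * sh3 a' x) := rfl

theorem sh4_HN (p) : HN (sh4 p) (sh4' p) := sh4_HN' p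

theorem sh3_HN (a) : HN (sh3 a) (sh3' a) := sh3_HN' a

theorem sh4_anti (p) (σ : Equiv.Perm (Fin 4)) (hσ : σ ∈ S4) : ∀ x, sh4 p (x ∘ σ) = - sh4 p x := by
  intro x
  rcases hσ with h | h
  · subst h
    have e0 : (Equiv.swap (0 : Fin 4) 1) 0 = 1 := by decide
    have e1 : (Equiv.swap (0 : Fin 4) 1) 1 = 0 := by decide
    have e2 : (Equiv.swap (0 : Fin 4) 1) 2 = 2 := by decide
    have e3 : (Equiv.swap (0 : Fin 4) 1) 3 = 3 := by decide
    simp only [sh4, Function.comp, e0, e1, e2, e3, wdg]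
    ring
  · rw [Set.mem_singleton_iff] at h
    subst h
    have e0 : (Equiv.swap (2 : Fin 4) 3) 0 = 0 := by decide
    have e1 : (Equiv.swap (2 : Fin 4) 3) 1 = 1 := by decide
    have e2 : (Equiv.swap (2 : Fin 4) 3) 2 = 3 := by decide
    have e3 : (Equiv.swap (2 : Fin 4) 3) 3 = 2 := by decide
    simp only [sh4, Function.comp, e0, e1, e2, e3, wdg]
    ring

theorem sh3_anti (a) (σ : Equiv.Perm (Fin 3)) (hσ : σ ∈ S3) : ∀ y, sh3 a (y ∘ σ) = - sh3 a y := by
  intro x
  have h : σ = Equiv.swap 1 2 := hσ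
  subst h
  have e0 : (Equiv.swap (1 : Fin 3) 2) 0 = 0 := by decide
  have e1 : (Equiv.swap (1 : Fin 3) 2) 1 = 2 := by decide
  have e2 : (Equiv.swap (1 : Fin 3) 2) 2 = 1 := by decide
  simp only [sh3, Function.comp, e0, e1, e2, wdg]
  ring

theorem sh4_ortho (p p') : ∫ x, sh4 p x * sh4 p' x = if p = p' then 1 else 0 := sh4_ortho' p p'

theorem sh3_ortho (a a') : ∫ y, sh3 a y * sh3 a' y = if a = a' then 1 else 0 := sh3_ortho' a a'

/-- eigenfunctions of the unperturbed Hamiltonian -/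
theorem sh4_eig (p) {f : Conf 4 → ℝ} {g : Fin 4 → Fin 3 → Conf 4 → ℝ} (h : HN f g) :
    bN w0N (sh4 p) (sh4' p) f g = -(5 / 4) * ∫ x, sh4 p x * f x := sh4_eig' p h

theorem sh3_eig (a) {f : Conf 3 → ℝ} {g : Fin 3 → Fin 3 → Conf 3 → ℝ} (h : HN f g) :
    bN w0N (sh3 a) (sh3' a) f g = -(9 / 8) * ∫ y, sh3 a y * f y := sh3_eig' a h

/-- the gap of the unperturbed Hamiltonian -/
theorem sh4_gap {f : Conf 4 → ℝ} {g : Fin 4 → Fin 3 → Conf 4 → ℝ} (h : HN f g) (hs : Sec4 f) :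
    (-(5 / 4) + 5 / 72) * (∫ x, f x ^ 2) - 5 / 72 * ∑ p, (∫ x, sh4 p x * f x) ^ 2
      ≤ qN w0N f g := sh4_gap' h hs

theorem sh3_gap {f : Conf 3 → ℝ} {g : Fin 3 → Fin 3 → Conf 3 → ℝ} (h : HN f g) (hs : Sec3 f) :
    (-(9 / 8) + 5 / 72) * (∫ x, f x ^ 2) - 5 / 72 * ∑ a, (∫ x, sh3 a x * f x) ^ 2
      ≤ qN w0N f g := sh3_gap' h hs

/-- exponential decay of the shell functions, in the form used for the moments -/
theorem sh3_moment (a) (m : ℕ) : Integrable (fun y : Conf 3 =>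
    (1 + ∑ i, ‖y i‖ ^ 2) ^ m * sh3 a y ^ 2) volume := sh3_moment' a m

/-- The finite dimensional eigenvalue problems: simple ground vectors with a gap. -/
theorem finite_dim : ∃ (A : ℕ) (L : ℝ) (c : Fin 4 → ℝ) (ω4 ω3 δ : ℝ),
    0 < A ∧ 0 < L ∧ 0 < δ ∧ ∑ a, c a ^ 2 = 1 ∧ c 3 ≠ 0 ∧ c 1 ≠ 0 ∧
    ∑ a, ∑ a', c a * c a' * W4 A L (a, a) (a', a') = ω4 ∧
    (∀ b : Fin 4 × Fin 4 → ℝ,
      ω4 * (∑ p, b p ^ 2) + δ * ((∑ p, b p ^ 2) - (∑ a, c a * b (a, a)) ^ 2)
        ≤ ∑ p, ∑ p', b p * b p' * W4 A L p p') ∧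
    W3 A L 3 3 = ω3 ∧
    (∀ b : Fin 4 → ℝ,
      ω3 * (∑ a, b a ^ 2) + δ * ((∑ a, b a ^ 2) - b 3 ^ 2)
        ≤ ∑ a, ∑ a', b a * b a' * W3 A L a a') := finite_dim'

/-- Dyson orbital of the limiting function -/
theorem psi4_dys (c : Fin 4 → ℝ) (x : R3) :
    ∫ y : Conf 3, sh3 3 y * psi4 c (Fin.cons x y) = -(c 3 / √2) * KD.chi 4 x := psi4_dys' c x

/-- density of the limiting function -/
theorem psi4_dens (c : Fin 4 → ℝ) (hc : ∑ a, c a ^ 2 = 1) (x : R3) :
    4 * ∫ y : Conf 3, psi4 c (Fin.cons x y) ^ 2 = KD.n0 (fun a => 2 * c a ^ 2) x :=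
  psi4_dens' c hc x

/-- symmetries of the limiting functions -/
theorem psi4_refl (c : Fin 4 → ℝ) (k : Fin 3) (x : Conf 4) :
    psi4 c (reflN k x) = psi4 c x := by
  unfold psi4
  refine Finset.sum_congr rfl fun a _ => ?_
  rw [sh4_refl]
  have h : sg k a * sg k a = 1 := by
    unfold sg
    split_ifs <;> norm_num
  simp only [h, one_mul]

theorem psi4_flip (c : Fin 4 → ℝ) (x : Conf 4) :
    psi4 c (x ∘ (Equiv.swap 0 2 * Equiv.swap 1 3 : Equiv.Perm (Fin 4))) = psi4 c x := by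
  have e0 : (Equiv.swap 0 2 * Equiv.swap 1 3 : Equiv.Perm (Fin 4)) 0 = 2 := by decide
  have e1 : (Equiv.swap 0 2 * Equiv.swap 1 3 : Equiv.Perm (Fin 4)) 1 = 3 := by decide
  have e2 : (Equiv.swap 0 2 * Equiv.swap 1 3 : Equiv.Perm (Fin 4)) 2 = 0 := by decide
  have e3 : (Equiv.swap 0 2 * Equiv.swap 1 3 : Equiv.Perm (Fin 4)) 3 = 1 := by decide
  unfold psi4
  refine Finset.sum_congr rfl fun a _ => ?_
  simp only [sh4, Function.comp, e0, e1, e2, e3]
  ring

theorem sh3_refl2 (y : Conf 3) : sh3 3 (reflN 2 y) = - sh3 3 y := by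
  rw [sh3_refl]
  have h : sg 2 3 = -1 := by
    unfold sg
    rw [if_pos (by decide)]
  rw [h]
  ring

end

end Vale.Agent.P363.D
end
end

section

section

/-! # Moments of the ion ground state, uniformly in `ε` -/

namespace Vale.Agent.P363.D

open MeasureTheory Set Filter Topology
open scoped ENNReal ContDiff

noncomputable section

/-- products with bounded Lipschitz smooth functions -/
theorem HN.mul_smooth {N : ℕ} {f : Conf N → ℝ} {g : Fin N → Fin 3 → Conf N → ℝ} (h : HN f g)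
    {G : Conf N → ℝ} (hG : ContDiff ℝ ∞ G) {B : ℝ} (hB : ∀ x, |G x| ≤ B)
    (hB' : ∀ x i k, |fderiv ℝ G x (axisDir i k)| ≤ B) :
    HN (fun x => G x * f x) (fun i k x => fderiv ℝ G x (axisDir i k) * f x + G x * g i k x) := by
  have hG1 : ContDiff ℝ 1 G := hG.of_le (by exact_mod_cast le_top)
  have hGm : AEStronglyMeasurable G volume := hG.continuous.aestronglyMeasurable
  have hG'm : ∀ i k, AEStronglyMeasurable (fun x => fderiv ℝ G x (axisDir i k)) volume :=
    fun i k => ((hG1.continuous_fderiv (by norm_num)).clm_apply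
      continuous_const).aestronglyMeasurable
  have mulb : ∀ (a u : Conf N → ℝ), AEStronglyMeasurable a volume → (∀ x, |a x| ≤ B) →
      MemLp u 2 volume → MemLp (fun x => a x * u x) 2 volume := by
    intro a u ha hb hu
    refine MemLp.of_le_mul (c := B) hu (ha.mul hu.aestronglyMeasurable)
      (Eventually.of_forall fun x => ?_)
    rw [norm_mul]
    exact mul_le_mul_of_nonneg_right (hb x) (norm_nonneg _)
  refine ⟨mulb G f hGm hB h.memLp, fun i k => ?_, fun i k => ?_⟩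
  · exact (mulb _ f (hG'm i k) (fun x => hB' x i k) h.memLp).add (mulb G _ hGm hB (h.memLp' i k))
  · exact (ACL.of_contDiff hG1).mul (h.acl i k)

/-- the localization identity -/
theorem loc_identity {N : ℕ} {w : Conf N → ℝ} (hw : FBd w) {f : Conf N → ℝ}
    {g : Fin N → Fin 3 → Conf N → ℝ} (h : HN f g) {E : ℝ}
    (heq : ∀ f' g', HN f' g' → bN w f g f' g' = E * ∫ x, f x * f' x)
    {G : Conf N → ℝ} (hG : ContDiff ℝ ∞ G) {B : ℝ} (hB : ∀ x, |G x| ≤ B)
    (hB' : ∀ x i k, |fderiv ℝ G x (axisDir i k)| ≤ B) :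
    qN w (fun x => G x * f x) (fun i k x => fderiv ℝ G x (axisDir i k) * f x + G x * g i k x)
      = E * (∫ x, G x ^ 2 * f x ^ 2) +
        (1 / 2) * ∫ x, (∑ i, ∑ k, (fderiv ℝ G x (axisDir i k)) ^ 2) * f x ^ 2 := by
  have h1 := h.mul_smooth hG hB hB'
  have h2 := h1.mul_smooth hG hB hB'
  have e := heq _ _ h2
  have key : ∀ i k, ∫ x, (fderiv ℝ G x (axisDir i k) * f x + G x * g i k x) ^ 2
      = (∫ x, g i k x * (fderiv ℝ G x (axisDir i k) * (G x * f x) +
          G x * (fderiv ℝ G x (axisDir i k) * f x + G x * g i k x)))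
        + ∫ x, (fderiv ℝ G x (axisDir i k)) ^ 2 * f x ^ 2 := by
    intro i k
    have hG1 : ContDiff ℝ 1 G := hG.of_le (by exact_mod_cast le_top)
    have hG'm : AEStronglyMeasurable (fun x => fderiv ℝ G x (axisDir i k)) volume :=
      ((hG1.continuous_fderiv (by norm_num)).clm_apply continuous_const).aestronglyMeasurable
    have m1 : MemLp (fun x => fderiv ℝ G x (axisDir i k) * f x) 2 volume := by
      refine MemLp.of_le_mul (c := B) h.memLp (hG'm.mul h.memLp.aestronglyMeasurable)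
        (Eventually.of_forall fun x => ?_)
      rw [norm_mul]
      exact mul_le_mul_of_nonneg_right (hB' x i k) (norm_nonneg _)
    have i1 : Integrable (fun x => g i k x * (fderiv ℝ G x (axisDir i k) * (G x * f x) +
          G x * (fderiv ℝ G x (axisDir i k) * f x + G x * g i k x))) :=
      (h.memLp' i k).integrable_mul (h2.memLp' i k)
    have i2 : Integrable (fun x => (fderiv ℝ G x (axisDir i k)) ^ 2 * f x ^ 2) := by
      have := m1.integrable_sq
      refine this.congr (Eventually.of_forall fun x => ?_)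
      show (fderiv ℝ G x (axisDir i k) * f x) ^ 2 = _
      ring
    rw [← integral_add i1 i2]
    refine integral_congr_ae (Eventually.of_forall fun x => ?_)
    show (fderiv ℝ G x (axisDir i k) * f x + G x * g i k x) ^ 2 = _
    ring
  have e1 : ∫ x, (∑ i, ∑ k, (fderiv ℝ G x (axisDir i k)) ^ 2) * f x ^ 2
      = ∑ i, ∑ k, ∫ x, (fderiv ℝ G x (axisDir i k)) ^ 2 * f x ^ 2 := by
    have i2 : ∀ i k, Integrable (fun x => (fderiv ℝ G x (axisDir i k)) ^ 2 * f x ^ 2) := by
      intro i k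
      have hG1 : ContDiff ℝ 1 G := hG.of_le (by exact_mod_cast le_top)
      have hG'm : AEStronglyMeasurable (fun x => fderiv ℝ G x (axisDir i k)) volume :=
        ((hG1.continuous_fderiv (by norm_num)).clm_apply continuous_const).aestronglyMeasurable
      have m1 : MemLp (fun x => fderiv ℝ G x (axisDir i k) * f x) 2 volume := by
        refine MemLp.of_le_mul (c := B) h.memLp (hG'm.mul h.memLp.aestronglyMeasurable)
          (Eventually.of_forall fun x => ?_)
        rw [norm_mul]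
        exact mul_le_mul_of_nonneg_right (hB' x i k) (norm_nonneg _)
      have := m1.integrable_sq
      refine this.congr (Eventually.of_forall fun x => ?_)
      show (fderiv ℝ G x (axisDir i k) * f x) ^ 2 = _
      ring
    simp only [Finset.sum_mul]
    rw [integral_finsetSum _ fun i _ => integrable_finsetSum _ fun k _ => i2 i k]
    exact Finset.sum_congr rfl fun i _ => integral_finsetSum _ fun k _ => i2 i k
  unfold bN at e
  unfold qN
  simp only [key, Finset.sum_add_distrib, mul_add]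
  rw [e1]
  have e2 : ∫ x, w x * (G x * f x) ^ 2 = ∫ x, w x * (f x * (G x * (G x * f x))) :=
    integral_congr_ae (Eventually.of_forall fun x => by
      show w x * (G x * f x) ^ 2 = w x * (f x * (G x * (G x * f x)))
      ring)
  have e3 : ∫ x, f x * (G x * (G x * f x)) = ∫ x, G x ^ 2 * f x ^ 2 :=
    integral_congr_ae (Eventually.of_forall fun x => by
      show f x * (G x * (G x * f x)) = G x ^ 2 * f x ^ 2
      ring)
  rw [e3] at e
  rw [e2]
  simp only [mul_add] at e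
  linarith

/-! ### the uniform localized estimate -/

theorem mom_cs {N : ℕ} {f g : Conf N → ℝ} (hf : MemLp f 2 volume) (hg : MemLp g 2 volume)
    (h1 : ∫ x, g x ^ 2 = 1) : (∫ x, f x * g x) ^ 2 ≤ ∫ x, f x ^ 2 := by
  set b := ∫ x, f x * g x with hb
  have i1 : Integrable (fun x => f x ^ 2) := hf.integrable_sq
  have i2 : Integrable (fun x => g x ^ 2) := hg.integrable_sq
  have i3 : Integrable (fun x => f x * g x) := hf.integrable_mul hg
  have h0 : 0 ≤ ∫ x, (f x - b * g x) ^ 2 := integral_nonneg fun x => sq_nonneg _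
  have e : ∫ x, (f x - b * g x) ^ 2 = (∫ x, f x ^ 2) - 2 * b * b + b ^ 2 * 1 := by
    have e1 : (fun x => (f x - b * g x) ^ 2)
        = fun x => (f x ^ 2 - 2 * b * (f x * g x)) + b ^ 2 * g x ^ 2 := by
      funext x; ring
    have i4 : Integrable (fun x => f x ^ 2 - 2 * b * (f x * g x)) := i1.sub (i3.const_mul _)
    rw [e1, integral_add i4 (i2.const_mul _), integral_sub i1 (i3.const_mul _),
      integral_const_mul, integral_const_mul, h1, ← hb]
  rw [e] at h0
  linarith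

theorem mom_qN_congr {N : ℕ} {w f f' : Conf N → ℝ} {g g' : Fin N → Fin 3 → Conf N → ℝ}
    (h1 : f =ᵐ[volume] f') (h2 : ∀ i k, g i k =ᵐ[volume] g' i k) : qN w f g = qN w f' g' := by
  unfold qN
  have e1 : ∀ i k, ∫ x, g i k x ^ 2 = ∫ x, g' i k x ^ 2 := fun i k =>
    integral_congr_ae (by filter_upwards [h2 i k] with x hx; rw [hx])
  have e2 : ∫ x, w x * f x ^ 2 = ∫ x, w x * f' x ^ 2 :=
    integral_congr_ae (by filter_upwards [h1] with x hx; rw [hx])
  simp only [e1, e2]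

theorem mom_garding : ∃ c C : ℝ, 0 < c ∧ 0 ≤ C ∧ ∀ (u : Conf 3 → ℝ)
    (g : Fin 3 → Fin 3 → Conf 3 → ℝ), HN u g →
    c * ((∫ x, u x ^ 2) + ∑ i, ∑ k, ∫ x, g i k x ^ 2) ≤ qN w0N u g + C * ∫ x, u x ^ 2 := by
  obtain ⟨c, C, hc, hC, h⟩ := garding 3 ∅
  refine ⟨c, C, hc, hC, fun u g hu => ?_⟩
  have hS : ∀ σ ∈ (∅ : Set (Equiv.Perm (Fin 3))), ∀ᵐ x : Conf 3, u (x ∘ σ) = - u x :=
    fun σ hσ => hσ.elim
  have h1 := h (mk hu hS)
  have e1 : ∫ x, val (mk hu hS) x ^ 2 = ∫ x, u x ^ 2 :=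
    integral_congr_ae (by filter_upwards [val_mk hu hS] with x hx; rw [hx])
  have e2 : ∀ i k, ∫ x, grd (mk hu hS) i k x ^ 2 = ∫ x, g i k x ^ 2 := fun i k =>
    integral_congr_ae (by filter_upwards [grd_mk hu hS i k] with x hx; rw [hx])
  have e3 : ∫ x, val (mk hu hS) x * val (mk hu hS) x = ∫ x, u x ^ 2 :=
    integral_congr_ae (by filter_upwards [val_mk hu hS] with x hx; rw [hx]; ring)
  have e4 : qN w0N (val (mk hu hS)) (grd (mk hu hS)) = qN w0N u g :=
    mom_qN_congr (val_mk hu hS) (grd_mk hu hS)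
  rw [norm_sq_QS, q0F_self, ipF_apply, e1, e3, e4] at h1
  simp only [e2] at h1
  exact h1

/-- the arithmetic of the localized estimate -/
theorem mom_arith {c C1 C2 m ε E3 n T D q0 P : ℝ} (hc : 0 < c) (hC1 : 0 ≤ C1) (hC2 : 0 ≤ C2)
    (hm : 0 ≤ m) (hε : 0 < ε) (hε1 : ε ≤ c / (72 * ((C1 + 1) * (C2 + 1))))
    (hE : |E3 + 9 / 8| ≤ 1 / 72) (hn : 0 ≤ n) (hT : 0 ≤ T) (hD : 0 ≤ D)
    (H1 : q0 + ε * P = E3 * n + (1 / 2) * D) (H2 : |P| ≤ C1 * (n + T))
    (H3 : c * (n + T) ≤ q0 + C2 * n)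
    (H4 : (-(9 / 8) + 5 / 72) * n - 5 / 72 * m ≤ q0) :
    n ≤ (12 + 2 * m + (1 + (2 + C2) * (12 + 2 * m)) / c) * (1 + D) ∧
      T ≤ (12 + 2 * m + (1 + (2 + C2) * (12 + 2 * m)) / c) * (1 + D) := by
  obtain ⟨hE1, hE2⟩ := abs_le.1 hE
  obtain ⟨hP1, -⟩ := abs_le.1 H2
  -- `η = ε C1 / c`
  set η := ε * C1 / c with hη
  have hη0 : 0 ≤ η := by (clear * - hε hC1 hc; positivity)
  have hηb : η * (C2 + 1) ≤ 1 / 72 := by
    have h1 : ε * (72 * ((C1 + 1) * (C2 + 1))) ≤ c := by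
      rwa [le_div_iff₀ (by positivity)] at hε1
    rw [hη, div_mul_eq_mul_div, div_le_iff₀ hc]
    have h2 : ε * C1 * (C2 + 1) ≤ ε * ((C1 + 1) * (C2 + 1)) := by
      have : 0 ≤ ε * (C2 + 1) := by positivity
      linarith only [this]
    linarith only [h1, h2]
  have hη1 : η ≤ 1 / 72 := by nlinarith only [hηb, hC2]
  have hηC : η * C2 ≤ 1 / 72 := by linarith only [hηb, hη0]
  have hεP : -(η * (q0 + C2 * n)) ≤ ε * P := by
    have h1 : -(C1 * (n + T)) * ε ≤ P * ε := mul_le_mul_of_nonneg_right hP1 hε.le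
    have h2 : ε * C1 * (n + T) ≤ η * (q0 + C2 * n) := by
      have h3 : ε * C1 = η * c := by rw [hη]; (clear * - hc hε; field_simp)
      rw [h3]
      have := mul_le_mul_of_nonneg_left H3 hη0
      linarith only [this]
    linarith only [h1, h2]
  -- bound of `n`
  have hbr : 0 ≤ (9 / 8 - 5 / 72) * n + 5 / 72 * m := by (clear * - hn hm; positivity)
  have hq1 : -((9 / 8 - 5 / 72) * n + 5 / 72 * m) ≤ (1 - η) * q0 := by
    have h1 : (1 - η) * (-((9 / 8 - 5 / 72) * n + 5 / 72 * m)) ≤ (1 - η) * q0 :=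
      mul_le_mul_of_nonneg_left (by linarith only [H4]) (by linarith only [hη1])
    have h2 : 0 ≤ η * ((9 / 8 - 5 / 72) * n + 5 / 72 * m) := by (clear * - hε hC1 hc hn hm; positivity)
    linarith only [h1, h2]
  have hCn : η * C2 * n ≤ 1 / 72 * n := mul_le_mul_of_nonneg_right hηC hn
  have hEn : E3 * n ≤ (-(9 / 8) + 1 / 72) * n := mul_le_mul_of_nonneg_right (by linarith only [hE2]) hn
  have hnb : n ≤ 12 * D + 5 / 3 * m := by nlinarith only [H1, hεP, hq1, hCn, hEn]
  have hnb2 : n ≤ (12 + 2 * m) * (1 + D) := by (clear * - hm H1 hεP hq1 hCn hEn hD; linarith only [mul_nonneg hm hD, hEn, hCn, hq1, hεP, H1, hm])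
  -- bound of `T`
  have hq2 : q0 ≤ D + 2 * n := by
    have h1 : (1 - η) * q0 ≤ 1 / 2 * D + 1 / 72 * n := by
      have : E3 * n ≤ 0 := by linarith only [hEn, hn]
      linarith only [hEn, hCn, hεP, H1, hn]
    by_cases hq : 0 ≤ q0
    · have h2 : 1 / 2 * q0 ≤ (1 - η) * q0 := mul_le_mul_of_nonneg_right (by linarith only [hη1]) hq
      linarith only [hn, H1, hεP, hCn, hEn, h2]
    · push Not at hq
      linarith only [hn, hD, hq]
  have hTb : T ≤ (D + (2 + C2) * n) / c := by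
    rw [le_div_iff₀ hc]
    linarith only [mul_nonneg (le_of_lt (sub_pos.2 hc)) (sub_nonneg.2 hn), hq2, H3]
  have hX : 0 ≤ (1 + (2 + C2) * (12 + 2 * m)) / c := by (clear * - hC2 hm hc; positivity)
  have hTb2 : T ≤ (1 + (2 + C2) * (12 + 2 * m)) / c * (1 + D) := by
    refine hTb.trans ?_
    rw [div_mul_eq_mul_div]
    refine div_le_div_of_nonneg_right ?_ hc.le
    have h1 : (2 + C2) * n ≤ (2 + C2) * ((12 + 2 * m) * (1 + D)) :=
      mul_le_mul_of_nonneg_left hnb2 (by linarith only [hC2])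
    linarith only [h1]
  have hY : 0 ≤ (12 + 2 * m) * (1 + D) := by (clear * - hm hD; positivity)
  have hZ : 0 ≤ (1 + (2 + C2) * (12 + 2 * m)) / c * (1 + D) := by (clear * - hC2 hm hc hD; positivity)
  constructor
  · rw [add_mul]; linarith only [hT, hnb2, hTb2]
  · rw [add_mul]; linarith only [hn, hnb2, hTb2]

theorem mom_step (A L : ℝ) : ∃ (ε1 C : ℝ), 0 < ε1 ∧ 0 ≤ C ∧ ∀ (ε E3 : ℝ) (Φ : Conf 3 → ℝ)
    (Φy : Fin 3 → Fin 3 → Conf 3 → ℝ), 0 < ε → ε ≤ ε1 → |E3 + 9 / 8| ≤ 1 / 72 →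
    HN Φ Φy → Sec3 Φ → ∫ y, Φ y ^ 2 = 1 →
    (∀ u g, HN u g → bN (vN ε A L) Φ Φy u g = E3 * ∫ y, Φ y * u y) →
    ∀ (G : Conf 3 → ℝ) (B : ℝ), ContDiff ℝ ∞ G → (∀ x, |G x| ≤ B) →
      (∀ x i k, |fderiv ℝ G x (axisDir i k)| ≤ B) →
      (∀ y : Conf 3, G (y ∘ Equiv.swap 1 2) = G y) →
      (∀ y : Conf 3, |G y| ≤ 1 + ∑ i, ‖y i‖ ^ 2) →
      (∫ y, G y ^ 2 * Φ y ^ 2) ≤
        C * (1 + ∫ y, (∑ i, ∑ k, (fderiv ℝ G y (axisDir i k)) ^ 2) * Φ y ^ 2) ∧
      ∑ i, ∑ k, ∫ y, (fderiv ℝ G y (axisDir i k) * Φ y + G y * Φy i k y) ^ 2 ≤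
        C * (1 + ∫ y, (∑ i, ∑ k, (fderiv ℝ G y (axisDir i k)) ^ 2) * Φ y ^ 2) := by
  obtain ⟨c, C2, hc, hC2, hg⟩ := mom_garding
  obtain ⟨C1, hC1, hw⟩ := (fbd_wpN 3 A L).bound
  obtain ⟨C0, -, hw0⟩ := (fbd_w0N 3).bound
  set m : ℝ := ∑ a, ∫ y : Conf 3, (1 + ∑ i, ‖y i‖ ^ 2) ^ 2 * sh3 a y ^ 2 with hm
  have hm0 : 0 ≤ m := Finset.sum_nonneg fun a _ => integral_nonneg fun y => by (clear * -; positivity)
  refine ⟨c / (72 * ((C1 + 1) * (C2 + 1))), 12 + 2 * m + (1 + (2 + C2) * (12 + 2 * m)) / c,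
    by (clear * - hc hC1 hC2; positivity), by (clear * - hC2 hc; positivity), ?_⟩
  intro ε E3 Φ Φy hε hε1 hE hΦ hs hn1 heq G B hG hB hB' hsym hle
  have hu := hΦ.mul_smooth hG hB hB'
  have hloc := loc_identity (fbd_vN 3 ε A L) hΦ heq hG hB hB'
  set u : Conf 3 → ℝ := fun x => G x * Φ x with hudef
  set g : Fin 3 → Fin 3 → Conf 3 → ℝ :=
    fun i k x => fderiv ℝ G x (axisDir i k) * Φ x + G x * Φy i k x with hgdef
  have hun : ∫ x, u x ^ 2 = ∫ y, G y ^ 2 * Φ y ^ 2 :=
    integral_congr_ae (Eventually.of_forall fun x => by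
      show (G x * Φ x) ^ 2 = G x ^ 2 * Φ x ^ 2
      ring)
  have hs' : Sec3 u := by
    filter_upwards [hs] with x hx
    show G (x ∘ Equiv.swap 1 2) * Φ (x ∘ Equiv.swap 1 2) = -(G x * Φ x)
    rw [hx, hsym]
    ring
  obtain ⟨iw, hwu⟩ := hw u g hu
  obtain ⟨iw0, -⟩ := hw0 u g hu
  have hsplit : qN (vN ε A L) u g = qN w0N u g + ε * ∫ x, wpN A L x * u x ^ 2 := by
    unfold qN
    have e1 : ∫ x, vN ε A L x * u x ^ 2
        = (∫ x, w0N x * u x ^ 2) + ε * ∫ x, wpN A L x * u x ^ 2 := by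
      rw [← integral_const_mul, ← integral_add iw0 (iw.const_mul _)]
      refine integral_congr_ae (Eventually.of_forall fun x => ?_)
      show vN ε A L x * u x ^ 2 = w0N x * u x ^ 2 + ε * (wpN A L x * u x ^ 2)
      rw [vN_eq]
      ring
    rw [e1]
    ring
  have hP : |∫ x, wpN A L x * u x ^ 2| ≤ C1 * ((∫ x, u x ^ 2) + ∑ i, ∑ k, ∫ x, g i k x ^ 2) := by
    refine le_trans ?_ hwu
    refine (abs_integral_le_integral_abs).trans (le_of_eq ?_)
    refine integral_congr_ae (Eventually.of_forall fun x => ?_)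
    show |wpN A L x * u x ^ 2| = |wpN A L x| * u x ^ 2
    rw [abs_mul, abs_of_nonneg (sq_nonneg (u x))]
  have hgap := sh3_gap hu hs'
  have hmb : ∑ a, (∫ x, sh3 a x * u x) ^ 2 ≤ m := by
    refine Finset.sum_le_sum fun a _ => ?_
    have hsh := (sh3_HN a).memLp
    have i1 := sh3_moment a 2
    have hGm : AEStronglyMeasurable (fun x => sh3 a x * G x) volume :=
      hsh.aestronglyMeasurable.mul hG.continuous.aestronglyMeasurable
    have hpt : ∀ x : Conf 3, (sh3 a x * G x) ^ 2 ≤ (1 + ∑ i, ‖x i‖ ^ 2) ^ 2 * sh3 a x ^ 2 := by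
      intro x
      have h1 : G x ^ 2 ≤ (1 + ∑ i, ‖x i‖ ^ 2) ^ 2 := sq_le_sq' (by
        have := (abs_le.1 (hle x)).1; linarith only [this]) (abs_le.1 (hle x)).2
      rw [mul_pow, mul_comm]
      exact mul_le_mul_of_nonneg_right h1 (sq_nonneg _)
    have i2 : Integrable (fun x => (sh3 a x * G x) ^ 2) := by
      refine i1.mono' (hGm.pow 2) (Eventually.of_forall fun x => ?_)
      rw [Real.norm_eq_abs, abs_of_nonneg (sq_nonneg _)]
      exact hpt x
    have h2 : MemLp (fun x => sh3 a x * G x) 2 volume :=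
      (memLp_two_iff_integrable_sq hGm).2 i2
    have h3 := mom_cs h2 hΦ.memLp hn1
    have e1 : ∫ x, sh3 a x * u x = ∫ x, sh3 a x * G x * Φ x :=
      integral_congr_ae (Eventually.of_forall fun x => by
        show sh3 a x * (G x * Φ x) = sh3 a x * G x * Φ x
        ring)
    rw [e1]
    exact h3.trans (integral_mono i2 i1 hpt)
  have h4 : (-(9 / 8) + 5 / 72) * (∫ x, u x ^ 2) - 5 / 72 * m ≤ qN w0N u g := by
    refine le_trans ?_ hgap
    linarith only [hmb]
  rw [hsplit, ← hun] at hloc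
  have hfin := mom_arith hc hC1 hC2 hm0 hε hε1 hE (integral_nonneg fun x => sq_nonneg (u x))
    (Finset.sum_nonneg fun i _ => Finset.sum_nonneg fun k _ =>
      integral_nonneg fun x => sq_nonneg (g i k x))
    (integral_nonneg fun x => mul_nonneg (Finset.sum_nonneg fun i _ =>
      Finset.sum_nonneg fun k _ => sq_nonneg _) (sq_nonneg (Φ x))) hloc hP (hg u g hu) h4
  rw [hun] at hfin
  exact hfin

/-! ### the truncated weights -/

/-- the weight -/
def hh (y : Conf 3) : ℝ := 1 + ∑ i, ‖y i‖ ^ 2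

theorem hh_one (y : Conf 3) : 1 ≤ hh y := by
  have : 0 ≤ ∑ i, ‖y i‖ ^ 2 := Finset.sum_nonneg fun i _ => by positivity
  unfold hh
  linarith only [this]

theorem hh_pos (y : Conf 3) : 0 < hh y := lt_of_lt_of_le one_pos (hh_one y)

theorem hh_contDiff : ContDiff ℝ ∞ hh := by
  unfold hh
  exact contDiff_const.add (ContDiff.sum fun i _ => (contDiff_apply ℝ R3 i).norm_sq ℝ)

theorem hh_hasFDerivAt (y : Conf 3) : HasFDerivAt hh
    (∑ i, 2 • (innerSL ℝ (y i)).comp (ContinuousLinearMap.proj i : Conf 3 →L[ℝ] R3)) y := by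
  unfold hh
  refine HasFDerivAt.const_add _ (HasFDerivAt.fun_sum fun i _ => ?_)
  exact ((ContinuousLinearMap.proj i : Conf 3 →L[ℝ] R3).hasFDerivAt (x := y)).norm_sq

theorem hh_fderiv (y : Conf 3) (i k : Fin 3) : fderiv ℝ hh y (axisDir i k) = 2 * y i k := by
  rw [(hh_hasFDerivAt y).fderiv, sum_apply, Finset.sum_eq_single i]
  · have e : (ContinuousLinearMap.proj i : Conf 3 →L[ℝ] R3) (axisDir i k)
        = EuclideanSpace.single k (1 : ℝ) := by
      show (axisDir i k : Conf 3) i = _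
      simp [axisDir]
    rw [smul_apply, ContinuousLinearMap.comp_apply, e, innerSL_apply_apply,
      EuclideanSpace.inner_single_right]
    simp
  · intro j _ hj
    have e : (ContinuousLinearMap.proj j : Conf 3 →L[ℝ] R3) (axisDir i k) = 0 := by
      show (axisDir i k : Conf 3) j = _
      simp [axisDir, hj]
    rw [smul_apply, ContinuousLinearMap.comp_apply, e]
    simp
  · intro h
    exact absurd (Finset.mem_univ i) h

theorem hh_sum (y : Conf 3) : ∑ i, ∑ k, (2 * y i k) ^ 2 = 4 * (hh y - 1) := by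
  unfold hh
  simp only [EuclideanSpace.real_norm_sq_eq, mul_pow, ← Finset.mul_sum]
  ring

theorem hh_perm (y : Conf 3) (σ : Equiv.Perm (Fin 3)) : hh (y ∘ σ) = hh y := by
  unfold hh
  congr 1
  exact Equiv.sum_comp σ fun i => ‖y i‖ ^ 2

/-- truncation -/
def gR (R : ℝ) (y : Conf 3) : ℝ := R * √(hh y) / (R + √(hh y))

section

variable {R : ℝ}

theorem sh_pos (y : Conf 3) : 0 < √(hh y) := Real.sqrt_pos.2 (hh_pos y)

theorem gR_contDiff (hR : 0 < R) : ContDiff ℝ ∞ (gR R) := by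
  have h1 : ContDiff ℝ ∞ (fun y => √(hh y)) := hh_contDiff.sqrt fun y => (hh_pos y).ne'
  exact (contDiff_const.mul h1).div (contDiff_const.add h1) fun y => by
    have := sh_pos y
    positivity

theorem gR_nonneg (hR : 0 < R) (y : Conf 3) : 0 ≤ gR R y := by
  have := sh_pos y
  unfold gR
  positivity

theorem gR_le (hR : 0 < R) (y : Conf 3) : gR R y ≤ R := by
  have := sh_pos y
  unfold gR
  rw [div_le_iff₀ (by positivity)]
  nlinarith only [hR]

theorem gR_le' (hR : 0 < R) (y : Conf 3) : gR R y ≤ √(hh y) := by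
  have := sh_pos y
  unfold gR
  rw [div_le_iff₀ (by positivity)]
  nlinarith

theorem gR_fderiv (hR : 0 < R) (y : Conf 3) (i k : Fin 3) : fderiv ℝ (gR R) y (axisDir i k)
    = R ^ 2 / (2 * √(hh y) * (R + √(hh y)) ^ 2) * (2 * y i k) := by
  have hs := sh_pos y
  have h1 : HasDerivAt (fun s : ℝ => R * √s / (R + √s))
      (R ^ 2 / (2 * √(hh y) * (R + √(hh y)) ^ 2)) (hh y) := by
    have h2 : HasDerivAt (fun s : ℝ => √s) (1 / (2 * √(hh y))) (hh y) :=
      Real.hasDerivAt_sqrt (hh_pos y).ne'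
    have h3 := (h2.const_mul R).div (h2.const_add R) (by positivity)
    refine h3.congr_deriv ?_
    field_simp
    ring
  have h4 := h1.comp_hasFDerivAt y (hh_contDiff.differentiable (by simp) y).hasFDerivAt
  have h5 : HasFDerivAt (gR R) _ y := h4
  rw [h5.fderiv, smul_apply, hh_fderiv, smul_eq_mul]

theorem gR_fderiv_sum (hR : 0 < R) (y : Conf 3) :
    ∑ i, ∑ k, (fderiv ℝ (gR R) y (axisDir i k)) ^ 2 ≤ 1 := by
  have hs := sh_pos y
  have h1 := hh_one y
  have e : ∑ i, ∑ k, (fderiv ℝ (gR R) y (axisDir i k)) ^ 2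
      = (R ^ 2 / (2 * √(hh y) * (R + √(hh y)) ^ 2)) ^ 2 * (4 * (hh y - 1)) := by
    rw [← hh_sum]
    simp only [gR_fderiv hR, mul_pow, Finset.mul_sum]
  have h2 : R ^ 2 / (2 * √(hh y) * (R + √(hh y)) ^ 2) ≤ 1 / (2 * √(hh y)) := by
    rw [div_le_div_iff₀ (by positivity) (by positivity)]
    have : R ^ 2 ≤ (R + √(hh y)) ^ 2 := pow_le_pow_left₀ hR.le (by linarith only [hs]) 2
    linarith only [mul_nonneg (le_of_lt (sub_pos.2 hs)) (sub_nonneg.2 this)]
  have h3 : (R ^ 2 / (2 * √(hh y) * (R + √(hh y)) ^ 2)) ^ 2 ≤ (1 / (2 * √(hh y))) ^ 2 :=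
    pow_le_pow_left₀ (by positivity) h2 2
  have h4 : (1 / (2 * √(hh y))) ^ 2 = 1 / (4 * hh y) := by
    rw [div_pow, mul_pow, Real.sq_sqrt (hh_pos y).le]
    norm_num
  rw [e]
  refine (mul_le_mul_of_nonneg_right h3 (by linarith only [h1])).trans ?_
  rw [h4, div_mul_eq_mul_div, div_le_one (by have := hh_pos y; positivity)]
  linarith only []

theorem gR_fderiv_le (hR : 0 < R) (y : Conf 3) (i k : Fin 3) :
    |fderiv ℝ (gR R) y (axisDir i k)| ≤ 1 := by
  have h1 := gR_fderiv_sum hR y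
  have h2 : (fderiv ℝ (gR R) y (axisDir i k)) ^ 2
      ≤ ∑ i, ∑ k, (fderiv ℝ (gR R) y (axisDir i k)) ^ 2 := by
    refine le_trans ?_ (Finset.single_le_sum
      (f := fun i => ∑ k, (fderiv ℝ (gR R) y (axisDir i k)) ^ 2)
      (fun i _ => Finset.sum_nonneg fun k _ => sq_nonneg _) (Finset.mem_univ i))
    exact Finset.single_le_sum (f := fun k => (fderiv ℝ (gR R) y (axisDir i k)) ^ 2)
      (fun k _ => sq_nonneg _) (Finset.mem_univ k)
  exact (sq_le_one_iff_abs_le_one _).1 (h2.trans h1)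

theorem gR2_fderiv (hR : 0 < R) (y : Conf 3) (v : Conf 3) :
    fderiv ℝ (fun y => gR R y ^ 2) y v = 2 * gR R y * fderiv ℝ (gR R) y v := by
  have h1 := ((gR_contDiff hR).differentiable (by simp) y).hasFDerivAt.pow 2
  rw [h1.fderiv]
  simp only [Nat.add_one_sub_one, pow_one, nsmul_eq_mul, Nat.cast_ofNat, smul_apply, smul_eq_mul]

theorem gR_perm (y : Conf 3) (σ : Equiv.Perm (Fin 3)) : gR R (y ∘ σ) = gR R y := by
  unfold gR
  rw [hh_perm]

theorem gR_tendsto (y : Conf 3) :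
    Tendsto (fun n : ℕ => gR ((n : ℝ) + 1) y) atTop (𝓝 (√(hh y))) := by
  have hs := sh_pos y
  have h1 : Tendsto (fun n : ℕ => 1 / ((n : ℝ) + 1)) atTop (𝓝 0) :=
    tendsto_one_div_add_atTop_nhds_zero_nat
  have h2 : Tendsto (fun n : ℕ => √(hh y) / (1 + √(hh y) * (1 / ((n : ℝ) + 1)))) atTop
      (𝓝 (√(hh y) / (1 + √(hh y) * 0))) :=
    Tendsto.div tendsto_const_nhds (tendsto_const_nhds.add (h1.const_mul _)) (by simp)
  simp only [mul_zero, add_zero, div_one] at h2
  refine h2.congr fun n => ?_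
  unfold gR
  have : (0 : ℝ) < (n : ℝ) + 1 := by positivity
  field_simp

end

/-- Fatou -/
theorem mom_fatou {F : Conf 3 → ℝ} {Fn : ℕ → Conf 3 → ℝ} (hF : AEStronglyMeasurable F volume)
    (h0 : ∀ n x, 0 ≤ Fn n x) (hlim : ∀ x, Tendsto (fun n => Fn n x) atTop (𝓝 (F x)))
    (hi : ∀ n, Integrable (Fn n)) {M : ℝ} (hM : ∀ n, ∫ x, Fn n x ≤ M) :
    Integrable F ∧ ∫ x, F x ≤ M := by
  have hF0 : ∀ x, 0 ≤ F x := fun x => ge_of_tendsto' (hlim x) fun n => h0 n x
  have hM0 : 0 ≤ M := (integral_nonneg fun x => h0 0 x).trans (hM 0)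
  have h1 : ∫⁻ x, ENNReal.ofReal (F x) ≤ ENNReal.ofReal M := by
    have e : ∀ x, ENNReal.ofReal (F x)
        = liminf (fun n => ENNReal.ofReal (Fn n x)) atTop := fun x =>
      ((ENNReal.continuous_ofReal.tendsto _).comp (hlim x)).liminf_eq.symm
    calc ∫⁻ x, ENNReal.ofReal (F x)
        = ∫⁻ x, liminf (fun n => ENNReal.ofReal (Fn n x)) atTop := by simp only [e]
      _ ≤ liminf (fun n => ∫⁻ x, ENNReal.ofReal (Fn n x)) atTop :=
          lintegral_liminf_le' fun n => (hi n).aestronglyMeasurable.aemeasurable.ennreal_ofReal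
      _ ≤ ENNReal.ofReal M := by
          refine liminf_le_of_frequently_le' (Frequently.of_forall fun n => ?_)
          rw [← ofReal_integral_eq_lintegral_ofReal (hi n) (Eventually.of_forall (h0 n))]
          exact ENNReal.ofReal_le_ofReal (hM n)
  have h2 : Integrable F := by
    refine ⟨hF, ?_⟩
    rw [hasFiniteIntegral_iff_ofReal (Eventually.of_forall hF0)]
    exact lt_of_le_of_lt h1 ENNReal.ofReal_lt_top
  refine ⟨h2, ?_⟩
  rw [integral_eq_lintegral_of_nonneg_ae (Eventually.of_forall hF0) hF]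
  exact ENNReal.toReal_le_of_le_ofReal hM0 h1

/-- uniform polynomial moments of the ion ground states -/
theorem moments (A L : ℝ) : ∃ M ε1 : ℝ, 0 < ε1 ∧ ∀ (ε E3 : ℝ) (Φ : Conf 3 → ℝ)
    (Φy : Fin 3 → Fin 3 → Conf 3 → ℝ), 0 < ε → ε ≤ ε1 → |E3 + 9 / 8| ≤ 1 / 72 →
    HN Φ Φy → Sec3 Φ → ∫ y, Φ y ^ 2 = 1 →
    (∀ u g, HN u g → bN (vN ε A L) Φ Φy u g = E3 * ∫ y, Φ y * u y) →
    Integrable (fun y : Conf 3 =>
      (1 + ∑ i, ‖y i‖) ^ 4 * (Φ y ^ 2 + ∑ i, ∑ k, Φy i k y ^ 2)) volume ∧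
    ∫ y, (1 + ∑ i, ‖y i‖) ^ 4 * (Φ y ^ 2 + ∑ i, ∑ k, Φy i k y ^ 2) ≤ M := by
  obtain ⟨ε1, C, hε1, hC, H⟩ := mom_step A L
  refine ⟨16 * (3 * (C * (1 + 8 * C)) + 16 * C), ε1, hε1, ?_⟩
  intro ε E3 Φ Φy hε hεε hE hΦ hs hn1 heq
  have i0 : Integrable (fun y => Φ y ^ 2) := hΦ.memLp.integrable_sq
  -- a general integrability
  have hbi : ∀ (a : Conf 3 → ℝ) (b : ℝ) (u : Conf 3 → ℝ), AEStronglyMeasurable a volume →
      (∀ y, |a y| ≤ b) → MemLp u 2 volume → Integrable (fun y => a y * u y ^ 2) := by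
    intro a b u ha hb hu
    refine (hu.integrable_sq.const_mul b).mono'
      (ha.mul (hu.aestronglyMeasurable.pow 2)) (Eventually.of_forall fun y => ?_)
    rw [norm_mul, Real.norm_eq_abs, Real.norm_eq_abs, abs_of_nonneg (sq_nonneg (u y))]
    exact mul_le_mul_of_nonneg_right (hb y) (sq_nonneg _)
  have main : ∀ R : ℝ, 0 < R →
      Integrable (fun y => gR R y ^ 4 * (Φ y ^ 2 + ∑ i, ∑ k, Φy i k y ^ 2)) ∧
      ∫ y, gR R y ^ 4 * (Φ y ^ 2 + ∑ i, ∑ k, Φy i k y ^ 2)
        ≤ 3 * (C * (1 + 8 * C)) + 16 * C := by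
    intro R hR
    have hGc := gR_contDiff hR
    have hG1 : ContDiff ℝ 1 (gR R) := hGc.of_le (by exact_mod_cast le_top)
    have hG'c : ∀ i k, Continuous (fun y => fderiv ℝ (gR R) y (axisDir i k)) := fun i k =>
      (hG1.continuous_fderiv (by norm_num)).clm_apply continuous_const
    have hDc : Continuous (fun y => ∑ i, ∑ k, (fderiv ℝ (gR R) y (axisDir i k)) ^ 2) :=
      continuous_finsetSum _ fun i _ => continuous_finsetSum _ fun k _ => (hG'c i k).pow 2
    have hD0 : ∀ y, 0 ≤ ∑ i, ∑ k, (fderiv ℝ (gR R) y (axisDir i k)) ^ 2 := fun y =>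
      Finset.sum_nonneg fun i _ => Finset.sum_nonneg fun k _ => sq_nonneg _
    have habs : ∀ y, |gR R y| = gR R y := fun y => abs_of_nonneg (gR_nonneg hR y)
    have hGm := hGc.continuous
    -- first step
    obtain ⟨s1, -⟩ := H ε E3 Φ Φy hε hεε hE hΦ hs hn1 heq (gR R) (R + 1) hGc
      (fun y => by rw [habs]; linarith only [gR_le hR y])
      (fun y i k => (gR_fderiv_le hR y i k).trans (by linarith only [hR]))
      (fun y => gR_perm y _)
      (fun y => by
        rw [habs]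
        refine (gR_le' hR y).trans ?_
        have h1 := hh_one y
        show √(hh y) ≤ hh y
        rw [Real.sqrt_le_left (by linarith only [h1])]
        nlinarith only [h1])
    have b1 : ∫ y, (∑ i, ∑ k, (fderiv ℝ (gR R) y (axisDir i k)) ^ 2) * Φ y ^ 2 ≤ 1 := by
      rw [← hn1]
      refine integral_mono (hbi _ 1 Φ hDc.aestronglyMeasurable (fun y => ?_) hΦ.memLp) i0
        fun y => ?_
      · rw [abs_of_nonneg (hD0 y)]; exact gR_fderiv_sum hR y
      · exact mul_le_of_le_one_left (sq_nonneg _) (gR_fderiv_sum hR y)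
    have n1 : ∫ y, gR R y ^ 2 * Φ y ^ 2 ≤ 2 * C := by
      refine s1.trans ?_
      nlinarith only [hC, b1]
    have i1 : Integrable (fun y => gR R y ^ 2 * Φ y ^ 2) :=
      hbi _ (R ^ 2) Φ (hGm.pow 2).aestronglyMeasurable (fun y => by
        rw [abs_of_nonneg (sq_nonneg _)]
        exact pow_le_pow_left₀ (gR_nonneg hR y) (gR_le hR y) 2) hΦ.memLp
    -- second step
    have hG2c : ContDiff ℝ ∞ (fun y => gR R y ^ 2) := hGc.pow 2
    obtain ⟨s2, s3⟩ := H ε E3 Φ Φy hε hεε hE hΦ hs hn1 heq (fun y => gR R y ^ 2)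
      (R ^ 2 + 2 * R) hG2c
      (fun y => by
        rw [abs_of_nonneg (sq_nonneg _)]
        have := pow_le_pow_left₀ (gR_nonneg hR y) (gR_le hR y) 2
        linarith only [hR, this])
      (fun y i k => by
        rw [gR2_fderiv hR, abs_mul, abs_mul, habs, abs_two]
        have h1 := gR_fderiv_le hR y i k
        have h2 := gR_le hR y
        have h3 := gR_nonneg hR y
        have h4 : 2 * gR R y * |fderiv ℝ (gR R) y (axisDir i k)| ≤ 2 * R * 1 :=
          mul_le_mul (by linarith only [h2]) h1 (abs_nonneg _) (by linarith only [hR])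
        nlinarith only [h4])
      (fun y => by
        show gR R (y ∘ Equiv.swap 1 2) ^ 2 = gR R y ^ 2
        rw [gR_perm])
      (fun y => by
        rw [abs_of_nonneg (sq_nonneg _)]
        have := pow_le_pow_left₀ (gR_nonneg hR y) (gR_le' hR y) 2
        rw [Real.sq_sqrt (hh_pos y).le] at this
        exact this)
    have hD2 : ∀ y, ∑ i, ∑ k, (fderiv ℝ (fun y => gR R y ^ 2) y (axisDir i k)) ^ 2
        = 4 * gR R y ^ 2 * ∑ i, ∑ k, (fderiv ℝ (gR R) y (axisDir i k)) ^ 2 := by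
      intro y
      simp only [gR2_fderiv hR, Finset.mul_sum]
      refine Finset.sum_congr rfl fun i _ => Finset.sum_congr rfl fun k _ => ?_
      ring
    have hD2le : ∀ y, ∑ i, ∑ k, (fderiv ℝ (fun y => gR R y ^ 2) y (axisDir i k)) ^ 2
        ≤ 4 * gR R y ^ 2 := by
      intro y
      rw [hD2]
      exact mul_le_of_le_one_right (by (clear * -; positivity)) (gR_fderiv_sum hR y)
    have hG2'c : ∀ i k, Continuous (fun y => fderiv ℝ (fun y => gR R y ^ 2) y (axisDir i k)) :=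
      fun i k => ((hG2c.of_le (by exact_mod_cast le_top) :
        ContDiff ℝ 1 (fun y => gR R y ^ 2)).continuous_fderiv (by norm_num)).clm_apply
          continuous_const
    have hD2c : Continuous
        (fun y => ∑ i, ∑ k, (fderiv ℝ (fun y => gR R y ^ 2) y (axisDir i k)) ^ 2) :=
      continuous_finsetSum _ fun i _ => continuous_finsetSum _ fun k _ => (hG2'c i k).pow 2
    have hD20 : ∀ y, 0 ≤ ∑ i, ∑ k, (fderiv ℝ (fun y => gR R y ^ 2) y (axisDir i k)) ^ 2 :=
      fun y => Finset.sum_nonneg fun i _ => Finset.sum_nonneg fun k _ => sq_nonneg _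
    have hG2le : ∀ y, gR R y ^ 2 ≤ R ^ 2 := fun y =>
      pow_le_pow_left₀ (gR_nonneg hR y) (gR_le hR y) 2
    have iD2 : Integrable (fun y =>
        (∑ i, ∑ k, (fderiv ℝ (fun y => gR R y ^ 2) y (axisDir i k)) ^ 2) * Φ y ^ 2) :=
      hbi _ (4 * R ^ 2) Φ hD2c.aestronglyMeasurable (fun y => by
        rw [abs_of_nonneg (hD20 y)]
        have := hD2le y
        have := hG2le y
        (clear A L ε1 C hε1 hC H ε E3 Φ Φy hε hεε hE hΦ hs hn1 heq i0 hbi hGc hG1 hG'c hDc hD0 habs hGm s1 b1 n1 i1 hG2c s2 s3 hG2'c hD2c hD20; linarith)) hΦ.memLp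
    have b2 : ∫ y, (∑ i, ∑ k, (fderiv ℝ (fun y => gR R y ^ 2) y (axisDir i k)) ^ 2) * Φ y ^ 2
        ≤ 8 * C := by
      have h1 : ∫ y, (∑ i, ∑ k, (fderiv ℝ (fun y => gR R y ^ 2) y (axisDir i k)) ^ 2) * Φ y ^ 2
          ≤ ∫ y, 4 * (gR R y ^ 2 * Φ y ^ 2) := by
        refine integral_mono iD2 (i1.const_mul 4) fun y => ?_
        have := mul_le_mul_of_nonneg_right (hD2le y) (sq_nonneg (Φ y))
        show _ ≤ 4 * (gR R y ^ 2 * Φ y ^ 2)
        linarith only [this]
      rw [integral_const_mul] at h1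
      linarith only [n1, h1]
    have hs2 : C * (1 + ∫ y, (∑ i, ∑ k,
        (fderiv ℝ (fun y => gR R y ^ 2) y (axisDir i k)) ^ 2) * Φ y ^ 2) ≤ C * (1 + 8 * C) :=
      mul_le_mul_of_nonneg_left (by linarith only [b2]) hC
    have n2 : ∫ y, (gR R y ^ 2) ^ 2 * Φ y ^ 2 ≤ C * (1 + 8 * C) := s2.trans hs2
    have t2 := s3.trans hs2
    -- gradient part
    have hu := hΦ.mul_smooth hG2c (B := R ^ 2 + 2 * R)
      (fun y => by
        rw [abs_of_nonneg (sq_nonneg _)]
        have := hG2le y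
        linarith only [hR, this])
      (fun y i k => by
        rw [gR2_fderiv hR, abs_mul, abs_mul, habs, abs_two]
        have h1 := gR_fderiv_le hR y i k
        have h2 := gR_le hR y
        have h3 := gR_nonneg hR y
        have h4 : 2 * gR R y * |fderiv ℝ (gR R) y (axisDir i k)| ≤ 2 * R * 1 :=
          mul_le_mul (by linarith only [h2]) h1 (abs_nonneg _) (by linarith only [hR])
        nlinarith only [h4])
    have iG4 : ∀ u : Conf 3 → ℝ, MemLp u 2 volume → Integrable (fun y => gR R y ^ 4 * u y ^ 2) :=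
      fun u hu => hbi _ (R ^ 4) u (hGm.pow 4).aestronglyMeasurable (fun y => by
        rw [abs_of_nonneg (by have := gR_nonneg hR y; (clear * -; positivity))]
        exact pow_le_pow_left₀ (gR_nonneg hR y) (gR_le hR y) 4) hu
    have iA : ∀ i k, Integrable (fun y => (fderiv ℝ (fun y => gR R y ^ 2) y (axisDir i k)
        * Φ y + gR R y ^ 2 * Φy i k y) ^ 2) := fun i k => (hu.memLp' i k).integrable_sq
    have iB : ∀ i k, Integrable (fun y =>
        (fderiv ℝ (fun y => gR R y ^ 2) y (axisDir i k)) ^ 2 * Φ y ^ 2) := fun i k => by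
      refine iD2.mono' (((hG2'c i k).pow 2).aestronglyMeasurable.mul
        (hΦ.memLp.aestronglyMeasurable.pow 2)) (Eventually.of_forall fun y => ?_)
      rw [Real.norm_eq_abs, abs_of_nonneg (by (clear * -; positivity))]
      refine mul_le_mul_of_nonneg_right ?_ (sq_nonneg _)
      refine le_trans ?_ (Finset.single_le_sum
        (f := fun i => ∑ k, (fderiv ℝ (fun y => gR R y ^ 2) y (axisDir i k)) ^ 2)
        (fun i _ => Finset.sum_nonneg fun k _ => sq_nonneg _) (Finset.mem_univ i))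
      exact Finset.single_le_sum
        (f := fun k => (fderiv ℝ (fun y => gR R y ^ 2) y (axisDir i k)) ^ 2)
        (fun k _ => sq_nonneg _) (Finset.mem_univ k)
    have hB : ∑ i, ∑ k, ∫ y, (fderiv ℝ (fun y => gR R y ^ 2) y (axisDir i k)) ^ 2 * Φ y ^ 2
        ≤ 8 * C := by
      refine le_trans (le_of_eq ?_) b2
      simp only [Finset.sum_mul]
      rw [integral_finsetSum _ fun i _ => integrable_finsetSum _ fun k _ => iB i k]
      exact Finset.sum_congr rfl fun i _ => (integral_finsetSum _ fun k _ => iB i k).symm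
    have hgr : ∑ i, ∑ k, ∫ y, gR R y ^ 4 * Φy i k y ^ 2 ≤ 2 * (C * (1 + 8 * C)) + 16 * C := by
      have h1 : ∀ i k, ∫ y, gR R y ^ 4 * Φy i k y ^ 2
          ≤ 2 * (∫ y, (fderiv ℝ (fun y => gR R y ^ 2) y (axisDir i k)
            * Φ y + gR R y ^ 2 * Φy i k y) ^ 2)
          + 2 * ∫ y, (fderiv ℝ (fun y => gR R y ^ 2) y (axisDir i k)) ^ 2 * Φ y ^ 2 := by
        intro i k
        rw [← integral_const_mul, ← integral_const_mul,
          ← integral_add ((iA i k).const_mul 2) ((iB i k).const_mul 2)]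
        refine integral_mono (iG4 _ (hΦ.memLp' i k))
          (((iA i k).const_mul 2).add ((iB i k).const_mul 2)) fun y => ?_
        show gR R y ^ 4 * Φy i k y ^ 2 ≤ 2 * (fderiv ℝ (fun y => gR R y ^ 2) y (axisDir i k)
            * Φ y + gR R y ^ 2 * Φy i k y) ^ 2
          + 2 * ((fderiv ℝ (fun y => gR R y ^ 2) y (axisDir i k)) ^ 2 * Φ y ^ 2)
        have := sq_nonneg (2 * (fderiv ℝ (fun y => gR R y ^ 2) y (axisDir i k)) * Φ y
          + gR R y ^ 2 * Φy i k y)
        linarith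
      calc _ ≤ ∑ i, ∑ k, (2 * (∫ y, (fderiv ℝ (fun y => gR R y ^ 2) y (axisDir i k)
            * Φ y + gR R y ^ 2 * Φy i k y) ^ 2)
          + 2 * ∫ y, (fderiv ℝ (fun y => gR R y ^ 2) y (axisDir i k)) ^ 2 * Φ y ^ 2) :=
            Finset.sum_le_sum fun i _ => Finset.sum_le_sum fun k _ => h1 i k
        _ ≤ _ := by
            simp only [Finset.sum_add_distrib, ← Finset.mul_sum]
            linarith only [s3, hs2, hB]
    have i3 := iG4 Φ hΦ.memLp
    have i4 : Integrable (fun y => ∑ i, ∑ k, gR R y ^ 4 * Φy i k y ^ 2) :=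
      integrable_finsetSum _ fun i _ => integrable_finsetSum _ fun k _ =>
        iG4 _ (hΦ.memLp' i k)
    have efun : (fun y => gR R y ^ 4 * (Φ y ^ 2 + ∑ i, ∑ k, Φy i k y ^ 2))
        = fun y => gR R y ^ 4 * Φ y ^ 2 + ∑ i, ∑ k, gR R y ^ 4 * Φy i k y ^ 2 := by
      funext y
      simp only [mul_add, Finset.mul_sum]
    rw [efun]
    refine ⟨i3.add i4, ?_⟩
    have e5 : ∫ y, (gR R y ^ 4 * Φ y ^ 2 + ∑ i, ∑ k, gR R y ^ 4 * Φy i k y ^ 2)
        = (∫ y, (gR R y ^ 2) ^ 2 * Φ y ^ 2) + ∑ i, ∑ k, ∫ y, gR R y ^ 4 * Φy i k y ^ 2 := by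
      rw [integral_add i3 i4, integral_finsetSum _ fun i _ => integrable_finsetSum _ fun k _ =>
        iG4 _ (hΦ.memLp' i k)]
      congr 1
      · refine integral_congr_ae (Eventually.of_forall fun y => ?_)
        show gR R y ^ 4 * Φ y ^ 2 = (gR R y ^ 2) ^ 2 * Φ y ^ 2
        ring
      · exact Finset.sum_congr rfl fun i _ => integral_finsetSum _ fun k _ =>
          iG4 _ (hΦ.memLp' i k)
    rw [e5]
    linarith only [s2, hs2, hgr]
  -- the limit
  have hmeas : AEStronglyMeasurable (fun y => Φ y ^ 2 + ∑ i, ∑ k, Φy i k y ^ 2) volume := by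
    refine (hΦ.memLp.aestronglyMeasurable.pow 2).add ?_
    refine Finset.aestronglyMeasurable_fun_sum _ fun i _ =>
      Finset.aestronglyMeasurable_fun_sum _ fun k _ => (hΦ.memLp' i k).aestronglyMeasurable.pow 2
  have hnn : ∀ y, 0 ≤ Φ y ^ 2 + ∑ i, ∑ k, Φy i k y ^ 2 := fun y =>
    add_nonneg (sq_nonneg _) (Finset.sum_nonneg fun i _ => Finset.sum_nonneg fun k _ =>
      sq_nonneg _)
  obtain ⟨j1, j2⟩ := mom_fatou
    (F := fun y => (√(hh y)) ^ 4 * (Φ y ^ 2 + ∑ i, ∑ k, Φy i k y ^ 2))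
    (Fn := fun n y => gR ((n : ℝ) + 1) y ^ 4 * (Φ y ^ 2 + ∑ i, ∑ k, Φy i k y ^ 2))
    (((hh_contDiff.continuous.sqrt).pow 4).aestronglyMeasurable.mul hmeas)
    (fun n y => mul_nonneg (by
      have := gR_nonneg (R := (n : ℝ) + 1) (by (clear * -; positivity)) y
      (clear * -; positivity)) (hnn y))
    (fun y => ((gR_tendsto y).pow 4).mul_const _)
    (fun n => (main _ (by (clear * -; positivity))).1) (fun n => (main _ (by (clear * -; positivity))).2)
  have hcmp : ∀ y : Conf 3, (1 + ∑ i, ‖y i‖) ^ 4 ≤ 16 * (√(hh y)) ^ 4 := by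
    intro y
    have e1 : (√(hh y)) ^ 4 = hh y ^ 2 := by
      rw [show (4 : ℕ) = 2 * 2 by norm_num, pow_mul, Real.sq_sqrt (hh_pos y).le]
    have e2 : (1 + ∑ i, ‖y i‖) ^ 2 ≤ 4 * hh y := by
      unfold hh
      rw [Fin.sum_univ_three, Fin.sum_univ_three]
      (by_contra nlg; linarith only [nlg, mul_nonneg (sq_nonneg (‖y 1‖ - ‖y 2‖)) (sq_nonneg (‖y 1‖ - ‖y 2‖)), mul_nonneg (sq_nonneg (‖y 0‖ - ‖y 2‖)) (sq_nonneg (‖y 1‖ - ‖y 2‖)), mul_nonneg (sq_nonneg (‖y 0‖ - ‖y 2‖)) (sq_nonneg (‖y 0‖ - ‖y 2‖)), mul_nonneg (sq_nonneg (‖y 0‖ - ‖y 1‖)) (sq_nonneg (‖y 1‖ - ‖y 2‖)), mul_nonneg (sq_nonneg (‖y 0‖ - ‖y 1‖)) (sq_nonneg (‖y 0‖ - ‖y 2‖)), mul_nonneg (sq_nonneg (1 - ‖y 2‖)) (sq_nonneg (‖y 1‖ - ‖y 2‖)), mul_nonneg (sq_nonneg (1 - ‖y 2‖)) (sq_nonneg (‖y 0‖ - ‖y 2‖)), mul_nonneg (sq_nonneg (1 - ‖y 2‖)) (sq_nonneg (‖y 0‖ - ‖y 1‖)), mul_nonneg (sq_nonneg (1 - ‖y 2‖)) (sq_nonneg (1 - ‖y 2‖)), mul_nonneg (le_of_lt (sub_pos.2 (not_le.1 nlg))) (sq_nonneg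 (‖y 1‖ - ‖y 2‖)), mul_nonneg (le_of_lt (sub_pos.2 (not_le.1 nlg))) (sq_nonneg (‖y 0‖ - ‖y 2‖)), mul_nonneg (le_of_lt (sub_pos.2 (not_le.1 nlg))) (sq_nonneg (‖y 0‖ - ‖y 1‖)), mul_nonneg (le_of_lt (sub_pos.2 (not_le.1 nlg))) (sq_nonneg (1 - ‖y 2‖)), mul_pos (sub_pos.2 (not_le.1 nlg)) (sub_pos.2 (not_le.1 nlg))])
    rw [e1]
    calc (1 + ∑ i, ‖y i‖) ^ 4 = ((1 + ∑ i, ‖y i‖) ^ 2) ^ 2 := by ring
      _ ≤ (4 * hh y) ^ 2 := pow_le_pow_left₀ (by (clear * -; positivity)) e2 2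
      _ = 16 * hh y ^ 2 := by ring
  have hle : ∀ y, (1 + ∑ i, ‖y i‖) ^ 4 * (Φ y ^ 2 + ∑ i, ∑ k, Φy i k y ^ 2)
      ≤ 16 * ((√(hh y)) ^ 4 * (Φ y ^ 2 + ∑ i, ∑ k, Φy i k y ^ 2)) := fun y => by
    rw [← mul_assoc]
    exact mul_le_mul_of_nonneg_right (hcmp y) (hnn y)
  have hcont : Continuous fun y : Conf 3 => (1 + ∑ i, ‖y i‖) ^ 4 :=
    (continuous_const.add (continuous_finsetSum _ fun i _ => (continuous_apply i).norm)).pow 4
  have j3 : Integrable (fun y : Conf 3 =>
      (1 + ∑ i, ‖y i‖) ^ 4 * (Φ y ^ 2 + ∑ i, ∑ k, Φy i k y ^ 2)) := by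
    refine (j1.const_mul 16).mono' (hcont.aestronglyMeasurable.mul hmeas)
      (Eventually.of_forall fun y => ?_)
    have hpos : 0 ≤ (1 + ∑ i, ‖y i‖) ^ 4 := by (clear * -; positivity)
    rw [Real.norm_eq_abs, abs_of_nonneg (mul_nonneg hpos (hnn y))]
    exact hle y
  refine ⟨j3, (integral_mono j3 (j1.const_mul 16) hle).trans ?_⟩
  rw [integral_const_mul]
  exact mul_le_mul_of_nonneg_left j2 (by norm_num)

end

end Vale.Agent.P363.D
end
end

section

section

/-! # Block P: assembly of the perturbation theorem -/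

namespace Vale.Agent.P363.D

open MeasureTheory Set Filter Topology
open scoped ENNReal ContDiff

noncomputable section

/-! ### small general facts -/

theorem ipF_self {N : ℕ} {S : Set (Equiv.Perm (Fin N))} (u : QS N S) :
    ipF N S u u = ∫ x, val u x ^ 2 := by
  rw [ipF_apply]
  refine integral_congr_ae (Filter.Eventually.of_forall fun x => ?_)
  simp [sq]

theorem ipF_le_norm {N : ℕ} {S : Set (Equiv.Perm (Fin N))} (u : QS N S) :
    ipF N S u u ≤ ‖u‖ ^ 2 := by
  rw [ipF_self, norm_sq_QS]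
  have : 0 ≤ ∑ i, ∑ k, ∫ x, grd u i k x ^ 2 :=
    Finset.sum_nonneg fun i _ => Finset.sum_nonneg fun k _ => integral_nonneg fun x => sq_nonneg _
  linarith only [this]

theorem ipF_sub {N : ℕ} {S : Set (Equiv.Perm (Fin N))} (u v : QS N S) :
    ipF N S (u - v) (u - v) = ∫ x, (val u x - val v x) ^ 2 := by
  rw [ipF_self]
  refine integral_congr_ae ?_
  have h1 : u - v = u + (-1 : ℝ) • v := by rw [neg_one_smul, sub_eq_add_neg]
  rw [h1]
  filter_upwards [val_add u ((-1 : ℝ) • v), val_smul (-1 : ℝ) v] with x h2 h3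
  rw [h2, h3]; ring

/-- potentials shifted by a constant -/
theorem bN_shift {N : ℕ} {w : Conf N → ℝ} (hw : FBd w) (E : ℝ) {f f' : Conf N → ℝ}
    {g g' : Fin N → Fin 3 → Conf N → ℝ} (h : HN f g) (h' : HN f' g') :
    bN (fun x => w x - E) f g f' g' = bN w f g f' g' - E * ∫ x, f x * f' x := by
  unfold bN
  have h1 : ∫ x, (w x - E) * (f x * f' x) = (∫ x, w x * (f x * f' x)) - E * ∫ x, f x * f' x := by
    have i1 : Integrable (fun x => w x * (f x * f' x)) := hw.integrable_mul h h'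
    have i2 : Integrable (fun x => f x * f' x) := h.memLp.integrable_mul h'.memLp
    rw [← integral_const_mul, ← integral_sub i1 (i2.const_mul E)]
    refine integral_congr_ae (Filter.Eventually.of_forall fun x => ?_)
    simp only
    ring
  rw [h1]
  ring

/-- energies of functions through the Hilbert space -/
theorem qe_mk {N : ℕ} {S : Set (Equiv.Perm (Fin N))} (ε A L : ℝ) {f : Conf N → ℝ}
    {g : Fin N → Fin 3 → Conf N → ℝ} (h : HN f g)
    (hS : ∀ σ ∈ S, ∀ᵐ x : Conf N, f (x ∘ σ) = - f x) :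
    (q0F N S + ε • wpF N S A L) (mk h hS) (mk h hS) = qN (vN ε A L) f g := by
  rw [qe_apply, ← bN_self]
  exact bN_congr (val_mk h hS) (grd_mk h hS) (val_mk h hS) (grd_mk h hS)

theorem ip_mk {N : ℕ} {S : Set (Equiv.Perm (Fin N))} {f : Conf N → ℝ}
    {g : Fin N → Fin 3 → Conf N → ℝ} (h : HN f g)
    (hS : ∀ σ ∈ S, ∀ᵐ x : Conf N, f (x ∘ σ) = - f x) (u : QS N S) :
    ipF N S u (mk h hS) = ∫ x, val u x * f x := by
  rw [ipF_apply]
  refine integral_congr_ae ?_
  filter_upwards [val_mk h hS] with x hx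
  rw [hx]

theorem ip_mk_self {N : ℕ} {S : Set (Equiv.Perm (Fin N))} {f : Conf N → ℝ}
    {g : Fin N → Fin 3 → Conf N → ℝ} (h : HN f g)
    (hS : ∀ σ ∈ S, ∀ᵐ x : Conf N, f (x ∘ σ) = - f x) :
    ipF N S (mk h hS) (mk h hS) = ∫ x, f x ^ 2 := by
  rw [ipF_self]
  refine integral_congr_ae ?_
  filter_upwards [val_mk h hS] with x hx
  rw [hx]

/-- Symmetry of a nondegenerate ground state close to a symmetric function. -/
theorem symm_of_gap {N : ℕ} {S : Set (Equiv.Perm (Fin N))} {ε A L E γ : ℝ} (hγ : 0 < γ)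
    {u : QS N S} (hu : ipF N S u u = 1)
    (hgap : ∀ v, E * ipF N S v v + γ * (ipF N S v v - (ipF N S u v) ^ 2)
      ≤ (q0F N S + ε • wpF N S A L) v v)
    (hE : (q0F N S + ε • wpF N S A L) u u = E) {ψ : Conf N → ℝ} (hψ : MemLp ψ 2 volume)
    (hclose : ∫ x, (val u x - ψ x) ^ 2 < 1 / 4) {T : Conf N → Conf N}
    (hT : MeasurePreserving T volume volume) {s : ℝ} (hs : s = 1 ∨ s = -1)
    (hTψ : ∀ x, ψ (T x) = s * ψ x) {g : Fin N → Fin 3 → Conf N → ℝ}
    (hHN : HN (fun x => val u (T x)) g)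
    (hS : ∀ σ ∈ S, ∀ᵐ x : Conf N, val u (T (x ∘ σ)) = - val u (T x))
    (hq : qN (vN ε A L) (fun x => val u (T x)) g = qN (vN ε A L) (val u) (grd u)) :
    ∀ᵐ x, val u (T x) = s * val u x := by
  have hs2 : s ^ 2 = 1 := by rcases hs with h | h <;> rw [h] <;> norm_num
  set v : QS N S := mk hHN hS with hv
  have hcomp : ∀ F : Conf N → ℝ, AEStronglyMeasurable F volume → ∫ x, F (T x) = ∫ x, F x := by
    intro F hF
    rw [← hT.map_eq] at hF
    have h := integral_map hT.measurable.aemeasurable hF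
    rw [hT.map_eq] at h
    exact h.symm
  have hvv : ipF N S v v = 1 := by
    rw [hv, ip_mk_self, ← hu, ipF_self]
    exact hcomp (fun x => val u x ^ 2) ((val_memLp u).1.pow 2)
  have hqv : (q0F N S + ε • wpF N S A L) v v = E := by
    rw [hv, qe_mk, hq, ← hE, qe_self]
  have h1 := hgap v
  rw [hvv, hqv] at h1
  set r : ℝ := ipF N S u v with hr
  have hr1 : 1 ≤ r ^ 2 := by
    by_contra hlt
    push Not at hlt
    have : 0 < γ * (1 - r ^ 2) := mul_pos hγ (by linarith only [hlt])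
    linarith only [h1, this]
  -- closeness
  have huv : ∫ x, (val u (T x) - s * val u x) ^ 2 = 2 - 2 * s * r := by
    have e1 : r = ∫ x, val u x * val u (T x) := by rw [hr, hv, ip_mk]
    have i1 : Integrable (fun x => val u (T x) ^ 2) := hHN.memLp.integrable_sq
    have i2 : Integrable (fun x => val u x ^ 2) := (val_memLp u).integrable_sq
    have i3 : Integrable (fun x => val u x * val u (T x)) :=
      (val_memLp u).integrable_mul hHN.memLp
    have e2 : ∫ x, val u (T x) ^ 2 = 1 := by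
      rw [← hu, ipF_self]
      exact hcomp (fun x => val u x ^ 2) ((val_memLp u).1.pow 2)
    have e3 : ∫ x, val u x ^ 2 = 1 := by rw [← hu, ipF_self]
    calc ∫ x, (val u (T x) - s * val u x) ^ 2
        = ∫ x, (val u (T x) ^ 2 + s ^ 2 * val u x ^ 2 - 2 * s * (val u x * val u (T x))) := by
          refine integral_congr_ae (Filter.Eventually.of_forall fun x => ?_)
          ring
      _ = 2 - 2 * s * r := by
          have j1 : Integrable (fun x => val u (T x) ^ 2 + s ^ 2 * val u x ^ 2) :=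
            i1.add (i2.const_mul _)
          rw [integral_sub j1 (i3.const_mul _),
            integral_add i1 (i2.const_mul _), integral_const_mul, integral_const_mul, e2, e3,
            ← e1, hs2]
          ring
  have hlt : ∫ x, (val u (T x) - s * val u x) ^ 2 < 1 := by
    have m1 : MemLp (fun x => val u x - ψ x) 2 volume := (val_memLp u).sub hψ
    have i1 : Integrable (fun x => (val u x - ψ x) ^ 2) := m1.integrable_sq
    have i2 : Integrable (fun x => (val u (T x) - ψ (T x)) ^ 2) :=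
      (m1.comp_measurePreserving hT).integrable_sq
    have e2 : ∫ x, (val u (T x) - ψ (T x)) ^ 2 = ∫ x, (val u x - ψ x) ^ 2 :=
      hcomp (fun x => (val u x - ψ x) ^ 2) (m1.1.pow 2)
    have h2 : ∫ x, (val u (T x) - s * val u x) ^ 2
        ≤ ∫ x, (2 * (val u (T x) - ψ (T x)) ^ 2 + 2 * (val u x - ψ x) ^ 2) := by
      refine integral_mono_of_nonneg (Filter.Eventually.of_forall fun x => sq_nonneg _)
        ((i2.const_mul 2).add (i1.const_mul 2)) (Filter.Eventually.of_forall fun x => ?_)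
      have e3 : val u (T x) - s * val u x
          = (val u (T x) - ψ (T x)) - s * (val u x - ψ x) := by rw [hTψ]; ring
      simp only [e3]
      have e4 : (s * (val u x - ψ x)) ^ 2 = (val u x - ψ x) ^ 2 := by rw [mul_pow, hs2, one_mul]
      linarith only [sq_nonneg ((val u (T x) - ψ (T x)) + s * (val u x - ψ x)), e4]
    rw [integral_add (i2.const_mul 2) (i1.const_mul 2), integral_const_mul, integral_const_mul,
      e2] at h2
    linarith
  have hsr : 1 / 2 < s * r := by linarith only [huv, hlt]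
  have hsr1 : 1 ≤ (s * r) ^ 2 := by rw [mul_pow, hs2, one_mul]; exact hr1
  have hsr2 : 1 ≤ s * r := by nlinarith only [huv, hsr1, hlt]
  have hzero : ∫ x, (val u (T x) - s * val u x) ^ 2 = 0 := by
    refine le_antisymm (by linarith only [huv, hsr2]) (integral_nonneg fun x => sq_nonneg _)
  have hm : MemLp (fun x => val u (T x) - s * val u x) 2 volume :=
    hHN.memLp.sub ((val_memLp u).const_mul s)
  rw [integral_eq_zero_iff_of_nonneg (fun x => sq_nonneg _) hm.integrable_sq] at hzero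
  filter_upwards [hzero] with x hx
  have : val u (T x) - s * val u x = 0 := by
    simpa using hx
  linarith only [this]

/-! ### forms on linear combinations -/

theorem bf_sum_sum {Q : Type*} [NormedAddCommGroup Q] [InnerProductSpace ℝ Q] {ι : Type*}
    [Fintype ι] (w : BF Q) (φ : ι → Q) (b c : ι → ℝ) :
    w (∑ i, b i • φ i) (∑ j, c j • φ j) = ∑ i, ∑ j, b i * c j * w (φ i) (φ j) := by
  rw [map_sum w, FunLike.coe_sum, Finset.sum_apply]
  refine Finset.sum_congr rfl fun i _ => ?_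
  rw [map_smul, smul_apply, map_sum, smul_eq_mul, Finset.mul_sum]
  refine Finset.sum_congr rfl fun j _ => ?_
  rw [map_smul, smul_eq_mul]
  ring

theorem bf_sum_left {Q : Type*} [NormedAddCommGroup Q] [InnerProductSpace ℝ Q] {ι : Type*}
    [Fintype ι] (w : BF Q) (φ : ι → Q) (b : ι → ℝ) (v : Q) :
    w (∑ i, b i • φ i) v = ∑ i, b i * w (φ i) v := by
  rw [map_sum, FunLike.coe_sum, Finset.sum_apply]
  refine Finset.sum_congr rfl fun i _ => ?_
  rw [map_smul, smul_apply, smul_eq_mul]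

theorem val_sum {N : ℕ} {S : Set (Equiv.Perm (Fin N))} {ι : Type*} (s : Finset ι)
    (c : ι → ℝ) (φ : ι → QS N S) :
    val (∑ i ∈ s, c i • φ i) =ᵐ[volume] fun x => ∑ i ∈ s, c i * val (φ i) x := by
  classical
  induction s using Finset.induction_on with
  | empty =>
    have h := val_smul (N := N) (S := S) 0 (0 : QS N S)
    rw [smul_zero] at h
    simp only [Finset.sum_empty]
    filter_upwards [h] with x hx
    rw [hx, zero_mul]
  | insert a s ha ih =>
    rw [Finset.sum_insert ha]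
    filter_upwards [ih, val_add (c a • φ a) (∑ i ∈ s, c i • φ i), val_smul (c a) (φ a)]
      with x h1 h2 h3
    rw [h2, h1, h3, Finset.sum_insert ha]

/-- The perturbation theorem in terms of the matrix of the perturbation. -/
theorem PertData.out {Q : Type*} [NormedAddCommGroup Q] [InnerProductSpace ℝ Q]
    [CompleteSpace Q] {ι : Type*} [Fintype ι] [DecidableEq ι] {ip q w : BF Q} {φ : ι → Q}
    {e0 g cG CG : ℝ} (hD : PertData ip q w φ e0 g cG CG) (c : ι → ℝ) (hc : ∑ i, c i ^ 2 = 1)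
    {w0 δ : ℝ} (hδ : 0 < δ) (hw00 : ∑ i, ∑ j, c i * c j * w (φ i) (φ j) = w0)
    (hineq : ∀ b : ι → ℝ, w0 * (∑ i, b i ^ 2) + δ * ((∑ i, b i ^ 2) - (∑ i, c i * b i) ^ 2)
      ≤ ∑ i, ∑ j, b i * b j * w (φ i) (φ j)) :
    ip (∑ i, c i • φ i) (∑ i, c i • φ i) = 1 ∧ q (∑ i, c i • φ i) (∑ i, c i • φ i) = e0 ∧
      ∃ ε1 K : ℝ, 0 < ε1 ∧ 0 ≤ K ∧ ∀ ε, 0 < ε → ε ≤ ε1 → ∃ (u : Q) (E : ℝ),
        ip u u = 1 ∧ ‖u - ∑ i, c i • φ i‖ ^ 2 ≤ K * ε ∧
        (∀ v, (q + ε • w) u v = E * ip u v) ∧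
        |E - (e0 + ε * w0)| ≤ K * ε ^ 2 ∧
        ∀ v, E * ip v v + ε * (δ / 2) * (ip v v - (ip u v) ^ 2) ≤ (q + ε • w) v v := by
  obtain ⟨ψ0, hψ0⟩ : ∃ ψ0 : Q, ψ0 = ∑ i, c i • φ i := ⟨_, rfl⟩
  rw [← hψ0]
  have hipψ : ∀ v, ip ψ0 v = ∑ i, c i * ip (φ i) v := fun v => by
    rw [hψ0, bf_sum_left]
  have hipφ : ∀ i, ip (φ i) ψ0 = c i := fun i => by
    rw [hψ0, map_sum]
    simp only [map_smul, hD.ortho.ortho, smul_eq_mul]
    simp only [mul_ite, mul_one, mul_zero, Finset.sum_ite_eq, Finset.mem_univ, ↓reduceIte]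
  have hprj : prj ip φ ψ0 = ψ0 := by
    unfold prj
    simp only [hipφ]
    exact hψ0.symm
  have h11 : ip ψ0 ψ0 = 1 := by
    rw [hipψ, ← hc]
    refine Finset.sum_congr rfl fun i _ => ?_
    rw [hipφ, pow_two]
  have hww : w ψ0 ψ0 = w0 := by
    rw [hψ0, bf_sum_sum, ← hw00]
  have hw : ∀ a, prj ip φ a = a →
      w0 * ip a a + δ * (ip a a - (ip ψ0 a) ^ 2) ≤ w a a := by
    intro a ha
    have h1 := hineq (fun i => ip (φ i) a)
    have h2 : w a a = ∑ i, ∑ j, ip (φ i) a * ip (φ j) a * w (φ i) (φ j) := by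
      conv_lhs => rw [← ha]
      unfold prj
      rw [bf_sum_sum]
    have h3 : ip a a = ∑ i, (ip (φ i) a) ^ 2 := by
      have h4 := ip_prj_prj (ip := ip) (φ := φ) hD.ortho a
      rwa [ha] at h4
    rw [h2, h3, hipψ]
    exact h1
  refine ⟨h11, ?_, ?_⟩
  · have h1 := hD.q_prj ψ0 ψ0
    rw [hprj, h11, mul_one] at h1
    exact h1
  · obtain ⟨ε1, K, h1, h2, h3⟩ := hD.main hprj h11 hδ hww hw
    refine ⟨ε1, K, h1, h2, fun ε hε hε1 => ?_⟩
    obtain ⟨u, E, a1, -, a2, a3, a4, a5⟩ := h3 ε hε hε1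
    exact ⟨u, E, a1, a2, a3, a4, a5⟩

/-- The perturbation data of the shell functions `χ i`. -/
theorem pert_data {N : ℕ} {S : Set (Equiv.Perm (Fin N))} {ι : Type} [Fintype ι] [DecidableEq ι]
    (A L : ℝ) {χ : ι → Conf N → ℝ} {χ' : ι → Fin N → Fin 3 → Conf N → ℝ}
    (hχ : ∀ i, HN (χ i) (χ' i))
    (hanti : ∀ i, ∀ σ ∈ S, ∀ᵐ x : Conf N, χ i (x ∘ σ) = - χ i x)
    (hortho : ∀ i j, ∫ x, χ i x * χ j x = if i = j then 1 else 0) {e0 g : ℝ} (hg : 0 < g)
    (heig : ∀ i (f : Conf N → ℝ) (f' : Fin N → Fin 3 → Conf N → ℝ), HN f f' →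
      bN w0N (χ i) (χ' i) f f' = e0 * ∫ x, χ i x * f x)
    (hgap : ∀ u : QS N S, (e0 + g) * (∫ x, val u x ^ 2) - g * ∑ i, (∫ x, χ i x * val u x) ^ 2
      ≤ qN w0N (val u) (grd u)) :
    ∃ (φ : ι → QS N S) (cG CG : ℝ),
      PertData (ipF N S) (q0F N S) (wpF N S A L) φ e0 g cG CG ∧
      (∀ i, val (φ i) =ᵐ[volume] χ i) ∧
      ∀ i j, wpF N S A L (φ i) (φ j) = ∫ x, wpN A L x * (χ i x * χ j x) := by
  obtain ⟨cG, CG, hcG, hCG, hgard⟩ := garding N S
  obtain ⟨φ, hφ⟩ : ∃ φ : ι → QS N S, φ = fun i => mk (hχ i) (hanti i) := ⟨_, rfl⟩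
  have hval : ∀ i, val (φ i) =ᵐ[volume] χ i := fun i => by
    rw [hφ]; exact val_mk (hχ i) (hanti i)
  have hgrd : ∀ i j k, grd (φ i) j k =ᵐ[volume] χ' i j k := fun i j k => by
    rw [hφ]; exact grd_mk (hχ i) (hanti i) j k
  have hip : ∀ i (u : QS N S), ipF N S (φ i) u = ∫ x, χ i x * val u x := fun i u => by
    rw [ipF_apply]
    refine integral_congr_ae ?_
    filter_upwards [hval i] with x hx
    rw [hx]
  have hW : ∀ i j, wpF N S A L (φ i) (φ j) = ∫ x, wpN A L x * (χ i x * χ j x) := fun i j => by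
    unfold wpF
    rw [potF_apply]
    refine integral_congr_ae ?_
    filter_upwards [hval i, hval j] with x hx hy
    rw [hx, hy]
  have hortho' : ∀ i j, ipF N S (φ i) (φ j) = if i = j then 1 else 0 := fun i j => by
    rw [hip, ← hortho i j]
    refine integral_congr_ae ?_
    filter_upwards [hval j] with x hx
    rw [hx]
  refine ⟨φ, cG, CG,
    { sip := ipF_symm
      pip := ipF_nonneg
      sq := q0F_symm
      sw := wpF_symm A L
      ortho := ⟨hortho'⟩
      cpos := hcG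
      Cnonneg := hCG
      garding := hgard
      gpos := hg
      eig := fun i v => by
        rw [q0F_apply, hip, ← heig i (val v) (grd v) (val_HN v)]
        exact bN_congr (hval i) (hgrd i) (Filter.EventuallyEq.refl _ _)
          (fun _ _ => Filter.EventuallyEq.refl _ _)
      gap := fun u hu => by
        have h1 := hgap u
        have h2 : ∑ i, (∫ x, χ i x * val u x) ^ 2 = 0 := by
          refine Finset.sum_eq_zero fun i _ => ?_
          rw [← hip, hu i]; norm_num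
        rw [h2, mul_zero, sub_zero] at h1
        rw [q0F_self, ipF_self]
        exact h1 }, hval, hW⟩

/-- The perturbation theorem for the shell functions `χ i`. -/
theorem pert_out {N : ℕ} {S : Set (Equiv.Perm (Fin N))} {ι : Type} [Fintype ι] [DecidableEq ι]
    (A L : ℝ) {χ : ι → Conf N → ℝ} {χ' : ι → Fin N → Fin 3 → Conf N → ℝ}
    (hχ : ∀ i, HN (χ i) (χ' i))
    (hanti : ∀ i, ∀ σ ∈ S, ∀ᵐ x : Conf N, χ i (x ∘ σ) = - χ i x)
    (hortho : ∀ i j, ∫ x, χ i x * χ j x = if i = j then 1 else 0) {e0 g : ℝ} (hg : 0 < g)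
    (heig : ∀ i (f : Conf N → ℝ) (f' : Fin N → Fin 3 → Conf N → ℝ), HN f f' →
      bN w0N (χ i) (χ' i) f f' = e0 * ∫ x, χ i x * f x)
    (hgap : ∀ u : QS N S, (e0 + g) * (∫ x, val u x ^ 2) - g * ∑ i, (∫ x, χ i x * val u x) ^ 2
      ≤ qN w0N (val u) (grd u))
    (c : ι → ℝ) (hc : ∑ i, c i ^ 2 = 1) {w0 δ : ℝ} (hδ : 0 < δ)
    (hw00 : ∑ i, ∑ j, c i * c j * (∫ x, wpN A L x * (χ i x * χ j x)) = w0)
    (hineq : ∀ b : ι → ℝ, w0 * (∑ i, b i ^ 2) + δ * ((∑ i, b i ^ 2) - (∑ i, c i * b i) ^ 2)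
      ≤ ∑ i, ∑ j, b i * b j * (∫ x, wpN A L x * (χ i x * χ j x))) :
    ∃ ψ0 : QS N S, (val ψ0 =ᵐ[volume] fun x => ∑ i, c i * χ i x) ∧ ipF N S ψ0 ψ0 = 1 ∧
      q0F N S ψ0 ψ0 = e0 ∧
      ∃ ε1 K : ℝ, 0 < ε1 ∧ 0 ≤ K ∧ ∀ ε, 0 < ε → ε ≤ ε1 → ∃ (u : QS N S) (E : ℝ),
        ipF N S u u = 1 ∧ ‖u - ψ0‖ ^ 2 ≤ K * ε ∧
        (∀ v, (q0F N S + ε • wpF N S A L) u v = E * ipF N S u v) ∧
        |E - (e0 + ε * w0)| ≤ K * ε ^ 2 ∧
        ∀ v, E * ipF N S v v + ε * (δ / 2) * (ipF N S v v - (ipF N S u v) ^ 2)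
          ≤ (q0F N S + ε • wpF N S A L) v v := by
  obtain ⟨φ, cG, CG, hD, hval, hW⟩ := pert_data (S := S) A L hχ hanti hortho hg heig hgap
  simp only [← hW] at hw00 hineq
  obtain ⟨h1, h2, h3⟩ := hD.out c hc hδ hw00 hineq
  refine ⟨∑ i, c i • φ i, ?_, h1, h2, h3⟩
  have h4 := val_sum (S := S) Finset.univ c φ
  have h5 : ∀ᵐ x : Conf N, ∀ i, val (φ i) x = χ i x := by
    rw [ae_all_iff]
    exact hval
  filter_upwards [h4, h5] with x hx hy
  rw [hx]
  exact Finset.sum_congr rfl fun i _ => by rw [hy i]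

/-! ### the four-electron and the three-electron problem -/

theorem sum_diag (c : Fin 4 → ℝ) (f : Fin 4 × Fin 4 → ℝ) :
    ∑ p : Fin 4 × Fin 4, (if p.1 = p.2 then c p.1 else 0) * f p = ∑ a, c a * f (a, a) := by
  rw [Fintype.sum_prod_type]
  refine Finset.sum_congr rfl fun a _ => ?_
  simp only [ite_mul, zero_mul, Finset.sum_ite_eq, Finset.mem_univ, if_true]

theorem pert4 {A L : ℝ} {c : Fin 4 → ℝ} {w4 δ : ℝ} (hδ : 0 < δ) (hc : ∑ a, c a ^ 2 = 1)
    (h4 : ∑ a, ∑ a', c a * c a' * W4 A L (a, a) (a', a') = w4)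
    (h4' : ∀ b : Fin 4 × Fin 4 → ℝ,
      w4 * (∑ p, b p ^ 2) + δ * ((∑ p, b p ^ 2) - (∑ a, c a * b (a, a)) ^ 2)
        ≤ ∑ p, ∑ p', b p * b p' * W4 A L p p') :
    ∃ ψ0 : QS 4 S4, (val ψ0 =ᵐ[volume] psi4 c) ∧ ipF 4 S4 ψ0 ψ0 = 1 ∧
      q0F 4 S4 ψ0 ψ0 = -(5 / 4) ∧
      ∃ ε1 K : ℝ, 0 < ε1 ∧ 0 ≤ K ∧ ∀ ε, 0 < ε → ε ≤ ε1 → ∃ (u : QS 4 S4) (E : ℝ),
        ipF 4 S4 u u = 1 ∧ ‖u - ψ0‖ ^ 2 ≤ K * ε ∧
        (∀ v, (q0F 4 S4 + ε • wpF 4 S4 A L) u v = E * ipF 4 S4 u v) ∧
        |E - (-(5 / 4) + ε * w4)| ≤ K * ε ^ 2 ∧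
        ∀ v, E * ipF 4 S4 v v + ε * (δ / 2) * (ipF 4 S4 v v - (ipF 4 S4 u v) ^ 2)
          ≤ (q0F 4 S4 + ε • wpF 4 S4 A L) v v := by
  obtain ⟨cc, hcc⟩ : ∃ cc : Fin 4 × Fin 4 → ℝ, cc = fun p => if p.1 = p.2 then c p.1 else 0 :=
    ⟨_, rfl⟩
  have hd : ∀ f : Fin 4 × Fin 4 → ℝ, ∑ p, cc p * f p = ∑ a, c a * f (a, a) := fun f => by
    rw [hcc]; exact sum_diag c f
  have hcd : ∀ a, cc (a, a) = c a := fun a => by rw [hcc]; simp
  have h1 : ∑ p, cc p ^ 2 = 1 := by
    have h2 := hd cc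
    simp only [hcd, ← pow_two] at h2
    rw [h2, hc]
  have h2 : ∑ p, ∑ p', cc p * cc p' * (∫ x, wpN A L x * (sh4 p x * sh4 p' x)) = w4 := by
    have h3 : ∀ p, ∑ p', cc p * cc p' * (∫ x, wpN A L x * (sh4 p x * sh4 p' x))
        = cc p * ∑ a', c a' * W4 A L p (a', a') := fun p => by
      rw [← hd (fun p' => W4 A L p p'), Finset.mul_sum]
      refine Finset.sum_congr rfl fun p' _ => ?_
      rw [W4_def]
      ring
    simp only [h3]
    rw [hd (fun p => ∑ a', c a' * W4 A L p (a', a')), ← h4]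
    refine Finset.sum_congr rfl fun a _ => ?_
    rw [Finset.mul_sum]
    refine Finset.sum_congr rfl fun a' _ => ?_
    ring
  obtain ⟨ψ0, a1, a2, a3, a4⟩ := pert_out (S := S4) A L (χ := sh4) (χ' := sh4') sh4_HN
    (fun p σ hσ => Filter.Eventually.of_forall (sh4_anti p σ hσ)) sh4_ortho
    (e0 := -(5 / 4)) (g := 5 / 72) (by norm_num) (fun p f f' h => sh4_eig p h)
    (fun u => sh4_gap (val_HN u) (val_Sec4 u)) cc h1 hδ h2 (fun b => by
      rw [hd b]
      exact h4' b)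
  refine ⟨ψ0, ?_, a2, a3, a4⟩
  filter_upwards [a1] with x hx
  rw [hx]
  unfold psi4
  exact hd (fun p => sh4 p x)

theorem pert3 {A L : ℝ} {w3 δ : ℝ} (hδ : 0 < δ) (h3 : W3 A L 3 3 = w3)
    (h3' : ∀ b : Fin 4 → ℝ,
      w3 * (∑ a, b a ^ 2) + δ * ((∑ a, b a ^ 2) - b 3 ^ 2)
        ≤ ∑ a, ∑ a', b a * b a' * W3 A L a a') :
    ∃ ψ0 : QS 3 S3, (val ψ0 =ᵐ[volume] sh3 3) ∧ ipF 3 S3 ψ0 ψ0 = 1 ∧
      q0F 3 S3 ψ0 ψ0 = -(9 / 8) ∧
      ∃ ε1 K : ℝ, 0 < ε1 ∧ 0 ≤ K ∧ ∀ ε, 0 < ε → ε ≤ ε1 → ∃ (u : QS 3 S3) (E : ℝ),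
        ipF 3 S3 u u = 1 ∧ ‖u - ψ0‖ ^ 2 ≤ K * ε ∧
        (∀ v, (q0F 3 S3 + ε • wpF 3 S3 A L) u v = E * ipF 3 S3 u v) ∧
        |E - (-(9 / 8) + ε * w3)| ≤ K * ε ^ 2 ∧
        ∀ v, E * ipF 3 S3 v v + ε * (δ / 2) * (ipF 3 S3 v v - (ipF 3 S3 u v) ^ 2)
          ≤ (q0F 3 S3 + ε • wpF 3 S3 A L) v v := by
  obtain ⟨cc, hcc⟩ : ∃ cc : Fin 4 → ℝ, cc = fun p => if p = 3 then 1 else 0 := ⟨_, rfl⟩
  have hd : ∀ f : Fin 4 → ℝ, ∑ p, cc p * f p = f 3 := fun f => by
    rw [hcc]
    simp only [ite_mul, one_mul, zero_mul, Finset.sum_ite_eq', Finset.mem_univ, if_true]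
  have hcd : cc 3 = 1 := by rw [hcc]; simp
  have h1 : ∑ p, cc p ^ 2 = 1 := by
    have h2 := hd cc
    simp only [hcd, ← pow_two] at h2
    exact h2
  have h2 : ∑ p, ∑ p', cc p * cc p' * (∫ x, wpN A L x * (sh3 p x * sh3 p' x)) = w3 := by
    have h4 : ∀ p, ∑ p', cc p * cc p' * (∫ x, wpN A L x * (sh3 p x * sh3 p' x))
        = cc p * W3 A L p 3 := fun p => by
      rw [← hd (fun p' => W3 A L p p'), Finset.mul_sum]
      refine Finset.sum_congr rfl fun p' _ => ?_
      rw [W3_def]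
      ring
    simp only [h4]
    rw [hd (fun p => W3 A L p 3), h3]
  obtain ⟨ψ0, a1, a2, a3, a4⟩ := pert_out (S := S3) A L (χ := sh3) (χ' := sh3') sh3_HN
    (fun p σ hσ => Filter.Eventually.of_forall (sh3_anti p σ hσ)) sh3_ortho
    (e0 := -(9 / 8)) (g := 5 / 72) (by norm_num) (fun p f f' h => sh3_eig p h)
    (fun u => sh3_gap (val_HN u) (val_Sec3 u)) cc h1 hδ h2 (fun b => by
      rw [hd b]
      exact h3' b)
  refine ⟨ψ0, ?_, a2, a3, a4⟩
  filter_upwards [a1] with x hx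
  rw [hx]
  exact hd (fun p => sh3 p x)

/-! ### symmetries -/

theorem val_close {N : ℕ} {S : Set (Equiv.Perm (Fin N))} (u ψ0 : QS N S) {ψ : Conf N → ℝ}
    (hψ : val ψ0 =ᵐ[volume] ψ) : ∫ x, (val u x - ψ x) ^ 2 ≤ ‖u - ψ0‖ ^ 2 := by
  refine le_trans (le_of_eq ?_) (ipF_le_norm (u - ψ0))
  rw [ipF_sub]
  refine integral_congr_ae ?_
  filter_upwards [hψ] with x hx
  rw [hx]

theorem sym_refl {N : ℕ} {S : Set (Equiv.Perm (Fin N))} {ε A L E γ : ℝ} (hγ : 0 < γ)
    {u : QS N S} (hu : ipF N S u u = 1)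
    (hgap : ∀ v, E * ipF N S v v + γ * (ipF N S v v - (ipF N S u v) ^ 2)
      ≤ (q0F N S + ε • wpF N S A L) v v)
    (hEL : ∀ v, (q0F N S + ε • wpF N S A L) u v = E * ipF N S u v) {ψ : Conf N → ℝ}
    (hψ : MemLp ψ 2 volume) (hclose : ∫ x, (val u x - ψ x) ^ 2 < 1 / 4) (k : Fin 3) {s : ℝ}
    (hs : s = 1 ∨ s = -1) (hTψ : ∀ x, ψ (reflN k x) = s * ψ x) :
    ∀ᵐ x, val u (reflN k x) = s * val u x := by
  refine symm_of_gap hγ hu hgap (by rw [hEL, hu, mul_one]) hψ hclose (mp_reflN k) hs hTψ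
    ((val_HN u).reflN k) ?_ ?_
  · intro σ hσ
    have h1 := (mp_reflN (N := N) k).quasiMeasurePreserving.ae (val_anti u σ hσ)
    filter_upwards [h1] with x hx
    exact hx
  · exact qN_reflN k (vN_reflN ε A L k) _ _

theorem sym_flip {ε A L E γ : ℝ} (hγ : 0 < γ)
    {u : QS 4 S4} (hu : ipF 4 S4 u u = 1)
    (hgap : ∀ v, E * ipF 4 S4 v v + γ * (ipF 4 S4 v v - (ipF 4 S4 u v) ^ 2)
      ≤ (q0F 4 S4 + ε • wpF 4 S4 A L) v v)
    (hEL : ∀ v, (q0F 4 S4 + ε • wpF 4 S4 A L) u v = E * ipF 4 S4 u v) {ψ : Conf 4 → ℝ}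
    (hψ : MemLp ψ 2 volume) (hclose : ∫ x, (val u x - ψ x) ^ 2 < 1 / 4)
    (hTψ : ∀ x, ψ (x ∘ flip4) = ψ x) :
    ∀ᵐ x : Conf 4, val u (x ∘ flip4) ^ 2 = val u x ^ 2 := by
  have h := symm_of_gap hγ hu hgap (by rw [hEL, hu, mul_one]) hψ hclose (mp_perm flip4)
    (s := 1) (Or.inl rfl) (fun x => by rw [hTψ, one_mul])
    ((val_HN u).perm flip4) ?_ ?_
  · filter_upwards [h] with x hx
    rw [hx, one_mul]
  · intro σ hσ
    have hσ' : flip4⁻¹ * σ * flip4 ∈ S4 := by
      rcases hσ with h | h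
      · subst h
        right
        rw [Set.mem_singleton_iff]
        unfold flip4
        decide
      · rw [Set.mem_singleton_iff] at h
        subst h
        left
        unfold flip4
        decide
    have h1 := (mp_perm (N := 4) flip4).quasiMeasurePreserving.ae (val_anti u _ hσ')
    filter_upwards [h1] with x hx
    rw [← hx]
    congr 1
    funext i
    simp only [Function.comp, Equiv.Perm.mul_apply, Equiv.Perm.coe_inv, Equiv.apply_symm_apply]
  · exact qN_perm flip4 (vN_perm ε A L flip4) _ _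

end

end Vale.Agent.P363.D
end
end

section

section

/-! # Block P: the perturbation theorem -/

namespace Vale.Agent.P363.D

open MeasureTheory Set Filter Topology
open scoped ENNReal ContDiff

noncomputable section

/-- the exact system -/
theorem sys_of {A L ε δ M E4 E3 : ℝ} {u4 : QS 4 S4} {u3 : QS 3 S3}
    (h41 : ipF 4 S4 u4 u4 = 1)
    (h4e : ∀ v, (q0F 4 S4 + ε • wpF 4 S4 A L) u4 v = E4 * ipF 4 S4 u4 v)
    (h4s : ∀ k, ∀ᵐ x, val u4 (reflN k x) = val u4 x)
    (h31 : ipF 3 S3 u3 u3 = 1)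
    (h3e : ∀ v, (q0F 3 S3 + ε • wpF 3 S3 A L) u3 v = E3 * ipF 3 S3 u3 v)
    (h3o : ∀ᵐ x, val u3 (reflN 2 x) = - val u3 x)
    (h3g : ∀ v, E3 * ipF 3 S3 v v + ε * δ * (ipF 3 S3 v v - (ipF 3 S3 u3 v) ^ 2)
      ≤ (q0F 3 S3 + ε • wpF 3 S3 A L) v v)
    (hmi : Integrable (fun y : Conf 3 =>
      (1 + ∑ i, ‖y i‖) ^ 4 * (val u3 y ^ 2 + ∑ i, ∑ k, grd u3 i k y ^ 2)) volume)
    (hm : ∫ y : Conf 3, (1 + ∑ i, ‖y i‖) ^ 4 * (val u3 y ^ 2 + ∑ i, ∑ k, grd u3 i k y ^ 2) ≤ M) :
    Sys A L ε δ M E4 E3 (toX4 (val u4)) (fun k => toX4 (grd u4 0 k))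
      (fun i k => toX4 (grd u4 (Fin.succ i) k)) (val u3) (grd u3) := by
  refine
    { F_H1 := HX_toX4 (val_HN u4)
      F_eq := F_eq_of (val_HN u4) (eq_all4 h4e)
      F_norm := ?_
      F_anti := anti_toX4 (val_Sec4 u4)
      F_even2 := refl_toX4 (h4s 2)
      F_even0 := refl_toX4 (h4s 0)
      Φ_H1 := val_HN u3
      Φ_eq := ?_
      Φ_norm := ?_
      Φ_anti := val_Sec3 u3
      Φ_odd2 := h3o
      gap := ?_
      moment_int := hmi
      moment := hm }
  · rw [← h41, ipF_self, ← integral_toX4]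
    rfl
  · intro u g hu
    rw [bN_shift (fbd_vN 3 ε A L) E3 (val_HN u3) hu, eq_all3 h3e u g hu, sub_self]
  · rw [← h31, ipF_self]
  · intro u g hu hs
    have h1 := h3g (mk hu hs.anti)
    rw [ip_mk_self, ip_mk, qe_mk] at h1
    exact h1

theorem memLp_toX4 {f : Conf 4 → ℝ} (hf : MemLp f 2 volume) : MemLp (toX4 f) 2 volume :=
  hf.comp_measurePreserving mp_cons

theorem close_toX4 (u ψ0 : QS 4 S4) {ψ : Conf 4 → ℝ} (hψ : val ψ0 =ᵐ[volume] ψ) :
    ∫ p, (toX4 (val u) p - toX4 ψ p) ^ 2 ≤ ‖u - ψ0‖ ^ 2 := by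
  refine le_trans (le_of_eq ?_) (val_close u ψ0 hψ)
  rw [← integral_toX4]
  rfl

theorem norm_toX4 {u : QS 4 S4} (hu : ipF 4 S4 u u = 1) {ψ : Conf 4 → ℝ}
    (hψ : val u =ᵐ[volume] ψ) : ∫ p, toX4 ψ p ^ 2 = 1 := by
  rw [← hu, ipF_self]
  have h : ∫ x, val u x ^ 2 = ∫ x, ψ x ^ 2 := by
    refine integral_congr_ae ?_
    filter_upwards [hψ] with x hx
    rw [hx]
  rw [h, ← integral_toX4]
  rfl

/-- closeness of the Dyson orbital -/
theorem dys_of {u4 ψ4 : QS 4 S4} {u3 ψ3 : QS 3 S3} {c : Fin 4 → ℝ}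
    (h4 : val ψ4 =ᵐ[volume] psi4 c) (h41 : ipF 4 S4 ψ4 ψ4 = 1)
    (h3 : val ψ3 =ᵐ[volume] sh3 3) (h31 : ipF 3 S3 u3 u3 = 1) :
    Integrable (fun x => (dys (toX4 (val u4)) (val u3) x - -(c 3 / √2) * KD.chi 4 x) ^ 2)
        volume ∧
      ∫ x, (dys (toX4 (val u4)) (val u3) x - -(c 3 / √2) * KD.chi 4 x) ^ 2 ≤
        2 * ‖u4 - ψ4‖ ^ 2 + 2 * ‖u3 - ψ3‖ ^ 2 := by
  have m4 : MemLp (psi4 c) 2 volume := (memLp_congr_ae h4).1 (val_memLp ψ4)
  have m3 : MemLp (sh3 3) 2 volume := (memLp_congr_ae h3).1 (val_memLp ψ3)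
  obtain ⟨h5, h6⟩ := dys_close (memLp_toX4 (val_memLp u4)) (memLp_toX4 m4) (val_memLp u3) m3
  have h7 : ∀ x, dys (toX4 (psi4 c)) (sh3 3) x = -(c 3 / √2) * KD.chi 4 x := fun x =>
    psi4_dys c x
  simp only [h7] at h5 h6
  refine ⟨h5, h6.trans ?_⟩
  have h8 : ∫ y, val u3 y ^ 2 = 1 := by rw [← ipF_self, h31]
  have h9 := close_toX4 u4 ψ4 h4
  have h10 := val_close u3 ψ3 h3
  have h11 := norm_toX4 h41 h4
  rw [h8, h11]
  linarith only [h9, h10]

/-- closeness of the density -/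
theorem dens_of {u4 ψ4 : QS 4 S4} {c : Fin 4 → ℝ} (hc : ∑ a, c a ^ 2 = 1)
    (h4 : val ψ4 =ᵐ[volume] psi4 c) (h41 : ipF 4 S4 ψ4 ψ4 = 1) (h42 : ipF 4 S4 u4 u4 = 1) :
    ∫ x, |dens (toX4 (val u4)) x - KD.n0 (fun a => 2 * c a ^ 2) x| ≤ 8 * ‖u4 - ψ4‖ := by
  have m4 : MemLp (psi4 c) 2 volume := (memLp_congr_ae h4).1 (val_memLp ψ4)
  obtain ⟨-, h6⟩ := dens_close (memLp_toX4 (val_memLp u4)) (memLp_toX4 m4)
  have h7 : ∀ x, dens (toX4 (psi4 c)) x = KD.n0 (fun a => 2 * c a ^ 2) x := fun x =>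
    psi4_dens c hc x
  simp only [h7] at h6
  refine h6.trans ?_
  rw [norm_toX4 h41 h4, norm_toX4 h42 (Filter.EventuallyEq.refl _ _), Real.sqrt_one]
  have h8 : √(∫ p, (toX4 (val u4) p - toX4 (psi4 c) p) ^ 2) ≤ ‖u4 - ψ4‖ := by
    rw [← Real.sqrt_sq (norm_nonneg (u4 - ψ4))]
    exact Real.sqrt_le_sqrt (close_toX4 u4 ψ4 h4)
  linarith

theorem w0N_perm {N : ℕ} (σ : Equiv.Perm (Fin N)) (x : Conf N) :
    w0N (x ∘ σ) = w0N x := by
  unfold w0N
  exact Equiv.sum_comp σ (fun i => -(1 / ‖x i‖))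

/-- the electron state -/
theorem state_of {A L ε E4 γ : ℝ} {u4 : QS 4 S4} (hγ : 0 < γ)
    (h41 : ipF 4 S4 u4 u4 = 1)
    (h4g : ∀ v, E4 * ipF 4 S4 v v + γ * (ipF 4 S4 v v - (ipF 4 S4 u4 v) ^ 2)
      ≤ (q0F 4 S4 + ε • wpF 4 S4 A L) v v)
    (h4e : ∀ v, (q0F 4 S4 + ε • wpF 4 S4 A L) u4 v = E4 * ipF 4 S4 u4 v)
    (h4s : ∀ k, ∀ᵐ x, val u4 (reflN k x) = val u4 x)
    (h4f : ∀ᵐ x : Conf 4, val u4 (x ∘ flip4) ^ 2 = val u4 x ^ 2) :
    ∃ Ψ : ElectronState 4, IsGroundState (vN ε A L) Ψ ∧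
      (∀ᵐ x : R3, density (n := 3) Ψ x = dens (toX4 (val u4)) x) ∧
      (∀ k, ∀ᵐ x, density (n := 3) Ψ (refl k x) = density (n := 3) Ψ x) ∧
      energy (sumPotential KD.v0) Ψ = q0F 4 S4 u4 u4 := by
  obtain ⟨Ψ, hn, he, hd⟩ := exists_state (val_HN u4) (val_Sec4 u4)
    (by rw [← ipF_self, h41]) h4f
  have hdens : ∀ᵐ x : R3, density (n := 3) Ψ x = dens (toX4 (val u4)) x := hd
  refine ⟨Ψ, ⟨hn, fun Φ hΦ => ?_⟩, hdens, fun k => ?_, ?_⟩
  · have h1 : energy (vN ε A L) Ψ = E4 := by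
      rw [he _ (fbd_vN 4 ε A L) (fun σ x => vN_perm ε A L σ x), ← qe_self, h4e, h41, mul_one]
    have h2 : ∀ f g, HN f g → Sec4 f → E4 * ∫ x, f x ^ 2 ≤ qN (vN ε A L) f g := by
      intro f g hf hs
      have h3 := h4g (mk hf hs.anti)
      have h4 : (ipF 4 S4 u4 (mk hf hs.anti)) ^ 2 ≤
          ipF 4 S4 (mk hf hs.anti) (mk hf hs.anti) := by
        have h5 := bf_cs (ipF_symm (N := 4) (S := S4)) ipF_nonneg u4 (mk hf hs.anti)
        rwa [h41, one_mul] at h5
      rw [qe_mk] at h3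
      have h6 : 0 ≤ γ * (ipF 4 S4 (mk hf hs.anti) (mk hf hs.anti)
          - (ipF 4 S4 u4 (mk hf hs.anti)) ^ 2) := mul_nonneg hγ.le (by linarith only [h4])
      rw [← ip_mk_self hf hs.anti]
      linarith only [h3, h6]
    have h3 := all_spins (fbd_vN 4 ε A L) (fun σ x => vN_perm ε A L σ x) h2 Φ
    rw [hΦ, mul_one] at h3
    rw [h1]
    exact h3
  · have h1 := dens_refl (refl_toX4 (h4s k))
    have h2 := (mp_refl k).quasiMeasurePreserving.ae hdens
    filter_upwards [h1, h2, hdens] with x a1 a2 a3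
    rw [a2, a1, a3]
  · have h1 : (sumPotential KD.v0 : Conf 4 → ℝ) = w0N := rfl
    rw [h1, he _ (fbd_w0N 4) (fun σ x => w0N_perm σ x), ← q0F_self]

/-- smallness conditions -/
theorem small_eps {K3 K4 B a3 a4 τ : ℝ} (hK3 : 0 ≤ K3) (hK4 : 0 ≤ K4) (hB : 0 ≤ B)
    (h3 : 0 ≤ a3) (h4 : 0 ≤ a4) (hτ : 0 < τ) :
    ∃ ε0 : ℝ, 0 < ε0 ∧ ∀ ε, 0 < ε → ε < ε0 → K4 * ε < 1 / 4 ∧ K3 * ε < 1 / 4 ∧
      ε * a3 + K3 * ε ^ 2 ≤ 1 / 72 ∧ ε * a3 + ε * a4 + K3 * ε ^ 2 + K4 * ε ^ 2 < τ ∧
      2 * (K4 * ε) + 2 * (K3 * ε) < τ ∧ 64 * (K4 * ε) ≤ τ ^ 2 ∧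
      ε * a4 + K4 * ε ^ 2 + ε * B ≤ τ := by
  obtain ⟨D, hD⟩ : ∃ D, D = K3 + K4 + a3 + a4 + B + 1 := ⟨_, rfl⟩
  have hD1 : 1 ≤ D := by linarith only [hK3, hK4, hB, h3, h4, hD]
  have hD0 : 0 < D := by linarith only [hK3, hK4, hB, h3, h4, hD]
  refine ⟨min (1 / (100 * D)) (min (τ / (4 * D)) (τ ^ 2 / (100 * D))), by (clear * - hD1 hτ; positivity), ?_⟩
  intro ε hε hlt
  have e1 : ε < 1 / (100 * D) := lt_of_lt_of_le hlt (min_le_left _ _)
  have e2 : ε < τ / (4 * D) := lt_of_lt_of_le hlt ((min_le_right _ _).trans (min_le_left _ _))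
  have e3 : ε < τ ^ 2 / (100 * D) :=
    lt_of_lt_of_le hlt ((min_le_right _ _).trans (min_le_right _ _))
  rw [lt_div_iff₀ (by positivity)] at e1 e2 e3
  have hεD : 0 < ε * D := by positivity
  have f1 : ε ≤ ε * D := by linarith only [mul_eq_zero_of_left (sub_eq_zero.2 hD) (ε - (0)), mul_nonneg (le_of_lt (sub_pos.2 hε)) (sub_nonneg.2 h4), mul_nonneg (le_of_lt (sub_pos.2 hε)) (sub_nonneg.2 h3), mul_nonneg (le_of_lt (sub_pos.2 hε)) (sub_nonneg.2 hB), mul_nonneg (le_of_lt (sub_pos.2 hε)) (sub_nonneg.2 hK4), mul_nonneg (sub_nonneg.2 hK3) (le_of_lt (sub_pos.2 hε))]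
  have f2 : ε ≤ 1 := by linarith only [e1, f1]
  have g3 : K3 * ε ≤ ε * D := by nlinarith only [hε, hK4, hB, h3, h4, hD]
  have g4 : K4 * ε ≤ ε * D := by nlinarith only [hε, hK3, hB, h3, h4, hD]
  have g34 : K3 * ε + K4 * ε ≤ ε * D := by nlinarith only [hε, hB, h3, h4, hD]
  have hs3 : K3 * ε ^ 2 ≤ K3 * ε := by
    have : K3 * ε * ε ≤ K3 * ε * 1 := mul_le_mul_of_nonneg_left f2 (by (clear * - hK3 hε; positivity))
    nlinarith only [this]
  have hs4 : K4 * ε ^ 2 ≤ K4 * ε := by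
    have : K4 * ε * ε ≤ K4 * ε * 1 := mul_le_mul_of_nonneg_left f2 (by (clear * - hK4 hε; positivity))
    nlinarith only [this]
  have hsum : ε * a3 + ε * a4 + K3 * ε + K4 * ε + ε * B + ε = ε * D := by rw [hD]; ring
  have p3 : 0 ≤ ε * a3 := by (clear * - hε h3; positivity)
  have p4 : 0 ≤ ε * a4 := by (clear * - hε h4; positivity)
  have p5 : 0 ≤ ε * B := by (clear * - hε hB; positivity)
  have p6 : 0 ≤ K3 * ε := by (clear * - hK3 hε; positivity)
  have p7 : 0 ≤ K4 * ε := by (clear * - hK4 hε; positivity)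
  refine ⟨?_, ?_, ?_, ?_, ?_, ?_, ?_⟩ <;> linarith

theorem bf_bound {Q : Type*} [NormedAddCommGroup Q] [InnerProductSpace ℝ Q] (w : BF Q) :
    ∃ B : ℝ, 0 ≤ B ∧ ∀ u, |w u u| ≤ B * (‖u‖ * ‖u‖) :=
  ⟨‖w‖, norm_nonneg w, fun u => (bf_le_norm w u u).trans (by rw [mul_assoc])⟩

theorem q0_bound {A L ε E4 w4 K4 B : ℝ} {u4 ψ4 : QS 4 S4} (hε : 0 < ε) (hB : 0 ≤ B)
    (hBw : ∀ u, |wpF 4 S4 A L u u| ≤ B * (‖u‖ * ‖u‖))
    (h41 : ipF 4 S4 u4 u4 = 1)
    (h4e : ∀ v, (q0F 4 S4 + ε • wpF 4 S4 A L) u4 v = E4 * ipF 4 S4 u4 v)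
    (hE : |E4 - (-(5 / 4) + ε * w4)| ≤ K4 * ε ^ 2) (hc : ‖u4 - ψ4‖ ^ 2 ≤ 1) :
    q0F 4 S4 u4 u4 ≤ -(5 / 4) + (ε * |w4| + K4 * ε ^ 2 +
      ε * (B * (‖ψ4‖ + 1) ^ 2)) := by
  have h1 : q0F 4 S4 u4 u4 + ε * wpF 4 S4 A L u4 u4 = E4 := by
    have h2 := h4e u4
    rw [h41, mul_one] at h2
    rw [← h2]
    rfl
  have h3 : |wpF 4 S4 A L u4 u4| ≤ B * (‖ψ4‖ + 1) ^ 2 := by
    refine (hBw u4).trans ?_
    have h4 : ‖u4 - ψ4‖ ≤ 1 := by
      have := norm_nonneg (u4 - ψ4)
      nlinarith only [hc]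
    have h5 : ‖u4‖ ≤ ‖ψ4‖ + 1 := by
      have h6 : u4 = ψ4 + (u4 - ψ4) := by abel
      calc ‖u4‖ = ‖ψ4 + (u4 - ψ4)‖ := by rw [← h6]
        _ ≤ ‖ψ4‖ + ‖u4 - ψ4‖ := norm_add_le _ _
        _ ≤ ‖ψ4‖ + 1 := by linarith only [h4]
    have h7 : ‖u4‖ * ‖u4‖ ≤ (‖ψ4‖ + 1) ^ 2 := by
      have := norm_nonneg u4
      linarith only [mul_nonneg (sub_nonneg.2 h5) (sub_nonneg.2 this), mul_nonneg (sub_nonneg.2 h5) (sub_nonneg.2 h5)]
    exact mul_le_mul_of_nonneg_left h7 hB
  have h4 := (abs_le.1 h3).1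
  have h5 := (abs_le.1 hE).2
  have h6 : ε * w4 ≤ ε * |w4| := mul_le_mul_of_nonneg_left (le_abs_self _) hε.le
  have h7 : -(ε * (B * (‖ψ4‖ + 1) ^ 2)) ≤ ε * wpF 4 S4 A L u4 u4 := by
    have := mul_le_mul_of_nonneg_left h4 hε.le
    linarith only [this]
  linarith only [h7, h6, h5, h1]

/-- BLOCK P (B1-B3): perturbation theory. -/
theorem perturbation : ∃ (A : ℕ) (R δ M c : ℝ) (q : Fin 4 → ℝ),
    0 < A ∧ 0 < R ∧ 0 < δ ∧ c ≠ 0 ∧ 0 < q 1 ∧ q 1 < 2 ∧
    ∀ τ : ℝ, 0 < τ → ∃ ε0 : ℝ, 0 < ε0 ∧ ∀ ε : ℝ, 0 < ε → ε < ε0 →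
      ∃ (E4 E3 : ℝ) (F : X4 → ℝ) (Fx : Fin 3 → X4 → ℝ) (Fy : Fin 3 → Fin 3 → X4 → ℝ)
        (Φ : Conf 3 → ℝ) (Φy : Fin 3 → Fin 3 → Conf 3 → ℝ) (Ψ : ElectronState 4),
        Sys A R ε δ M E4 E3 F Fx Fy Φ Φy ∧ |E3 - E4 - 1 / 8| < τ ∧
        (Integrable (fun x => (dys F Φ x - c * KD.chi 4 x) ^ 2) volume ∧
          ∫ x, (dys F Φ x - c * KD.chi 4 x) ^ 2 < τ) ∧
        IsGroundState (vN ε A R) Ψ ∧ (∀ᵐ x : R3, density (n := 3) Ψ x = dens F x) ∧
        (∀ k, ∀ᵐ x, density (n := 3) Ψ (refl k x) = density (n := 3) Ψ x) ∧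
        energy (sumPotential KD.v0) Ψ ≤ -(5 / 4) + τ ∧
        ∫ x, |density (n := 3) Ψ x - KD.n0 q x| ≤ τ := by
  obtain ⟨A, L, c, w4, w3, δ, hA, hL, hδ, hc, hc3, hc1, h4, h4', h3, h3'⟩ := finite_dim
  obtain ⟨ψ4, hψ4, hψ41, -, ε4, K4, hε4, hK4, hP4⟩ := pert4 hδ hc h4 h4'
  obtain ⟨ψ3, hψ3, -, -, ε3, K3, hε3, hK3, hP3⟩ := pert3 hδ h3 h3'
  obtain ⟨M, εm, hεm, hmom⟩ := moments (A : ℝ) L
  refine ⟨A, L, δ / 2, M, -(c 3 / √2), fun a => 2 * c a ^ 2, hA, hL, by positivity, ?_, ?_, ?_, ?_⟩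
  · have h2 : √(2 : ℝ) ≠ 0 := by positivity
    exact neg_ne_zero.2 (div_ne_zero hc3 h2)
  · have : 0 < c 1 ^ 2 := by positivity
    show 0 < 2 * c 1 ^ 2
    linarith only [this]
  · have h5 : 0 < c 3 ^ 2 := by (clear * - hc3; positivity)
    have h6 : ∑ a, c a ^ 2 = c 0 ^ 2 + c 1 ^ 2 + c 2 ^ 2 + c 3 ^ 2 := Fin.sum_univ_four _
    rw [hc] at h6
    show 2 * c 1 ^ 2 < 2
    nlinarith only [h5, h6]
  · intro τ hτ
    obtain ⟨B, hB, hBw⟩ := bf_bound (wpF 4 S4 (A : ℝ) L)
    obtain ⟨ε5, hε5, hsm⟩ := small_eps (B := B * (‖ψ4‖ + 1) ^ 2) hK3 hK4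
      (by (clear * - hB; positivity)) (abs_nonneg w3) (abs_nonneg w4) hτ
    refine ⟨min (min ε4 ε3) (min εm ε5), by (clear * - hε4 hε3 hεm hε5; positivity), ?_⟩
    intro ε hε hlt
    have l4 : ε ≤ ε4 := hlt.le.trans ((min_le_left _ _).trans (min_le_left _ _))
    have l3 : ε ≤ ε3 := hlt.le.trans ((min_le_left _ _).trans (min_le_right _ _))
    have lm : ε ≤ εm := hlt.le.trans ((min_le_right _ _).trans (min_le_left _ _))
    have l5 : ε < ε5 := lt_of_lt_of_le hlt ((min_le_right _ _).trans (min_le_right _ _))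
    obtain ⟨s1, s2, s3, s4, s5, s6, s7⟩ := hsm ε hε l5
    obtain ⟨u4, E4, a1, a2, a3, a4, a5⟩ := hP4 ε hε l4
    obtain ⟨u3, E3, b1, b2, b3, b4, b5⟩ := hP3 ε hε l3
    have hγ : 0 < ε * (δ / 2) := by (clear * - hε hδ; positivity)
    have m4 : MemLp (psi4 c) 2 volume := (memLp_congr_ae hψ4).1 (val_memLp ψ4)
    have m3 : MemLp (sh3 3) 2 volume := (memLp_congr_ae hψ3).1 (val_memLp ψ3)
    have c4 : ∫ x, (val u4 x - psi4 c x) ^ 2 < 1 / 4 :=
      lt_of_le_of_lt ((val_close u4 ψ4 hψ4).trans a2) s1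
    have c3 : ∫ x, (val u3 x - sh3 3 x) ^ 2 < 1 / 4 :=
      lt_of_le_of_lt ((val_close u3 ψ3 hψ3).trans b2) s2
    have h4s : ∀ k, ∀ᵐ x, val u4 (reflN k x) = val u4 x := fun k => by
      have h := sym_refl hγ a1 a5 a3 m4 c4 k (s := 1) (Or.inl rfl)
        (fun x => by rw [psi4_refl, one_mul])
      filter_upwards [h] with x hx
      rw [hx, one_mul]
    have h4f : ∀ᵐ x : Conf 4, val u4 (x ∘ flip4) ^ 2 = val u4 x ^ 2 :=
      sym_flip hγ a1 a5 a3 m4 c4 (fun x => psi4_flip c x)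
    have h3o : ∀ᵐ x, val u3 (reflN 2 x) = - val u3 x := by
      have h := sym_refl hγ b1 b5 b3 m3 c3 2 (s := -1) (Or.inr rfl)
        (fun x => by rw [sh3_refl2]; ring)
      filter_upwards [h] with x hx
      rw [hx]; ring
    have hE3 : |E3 + 9 / 8| ≤ ε * |w3| + K3 * ε ^ 2 := by
      have h5 : E3 + 9 / 8 = (E3 - (-(9 / 8) + ε * w3)) + ε * w3 := by ring
      have h6 : |ε * w3| = ε * |w3| := by rw [abs_mul, abs_of_pos hε]
      rw [h5]
      refine (abs_add_le _ _).trans ?_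
      rw [h6]
      linarith only [b4]
    have hE4 : |E4 + 5 / 4| ≤ ε * |w4| + K4 * ε ^ 2 := by
      have h5 : E4 + 5 / 4 = (E4 - (-(5 / 4) + ε * w4)) + ε * w4 := by ring
      have h6 : |ε * w4| = ε * |w4| := by rw [abs_mul, abs_of_pos hε]
      rw [h5]
      refine (abs_add_le _ _).trans ?_
      rw [h6]
      linarith only [a4]
    obtain ⟨hmi, hm⟩ := hmom ε E3 (val u3) (grd u3) hε lm (hE3.trans s3) (val_HN u3)
      (val_Sec3 u3) (by rw [← ipF_self, b1]) (eq_all3 b3)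
    obtain ⟨Ψ, g1, g2, g3, g4⟩ := state_of hγ a1 a5 a3 h4s h4f
    obtain ⟨d1, d2⟩ := dys_of (u4 := u4) (u3 := u3) hψ4 hψ41 hψ3 b1
    refine ⟨E4, E3, toX4 (val u4), fun k => toX4 (grd u4 0 k),
      fun i k => toX4 (grd u4 (Fin.succ i) k), val u3, grd u3, Ψ,
      sys_of a1 a3 h4s b1 b3 h3o b5 hmi hm, ?_, ⟨d1, ?_⟩, g1, g2, g3, ?_, ?_⟩
    · have h5 : E3 - E4 - 1 / 8 = (E3 + 9 / 8) - (E4 + 5 / 4) := by ring
      rw [h5]
      refine lt_of_le_of_lt (abs_sub _ _) ?_
      linarith only [s4, hE3, hE4]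
    · exact lt_of_le_of_lt (d2.trans (by linarith only [a2, b2])) s5
    · rw [g4]
      have h5 := q0_bound hε hB hBw a1 a3 a4 (ψ4 := ψ4) (by linarith only [s1, a2])
      linarith only [s7, h5]
    · have h5 : ∫ x, |density (n := 3) Ψ x - KD.n0 (fun a => 2 * c a ^ 2) x|
          = ∫ x, |dens (toX4 (val u4)) x - KD.n0 (fun a => 2 * c a ^ 2) x| := by
        refine integral_congr_ae ?_
        filter_upwards [g2] with x hx
        rw [hx]
      rw [h5]
      refine (dens_of hc hψ4 hψ41 a1).trans ?_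
      have h6 : (8 * ‖u4 - ψ4‖) ^ 2 ≤ τ ^ 2 := by
        rw [mul_pow]
        linarith only [s6, a2]
      exact abs_le_of_sq_le_sq' h6 hτ.le |>.2

end

end Vale.Agent.P363.D
end
end

section

section

/-! # P363, exact side: the energy identity of the orthogonal part -/

namespace Vale.Agent.P363.D

open MeasureTheory Set Filter Topology
open scoped ENNReal ContDiff

noncomputable section

variable {F : X4 → ℝ} {Φ : Conf 3 → ℝ}
variable {A R ε δ M E4 E3 : ℝ} {Fx : Fin 3 → X4 → ℝ} {Fy : Fin 3 → Fin 3 → X4 → ℝ}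
  {Φy : Fin 3 → Fin 3 → Conf 3 → ℝ}

/-- The `y`-part and potential part of the energy density of `F` tested with `P`. -/
def e9bG (ε A R E4 : ℝ) (F : X4 → ℝ) (Fy : Fin 3 → Fin 3 → X4 → ℝ) (Φ : Conf 3 → ℝ)
    (Φy : Fin 3 → Fin 3 → Conf 3 → ℝ) (p : X4) : ℝ :=
  (1 / 2) * (∑ i, ∑ k, Fy i k p * Pfy F Fy Φ Φy i k p) + (vX ε A R p - E4) * (F p * Pf F Φ p)

/-- Integral of a double finite sum. -/
theorem e9b_sum {α : Type*} [MeasurableSpace α] {μ : Measure α}
    {f : Fin 3 → Fin 3 → α → ℝ} (h : ∀ i k, Integrable (f i k) μ) :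
    Integrable (fun y => ∑ i, ∑ k, f i k y) μ ∧
      ∫ y, ∑ i, ∑ k, f i k y ∂μ = ∑ i, ∑ k, ∫ y, f i k y ∂μ := by
  have h1 : ∀ i, Integrable (fun y => ∑ k, f i k y) μ := fun i =>
    integrable_finsetSum _ fun k _ => h i k
  refine ⟨integrable_finsetSum _ fun i _ => h1 i, ?_⟩
  rw [integral_finsetSum _ fun i _ => h1 i]
  refine Finset.sum_congr rfl fun i _ => ?_
  rw [integral_finsetSum _ fun k _ => h i k]

/-- The identity on the slices. -/
theorem Sys.e9b_slice (hS : Sys A R ε δ M E4 E3 F Fx Fy Φ Φy) :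
    ∀ᵐ x : R3, ∫ y, e9bG ε A R E4 F Fy Φ Φy (x, y) =
      cen ε A R (Pf F Φ) (Pfy F Fy Φ Φy) x + (v1 ε A R x - E4) * nsq (Pf F Φ) x +
        dys F Φ x * Sf ε F Φ x := by
  have hP := hS.P_HX
  have hΦ := hS.Φ_H1
  filter_upwards [hP.slice, Pf_orth hS.F_H1.memLp hS.Φ_H1.memLp hS.Φ_norm] with x hx ho
  have hb := hS.Φ_eq _ _ hx
  obtain ⟨d, hd⟩ : ∃ d, d = dys F Φ x := ⟨_, rfl⟩
  obtain ⟨P, hPd⟩ : ∃ P : Conf 3 → ℝ, P = fun y => Pf F Φ (x, y) := ⟨_, rfl⟩
  obtain ⟨Py, hPyd⟩ : ∃ Py : Fin 3 → Fin 3 → Conf 3 → ℝ,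
    Py = fun i k y => Pfy F Fy Φ Φy i k (x, y) := ⟨_, rfl⟩
  rw [← hPd, ← hPyd] at hx hb
  have ho' : ∫ y, Φ y * P y = 0 := by rw [hPd]; exact ho
  -- integrable pieces
  have i1 : ∀ i k, Integrable (fun y => Py i k y ^ 2) volume := fun i k =>
    (hx.memLp' i k).integrable_sq
  have i2 : ∀ i k, Integrable (fun y => Φy i k y * Py i k y) volume := fun i k =>
    (hΦ.memLp' i k).integrable_mul (hx.memLp' i k)
  have i3 : Integrable (fun y => vN ε A R y * (P y * P y)) volume := hx.int_vN hx ε A R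
  have i4 : Integrable (fun y => vN ε A R y * (Φ y * P y)) volume := hΦ.int_vN hx ε A R
  have i5 : Integrable (fun y => rep x y * (P y * P y)) volume := hx.int_rep hx x
  have i6 : Integrable (fun y => rep x y * (Φ y * P y)) volume := hΦ.int_rep hx x
  have i7 : Integrable (fun y => P y ^ 2) volume := hx.memLp.integrable_sq
  have i8 : Integrable (fun y => Φ y * P y) volume := hΦ.memLp.integrable_mul hx.memLp
  have s1 := e9b_sum i1
  have s2 := e9b_sum i2
  -- the integrand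
  have e : ∀ y, e9bG ε A R E4 F Fy Φ Φy (x, y) =
      (1 / 2) * (∑ i, ∑ k, Py i k y ^ 2) + (d * (1 / 2)) * (∑ i, ∑ k, Φy i k y * Py i k y) +
      (vN ε A R y * (P y * P y) + d * (vN ε A R y * (Φ y * P y))) +
      (ε * (rep x y * (P y * P y)) + (d * ε) * (rep x y * (Φ y * P y))) +
      ((v1 ε A R x - E4) * P y ^ 2 + (d * (v1 ε A R x - E4)) * (Φ y * P y)) := by
    intro y
    have a1 : ∀ i k, Fy i k (x, y) = Py i k y + d * Φy i k y := by
      intro i k
      rw [hPyd, hd]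
      simp only [Pfy]
      ring
    have a2 : F (x, y) = P y + d * Φ y := by
      rw [hPd, hd]
      simp only [Pf]
      ring
    have a3 : ∀ i k, Pfy F Fy Φ Φy i k (x, y) = Py i k y := by
      intro i k
      rw [hPyd]
    have a4 : Pf F Φ (x, y) = P y := by rw [hPd]
    unfold e9bG vX
    simp only [a1, a3, a4]
    rw [a2]
    have a5 : ∑ i, ∑ k, (Py i k y + d * Φy i k y) * Py i k y =
        (∑ i, ∑ k, Py i k y ^ 2) + d * ∑ i, ∑ k, Φy i k y * Py i k y := by
      rw [Finset.mul_sum, ← Finset.sum_add_distrib]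
      refine Finset.sum_congr rfl fun i _ => ?_
      rw [Finset.mul_sum, ← Finset.sum_add_distrib]
      refine Finset.sum_congr rfl fun k _ => ?_
      ring
    rw [a5]
    ring
  simp only [e]
  have j1 : Integrable (fun y => (1 / 2) * (∑ i, ∑ k, Py i k y ^ 2)) volume :=
    s1.1.const_mul _
  have j2 : Integrable (fun y => (d * (1 / 2)) * (∑ i, ∑ k, Φy i k y * Py i k y)) volume :=
    s2.1.const_mul _
  have j4 : Integrable (fun y => d * (vN ε A R y * (Φ y * P y))) volume := i4.const_mul _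
  have j5 : Integrable (fun y => ε * (rep x y * (P y * P y))) volume := i5.const_mul _
  have j6 : Integrable (fun y => (d * ε) * (rep x y * (Φ y * P y))) volume := i6.const_mul _
  have j7 : Integrable (fun y => (v1 ε A R x - E4) * P y ^ 2) volume := i7.const_mul _
  have j8 : Integrable (fun y => (d * (v1 ε A R x - E4)) * (Φ y * P y)) volume := i8.const_mul _
  have k1 : Integrable (fun y => (1 / 2) * (∑ i, ∑ k, Py i k y ^ 2) +
      (d * (1 / 2)) * (∑ i, ∑ k, Φy i k y * Py i k y)) volume := j1.add j2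
  have k2 : Integrable (fun y => vN ε A R y * (P y * P y) +
      d * (vN ε A R y * (Φ y * P y))) volume := i3.add j4
  have k3 : Integrable (fun y => ε * (rep x y * (P y * P y)) +
      (d * ε) * (rep x y * (Φ y * P y))) volume := j5.add j6
  have k4 : Integrable (fun y => (v1 ε A R x - E4) * P y ^ 2 +
      (d * (v1 ε A R x - E4)) * (Φ y * P y)) volume := j7.add j8
  have k12 : Integrable (fun y => (1 / 2) * (∑ i, ∑ k, Py i k y ^ 2) +
      (d * (1 / 2)) * (∑ i, ∑ k, Φy i k y * Py i k y) + (vN ε A R y * (P y * P y) +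
      d * (vN ε A R y * (Φ y * P y)))) volume := k1.add k2
  have k123 : Integrable (fun y => (1 / 2) * (∑ i, ∑ k, Py i k y ^ 2) +
      (d * (1 / 2)) * (∑ i, ∑ k, Φy i k y * Py i k y) + (vN ε A R y * (P y * P y) +
      d * (vN ε A R y * (Φ y * P y))) + (ε * (rep x y * (P y * P y)) +
      (d * ε) * (rep x y * (Φ y * P y)))) volume := k12.add k3
  rw [integral_add k123 k4, integral_add k12 k3, integral_add k1 k2, integral_add j1 j2,
    integral_add i3 j4, integral_add j5 j6, integral_add j7 j8]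
  simp only [integral_const_mul]
  rw [s1.2, s2.2, ho']
  -- the right-hand side
  have r1 : cen ε A R (Pf F Φ) (Pfy F Fy Φ Φy) x = (1 / 2) * (∑ i, ∑ k, ∫ y, Py i k y ^ 2) +
      ((∫ y, vN ε A R y * (P y * P y)) + ε * ∫ y, rep x y * (P y * P y)) := by
    unfold cen qN
    rw [← integral_const_mul, ← integral_add i3 j5, hPyd, hPd]
    congr 1
    refine integral_congr_ae (Eventually.of_forall fun y => ?_)
    simp only
    ring
  have r2 : nsq (Pf F Φ) x = ∫ y, P y ^ 2 := by rw [hPd]; rfl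
  have r3 : Sf ε F Φ x = ε * ∫ y, rep x y * (Φ y * P y) := by rw [hPd]; rfl
  have r4 : (1 / 2) * (∑ i, ∑ k, ∫ y, Φy i k y * Py i k y) +
      ∫ y, vN ε A R y * (Φ y * P y) = 0 := by
    unfold bN at hb
    have e2 : ∀ y, (vN ε A R y - E3) * (Φ y * P y) =
        vN ε A R y * (Φ y * P y) - E3 * (Φ y * P y) := fun y => by ring
    simp only [e2] at hb
    rw [integral_sub i4 (i8.const_mul _), integral_const_mul, ho'] at hb
    linarith only [hb]
  rw [r1, r2, r3, ← hd]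
  linear_combination d * r4

/-- The equation tested with `g(x) P`. -/
theorem Sys.P_identity (hS : Sys A R ε δ M E4 E3 F Fx Fy Φ Φy) {g : R3 → ℝ}
    {gg : Fin 3 → R3 → ℝ} {C : ℝ}
    (hg : ∀ k, ACL volume (dir3 k) g (gg k)) (hb : ∀ᵐ x : R3, |g x| ≤ C)
    (hgg : ∀ k, MemLp (fun x => gg k x * nrm (Pf F Φ) x) 2 volume) :
    (∀ k, Integrable (fun x => gg k x * ipy (Pf F Φ) (Pf (Fx k) Φ) x) volume) ∧
    (1 / 2) * (∑ k, ∫ x, gg k x * ipy (Pf F Φ) (Pf (Fx k) Φ) x) +
      (1 / 2) * (∑ k, ∫ x, g x * nsq (Pf (Fx k) Φ) x) +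
      (∫ x, g x * (cen ε A R (Pf F Φ) (Pfy F Fy Φ Φy) x + (v1 ε A R x - E4) * nsq (Pf F Φ) x)) +
      ∫ x, g x * (dys F Φ x * Sf ε F Φ x) = 0 := by
  have hP := hS.P_HX
  have hF := hS.F_H1
  have hΦ := hS.Φ_H1
  have hH := hP.gmul hg hb hgg
  -- multiplication by `g`
  have mg : AEStronglyMeasurable (fun p : X4 => g p.1) volume :=
    (hg 0).meas.comp_quasiMeasurePreserving e4_qmp_fst
  have hb' : ∀ᵐ p : X4, |g p.1| ≤ C := e4_qmp_fst.ae hb
  have hbd : ∀ {w : X4 → ℝ}, MemLp w 2 volume → MemLp (fun p : X4 => g p.1 * w p) 2 volume := by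
    intro w hw
    refine hw.of_le_mul (c := C) (mg.mul hw.1) ?_
    filter_upwards [hb'] with p hp
    rw [norm_mul]
    exact mul_le_mul_of_nonneg_right hp (norm_nonneg _)
  have hggP : ∀ k, MemLp (fun p : X4 => gg k p.1 * Pf F Φ p) 2 volume := by
    intro k
    have h1 : MemLp (fun p : X4 => (gg k p.1 * Pf F Φ p + g p.1 * Pf (Fx k) Φ p) -
      g p.1 * Pf (Fx k) Φ p) 2 volume := (hH.memLpx k).sub (hbd (hP.memLpx k))
    have e : (fun p : X4 => (gg k p.1 * Pf F Φ p + g p.1 * Pf (Fx k) Φ p) -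
      g p.1 * Pf (Fx k) Φ p) = fun p : X4 => gg k p.1 * Pf F Φ p := by
      funext p
      ring
    rwa [e] at h1
  have t1 : ∀ k, Integrable (fun p : X4 => gg k p.1 * (Fx k p * Pf F Φ p)) volume := by
    intro k
    have h1 : Integrable (fun p : X4 => Fx k p * (gg k p.1 * Pf F Φ p)) volume :=
      (hF.memLpx k).integrable_mul (hggP k)
    have e : (fun p : X4 => Fx k p * (gg k p.1 * Pf F Φ p)) =
        fun p : X4 => gg k p.1 * (Fx k p * Pf F Φ p) := by
      funext p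
      ring
    rwa [e] at h1
  have t2 : ∀ k, Integrable (fun p : X4 => g p.1 * (Fx k p * Pf (Fx k) Φ p)) volume := by
    intro k
    have h1 : Integrable (fun p : X4 => Fx k p * (g p.1 * Pf (Fx k) Φ p)) volume :=
      (hF.memLpx k).integrable_mul (hbd (hP.memLpx k))
    have e : (fun p : X4 => Fx k p * (g p.1 * Pf (Fx k) Φ p)) =
        fun p : X4 => g p.1 * (Fx k p * Pf (Fx k) Φ p) := by
      funext p
      ring
    rwa [e] at h1
  -- the `x`-part
  have f1 := fun k => fubini_fst (gg k) (t1 k)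
  have f2 := fun k => fubini_fst g (t2 k)
  have n1 : ∀ k, (fun x => gg k x * ∫ y, Fx k (x, y) * Pf F Φ (x, y)) =ᵐ[volume]
      fun x => gg k x * ipy (Pf F Φ) (Pf (Fx k) Φ) x := by
    intro k
    filter_upwards [ipy_split (hF.memLpx k) hF.memLp hΦ.memLp hS.Φ_norm] with x hx
    have h1 : ∫ y, Fx k (x, y) * Pf F Φ (x, y) = ipy (Pf F Φ) (Pf (Fx k) Φ) x := by
      have h2 := hx.2
      unfold ipy at h2 ⊢
      rw [h2]
      refine integral_congr_ae (Eventually.of_forall fun y => ?_)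
      exact mul_comm _ _
    rw [h1]
  have n2 : ∀ k, (fun x => g x * ∫ y, Fx k (x, y) * Pf (Fx k) Φ (x, y)) =ᵐ[volume]
      fun x => g x * nsq (Pf (Fx k) Φ) x := by
    intro k
    filter_upwards [ipy_split (hF.memLpx k) (hF.memLpx k) hΦ.memLp hS.Φ_norm] with x hx
    have h1 : ∫ y, Fx k (x, y) * Pf (Fx k) Φ (x, y) = nsq (Pf (Fx k) Φ) x := by
      have h2 := hx.2
      unfold ipy at h2
      unfold nsq
      rw [h2]
      refine integral_congr_ae (Eventually.of_forall fun y => ?_)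
      exact (sq _).symm
    rw [h1]
  have x1 : ∀ k, ∫ p : X4, Fx k p * (gg k p.1 * Pf F Φ p + g p.1 * Pf (Fx k) Φ p) =
      (∫ x, gg k x * ipy (Pf F Φ) (Pf (Fx k) Φ) x) + ∫ x, g x * nsq (Pf (Fx k) Φ) x := by
    intro k
    have e : ∀ p : X4, Fx k p * (gg k p.1 * Pf F Φ p + g p.1 * Pf (Fx k) Φ p) =
      gg k p.1 * (Fx k p * Pf F Φ p) + g p.1 * (Fx k p * Pf (Fx k) Φ p) := fun p => by ring
    simp only [e]
    rw [integral_add (t1 k) (t2 k), (f1 k).2, (f2 k).2, integral_congr_ae (n1 k),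
      integral_congr_ae (n2 k)]
  refine ⟨fun k => (f1 k).1.congr (n1 k), ?_⟩
  -- the `y`-part and the potential part
  have t3 : ∀ i k, Integrable (fun p : X4 => Fy i k p * (g p.1 * Pfy F Fy Φ Φy i k p)) volume :=
    fun i k => (hF.memLpy i k).integrable_mul (hH.memLpy i k)
  have t4 : Integrable (fun p : X4 => v1 ε A R p.1 * (F p * (g p.1 * Pf F Φ p))) volume :=
    hF.int_v1 hH ε A R
  have t5 : Integrable (fun p : X4 => vN ε A R p.2 * (F p * (g p.1 * Pf F Φ p))) volume :=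
    hF.int_vN hH ε A R
  have t6 : Integrable (fun p : X4 => rep p.1 p.2 * (F p * (g p.1 * Pf F Φ p))) volume :=
    hF.int_rep hH
  have t7 : Integrable (fun p : X4 => F p * (g p.1 * Pf F Φ p)) volume :=
    hF.memLp.integrable_mul hH.memLp
  have t8 : Integrable (fun p : X4 => (vX ε A R p - E4) * F p * (g p.1 * Pf F Φ p)) volume := by
    have h1 : Integrable (fun p : X4 => v1 ε A R p.1 * (F p * (g p.1 * Pf F Φ p)) +
        vN ε A R p.2 * (F p * (g p.1 * Pf F Φ p)) +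
        ε * (rep p.1 p.2 * (F p * (g p.1 * Pf F Φ p))) -
        E4 * (F p * (g p.1 * Pf F Φ p))) volume :=
      ((t4.add t5).add (t6.const_mul ε)).sub (t7.const_mul E4)
    have e : (fun p : X4 => v1 ε A R p.1 * (F p * (g p.1 * Pf F Φ p)) +
        vN ε A R p.2 * (F p * (g p.1 * Pf F Φ p)) +
        ε * (rep p.1 p.2 * (F p * (g p.1 * Pf F Φ p))) -
        E4 * (F p * (g p.1 * Pf F Φ p))) =
        fun p : X4 => (vX ε A R p - E4) * F p * (g p.1 * Pf F Φ p) := by
      funext p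
      unfold vX
      ring
    rwa [e] at h1
  have s3 := e9b_sum t3
  have eG : (fun p : X4 => (1 / 2) * (∑ i, ∑ k, Fy i k p * (g p.1 * Pfy F Fy Φ Φy i k p)) +
      (vX ε A R p - E4) * F p * (g p.1 * Pf F Φ p)) =
      fun p : X4 => g p.1 * e9bG ε A R E4 F Fy Φ Φy p := by
    funext p
    unfold e9bG
    have e1 : ∑ i, ∑ k, Fy i k p * (g p.1 * Pfy F Fy Φ Φy i k p) =
        g p.1 * ∑ i, ∑ k, Fy i k p * Pfy F Fy Φ Φy i k p := by
      rw [Finset.mul_sum]
      refine Finset.sum_congr rfl fun i _ => ?_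
      rw [Finset.mul_sum]
      refine Finset.sum_congr rfl fun k _ => ?_
      ring
    rw [e1]
    ring
  have j1 : Integrable (fun p : X4 => (1 / 2) *
      (∑ i, ∑ k, Fy i k p * (g p.1 * Pfy F Fy Φ Φy i k p))) volume := s3.1.const_mul _
  have hGi : Integrable (fun p : X4 => g p.1 * e9bG ε A R E4 F Fy Φ Φy p) volume := by
    rw [← eG]
    exact j1.add t8
  have hG : ∫ p : X4, g p.1 * e9bG ε A R E4 F Fy Φ Φy p =
      (1 / 2) * (∑ i, ∑ k, ∫ p : X4, Fy i k p * (g p.1 * Pfy F Fy Φ Φy i k p)) +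
      ∫ p : X4, (vX ε A R p - E4) * F p * (g p.1 * Pf F Φ p) := by
    rw [← eG, integral_add j1 t8, integral_const_mul, s3.2]
  have fub := fubini_fst g hGi
  have n3 : (fun x => g x * ∫ y, e9bG ε A R E4 F Fy Φ Φy (x, y)) =ᵐ[volume]
      fun x => g x * (cen ε A R (Pf F Φ) (Pfy F Fy Φ Φy) x +
        (v1 ε A R x - E4) * nsq (Pf F Φ) x) + g x * (dys F Φ x * Sf ε F Φ x) := by
    filter_upwards [hS.e9b_slice] with x hx
    rw [hx]
    ring
  have m1 : Integrable (fun x => g x * (cen ε A R (Pf F Φ) (Pfy F Fy Φ Φy) x +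
        (v1 ε A R x - E4) * nsq (Pf F Φ) x)) volume := by
    have h1 : Integrable (fun x => cen ε A R (Pf F Φ) (Pfy F Fy Φ Φy) x +
        (v1 ε A R x * nsq (Pf F Φ) x - E4 * nsq (Pf F Φ) x)) volume :=
      (hP.cen_integrable ε A R).add ((hP.v1_nsq_integrable ε A R).sub
        ((nsq_integrable hP.memLp).1.const_mul E4))
    have e : (fun x => cen ε A R (Pf F Φ) (Pfy F Fy Φ Φy) x +
        (v1 ε A R x * nsq (Pf F Φ) x - E4 * nsq (Pf F Φ) x)) =
        fun x => cen ε A R (Pf F Φ) (Pfy F Fy Φ Φy) x + (v1 ε A R x - E4) * nsq (Pf F Φ) x := by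
      funext x
      ring
    rw [e] at h1
    exact h1.bdd_mul (hg 0).meas hb
  have m3 := fub.1.congr n3
  have m2 : Integrable (fun x => g x * (dys F Φ x * Sf ε F Φ x)) volume := by
    have h1 := m3.sub m1
    refine h1.congr (Eventually.of_forall fun x => ?_)
    simp only [Pi.sub_apply]
    ring
  have hfin : ∫ p : X4, g p.1 * e9bG ε A R E4 F Fy Φ Φy p =
      (∫ x, g x * (cen ε A R (Pf F Φ) (Pfy F Fy Φ Φy) x +
        (v1 ε A R x - E4) * nsq (Pf F Φ) x)) + ∫ x, g x * (dys F Φ x * Sf ε F Φ x) := by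
    rw [fub.2, integral_congr_ae n3, integral_add m1 m2]
  have heq := hS.F_eq _ _ _ hH
  simp only [x1] at heq
  rw [Finset.sum_add_distrib] at heq
  linarith only [heq, hG, hfin]

end

end Vale.Agent.P363.D
end
end

section

section

/-! # P363, exact side: the differential inequality for the orthogonal part -/

namespace Vale.Agent.P363.D

open MeasureTheory Set Filter Topology
open scoped ENNReal ContDiff

noncomputable section

variable {F : X4 → ℝ} {Φ : Conf 3 → ℝ}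
variable {A R ε δ M E4 E3 : ℝ} {Fx : Fin 3 → X4 → ℝ} {Fy : Fin 3 → Fin 3 → X4 → ℝ}
  {Φy : Fin 3 → Fin 3 → Conf 3 → ℝ}

/-- The cross term of the energy is integrable. -/
theorem Sys.E11_dSf (hS : Sys A R ε δ M E4 E3 F Fx Fy Φ Φy) (hε : 0 ≤ ε) :
    Integrable (fun x => dys F Φ x * Sf ε F Φ x) volume := by
  have hu := hS.P_HX
  have hd := hS.dys_H1
  obtain ⟨hSm, hSb⟩ := hS.Sf_bound hε
  have hn := nrm_memLp hu.memLp
  have h1 : Integrable (fun x => ε * (6 * √M) * (dys F Φ x * nrm (Pf F Φ) x)) volume :=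
    (hd.memLp.integrable_mul hn).const_mul _
  refine h1.mono (hd.memLp.1.mul hSm) ?_
  filter_upwards [hSb] with x hx
  have e0 : 0 ≤ ε * (6 * √M) := mul_nonneg hε (by (clear * -; positivity))
  rw [Real.norm_eq_abs, Real.norm_eq_abs, abs_mul (dys F Φ x) (Sf ε F Φ x),
    abs_mul (ε * (6 * √M)), abs_mul (dys F Φ x) (nrm (Pf F Φ) x), abs_of_nonneg e0,
    abs_of_nonneg (nrm_nonneg _ x)]
  calc |dys F Φ x| * |Sf ε F Φ x| ≤ |dys F Φ x| * (ε * (6 * √M) * nrm (Pf F Φ) x) :=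
        mul_le_mul_of_nonneg_left hx.1 (abs_nonneg _)
    _ = ε * (6 * √M) * (|dys F Φ x| * nrm (Pf F Φ) x) := by ring

theorem Sys.kato_P (hS : Sys A R ε δ M E4 E3 F Fx Fy Φ Φy) (hε : 0 < ε) {ρ : ℝ} (hρ : 1 ≤ ρ)
    {h : R3 → ℝ} {hg : Fin 3 → R3 → ℝ} (hh : Test ρ h hg) (h0 : ∀ᵐ x : R3, 0 ≤ h x) :
    (1 / 2) * (∑ k, ∫ x, nrmg (Pf F Φ) (fun k => Pf (Fx k) Φ) k x * hg k x) +
      ∫ x, (E3 - E4 + ε * δ + v1 ε A R x) * nrm (Pf F Φ) x * h x ≤
      ∫ x, ε * (21 * √M) / ‖x‖ ^ 2 * |dys F Φ x| * h x := by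
  have hu := hS.P_HX
  have hd := hS.dys_H1
  have hn := nrm_memLp hu.memLp
  obtain ⟨hSm, hSb⟩ := hS.Sf_bound hε.le
  obtain ⟨B0, hB0⟩ := hh.bdd
  have hdS := hS.E11_dSf hε.le
  have hcen := hu.cen_integrable ε A R
  have hns := (nsq_integrable hu.memLp).1
  have hv1 := hu.v1_nsq_integrable ε A R
  have hvE : Integrable (fun x => (v1 ε A R x - E4) * nsq (Pf F Φ) x) volume := by
    refine (hv1.sub (hns.const_mul E4)).congr (Eventually.of_forall fun x => ?_)
    simp only [Pi.sub_apply]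
    ring
  have hB1 : Integrable (fun x => cen ε A R (Pf F Φ) (Pfy F Fy Φ Φy) x
      + (v1 ε A R x - E4) * nsq (Pf F Φ) x) volume := hcen.add hvE
  have hBi : Integrable (fun x => cen ε A R (Pf F Φ) (Pfy F Fy Φ Φy) x
      + (v1 ε A R x - E4) * nsq (Pf F Φ) x + dys F Φ x * Sf ε F Φ x) volume := hB1.add hdS
  -- the two integrals of the conclusion
  have hI1 : Integrable (fun x => (E3 - E4 + ε * δ + v1 ε A R x) * nrm (Pf F Φ) x * h x)
      volume := by
    have a1 : Integrable (fun x => (E3 - E4 + ε * δ) * (nrm (Pf F Φ) x * h x)) volume :=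
      (hn.integrable_mul hh.H1.memLp).const_mul _
    have a2 := H1o.int_v1 hu.norm.1 hh.H1 ε A R
    refine (a1.add a2).congr (Eventually.of_forall fun x => ?_)
    simp only [Pi.add_apply]
    ring
  have hI2 : Integrable (fun x : R3 => ε * (21 * √M) / ‖x‖ ^ 2 * |dys F Φ x| * h x) volume := by
    have a1 : Integrable (fun x => ε * (21 * √M) * (dys F Φ x * h x)) volume :=
      (hd.memLp.integrable_mul hh.H1.memLp).const_mul _
    refine a1.mono ?_ ?_
    · have m1 : Measurable (fun x : R3 => ε * (21 * √M) / ‖x‖ ^ 2) := by fun_prop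
      have m2 : AEStronglyMeasurable (fun x => |dys F Φ x|) volume := hd.memLp.1.norm
      exact (m1.aestronglyMeasurable.mul m2).mul hh.H1.memLp.1
    · filter_upwards [hh.zero] with x hx
      have e0 : 0 ≤ ε * (21 * √M) := by (clear * - hε; positivity)
      by_cases hxr : ‖x‖ ≤ ρ
      · rw [hx hxr]
        simp only [mul_zero, norm_zero, Std.le_refl]
      · have hx1 : 1 ≤ ‖x‖ ^ 2 := by
          have : 1 ≤ ‖x‖ := by linarith only [hρ, hxr]
          nlinarith only [hρ, hxr]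
        rw [Real.norm_eq_abs, Real.norm_eq_abs, abs_mul _ (h x), abs_mul _ |dys F Φ x|,
          abs_mul (ε * (21 * √M)), abs_mul (dys F Φ x) (h x), abs_abs,
          abs_of_nonneg e0, abs_of_nonneg (div_nonneg e0 (sq_nonneg _)), mul_assoc]
        exact mul_le_mul_of_nonneg_right (div_le_self e0 hx1) (by (clear * -; positivity))
  have hbi : Integrable (fun x : R3 => ((E3 - E4 + ε * δ + v1 ε A R x) * nrm (Pf F Φ) x
      - ε * (21 * √M) / ‖x‖ ^ 2 * |dys F Φ x|) * h x) volume := by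
    refine (hI1.sub hI2).congr (Eventually.of_forall fun x => ?_)
    simp only [Pi.sub_apply]
    ring
  have key := kato_abstract (u := Pf F Φ) (ux := fun k => Pf (Fx k) Φ) (uy := Pfy F Fy Φ Φy)
    hu hh.H1 h0 hB0
    (B := fun x => cen ε A R (Pf F Φ) (Pfy F Fy Φ Φy) x
      + (v1 ε A R x - E4) * nsq (Pf F Φ) x + dys F Φ x * Sf ε F Φ x)
    (b := fun x => (E3 - E4 + ε * δ + v1 ε A R x) * nrm (Pf F Φ) x
      - ε * (21 * √M) / ‖x‖ ^ 2 * |dys F Φ x|) ?_ hBi hbi ?_ ?_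
  · have es : ∫ x, ((E3 - E4 + ε * δ + v1 ε A R x) * nrm (Pf F Φ) x
        - ε * (21 * √M) / ‖x‖ ^ 2 * |dys F Φ x|) * h x
        = (∫ x, (E3 - E4 + ε * δ + v1 ε A R x) * nrm (Pf F Φ) x * h x)
          - ∫ x, ε * (21 * √M) / ‖x‖ ^ 2 * |dys F Φ x| * h x := by
      rw [← integral_sub hI1 hI2]
      refine integral_congr_ae (Eventually.of_forall fun x => ?_)
      simp only
      ring
    simp only [es] at key
    linarith only [key]
  · intro τ hτ
    obtain ⟨w1, w2, w3⟩ := kato_weight hu hh.H1 hB0 hτ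
    obtain ⟨-, hid⟩ := hS.P_identity w1 w2 w3
    have mk : AEStronglyMeasurable (kw (Pf F Φ) h τ) volume := by
      have m1 : AEStronglyMeasurable (fun x => √(nsq (Pf F Φ) x + τ ^ 2)) volume :=
        (Real.continuous_sqrt.comp (continuous_id.add continuous_const)).comp_aestronglyMeasurable
          hns.1
      have m2 : AEMeasurable (fun x => h x / √(nsq (Pf F Φ) x + τ ^ 2)) volume :=
        hh.H1.memLp.1.aemeasurable.div m1.aemeasurable
      exact m2.aestronglyMeasurable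
    have i1 : Integrable (fun x => kw (Pf F Φ) h τ x * (cen ε A R (Pf F Φ) (Pfy F Fy Φ Φy) x
        + (v1 ε A R x - E4) * nsq (Pf F Φ) x)) volume := hB1.bdd_mul mk w2
    have i2 : Integrable (fun x => kw (Pf F Φ) h τ x * (dys F Φ x * Sf ε F Φ x)) volume :=
      hdS.bdd_mul mk w2
    have es : ∫ x, kw (Pf F Φ) h τ x * (cen ε A R (Pf F Φ) (Pfy F Fy Φ Φy) x
        + (v1 ε A R x - E4) * nsq (Pf F Φ) x + dys F Φ x * Sf ε F Φ x)
        = (∫ x, kw (Pf F Φ) h τ x * (cen ε A R (Pf F Φ) (Pfy F Fy Φ Φy) x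
          + (v1 ε A R x - E4) * nsq (Pf F Φ) x)) +
          ∫ x, kw (Pf F Φ) h τ x * (dys F Φ x * Sf ε F Φ x) := by
      rw [← integral_add i1 i2]
      refine integral_congr_ae (Eventually.of_forall fun x => ?_)
      simp only
      ring
    simp only [es]
    linarith only [hid]
  · filter_upwards [hS.cen_ge hε.le, hSb] with x hc hs _
    have n2 := nrm_sq (Pf F Φ) x
    have q1 : -(|dys F Φ x| * (ε * (21 * √M) / ‖x‖ ^ 2 * nrm (Pf F Φ) x))
        ≤ dys F Φ x * Sf ε F Φ x := by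
      have := neg_abs_le (dys F Φ x * Sf ε F Φ x)
      rw [abs_mul] at this
      have q2 := mul_le_mul_of_nonneg_left hs.2 (abs_nonneg (dys F Φ x))
      linarith only [this, q2]
    have e1 : ((E3 - E4 + ε * δ + v1 ε A R x) * nrm (Pf F Φ) x
        - ε * (21 * √M) / ‖x‖ ^ 2 * |dys F Φ x|) * nrm (Pf F Φ) x
        = (E3 + ε * δ) * nsq (Pf F Φ) x + (v1 ε A R x - E4) * nsq (Pf F Φ) x
          - |dys F Φ x| * (ε * (21 * √M) / ‖x‖ ^ 2 * nrm (Pf F Φ) x) := by
      rw [← n2]; ring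
    simp only [e1]
    linarith only [hc, q1]
  · refine Eventually.of_forall fun x _ hx => ?_
    simp only [hx, mul_zero, zero_sub]
    have : 0 ≤ ε * (21 * √M) / ‖x‖ ^ 2 * |dys F Φ x| := by (clear * - hε; positivity)
    linarith only [this]

end

end Vale.Agent.P363.D
end
end

section

section

/-! # P363, exact side: the differential inequality for the square root of the density -/

namespace Vale.Agent.P363.D

open MeasureTheory Set Filter Topology
open scoped ENNReal ContDiff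

noncomputable section

variable {F : X4 → ℝ} {Φ : Conf 3 → ℝ}
variable {A R ε δ M E4 E3 : ℝ} {Fx : Fin 3 → X4 → ℝ} {Fy : Fin 3 → Fin 3 → X4 → ℝ}
  {Φy : Fin 3 → Fin 3 → Conf 3 → ℝ}

/-- The pointwise inequality. -/
theorem kato_F_alg {d U S cP nP n2 nF pP r e3 e4 v ep de m cF : ℝ} (hε : 0 < ep) (hm : 0 ≤ m)
    (hr : 0 < r) (hrδ : 3 / r ≤ de) (h1 : cF = d ^ 2 * (e3 + ep * U) + 2 * (d * S) + cP)
    (hU : 3 / r - m / r ^ 2 ≤ U) (hS : |S| ≤ ep * m / r ^ 2 * pP)
    (hcP : (e3 + ep * de) * nP ≤ cP) (hn : n2 = d ^ 2 + nP) (hnF : nF ^ 2 = n2)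
    (hpP : pP ^ 2 = nP) :
    (e3 - e4 + v + 3 * ep / r - ep * (2 * m) / r ^ 2) * nF * nF ≤ cF + (v - e4) * n2 := by
  have hb : 0 ≤ m / r ^ 2 := by (clear * - hm hr; positivity)
  have e1 : 3 * ep / r = ep * (3 / r) := by ring
  have e2 : ep * (2 * m) / r ^ 2 = 2 * ep * (m / r ^ 2) := by ring
  have e3' : ep * m / r ^ 2 * pP = ep * (m / r ^ 2) * pP := by ring
  rw [e3'] at hS
  rw [e1, e2]
  generalize m / r ^ 2 = b at hb hS hU
  generalize 3 / r = a at hrδ hU
  have hnP : 0 ≤ nP := hpP ▸ sq_nonneg pP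
  have hdS : -(|d| * (ep * b * pP)) ≤ d * S := by
    have h2 : |d * S| ≤ |d| * (ep * b * pP) := by
      rw [abs_mul]
      exact mul_le_mul_of_nonneg_left hS (abs_nonneg d)
    exact (abs_le.1 h2).1
  have hamgm : 2 * (|d| * pP) ≤ d ^ 2 + nP := by
    rw [← hpP, ← sq_abs d]
    linarith only [sq_nonneg (|d| - pP)]
  have heb : 0 ≤ ep * b := by positivity
  have h3 : ep * b * (2 * (|d| * pP)) ≤ ep * b * (d ^ 2 + nP) :=
    mul_le_mul_of_nonneg_left hamgm heb
  have h4 : d ^ 2 * (ep * (a - b)) ≤ d ^ 2 * (ep * U) :=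
    mul_le_mul_of_nonneg_left (mul_le_mul_of_nonneg_left hU hε.le) (sq_nonneg d)
  have h5 : 0 ≤ ep * (de - a) * nP :=
    mul_nonneg (mul_nonneg hε.le (by linarith only [hrδ])) hnP
  have h6 : 0 ≤ ep * b * nP := mul_nonneg heb hnP
  have h7 : (e3 - e4 + v + ep * a - 2 * ep * b) * nF * nF =
      (e3 - e4 + v + ep * a - 2 * ep * b) * (d ^ 2 + nP) := by
    rw [← hn, ← hnF]; ring
  rw [h7, h1, hn]
  linarith only [h6, h5, h4, h3, hdS, hcP]

theorem Sys.kato_F (hS : Sys A R ε δ M E4 E3 F Fx Fy Φ Φy) (hε : 0 < ε) (hδ : 0 < δ) {ρ : ℝ}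
    (hρ : 1 ≤ ρ) (hρδ : 3 / δ ≤ ρ) {h : R3 → ℝ} {hg : Fin 3 → R3 → ℝ} (hh : Test ρ h hg)
    (h0 : ∀ᵐ x : R3, 0 ≤ h x) :
    (1 / 2) * (∑ k, ∫ x, nrmg F Fx k x * hg k x) +
      ∫ x, (E3 - E4 + v1 ε A R x + 3 * ε / ‖x‖ - ε * (42 * √M) / ‖x‖ ^ 2) * nrm F x * h x ≤ 0 := by
  obtain ⟨B0, hB0⟩ := hh.bdd
  have hFm : MemLp F 2 volume := hS.F_H1.memLp
  have hΦm : MemLp Φ 2 volume := hS.Φ_H1.memLp
  have hnF : H1o (nrm F) (nrmg F Fx) := hS.F_H1.norm.1
  have hnh : Integrable (fun x => nrm F x * h x) volume :=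
    hnF.memLp.integrable_mul hh.H1.memLp
  have hgt : ∀ᵐ x : R3, h x ≠ 0 → ρ < ‖x‖ := by
    filter_upwards [hh.zero] with x hx hne
    by_contra hc
    exact hne (hx (not_lt.1 hc))
  refine kato_abstract (B := fun x => cen ε A R F Fy x + (v1 ε A R x - E4) * nsq F x)
    (b := fun x => (E3 - E4 + v1 ε A R x + 3 * ε / ‖x‖ - ε * (42 * √M) / ‖x‖ ^ 2) * nrm F x)
    hS.F_H1 hh.H1 h0 hB0 ?_ ?_ ?_ ?_ ?_
  · intro τ hτ
    obtain ⟨hw1, hw2, hw3⟩ := kato_weight hS.F_H1 hh.H1 hB0 hτ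
    exact (hS.F_identity hw1 hw2 hw3).2.le
  · have i1 : Integrable (cen ε A R F Fy) volume := hS.F_H1.cen_integrable ε A R
    have i2 : Integrable (fun x => v1 ε A R x * nsq F x) volume :=
      hS.F_H1.v1_nsq_integrable ε A R
    have i3 : Integrable (fun x => E4 * nsq F x) volume :=
      (nsq_integrable hFm).1.const_mul E4
    refine (i1.add (i2.sub i3)).congr ?_
    filter_upwards with x
    simp only [Pi.add_apply, Pi.sub_apply]
    ring
  · have i1 : Integrable (fun x => v1 ε A R x * (nrm F x * h x)) volume :=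
      H1o.int_v1 hnF hh.H1 ε A R
    have i2 : Integrable (fun x => (E3 - E4) * (nrm F x * h x)) volume := hnh.const_mul _
    have i3 : Integrable (fun x : R3 =>
        (3 * ε / ‖x‖ - ε * (42 * √M) / ‖x‖ ^ 2) * (nrm F x * h x)) volume := by
      refine Integrable.mono' (hnh.norm.const_mul (3 * ε + ε * (42 * √M)))
        ((Measurable.aestronglyMeasurable (by fun_prop)).mul hnh.aestronglyMeasurable) ?_
      filter_upwards [hgt] with x hx
      rw [norm_mul]
      by_cases hz : h x = 0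
      · rw [hz]; simp only [Real.norm_eq_abs, mul_zero, norm_zero, Std.le_refl]
      · have hx1 : 1 ≤ ‖x‖ := hρ.trans (hx hz).le
        refine mul_le_mul_of_nonneg_right ?_ (norm_nonneg _)
        have hs : 0 ≤ √M := Real.sqrt_nonneg M
        have b1 : 3 * ε / ‖x‖ ≤ 3 * ε := div_le_self (by positivity) hx1
        have b2 : ε * (42 * √M) / ‖x‖ ^ 2 ≤ ε * (42 * √M) :=
          div_le_self (by (clear * - hε; positivity)) (one_le_pow₀ hx1)
        have b3 : 0 ≤ 3 * ε / ‖x‖ := by (clear * - hε hx1; positivity)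
        have b4 : 0 ≤ ε * (42 * √M) / ‖x‖ ^ 2 := by (clear * - hε hx1; positivity)
        rw [Real.norm_eq_abs, abs_le]
        constructor
        · have : 0 ≤ 3 * ε := by positivity
          linarith only [hε, b2, b3]
        · have : 0 ≤ ε * (42 * √M) := by (clear * - hε; positivity)
          linarith only [b1, b2, b4]
    refine (i1.add (i2.add i3)).congr ?_
    filter_upwards with x
    simp only [Pi.add_apply]
    ring
  · filter_upwards [hgt, hS.cen_split, hS.cen_ge hε.le, (hS.Sf_bound hε.le).2,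
      ipy_split hFm hFm hΦm hS.Φ_norm] with x hx hsplit hge hSf hipy hne
    have hxρ : ρ < ‖x‖ := hx hne
    have hx0 : 0 < ‖x‖ := lt_of_lt_of_le (by linarith only [hρ]) hxρ.le
    have hxne : x ≠ 0 := norm_pos_iff.1 hx0
    have hU := hS.Uf_bound.2.2 x hxne
    have hU' : 3 / ‖x‖ - 21 * √M / ‖x‖ ^ 2 ≤ Uf Φ x := by
      have := (abs_le.1 hU).1
      linarith only [this]
    have h3 : 3 / ‖x‖ ≤ δ := by
      rw [div_le_iff₀ hx0]
      rw [div_le_iff₀ hδ] at hρδ
      linarith only [mul_pos (sub_pos.2 hδ) (sub_pos.2 hxρ), hρδ]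
    have hn : nsq F x = dys F Φ x ^ 2 + nsq (Pf F Φ) x := by
      have h5 := hipy.1
      have e1 : ipy F F x = nsq F x := by
        unfold ipy nsq
        exact integral_congr_ae (Eventually.of_forall fun y => (sq (F (x, y))).symm)
      have e2 : ipy (Pf F Φ) (Pf F Φ) x = nsq (Pf F Φ) x := by
        unfold ipy nsq
        exact integral_congr_ae (Eventually.of_forall fun y => (sq (Pf F Φ (x, y))).symm)
      rw [← e1, h5, e2, sq]
    have key := kato_F_alg (m := 21 * √M) (v := v1 ε A R x) (e4 := E4) hε (by (clear * -; positivity)) hx0 h3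
      hsplit hU' hSf.2 hge hn (nrm_sq F x) (nrm_sq (Pf F Φ) x)
    have e : (42 : ℝ) * √M = 2 * (21 * √M) := by ring
    simp only [e]
    exact key
  · filter_upwards with x _ hx
    rw [hx, mul_zero]

end

end Vale.Agent.P363.D
end
end

section

section

/-! # P363, exact side: the equation of the Dyson orbital -/

namespace Vale.Agent.P363.D

open MeasureTheory Set Filter Topology
open scoped ENNReal ContDiff

noncomputable section

variable {F : X4 → ℝ} {Φ : Conf 3 → ℝ}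
variable {A R ε δ M E4 E3 : ℝ} {Fx : Fin 3 → X4 → ℝ} {Fy : Fin 3 → Fin 3 → X4 → ℝ}
  {Φy : Fin 3 → Fin 3 → Conf 3 → ℝ}

/-- Linearity of the integral for four functions. -/
theorem E9c_four {X : Type*} [MeasurableSpace X] {μ : Measure X} {f1 f2 f3 f4 : X → ℝ}
    (h1 : Integrable f1 μ) (h2 : Integrable f2 μ) (h3 : Integrable f3 μ) (h4 : Integrable f4 μ)
    (c2 c3 c4 : ℝ) :
    ∫ x, (f1 x + c2 * f2 x + c3 * f3 x - c4 * f4 x) ∂μ =
      (∫ x, f1 x ∂μ) + c2 * (∫ x, f2 x ∂μ) + c3 * (∫ x, f3 x ∂μ) - c4 * ∫ x, f4 x ∂μ := by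
  have i2 : Integrable (fun x => c2 * f2 x) μ := h2.const_mul c2
  have i3 : Integrable (fun x => c3 * f3 x) μ := h3.const_mul c3
  have i4 : Integrable (fun x => c4 * f4 x) μ := h4.const_mul c4
  have i12 : Integrable (fun x => f1 x + c2 * f2 x) μ := h1.add i2
  have i123 : Integrable (fun x => f1 x + c2 * f2 x + c3 * f3 x) μ := i12.add i3
  rw [integral_sub i123 i4, integral_add i12 i3, integral_add h1 i2, integral_const_mul,
    integral_const_mul, integral_const_mul]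

/-- Pointwise (a.e. in `x`) equation of the slices tested with the ion state. -/
theorem Sys.E9c_ion (hS : Sys A R ε δ M E4 E3 F Fx Fy Φ Φy) :
    ∀ᵐ x : R3, (1 / 2) * (∑ i, ∑ k, ∫ y, Φy i k y * Fy i k (x, y)) +
      ∫ y, vN ε A R y * (Φ y * F (x, y)) = E3 * dys F Φ x := by
  filter_upwards [hS.F_H1.slice] with x hx
  have h1 := hS.Φ_eq _ _ hx
  unfold bN at h1
  have i1 : Integrable (fun y => vN ε A R y * (Φ y * F (x, y))) volume :=
    HN.int_vN hS.Φ_H1 hx ε A R
  have i2 : Integrable (fun y => Φ y * F (x, y)) volume :=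
    hS.Φ_H1.memLp.integrable_mul hx.memLp
  have h2 : ∫ y, (vN ε A R y - E3) * (Φ y * F (x, y)) =
      (∫ y, vN ε A R y * (Φ y * F (x, y))) - E3 * dys F Φ x := by
    have h3 : (fun y => (vN ε A R y - E3) * (Φ y * F (x, y))) =
        fun y => vN ε A R y * (Φ y * F (x, y)) - E3 * (Φ y * F (x, y)) := by
      funext y
      ring
    rw [h3, integral_sub i1 (i2.const_mul E3), integral_const_mul]
    rfl
  rw [h2] at h1
  linarith

/-- The repulsion term of the slices. -/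
theorem Sys.E9c_rep (hS : Sys A R ε δ M E4 E3 F Fx Fy Φ Φy) :
    ∀ᵐ x : R3, ε * ∫ y, rep x y * (Φ y * F (x, y)) = Sf ε F Φ x + ε * (Uf Φ x * dys F Φ x) := by
  filter_upwards [hS.F_H1.slice] with x hx
  have i1 : Integrable (fun y => rep x y * (Φ y * F (x, y))) volume :=
    HN.int_rep hS.Φ_H1 hx x
  have i2 : Integrable (fun y => rep x y * (Φ y * Φ y)) volume :=
    HN.int_rep hS.Φ_H1 hS.Φ_H1 x
  have h1 : ∫ y, rep x y * (Φ y * Pf F Φ (x, y)) =
      (∫ y, rep x y * (Φ y * F (x, y))) - dys F Φ x * Uf Φ x := by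
    have h3 : (fun y => rep x y * (Φ y * Pf F Φ (x, y))) =
        fun y => rep x y * (Φ y * F (x, y)) - dys F Φ x * (rep x y * (Φ y * Φ y)) := by
      funext y
      unfold Pf
      ring
    rw [h3, integral_sub i1 (i2.const_mul _), integral_const_mul]
    rfl
  unfold Sf
  rw [h1]
  ring

/-- The equation of the Dyson orbital. -/
theorem Sys.dys_eq (hS : Sys A R ε δ M E4 E3 F Fx Fy Φ Φy) (hε : 0 ≤ ε) {h : R3 → ℝ}
    {hg : Fin 3 → R3 → ℝ} (hh : H1o h hg) :
    (1 / 2) * (∑ k, ∫ x, dys (Fx k) Φ x * hg k x) +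
      ∫ x, (v1 ε A R x + (E3 - E4) + ε * Uf Φ x) * (dys F Φ x * h x) =
      - ∫ x, Sf ε F Φ x * h x := by
  have hT := HX.tensor hh hS.Φ_H1
  have hFL := hS.F_H1.memLp
  have key := hS.F_eq _ _ _ hT
  -- the `x` gradient
  have e1 : ∀ k, ∫ p : X4, Fx k p * (hg k p.1 * Φ p.2) = ∫ x, dys (Fx k) Φ x * hg k x := by
    intro k
    have hi : Integrable (fun p : X4 => hg k p.1 * (Φ p.2 * Fx k p)) volume := by
      refine ((hT.memLpx k).integrable_mul (hS.F_H1.memLpx k)).congr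
        (Eventually.of_forall fun p => ?_)
      simp only [Pi.mul_apply]
      ring
    have h2 := (fubini_fst (G := fun p : X4 => Φ p.2 * Fx k p) (hg k) hi).2
    have h3 : (fun p : X4 => Fx k p * (hg k p.1 * Φ p.2)) =
        fun p : X4 => hg k p.1 * (Φ p.2 * Fx k p) := by
      funext p
      ring
    rw [h3, h2]
    refine integral_congr_ae (Eventually.of_forall fun x => ?_)
    simp only [dys]
    ring
  -- the `y` gradient
  have e2 : ∀ i k, Integrable (fun x => h x * ∫ y, Φy i k y * Fy i k (x, y)) volume ∧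
      ∫ p : X4, Fy i k p * (h p.1 * Φy i k p.2) =
        ∫ x, h x * ∫ y, Φy i k y * Fy i k (x, y) := by
    intro i k
    have hi : Integrable (fun p : X4 => h p.1 * (Φy i k p.2 * Fy i k p)) volume := by
      refine ((hT.memLpy i k).integrable_mul (hS.F_H1.memLpy i k)).congr
        (Eventually.of_forall fun p => ?_)
      simp only [Pi.mul_apply]
      ring
    obtain ⟨h1, h2⟩ := fubini_fst (G := fun p : X4 => Φy i k p.2 * Fy i k p) h hi
    refine ⟨h1, ?_⟩
    have h3 : (fun p : X4 => Fy i k p * (h p.1 * Φy i k p.2)) =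
        fun p : X4 => h p.1 * (Φy i k p.2 * Fy i k p) := by
      funext p
      ring
    rw [h3, h2]
  -- the one-body potential of the distinguished electron
  have j1 : Integrable (fun p : X4 => v1 ε A R p.1 * ((h p.1 * Φ p.2) * F p)) volume :=
    HX.int_v1 hT hS.F_H1 ε A R
  have j2 : Integrable (fun p : X4 => vN ε A R p.2 * ((h p.1 * Φ p.2) * F p)) volume :=
    HX.int_vN hT hS.F_H1 ε A R
  have j3 : Integrable (fun p : X4 => rep p.1 p.2 * ((h p.1 * Φ p.2) * F p)) volume :=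
    HX.int_rep hT hS.F_H1
  have j4 : Integrable (fun p : X4 => (h p.1 * Φ p.2) * F p) volume :=
    hT.memLp.integrable_mul hFL
  obtain ⟨a1, b1⟩ := fubini_fst (G := fun p : X4 => Φ p.2 * F p) (fun x => v1 ε A R x * h x)
    (j1.congr (Eventually.of_forall fun p => by simp only; ring))
  obtain ⟨a2, b2⟩ := fubini_fst (G := fun p : X4 => vN ε A R p.2 * (Φ p.2 * F p)) h
    (j2.congr (Eventually.of_forall fun p => by simp only; ring))
  obtain ⟨a3, b3⟩ := fubini_fst (G := fun p : X4 => rep p.1 p.2 * (Φ p.2 * F p)) h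
    (j3.congr (Eventually.of_forall fun p => by simp only; ring))
  obtain ⟨a4, b4⟩ := fubini_fst (G := fun p : X4 => Φ p.2 * F p) h
    (j4.congr (Eventually.of_forall fun p => by simp only; ring))
  simp only at a1 b1 a2 b2 a3 b3 a4 b4
  have e3 : ∫ p : X4, (vX ε A R p - E4) * F p * (h p.1 * Φ p.2) =
      (∫ x, v1 ε A R x * h x * ∫ y, Φ y * F (x, y)) +
      (∫ x, h x * ∫ y, vN ε A R y * (Φ y * F (x, y))) +
      ε * (∫ x, h x * ∫ y, rep x y * (Φ y * F (x, y))) -
      E4 * ∫ x, h x * ∫ y, Φ y * F (x, y) := by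
    rw [← b1, ← b2, ← b3, ← b4]
    have c1 : ∫ p : X4, v1 ε A R p.1 * h p.1 * (Φ p.2 * F p) =
        ∫ p : X4, v1 ε A R p.1 * ((h p.1 * Φ p.2) * F p) :=
      integral_congr_ae (Eventually.of_forall fun p => by simp only; ring)
    have c2 : ∫ p : X4, h p.1 * (vN ε A R p.2 * (Φ p.2 * F p)) =
        ∫ p : X4, vN ε A R p.2 * ((h p.1 * Φ p.2) * F p) :=
      integral_congr_ae (Eventually.of_forall fun p => by simp only; ring)
    have c3 : ∫ p : X4, h p.1 * (rep p.1 p.2 * (Φ p.2 * F p)) =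
        ∫ p : X4, rep p.1 p.2 * ((h p.1 * Φ p.2) * F p) :=
      integral_congr_ae (Eventually.of_forall fun p => by simp only; ring)
    have c4 : ∫ p : X4, h p.1 * (Φ p.2 * F p) = ∫ p : X4, (h p.1 * Φ p.2) * F p :=
      integral_congr_ae (Eventually.of_forall fun p => by simp only; ring)
    have h4 := E9c_four j1 j2 j3 j4 1 ε E4
    rw [one_mul] at h4
    rw [c1, c2, c3, c4, ← h4]
    refine integral_congr_ae (Eventually.of_forall fun p => ?_)
    simp only [vX]
    ring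
  have e4 : (∑ k, ∫ p : X4, Fx k p * (hg k p.1 * Φ p.2)) =
      ∑ k, ∫ x, dys (Fx k) Φ x * hg k x := Finset.sum_congr rfl fun k _ => e1 k
  have e5 : (∑ i, ∑ k, ∫ p : X4, Fy i k p * (h p.1 * Φy i k p.2)) =
      ∫ x, h x * ∑ i, ∑ k, ∫ y, Φy i k y * Fy i k (x, y) := by
    have h1 : (fun x => h x * ∑ i, ∑ k, ∫ y, Φy i k y * Fy i k (x, y)) =
        fun x => ∑ i, ∑ k, h x * ∫ y, Φy i k y * Fy i k (x, y) := by
      funext x
      simp only [Finset.mul_sum]
    rw [h1, integral_finsetSum _ fun i _ => integrable_finsetSum _ fun k _ => (e2 i k).1]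
    refine Finset.sum_congr rfl fun i _ => ?_
    rw [integral_finsetSum _ fun k _ => (e2 i k).1]
    exact Finset.sum_congr rfl fun k _ => (e2 i k).2
  have i5 : Integrable (fun x => h x * ∑ i, ∑ k, ∫ y, Φy i k y * Fy i k (x, y)) volume := by
    have h1 : (fun x => h x * ∑ i, ∑ k, ∫ y, Φy i k y * Fy i k (x, y)) =
        fun x => ∑ i, ∑ k, h x * ∫ y, Φy i k y * Fy i k (x, y) := by
      funext x
      simp only [Finset.mul_sum]
    rw [h1]
    exact integrable_finsetSum _ fun i _ => integrable_finsetSum _ fun k _ => (e2 i k).1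
  rw [e4, e5, e3] at key
  -- the a.e. identities
  have f1 : (1 / 2) * (∫ x, h x * ∑ i, ∑ k, ∫ y, Φy i k y * Fy i k (x, y)) +
      (∫ x, h x * ∫ y, vN ε A R y * (Φ y * F (x, y))) =
      E3 * ∫ x, h x * ∫ y, Φ y * F (x, y) := by
    rw [← integral_const_mul, ← integral_const_mul, ← integral_add (i5.const_mul _) a2]
    refine integral_congr_ae ?_
    filter_upwards [hS.E9c_ion] with x hx
    have : E3 * (h x * ∫ y, Φ y * F (x, y)) = h x * (E3 * dys F Φ x) := by
      simp only [dys]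
      ring
    rw [this, ← hx]
    ring
  obtain ⟨hUm, hUb, -⟩ := hS.Uf_bound
  have i6 : Integrable (fun x => Uf Φ x * (h x * ∫ y, Φ y * F (x, y))) volume :=
    a4.bdd_mul hUm.aestronglyMeasurable (Eventually.of_forall fun x => by
      rw [Real.norm_eq_abs]
      exact hUb x)
  have i7 : Integrable (fun x => Sf ε F Φ x * h x) volume := by
    have h1 : Integrable (fun x => ε * (h x * ∫ y, rep x y * (Φ y * F (x, y))) -
        ε * (Uf Φ x * (h x * ∫ y, Φ y * F (x, y)))) volume :=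
      (a3.const_mul ε).sub (i6.const_mul ε)
    refine h1.congr ?_
    filter_upwards [hS.E9c_rep] with x hx
    have h2 : ε * (h x * ∫ y, rep x y * (Φ y * F (x, y))) =
        h x * (ε * ∫ y, rep x y * (Φ y * F (x, y))) := by ring
    rw [h2, hx]
    simp only [dys]
    ring
  have f2 : ε * (∫ x, h x * ∫ y, rep x y * (Φ y * F (x, y))) =
      (∫ x, Sf ε F Φ x * h x) + ε * ∫ x, Uf Φ x * (h x * ∫ y, Φ y * F (x, y)) := by
    rw [← integral_const_mul, ← integral_const_mul, ← integral_add i7 (i6.const_mul _)]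
    refine integral_congr_ae ?_
    filter_upwards [hS.E9c_rep] with x hx
    have h2 : ε * (h x * ∫ y, rep x y * (Φ y * F (x, y))) =
        h x * (ε * ∫ y, rep x y * (Φ y * F (x, y))) := by ring
    rw [h2, hx]
    simp only [dys]
    ring
  have f3 : ∫ x, (v1 ε A R x + (E3 - E4) + ε * Uf Φ x) * (dys F Φ x * h x) =
      (∫ x, v1 ε A R x * h x * ∫ y, Φ y * F (x, y)) +
      (E3 - E4) * (∫ x, h x * ∫ y, Φ y * F (x, y)) +
      ε * ∫ x, Uf Φ x * (h x * ∫ y, Φ y * F (x, y)) := by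
    have h4 := E9c_four a1 a4 i6 a4 (E3 - E4) ε 0
    rw [zero_mul, sub_zero] at h4
    rw [← h4]
    refine integral_congr_ae (Eventually.of_forall fun x => ?_)
    simp only [dys]
    ring
  rw [f3]
  linarith

end

end Vale.Agent.P363.D
end
end

section

section

/-! # P363, exact side: Caccioppoli inequality for the orthogonal part -/

namespace Vale.Agent.P363.D

open MeasureTheory Set Filter Topology
open scoped ENNReal ContDiff

noncomputable section

/-- The pointwise algebra of the Caccioppoli inequality. -/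
theorem cacc_alg (a : ℝ) (b m ip : Fin 3 → ℝ) (n Y c V K C1 T d S z : ℝ)
    (hip : ∀ k, |ip k| ≤ n * m k)
    (hC1 : 0 ≤ C1) (hK : 0 ≤ K)
    (hc : (1 / 4) * Y ≤ c + C1 * n ^ 2)
    (hV : a ≠ 0 → |V| ≤ K) (hS : a ≠ 0 → |S| ≤ T * z * n) (_hz : 0 ≤ z) (_hT : 0 ≤ T)
    (_hn : 0 ≤ n) (_hY : 0 ≤ Y) :
    (1 / 4) * (a ^ 2 * ((∑ k, m k ^ 2) + Y + n ^ 2)) ≤
      ((1 / 2) * (∑ k, (2 * a * b k) * ip k) + (1 / 2) * (∑ k, a ^ 2 * m k ^ 2) +
        a ^ 2 * (c + V * n ^ 2) + a ^ 2 * (d * S)) +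
      ((1 + C1 + K + T ^ 2 / 2) * ((a ^ 2 + ∑ k, b k ^ 2) * n ^ 2) +
        (1 + C1 + K + T ^ 2 / 2) * (a ^ 2 * z ^ 2 * d ^ 2)) := by
  have hC : 0 ≤ 1 + C1 + K + T ^ 2 / 2 := by (clear * - hC1 hK; positivity)
  have hb : 0 ≤ ∑ k, b k ^ 2 := Finset.sum_nonneg fun k _ => sq_nonneg _
  by_cases ha : a = 0
  · subst ha
    have e1 : (0:ℝ) ≤ (1 + C1 + K + T ^ 2 / 2) * ((0 ^ 2 + ∑ k, b k ^ 2) * n ^ 2) := by
      have : (0:ℝ) ≤ 0 ^ 2 + ∑ k, b k ^ 2 := by linarith only [hb]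
      (clear * - hC1 hK; positivity)
    have e2 : (∑ k, (2 * 0 * b k) * ip k) = 0 := by simp
    have e3 : (∑ k : Fin 3, (0:ℝ) ^ 2 * m k ^ 2) = 0 := by simp
    rw [e2, e3]
    norm_num at e1 ⊢
    linarith only [e1]
  · have hV' := hV ha
    have hS' := hS ha
    have ha2 : 0 ≤ a ^ 2 := sq_nonneg a
    -- cross terms
    have h1 : ∀ k, -((1 / 4) * (a ^ 2 * m k ^ 2)) - b k ^ 2 * n ^ 2 ≤ a * b k * ip k := by
      intro k
      have h2 : |a * b k * ip k| ≤ |a| * |b k| * (n * m k) := by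
        rw [abs_mul, abs_mul]
        exact mul_le_mul_of_nonneg_left (hip k) (by (clear * - ha; positivity))
      have h3 := neg_abs_le (a * b k * ip k)
      have h4 : 0 ≤ ((1 / 2) * (|a| * m k) - |b k| * n) ^ 2 := sq_nonneg _
      have h5 : |a| ^ 2 = a ^ 2 := sq_abs a
      have h6 : |b k| ^ 2 = b k ^ 2 := sq_abs (b k)
      have h7 : ((1 / 2) * (|a| * m k) - |b k| * n) ^ 2 =
          (1 / 4) * (|a| ^ 2 * m k ^ 2) + |b k| ^ 2 * n ^ 2 - |a| * |b k| * (n * m k) := by ring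
      rw [h7, h5, h6] at h4
      linarith only [h4, h3, h2]
    have h2 : -((1 / 4) * (∑ k, a ^ 2 * m k ^ 2)) - (∑ k, b k ^ 2) * n ^ 2 ≤
        (1 / 2) * (∑ k, (2 * a * b k) * ip k) := by
      have h3 := Finset.sum_le_sum fun k (_ : k ∈ (Finset.univ : Finset (Fin 3))) => h1 k
      rw [Finset.sum_sub_distrib, Finset.sum_neg_distrib, ← Finset.mul_sum, ← Finset.sum_mul] at h3
      have h4 : (1 / 2) * (∑ k, (2 * a * b k) * ip k) = ∑ k, a * b k * ip k := by
        rw [Finset.mul_sum]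
        exact Finset.sum_congr rfl fun k _ => by ring
      rw [h4]
      exact h3
    have h3 : (∑ k, a ^ 2 * m k ^ 2) = a ^ 2 * ∑ k, m k ^ 2 := by rw [Finset.mul_sum]
    rw [h3] at h2 ⊢
    -- potential terms
    have h4 : a ^ 2 * ((1 / 4) * Y - C1 * n ^ 2 - K * n ^ 2) ≤ a ^ 2 * (c + V * n ^ 2) := by
      apply mul_le_mul_of_nonneg_left _ ha2
      have h5 : -K ≤ V := by linarith only [hV', neg_abs_le V]
      have h6 := mul_le_mul_of_nonneg_right h5 (sq_nonneg n)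
      linarith only [hc, h6]
    -- source
    have h5 : -((1 / 2) * (z ^ 2 * d ^ 2 + T ^ 2 * n ^ 2)) ≤ d * S := by
      have h6 : |d * S| ≤ |d| * (T * z * n) := by
        rw [abs_mul]
        exact mul_le_mul_of_nonneg_left hS' (abs_nonneg d)
      have h7 := neg_abs_le (d * S)
      have h8 : 0 ≤ (z * |d| - T * n) ^ 2 := sq_nonneg _
      have h9 : (z * |d| - T * n) ^ 2 = z ^ 2 * |d| ^ 2 + T ^ 2 * n ^ 2 - 2 * (|d| * (T * z * n)) := by
        ring
      rw [h9, sq_abs] at h8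
      linarith only [h6, h7, h8]
    have h6 := mul_le_mul_of_nonneg_left h5 ha2
    have p1 : 0 ≤ a ^ 2 * n ^ 2 := by (clear * - ha; positivity)
    have p2 : 0 ≤ (∑ k, b k ^ 2) * n ^ 2 := by (clear * -; positivity)
    have p3 : 0 ≤ a ^ 2 * z ^ 2 * d ^ 2 := by (clear * - ha; positivity)
    have q1 : 0 ≤ (C1 + K + T ^ 2 / 2) * ((∑ k, b k ^ 2) * n ^ 2) := by (clear * - hC1 hK; positivity)
    have q2 : 0 ≤ (C1 + K + T ^ 2 / 2) * (a ^ 2 * z ^ 2 * d ^ 2) := by (clear * - hC1 hK ha; positivity)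
    linarith only [q2, q1, p3, p1, h6, h4, h2]

variable {F : X4 → ℝ} {Φ : Conf 3 → ℝ}
variable {A R ε δ M E4 E3 : ℝ} {Fx : Fin 3 → X4 → ℝ} {Fy : Fin 3 → Fin 3 → X4 → ℝ}
  {Φy : Fin 3 → Fin 3 → Conf 3 → ℝ}

theorem Sys.cacc (hS : Sys A R ε δ M E4 E3 F Fx Fy Φ Φy) (hA : 0 ≤ A) (hR : 0 < R) (hε : 0 < ε)
    {ρ : ℝ} (hρ : 2 * R + 1 ≤ ρ) : ∃ C : ℝ, 0 ≤ C ∧
    ∀ χ : R3 → ℝ, ContDiff ℝ ∞ χ → HasCompactSupport χ → (∀ x, χ x ≠ 0 → ρ < ‖x‖) →
    ∫ x, χ x ^ 2 * TPf F Fx Fy Φ Φy x ≤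
      C * (∫ x, (χ x ^ 2 + ∑ k, pdv k χ x ^ 2) * nrm (Pf F Φ) x ^ 2) +
      C * ∫ x, χ x ^ 2 / ‖x‖ ^ 4 * dys F Φ x ^ 2 := by
  obtain ⟨C1, hC1, hco⟩ := hS.P_HX.cen_coercive ε A R hε.le
  set K : ℝ := (1 + 2 * ε * A) + ε * (4 * A * R) + |E4| with hK
  set T : ℝ := ε * (21 * √M) with hT
  have hK0 : 0 ≤ K := by (clear * - hε hA hR; positivity)
  have hT0 : 0 ≤ T := by (clear * - hε; positivity)
  refine ⟨4 * (1 + C1 + K + T ^ 2 / 2), by (clear * - hC1 hε hA hR; positivity), ?_⟩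
  intro χ hχ hc hsupp
  have hP := hS.P_HX
  have hd := hS.dys_H1
  -- the functions
  have hχ1 : ContDiff ℝ 1 χ := hχ.of_le (by exact_mod_cast le_top)
  have hcont : Continuous χ := hχ.continuous
  have hpc : ∀ k, Continuous (pdv k χ) := fun k =>
    (hχ1.continuous_fderiv (by norm_num)).clm_apply continuous_const
  have hpcs : ∀ k, HasCompactSupport (pdv k χ) := fun k => by
    have := hc.fderiv (𝕜 := ℝ)
    exact this.comp_left (g := fun L : R3 →L[ℝ] ℝ => L (dir3 k)) (by simp)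
  obtain ⟨B, hB⟩ := hc.exists_bound_of_continuous hcont
  choose Bk hBk using fun k => (hpcs k).exists_bound_of_continuous (hpc k)
  have hB0 : 0 ≤ B := (norm_nonneg _).trans (hB 0)
  have hgg : ∀ k x, fderiv ℝ (fun x => χ x ^ 2) x (dir3 k) = 2 * χ x * pdv k χ x := by
    intro k x
    have h1 : DifferentiableAt ℝ χ x := (hχ1.differentiable (by norm_num)) x
    have h2 := (h1.hasFDerivAt.pow 2).fderiv
    rw [h2]
    simp only [Nat.add_one_sub_one, pow_one, nsmul_eq_mul, Nat.cast_ofNat, smul_apply, smul_eq_mul, pdv]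
  have hbd2 : ∀ᵐ x : R3, ‖χ x ^ 2‖ ≤ B ^ 2 := ae_of_all _ fun x => by
    rw [norm_pow]
    exact pow_le_pow_left₀ (norm_nonneg _) (hB x) 2
  have hm2 : AEStronglyMeasurable (fun x => χ x ^ 2) (volume : Measure R3) :=
    (hcont.pow 2).aestronglyMeasurable
  have hid := hS.P_identity (g := fun x => χ x ^ 2) (gg := fun k x => 2 * χ x * pdv k χ x)
    (C := B ^ 2) (fun k => by
      have := ACL.of_contDiff (μ := (volume : Measure R3)) (e := dir3 k) (hχ1.pow 2)
      simpa only [hgg k] using this)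
    (hbd2.mono fun x hx => by simpa only [abs_pow, sq_abs, norm_pow, Real.norm_eq_abs] using hx)
    (fun k => by
      refine (nrm_memLp hP.memLp).of_le_mul (c := 2 * B * Bk k) ?_ ?_
      · exact (((continuous_const.mul hcont).mul (hpc k)).aestronglyMeasurable).mul
          (nrm_memLp hP.memLp).1
      · filter_upwards with x
        rw [norm_mul, norm_mul, norm_mul]
        have e1 := hB x
        have e2 := hBk k x
        have e3 : ‖(2:ℝ)‖ = 2 := by norm_num
        rw [e3]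
        (clear * - e1 e2 hB0; gcongr))
  obtain ⟨hi1, hid⟩ := hid
  -- integrability
  have hi2 : ∀ k, Integrable (fun x => χ x ^ 2 * nsq (Pf (Fx k) Φ) x) volume := fun k =>
    (nsq_integrable (hP.memLpx k)).1.bdd_mul hm2 hbd2
  have hn : Integrable (nsq (Pf F Φ)) volume := (nsq_integrable hP.memLp).1
  have hi3 : Integrable (fun x => χ x ^ 2 * (cen ε A R (Pf F Φ) (Pfy F Fy Φ Φy) x +
      (v1 ε A R x - E4) * nsq (Pf F Φ) x)) volume := by
    refine Integrable.bdd_mul ?_ hm2 hbd2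
    refine (hP.cen_integrable ε A R).add ?_
    refine ((hP.v1_nsq_integrable ε A R).sub (hn.const_mul E4)).congr (ae_of_all _ fun x => ?_)
    simp only [Pi.sub_apply]
    ring
  have hdn : Integrable (fun x => dys F Φ x * nrm (Pf F Φ) x) volume :=
    hd.memLp.integrable_mul (nrm_memLp hP.memLp)
  have hSb := hS.Sf_bound hε.le
  have hi4 : Integrable (fun x => χ x ^ 2 * (dys F Φ x * Sf ε F Φ x)) volume := by
    refine Integrable.bdd_mul ?_ hm2 hbd2
    refine (hdn.norm.const_mul (ε * (6 * √M))).mono' (hd.memLp.1.mul hSb.1) ?_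
    filter_upwards [hSb.2] with x hx
    rw [norm_mul, norm_mul, Real.norm_eq_abs, Real.norm_eq_abs, Real.norm_eq_abs,
      abs_of_nonneg (nrm_nonneg (Pf F Φ) x)]
    calc |dys F Φ x| * |Sf ε F Φ x| ≤ |dys F Φ x| * (ε * (6 * √M) * nrm (Pf F Φ) x) :=
          mul_le_mul_of_nonneg_left hx.1 (abs_nonneg _)
      _ = ε * (6 * √M) * (|dys F Φ x| * nrm (Pf F Φ) x) := by ring
  have hi5 : Integrable (fun x => (χ x ^ 2 + ∑ k, pdv k χ x ^ 2) * nrm (Pf F Φ) x ^ 2) volume := by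
    have h1 : Integrable (fun x => nrm (Pf F Φ) x ^ 2) volume :=
      hn.congr (ae_of_all _ fun x => (nrm_sq _ x).symm)
    refine h1.bdd_mul (c := B ^ 2 + ∑ k, Bk k ^ 2) ?_ ?_
    · exact ((hcont.pow 2).add (continuous_finsetSum _ fun k _ =>
        (hpc k).pow 2)).aestronglyMeasurable
    · filter_upwards with x
      refine (norm_add_le _ _).trans (add_le_add ?_ ?_)
      · rw [norm_pow]
        exact pow_le_pow_left₀ (norm_nonneg _) (hB x) 2
      · refine (norm_sum_le _ _).trans (Finset.sum_le_sum fun k _ => ?_)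
        rw [norm_pow]
        exact pow_le_pow_left₀ (norm_nonneg _) (hBk k x) 2
  have hi6 : Integrable (fun x => χ x ^ 2 / ‖x‖ ^ 4 * dys F Φ x ^ 2) volume := by
    have h1 : Integrable (fun x => dys F Φ x ^ 2) volume := hd.memLp.integrable_sq
    refine h1.bdd_mul (c := B ^ 2) ?_ ?_
    · have : Measurable (fun x : R3 => χ x ^ 2 / ‖x‖ ^ 4) :=
        (hcont.measurable.pow_const 2).div (measurable_norm.pow_const 4)
      exact this.aestronglyMeasurable
    · filter_upwards with x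
      by_cases hx : χ x = 0
      · simp only [hx, ne_eq, OfNat.ofNat_ne_zero, not_false_eq_true, zero_pow, zero_div, norm_zero]
        (clear * -; positivity)
      · have h2 : 1 ≤ ‖x‖ := by linarith only [hR, hρ, hsupp x hx]
        have h3 : 1 ≤ ‖x‖ ^ 4 := one_le_pow₀ h2
        rw [norm_div, norm_pow, norm_pow, norm_norm]
        refine (div_le_self (by positivity) h3).trans ?_
        exact pow_le_pow_left₀ (norm_nonneg _) (hB x) 2
  have hi7 : Integrable (fun x => χ x ^ 2 * TPf F Fx Fy Φ Φy x) volume :=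
    (TPf_integrable hS).bdd_mul hm2 hbd2
  -- the pointwise inequality
  have hpt : ∀ᵐ x : R3, (1 / 4) * (χ x ^ 2 * TPf F Fx Fy Φ Φy x) ≤
      ((1 / 2) * (∑ k, (2 * χ x * pdv k χ x) * ipy (Pf F Φ) (Pf (Fx k) Φ) x) +
        (1 / 2) * (∑ k, χ x ^ 2 * nsq (Pf (Fx k) Φ) x) +
        χ x ^ 2 * (cen ε A R (Pf F Φ) (Pfy F Fy Φ Φy) x + (v1 ε A R x - E4) * nsq (Pf F Φ) x) +
        χ x ^ 2 * (dys F Φ x * Sf ε F Φ x)) +
      ((1 + C1 + K + T ^ 2 / 2) * ((χ x ^ 2 + ∑ k, pdv k χ x ^ 2) * nrm (Pf F Φ) x ^ 2) +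
        (1 + C1 + K + T ^ 2 / 2) * (χ x ^ 2 / ‖x‖ ^ 4 * dys F Φ x ^ 2)) := by
    have hcs : ∀ᵐ x : R3, ∀ k : Fin 3, |ipy (Pf F Φ) (Pf (Fx k) Φ) x| ≤
        nrm (Pf F Φ) x * nrm (Pf (Fx k) Φ) x :=
      ae_all_iff.mpr fun k => ipy_cs hP.memLp (hP.memLpx k)
    filter_upwards [hcs, hco, hSb.2] with x h1 h2 h3
    have h4 := cacc_alg (χ x) (fun k => pdv k χ x) (fun k => nrm (Pf (Fx k) Φ) x)
      (fun k => ipy (Pf F Φ) (Pf (Fx k) Φ) x) (nrm (Pf F Φ) x)
      (∑ i, ∑ k, nsq (Pfy F Fy Φ Φy i k) x) (cen ε A R (Pf F Φ) (Pfy F Fy Φ Φy) x)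
      (v1 ε A R x - E4) K C1 T (dys F Φ x) (Sf ε F Φ x) (1 / ‖x‖ ^ 2) h1 hC1 hK0
      (by rw [nrm_sq]; exact h2.1)
      (by
        intro hx
        have hx1 : 1 ≤ ‖x‖ := by linarith only [hR, hρ, hsupp x hx]
        have hx2 : 2 * R ≤ ‖x‖ := by linarith only [hρ, hsupp x hx]
        have h5 := v1_far hA hR hε.le hx2
        have h6 : |v1 ε A R x| ≤ |v1 ε A R x + (1 + 2 * ε * A) / ‖x‖| +
            |(1 + 2 * ε * A) / ‖x‖| := by
          have := abs_sub (v1 ε A R x + (1 + 2 * ε * A) / ‖x‖) ((1 + 2 * ε * A) / ‖x‖)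
          rwa [add_sub_cancel_right] at this
        have h7 : |(1 + 2 * ε * A) / ‖x‖| ≤ 1 + 2 * ε * A := by
          rw [abs_of_nonneg (by (clear * - hε hA hx1; positivity))]
          exact div_le_self (by (clear * - hε hA; positivity)) hx1
        have h8 : ε * (4 * A * R) / ‖x‖ ^ 2 ≤ ε * (4 * A * R) :=
          div_le_self (by (clear * - hε hA hR; positivity)) (one_le_pow₀ hx1)
        have h9 := abs_sub (v1 ε A R x) E4
        linarith only [h5, h6, h7, h8, h9])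
      (by
        intro hx
        have h5 := h3.2
        have h6 : T * (1 / ‖x‖ ^ 2) * nrm (Pf F Φ) x =
          ε * (21 * √M) / ‖x‖ ^ 2 * nrm (Pf F Φ) x := by rw [hT]; ring
        rw [h6]
        exact h5)
      (by (clear * -; positivity)) hT0 (nrm_nonneg _ _)
      (Finset.sum_nonneg fun i _ => Finset.sum_nonneg fun k _ => nsq_nonneg _ _)
    simp only [nrm_sq] at h4 ⊢
    have h5 : χ x ^ 2 * (1 / ‖x‖ ^ 2) ^ 2 * dys F Φ x ^ 2 =
        χ x ^ 2 / ‖x‖ ^ 4 * dys F Φ x ^ 2 := by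
      rw [one_div, inv_pow, ← pow_mul, div_eq_mul_inv]
    rw [h5] at h4
    exact h4
  -- integrate
  have hs1 : Integrable (fun x => (1 / 2) * (∑ k, (2 * χ x * pdv k χ x) *
      ipy (Pf F Φ) (Pf (Fx k) Φ) x)) volume :=
    (integrable_finsetSum _ fun k _ => hi1 k).const_mul (1 / 2)
  have hs2 : Integrable (fun x => (1 / 2) * (∑ k, χ x ^ 2 * nsq (Pf (Fx k) Φ) x)) volume :=
    (integrable_finsetSum _ fun k _ => hi2 k).const_mul (1 / 2)
  have hs12 : Integrable (fun x => (1 / 2) * (∑ k, (2 * χ x * pdv k χ x) *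
      ipy (Pf F Φ) (Pf (Fx k) Φ) x) + (1 / 2) * (∑ k, χ x ^ 2 * nsq (Pf (Fx k) Φ) x)) volume :=
    hs1.add hs2
  have hs123 : Integrable (fun x => (1 / 2) * (∑ k, (2 * χ x * pdv k χ x) *
      ipy (Pf F Φ) (Pf (Fx k) Φ) x) + (1 / 2) * (∑ k, χ x ^ 2 * nsq (Pf (Fx k) Φ) x) +
      χ x ^ 2 * (cen ε A R (Pf F Φ) (Pfy F Fy Φ Φy) x +
        (v1 ε A R x - E4) * nsq (Pf F Φ) x)) volume := hs12.add hi3
  have hs : Integrable (fun x => (1 / 2) * (∑ k, (2 * χ x * pdv k χ x) *
      ipy (Pf F Φ) (Pf (Fx k) Φ) x) + (1 / 2) * (∑ k, χ x ^ 2 * nsq (Pf (Fx k) Φ) x) +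
      χ x ^ 2 * (cen ε A R (Pf F Φ) (Pfy F Fy Φ Φy) x +
        (v1 ε A R x - E4) * nsq (Pf F Φ) x) +
      χ x ^ 2 * (dys F Φ x * Sf ε F Φ x)) volume := hs123.add hi4
  have hr1 := hi5.const_mul (1 + C1 + K + T ^ 2 / 2)
  have hr2 := hi6.const_mul (1 + C1 + K + T ^ 2 / 2)
  have hr : Integrable (fun x =>
      (1 + C1 + K + T ^ 2 / 2) * ((χ x ^ 2 + ∑ k, pdv k χ x ^ 2) * nrm (Pf F Φ) x ^ 2) +
        (1 + C1 + K + T ^ 2 / 2) * (χ x ^ 2 / ‖x‖ ^ 4 * dys F Φ x ^ 2)) volume := hr1.add hr2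
  have hI := integral_mono_ae (hi7.const_mul (1 / 4)) (hs.add hr) hpt
  have e0 : (∫ x, ((1 / 2) * (∑ k, (2 * χ x * pdv k χ x) * ipy (Pf F Φ) (Pf (Fx k) Φ) x) +
        (1 / 2) * (∑ k, χ x ^ 2 * nsq (Pf (Fx k) Φ) x) +
        χ x ^ 2 * (cen ε A R (Pf F Φ) (Pfy F Fy Φ Φy) x + (v1 ε A R x - E4) * nsq (Pf F Φ) x) +
        χ x ^ 2 * (dys F Φ x * Sf ε F Φ x))) = 0 := by
    rw [integral_add hs123 hi4, integral_add hs12 hi3, integral_add hs1 hs2, integral_const_mul,
      integral_const_mul, integral_finsetSum _ (fun k _ => hi1 k),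
      integral_finsetSum _ (fun k _ => hi2 k)]
    exact hid
  have e1 := integral_add hs hr
  have e2 := integral_add hr1 hr2
  rw [integral_const_mul, integral_const_mul] at e2
  rw [integral_const_mul] at hI
  simp only [Pi.add_apply] at hI e1 e2
  rw [e1, e0, e2, zero_add] at hI
  linarith only [hI]

end

end Vale.Agent.P363.D
end
end

section

section

/-! # P363, exact side: the scalar data -/

namespace Vale.Agent.P363.D

open MeasureTheory Set Filter Topology
open scoped ENNReal ContDiff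

noncomputable section

theorem measurable_v1 (ε A R : ℝ) : Measurable (v1 ε A R) := by
  have h1 : ∀ c : R3, Measurable (fun x : R3 => 1 / ‖x - c‖) := fun c =>
    measurable_const.div ((measurable_id.sub_const c).norm)
  have h2 : Measurable (fun x : R3 => 1 / ‖x + R • ez‖) :=
    measurable_const.div ((measurable_id.add_const _).norm)
  have h3 : Measurable (fun x : R3 => 1 / ‖x‖) := measurable_const.div measurable_norm
  exact h3.neg.sub (((h1 _).add h2).const_mul _)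

theorem dens_eq_nrm (F : X4 → ℝ) (x : R3) : dens F x = 4 * nrm F x ^ 2 := by
  rw [nrm_sq]; rfl

theorem densD_eq_ipy (F : X4 → ℝ) (Fx : Fin 3 → X4 → ℝ) (k : Fin 3) (x : R3) :
    densD F Fx k x = 4 * ipy F (Fx k) x := rfl

theorem densD_sq_div (F : X4 → ℝ) (Fx : Fin 3 → X4 → ℝ) (k : Fin 3) (x : R3) :
    densD F Fx k x ^ 2 / dens F x = 4 * nrmg F Fx k x ^ 2 := by
  rw [dens_eq_nrm, densD_eq_ipy, nrmg]
  by_cases h : nrm F x = 0
  · rw [h]; simp
  · field_simp

theorem dens_acl' {F : X4 → ℝ} {Fx : Fin 3 → X4 → ℝ} {Fy : Fin 3 → Fin 3 → X4 → ℝ}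
    (hF : HX F Fx Fy) (k : Fin 3) :
    ACL volume (dir3 k) (dens F) (fun x => 2 * densD F Fx k x) := by
  have h1 : ACL (volume : Measure X4) ((dir3 k, 0) : X4) (fun p => F p * F p)
      (fun p => Fx k p * F p + F p * Fx k p) := (hF.aclx k).mul (hF.aclx k)
  have i1 : Integrable (fun p : X4 => F p * F p) volume := hF.memLp.integrable_mul hF.memLp
  have i2 : Integrable (fun p : X4 => Fx k p * F p) volume :=
    (hF.memLpx k).integrable_mul hF.memLp
  have i3 : Integrable (fun p : X4 => F p * Fx k p) volume :=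
    hF.memLp.integrable_mul (hF.memLpx k)
  have i4 : Integrable (fun p : X4 => Fx k p * F p + F p * Fx k p) volume := i2.add i3
  have h2 := ACL.marginal (μ := (volume : Measure R3)) (ν := (volume : Measure (Conf 3)))
    h1 i1 i4
  refine (h2.const_mul 4).congr ?_ ?_
  · filter_upwards with x
    unfold dens
    congr 2
    funext y
    ring
  · filter_upwards with x
    unfold densD
    have : (fun y => Fx k (x, y) * F (x, y) + F (x, y) * Fx k (x, y)) =
        fun y => 2 * (F (x, y) * Fx k (x, y)) := by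
      funext y; ring
    rw [this, integral_const_mul]
    ring

/-- Integrability of bounded potentials outside the ball. -/
theorem test_bdd_integrable {ρ : ℝ} {w : R3 → ℝ} {K : ℝ} (hw : Measurable w)
    (hK : ∀ x : R3, ρ < ‖x‖ → |w x| ≤ K) {f h : R3 → ℝ} {hg : Fin 3 → R3 → ℝ}
    (hf : MemLp f 2 volume) (hh : Test ρ h hg) :
    Integrable (fun x => w x * f x * h x) volume := by
  have h1 : Integrable (fun x => f x * h x) volume := hf.integrable_mul hh.H1.memLp
  refine (h1.norm.const_mul K).mono'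
    ((hw.aestronglyMeasurable.mul hf.1).mul hh.H1.memLp.1) ?_
  filter_upwards [hh.zero] with x hx
  by_cases hr : ρ < ‖x‖
  · rw [norm_mul, norm_mul, norm_mul, mul_assoc]
    exact mul_le_mul_of_nonneg_right (hK x hr) (by (clear * -; positivity))
  · rw [hx (not_lt.mp hr)]
    simp

theorem div_norm_le {ρ : ℝ} (hρ : 1 ≤ ρ) {x : R3} (hx : ρ < ‖x‖) (c : ℝ) :
    |c / ‖x‖| ≤ |c| := by
  have hx1 : 1 ≤ ‖x‖ := by linarith only [hρ, hx]
  have hx0 : 0 < ‖x‖ := by linarith
  rw [abs_div, abs_of_pos hx0]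
  exact div_le_self (abs_nonneg _) hx1

theorem div_norm_sq_le {ρ : ℝ} (hρ : 1 ≤ ρ) {x : R3} (hx : ρ < ‖x‖) (c : ℝ) :
    |c / ‖x‖ ^ 2| ≤ |c| := by
  have hx1 : 1 ≤ ‖x‖ := by linarith only [hρ, hx]
  have hx0 : 0 < ‖x‖ := by linarith
  rw [abs_div, abs_of_nonneg (by positivity : (0:ℝ) ≤ ‖x‖ ^ 2)]
  exact div_le_self (abs_nonneg _) (by nlinarith only [hρ, hx])

/-- Comparison of two potentials in a weak inequality. -/
theorem test_mono {ρ : ℝ} {w w' : R3 → ℝ} {K K' : ℝ} (hw : Measurable w) (hw' : Measurable w')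
    (hK : ∀ x : R3, ρ < ‖x‖ → |w x| ≤ K) (hK' : ∀ x : R3, ρ < ‖x‖ → |w' x| ≤ K')
    (hle : ∀ x : R3, ρ < ‖x‖ → w x ≤ w' x) {f h : R3 → ℝ} {hg : Fin 3 → R3 → ℝ}
    (hf : MemLp f 2 volume) (hf0 : ∀ x, 0 ≤ f x) (hh : Test ρ h hg)
    (h0 : ∀ᵐ x : R3, 0 ≤ h x) :
    ∫ x, w x * f x * h x ≤ ∫ x, w' x * f x * h x := by
  refine integral_mono_ae (test_bdd_integrable hw hK hf hh)
    (test_bdd_integrable hw' hK' hf hh) ?_
  filter_upwards [h0, hh.zero] with x hx0 hxz
  by_cases hx : ρ < ‖x‖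
  · exact mul_le_mul_of_nonneg_right (mul_le_mul_of_nonneg_right (hle x hx) (hf0 x)) hx0
  · rw [hxz (not_lt.mp hx)]
    simp

section ineqs

variable {A R δ M C ρ ε E4 E3 κ : ℝ} {F : X4 → ℝ} {Fx : Fin 3 → X4 → ℝ}
  {Fy : Fin 3 → Fin 3 → X4 → ℝ} {Φ : Conf 3 → ℝ} {Φy : Fin 3 → Fin 3 → Conf 3 → ℝ}

theorem scal_p_ineq (hS : Sys A R ε δ M E4 E3 F Fx Fy Φ Φy) (hA : 0 ≤ A) (hR : 0 < R)
    (hC : C = 4 * A * R + 42 * √M + |2 * A - 3|) (hε : 0 < ε)
    (hρ1 : 1 ≤ ρ) (hρR : 2 * R + 1 ≤ ρ) (hκ2 : κ ^ 2 / 2 = E3 - E4)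
    {h : R3 → ℝ} {hg : Fin 3 → R3 → ℝ} (hh : Test ρ h hg) (h0 : ∀ᵐ x : R3, 0 ≤ h x) :
    (1 / 2) * (∑ k, ∫ x, nrmg (Pf F Φ) (fun k => Pf (Fx k) Φ) k x * hg k x) +
      ∫ x, (κ ^ 2 / 2 + ε * δ - (1 + ε * (2 * A - 3) + 3 * ε) / ‖x‖ - ε * C / ‖x‖ ^ 2) *
        nrm (Pf F Φ) x * h x ≤
      ∫ x, ε * C / ‖x‖ ^ 2 * |dys F Φ x| * h x := by
  have hM0 : 0 ≤ √M := Real.sqrt_nonneg M
  have mnorm : Measurable (fun x : R3 => ‖x‖) := measurable_norm
  have hfar : ∀ x : R3, ρ < ‖x‖ → |v1 ε A R x + (1 + 2 * ε * A) / ‖x‖| ≤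
      ε * (4 * A * R) / ‖x‖ ^ 2 := fun x hx => v1_far hA hR hε.le (by linarith only [hρR, hx])
  have hpH := hS.P_HX.norm
  have h1 := hS.kato_P hε hρ1 hh h0
  have hle1 := test_mono (ρ := ρ)
    (w := fun x : R3 => κ ^ 2 / 2 + ε * δ - (1 + ε * (2 * A - 3) + 3 * ε) / ‖x‖ -
      ε * C / ‖x‖ ^ 2)
    (w' := fun x : R3 => E3 - E4 + ε * δ + v1 ε A R x)
    (K := |κ ^ 2 / 2 + ε * δ| + |1 + ε * (2 * A - 3) + 3 * ε| + |ε * C|)
    (K' := |κ ^ 2 / 2 + ε * δ| + |1 + 2 * ε * A| + |ε * (4 * A * R)|)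
    ((measurable_const.sub (measurable_const.div mnorm)).sub
        (measurable_const.div (mnorm.pow_const 2)))
    ((measurable_v1 ε A R).const_add _) ?_ ?_ ?_ hpH.1.memLp (fun x => nrm_nonneg _ _) hh h0
  · have hle2 := test_mono (ρ := ρ) (f := fun x : R3 => |dys F Φ x|)
      (w := fun x : R3 => ε * (21 * √M) / ‖x‖ ^ 2) (w' := fun x : R3 => ε * C / ‖x‖ ^ 2)
      (K := |ε * (21 * √M)|) (K' := |ε * C|)
      (measurable_const.div (mnorm.pow_const 2)) (measurable_const.div (mnorm.pow_const 2))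
      (fun x hx => div_norm_sq_le hρ1 hx _) (fun x hx => div_norm_sq_le hρ1 hx _) ?_
      hS.dys_H1.memLp.abs (fun x => abs_nonneg _) hh h0
    · linarith only [h1, hle1, hle2]
    · intro x hx
      apply div_le_div_of_nonneg_right _ (by (clear * -; positivity))
      apply mul_le_mul_of_nonneg_left _ hε.le
      have : 0 ≤ 4 * A * R + |2 * A - 3| := by (clear * - hA hR; positivity)
      rw [hC]; linarith only [hM0, this]
  · intro x hx
    have h4 := abs_le.mp (div_norm_le hρ1 hx (1 + ε * (2 * A - 3) + 3 * ε))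
    have h3 := abs_le.mp (div_norm_sq_le hρ1 hx (ε * C))
    have h5 := abs_le.mp (le_refl |κ ^ 2 / 2 + ε * δ|)
    rw [abs_le]
    constructor <;> linarith only [h4, h3, h5]
  · intro x hx
    have h4 := abs_le.mp (div_norm_le hρ1 hx (1 + 2 * ε * A))
    have h3 := abs_le.mp (div_norm_sq_le hρ1 hx (ε * (4 * A * R)))
    have h5 := abs_le.mp (le_refl |κ ^ 2 / 2 + ε * δ|)
    have h6 := abs_le.mp (hfar x hx)
    rw [abs_le]
    constructor <;> linarith only [hκ2, h4, h3, h5, h6]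
  · intro x hx
    have hxp : 0 < ‖x‖ := by linarith only [hR, hρR, hx]
    have h6 := abs_le.mp (hfar x hx)
    have e1 : (1 + ε * (2 * A - 3) + 3 * ε) / ‖x‖ = (1 + 2 * ε * A) / ‖x‖ := by
      congr 1; ring
    have e2 : ε * (4 * A * R) / ‖x‖ ^ 2 ≤ ε * C / ‖x‖ ^ 2 := by
      apply div_le_div_of_nonneg_right _ (by (clear * - hxp; positivity))
      apply mul_le_mul_of_nonneg_left _ hε.le
      have : 0 ≤ 42 * √M + |2 * A - 3| := by (clear * -; positivity)
      rw [hC]; linarith only [this]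
    show κ ^ 2 / 2 + ε * δ - (1 + ε * (2 * A - 3) + 3 * ε) / ‖x‖ - ε * C / ‖x‖ ^ 2 ≤
      E3 - E4 + ε * δ + v1 ε A R x
    rw [e1, hκ2]
    linarith only [h6, e2]

theorem scal_s_ineq (hS : Sys A R ε δ M E4 E3 F Fx Fy Φ Φy) (hA : 0 ≤ A) (hR : 0 < R)
    (hδ : 0 < δ) (hC : C = 4 * A * R + 42 * √M + |2 * A - 3|) (hε : 0 < ε)
    (hρ1 : 1 ≤ ρ) (hρR : 2 * R + 1 ≤ ρ) (hρδ : 3 / δ ≤ ρ) (hκ2 : κ ^ 2 / 2 = E3 - E4)
    {h : R3 → ℝ} {hg : Fin 3 → R3 → ℝ} (hh : Test ρ h hg) (h0 : ∀ᵐ x : R3, 0 ≤ h x) :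
    (1 / 2) * (∑ k, ∫ x, nrmg F Fx k x * hg k x) +
      ∫ x, (κ ^ 2 / 2 - (1 + ε * (2 * A - 3)) / ‖x‖ - ε * C / ‖x‖ ^ 2) *
        nrm F x * h x ≤ 0 := by
  have hM0 : 0 ≤ √M := Real.sqrt_nonneg M
  have mnorm : Measurable (fun x : R3 => ‖x‖) := measurable_norm
  have hfar : ∀ x : R3, ρ < ‖x‖ → |v1 ε A R x + (1 + 2 * ε * A) / ‖x‖| ≤
      ε * (4 * A * R) / ‖x‖ ^ 2 := fun x hx => v1_far hA hR hε.le (by linarith only [hρR, hx])
  have hsH := hS.F_H1.norm
  have h1 := hS.kato_F hε hδ hρ1 hρδ hh h0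
  have hle1 := test_mono (ρ := ρ)
    (w := fun x : R3 => κ ^ 2 / 2 - (1 + ε * (2 * A - 3)) / ‖x‖ - ε * C / ‖x‖ ^ 2)
    (w' := fun x : R3 => E3 - E4 + v1 ε A R x + 3 * ε / ‖x‖ - ε * (42 * √M) / ‖x‖ ^ 2)
    (K := |κ ^ 2 / 2| + |1 + ε * (2 * A - 3)| + |ε * C|)
    (K' := |κ ^ 2 / 2| + |1 + 2 * ε * A| + |ε * (4 * A * R)| + |3 * ε| + |ε * (42 * √M)|)
    ((measurable_const.sub (measurable_const.div mnorm)).sub
        (measurable_const.div (mnorm.pow_const 2)))
    ((((measurable_v1 ε A R).const_add _).add (measurable_const.div mnorm)).sub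
        (measurable_const.div (mnorm.pow_const 2)))
    ?_ ?_ ?_ hsH.1.memLp (fun x => nrm_nonneg _ _) hh h0
  · linarith only [hle1, h1]
  · intro x hx
    have h4 := abs_le.mp (div_norm_le hρ1 hx (1 + ε * (2 * A - 3)))
    have h3 := abs_le.mp (div_norm_sq_le hρ1 hx (ε * C))
    have h5 := abs_le.mp (le_refl |κ ^ 2 / 2|)
    rw [abs_le]
    constructor <;> linarith only [h4, h3, h5]
  · intro x hx
    have h4 := abs_le.mp (div_norm_le hρ1 hx (1 + 2 * ε * A))
    have h3 := abs_le.mp (div_norm_sq_le hρ1 hx (ε * (4 * A * R)))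
    have h7 := abs_le.mp (div_norm_le hρ1 hx (3 * ε))
    have h8 := abs_le.mp (div_norm_sq_le hρ1 hx (ε * (42 * √M)))
    have h5 := abs_le.mp (le_refl |κ ^ 2 / 2|)
    have h6 := abs_le.mp (hfar x hx)
    rw [abs_le]
    constructor <;> linarith only [hκ2, h4, h3, h7, h8, h5, h6]
  · intro x hx
    have hxp : 0 < ‖x‖ := by linarith only [hR, hρR, hx]
    have h6 := abs_le.mp (hfar x hx)
    have e1 : (1 + ε * (2 * A - 3)) / ‖x‖ = (1 + 2 * ε * A) / ‖x‖ - 3 * ε / ‖x‖ := by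
      field_simp
      ring
    have e2 : ε * C / ‖x‖ ^ 2 = ε * (4 * A * R) / ‖x‖ ^ 2 + ε * (42 * √M) / ‖x‖ ^ 2 +
        ε * |2 * A - 3| / ‖x‖ ^ 2 := by
      rw [hC]; (clear * - hxp hε; field_simp)
    have e3 : 0 ≤ ε * |2 * A - 3| / ‖x‖ ^ 2 := by (clear * - hε hxp; positivity)
    show κ ^ 2 / 2 - (1 + ε * (2 * A - 3)) / ‖x‖ - ε * C / ‖x‖ ^ 2 ≤
      E3 - E4 + v1 ε A R x + 3 * ε / ‖x‖ - ε * (42 * √M) / ‖x‖ ^ 2
    rw [e1, e2, hκ2]
    linarith only [h6, e3]

end ineqs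

theorem sys_scal (A R δ M : ℝ) (hA : 0 ≤ A) (hR : 0 < R) (hδ : 0 < δ) :
    ∃ C ρ : ℝ, 0 ≤ C ∧ 1 ≤ ρ ∧ |2 * A - 3| ≤ C ∧
    ∀ (ε E4 E3 : ℝ) (F : X4 → ℝ) (Fx : Fin 3 → X4 → ℝ) (Fy : Fin 3 → Fin 3 → X4 → ℝ)
      (Φ : Conf 3 → ℝ) (Φy : Fin 3 → Fin 3 → Conf 3 → ℝ), 0 < ε → ε ≤ 1 → C * ε ≤ 1 / 2 →
      |E3 - E4 - 1 / 8| < 1 / 100 → Sys A R ε δ M E4 E3 F Fx Fy Φ Φy →
      ∃ C2 dg s sg p pg V S TP, Scal (√(2 * (E3 - E4))) (1 + ε * (2 * A - 3)) ε δ C ρ C2
        (dens F) (densD F Fx) (dys F Φ) dg s sg p pg V S TP := by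
  have hM0 : 0 ≤ √M := Real.sqrt_nonneg M
  refine ⟨4 * A * R + 42 * √M + |2 * A - 3|, max (2 * R + 1) (max (3 / δ) 1), by (clear * - hA hR; positivity),
    (le_max_right _ _).trans (le_max_right _ _), by
      have : 0 ≤ 4 * A * R + 42 * √M := by positivity
      linarith only [this], ?_⟩
  intro ε E4 E3 F Fx Fy Φ Φy hε hε1 hCε hE hS
  obtain ⟨C, hC⟩ : ∃ C, C = 4 * A * R + 42 * √M + |2 * A - 3| := ⟨_, rfl⟩
  obtain ⟨ρ, hρ⟩ : ∃ ρ, ρ = max (2 * R + 1) (max (3 / δ) 1) := ⟨_, rfl⟩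
  rw [← hC] at hCε
  rw [← hC, ← hρ]
  have hρ1 : 1 ≤ ρ := by rw [hρ]; exact (le_max_right _ _).trans (le_max_right _ _)
  have hρR : 2 * R + 1 ≤ ρ := by rw [hρ]; exact le_max_left _ _
  have hρδ : 3 / δ ≤ ρ := by rw [hρ]; exact (le_max_left _ _).trans (le_max_right _ _)
  have hC0 : 0 ≤ C := by rw [hC]; (clear * - hA hR; positivity)
  have hAC : |2 * A - 3| ≤ C := by
    rw [hC]
    have : 0 ≤ 4 * A * R + 42 * √M := by (clear * - hA hR; positivity)
    linarith only [this]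
  obtain ⟨C1, hC1, hcacc⟩ := hS.cacc hA hR hε hρR
  obtain ⟨C2, hC2, hen⟩ := hS.energy hA hR hε hε1 hρR
  have hE' := abs_lt.mp hE
  obtain ⟨κ, hκ⟩ : ∃ κ, κ = √(2 * (E3 - E4)) := ⟨_, rfl⟩
  have hκ2 : κ ^ 2 / 2 = E3 - E4 := by
    rw [hκ, Real.sq_sqrt (by linarith only [hE'])]
    ring
  have hκ0 : 0 ≤ κ := by rw [hκ]; exact Real.sqrt_nonneg _
  rw [← hκ]
  have hq := abs_le.mp hAC
  have hεC1 : ε * (2 * A - 3) ≤ C * ε := by nlinarith only [hε, hq]
  have hεC2 : -(C * ε) ≤ ε * (2 * A - 3) := by nlinarith only [hε, hq]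
  have hfar : ∀ x : R3, ρ < ‖x‖ → |v1 ε A R x + (1 + 2 * ε * A) / ‖x‖| ≤
      ε * (4 * A * R) / ‖x‖ ^ 2 := fun x hx => v1_far hA hR hε.le (by linarith only [hρR, hx])
  have hU := hS.Uf_bound
  have hSf := hS.Sf_bound hε.le
  have hsH := hS.F_H1.norm
  have hpH := hS.P_HX.norm
  refine ⟨max C1 C2, fun k => dys (Fx k) Φ, nrm F, nrmg F Fx, nrm (Pf F Φ),
    nrmg (Pf F Φ) (fun k => Pf (Fx k) Φ), fun x => v1 ε A R x + (E3 - E4) + ε * Uf Φ x,
    fun x => - Sf ε F Φ x, TPf F Fx Fy Φ Φy, ?_⟩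
  have mnorm : Measurable (fun x : R3 => ‖x‖) := measurable_norm
  constructor
  case par =>
    refine ⟨?_, ?_, ?_, ?_, hε, hε1⟩
    · rw [hκ]
      apply Real.le_sqrt_of_sq_le
      linarith only [hE']
    · rw [hκ]
      apply Real.sqrt_le_iff.mpr
      constructor
      · norm_num
      · linarith only [hE']
    · linarith only [hCε, hεC2]
    · linarith only [hCε, hεC1]
  case C'_nonneg => exact hC1.trans (le_max_left _ _)
  case d_H1 => exact hS.dys_H1
  case s_H1 => exact hsH.1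
  case p_H1 => exact hpH.1
  case s_nonneg => exact fun x => nrm_nonneg _ _
  case p_nonneg => exact fun x => nrm_nonneg _ _
  case sq =>
    have h := ipy_split (Φ := Φ) hS.F_H1.memLp hS.F_H1.memLp hS.Φ_H1.memLp hS.Φ_norm
    filter_upwards [h] with x hx
    have h1 : ∀ u : X4 → ℝ, nsq u x = ipy u u x := by
      intro u
      unfold nsq ipy
      congr 1
      funext y
      ring
    rw [nrm_sq, nrm_sq, h1, h1, hx.1]
    ring
  case s_norm =>
    have h := nsq_integrable hS.F_H1.memLp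
    have : (fun x => nrm F x ^ 2) = nsq F := funext fun x => nrm_sq F x
    rw [this, h.2, hS.F_norm]
  case d_odd => exact hS.dys_odd
  case n_nonneg =>
    intro x
    rw [dens_eq_nrm]
    (clear * -; positivity)
  case n_eq =>
    filter_upwards with x
    exact dens_eq_nrm F x
  case n_int => exact (nsq_integrable hS.F_H1.memLp).1.const_mul 4
  case n_acl => exact fun k => dens_acl' hS.F_H1 k
  case D_int => exact fun k => (ipy_integrable hS.F_H1.memLp (hS.F_H1.memLpx k)).1.const_mul 4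
  case D2_int =>
    intro k
    have h1 : (fun x => densD F Fx k x ^ 2 / dens F x) = fun x => 4 * nrmg F Fx k x ^ 2 :=
      funext fun x => densD_sq_div F Fx k x
    rw [h1]
    exact (hsH.1.memLp' k).integrable_sq.const_mul 4
  case V_meas => exact ((measurable_v1 ε A R).add_const _).add (hU.1.const_mul ε)
  case V_le =>
    intro x hx
    have hx0 : 0 < ‖x‖ := by linarith only [hR, hρR, hx]
    have hxne : x ≠ 0 := norm_pos_iff.mp hx0
    have h1 := abs_le.mp (hfar x hx)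
    have h2 := abs_le.mp (hU.2.2 x hxne)
    have e1 : (1 + ε * (2 * A - 3)) / ‖x‖ = (1 + 2 * ε * A) / ‖x‖ - ε * (3 / ‖x‖) := by
      field_simp
      ring
    have e2 : ε * C / ‖x‖ ^ 2 = ε * (4 * A * R) / ‖x‖ ^ 2 + ε * (21 * √M / ‖x‖ ^ 2) +
        ε * ((21 * √M + |2 * A - 3|) / ‖x‖ ^ 2) := by
      rw [hC]
      field_simp
      ring
    have h3 : 0 ≤ ε * ((21 * √M + |2 * A - 3|) / ‖x‖ ^ 2) := by (clear * - hε hxne; positivity)
    have h4 : ε * (Uf Φ x - 3 / ‖x‖) ≤ ε * (21 * √M / ‖x‖ ^ 2) :=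
      mul_le_mul_of_nonneg_left h2.2 hε.le
    have h5 : ε * (-(21 * √M / ‖x‖ ^ 2)) ≤ ε * (Uf Φ x - 3 / ‖x‖) :=
      mul_le_mul_of_nonneg_left h2.1 hε.le
    rw [hκ2, e1, e2, abs_le]
    constructor <;> linarith only [h1, h3, h4, h5]
  case S_meas => exact hSf.1.neg
  case S_le =>
    filter_upwards [hSf.2] with x hx hxρ
    have hx0 : 0 < ‖x‖ := by linarith only [hR, hρR, hxρ]
    rw [abs_neg]
    refine hx.2.trans ?_
    have h1 : ε * (21 * √M) / ‖x‖ ^ 2 ≤ ε * C / ‖x‖ ^ 2 := by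
      apply div_le_div_of_nonneg_right _ (by (clear * - hx0; positivity))
      apply mul_le_mul_of_nonneg_left _ hε.le
      have : 0 ≤ 4 * A * R + |2 * A - 3| := by (clear * - hA hR; positivity)
      rw [hC]; linarith only [hM0, this]
    exact mul_le_mul_of_nonneg_right h1 (nrm_nonneg _ _)
  case d_eq =>
    intro h hg hh
    have h1 := hS.dys_eq hε.le hh.H1
    have e1 : (fun x => (v1 ε A R x + (E3 - E4) + ε * Uf Φ x) * dys F Φ x * h x) =
        fun x => (v1 ε A R x + (E3 - E4) + ε * Uf Φ x) * (dys F Φ x * h x) := by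
      funext x; ring
    have e2 : (fun x => -Sf ε F Φ x * h x) = fun x => -(Sf ε F Φ x * h x) := by
      funext x; ring
    rw [e1, e2, integral_neg]
    exact h1
  case p_ineq => exact fun h hg hh h0 => scal_p_ineq hS hA hR hC hε hρ1 hρR hκ2 hh h0
  case s_ineq => exact fun h hg hh h0 => scal_s_ineq hS hA hR hδ hC hε hρ1 hρR hρδ hκ2 hh h0
  case TP_nonneg =>
    intro x
    unfold TPf
    have h1 : ∀ u : X4 → ℝ, 0 ≤ nsq u x := fun u => nsq_nonneg u x
    exact add_nonneg (add_nonneg (Finset.sum_nonneg fun _ _ => h1 _)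
      (Finset.sum_nonneg fun _ _ => Finset.sum_nonneg fun _ _ => h1 _)) (h1 _)
  case TP_int => exact TPf_integrable hS
  case cacc =>
    intro χ h1 h2 h3
    refine (hcacc χ h1 h2 h3).trans ?_
    have h4 : 0 ≤ ∫ x, (χ x ^ 2 + ∑ k, pdv k χ x ^ 2) * nrm (Pf F Φ) x ^ 2 :=
      integral_nonneg fun x => by (clear * -; positivity)
    have h5 : 0 ≤ ∫ x, χ x ^ 2 / ‖x‖ ^ 4 * dys F Φ x ^ 2 :=
      integral_nonneg fun x => by (clear * -; positivity)
    have h6 : C1 ≤ max C1 C2 := le_max_left _ _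
    exact add_le_add (mul_le_mul_of_nonneg_right h6 h4) (mul_le_mul_of_nonneg_right h6 h5)
  case energy =>
    intro g gg h1 h2 h3 h4 h5 h6
    rw [hκ2]
    exact hen (max C1 C2) (le_max_right _ _) g gg h1 h2 h3 h4 h5 h6

end

end Vale.Agent.P363.D
end
end

section

section

/-!
# P363, block X: (E2)
-/

namespace Vale.Agent.P363.D

open MeasureTheory Set Filter Topology
open scoped ENNReal ContDiff

noncomputable section

/-- The potential of the inequality for `p`. -/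
def xe2V (κ q ε δ C : ℝ) (x : R3) : ℝ :=
  κ ^ 2 / 2 + ε * δ - (q + 3 * ε) / ‖x‖ - ε * C / ‖x‖ ^ 2

/-- The source of the inequality for `p`. -/
def xe2f (ε C : ℝ) (d : R3 → ℝ) (x : R3) : ℝ := ε * C / ‖x‖ ^ 2 * |d x|

theorem xe2V_meas (κ q ε δ C : ℝ) : Measurable (xe2V κ q ε δ C) := by
  unfold xe2V
  (clear * -; fun_prop)

theorem xe2V_low {κ q ε δ C : ℝ} (hε : 0 ≤ ε) (hC : 0 ≤ C) {x : R3} (hx : 1 ≤ ‖x‖) :
    κ ^ 2 / 2 + ε * δ - (q + 3 * ε + ε * C) / ‖x‖ ≤ xe2V κ q ε δ C x := by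
  have h0 : 0 < ‖x‖ := by linarith only [hx]
  have h1 : ε * C / ‖x‖ ^ 2 ≤ ε * C / ‖x‖ := by
    exact div_le_div_of_nonneg_left (by positivity) h0 (le_self_pow₀ hx two_ne_zero)
  unfold xe2V
  have h2 : (q + 3 * ε + ε * C) / ‖x‖ = (q + 3 * ε) / ‖x‖ + ε * C / ‖x‖ := by ring
  rw [h2]
  linarith only [h1]

theorem xe2V_up {κ q ε δ C : ℝ} (hq : 0 ≤ q) (hε : 0 ≤ ε) (hC : 0 ≤ C) (x : R3) :
    xe2V κ q ε δ C x ≤ κ ^ 2 / 2 + ε * δ := by
  unfold xe2V
  have h1 : 0 ≤ (q + 3 * ε) / ‖x‖ := by positivity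
  have h2 : 0 ≤ ε * C / ‖x‖ ^ 2 := by positivity
  linarith

theorem xe2f_memLp {ε C : ℝ} (hε : 0 ≤ ε) (hC : 0 ≤ C) {d : R3 → ℝ} (hd : MemLp d 2 volume)
    {R : ℝ} (hR : 1 ≤ R) :
    MemLp ({x : R3 | R < ‖x‖}.indicator (xe2f ε C d)) 2 volume := by
  have hS : MeasurableSet {x : R3 | R < ‖x‖} := measurableSet_lt measurable_const measurable_norm
  have hm : AEStronglyMeasurable (xe2f ε C d) volume := by
    have h1 : Measurable fun x : R3 => ε * C / ‖x‖ ^ 2 := by fun_prop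
    exact h1.aestronglyMeasurable.mul hd.1.norm
  refine MemLp.of_le_mul (c := ε * C) hd (hm.indicator hS) (Eventually.of_forall fun x => ?_)
  by_cases hx : x ∈ {x : R3 | R < ‖x‖}
  · rw [indicator_of_mem hx, Real.norm_eq_abs, Real.norm_eq_abs]
    have hx1 : 1 ≤ ‖x‖ := hR.trans (le_of_lt hx)
    unfold xe2f
    rw [abs_mul, abs_abs, abs_of_nonneg (by (clear * - hε hC hx1; positivity))]
    apply mul_le_mul_of_nonneg_right _ (abs_nonneg _)
    apply div_le_self (by positivity)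
    exact one_le_pow₀ hx1
  · rw [indicator_of_notMem hx, norm_zero]
    (clear * - hε hC; positivity)

theorem xe2_wt {a γ κ : ℝ} (h : a - γ = 2) (x : R3) :
    wt a κ x = (1 + ‖x‖ ^ 2) * wt γ κ x := by
  rw [wt_eq a γ κ x, h, ← rad_sq]
  congr 1
  exact Real.rpow_two _

/-- XE2. (E2). -/
theorem E2_holds {δ C ρ η R1 C1 : ℝ} (hδ : 0 < δ) (hC : 0 ≤ C) (hρ : 1 ≤ ρ) (hη : 0 < η)
    (hη1 : η ≤ 1 / 32) (hR1 : ρ ≤ R1) {X : SD} (hX : X.Ok δ C ρ) (h1 : X.E1 η R1 C1) :
    ∃ R2 C2 : ℝ, R1 ≤ R2 ∧ 0 < C2 ∧ X.E2 η R2 C2 := by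
  have hκ : 0 < X.κ := by linarith only [hX.par.κl]
  have hq : 0 < X.q := by linarith only [hX.par.ql]
  have hε : 0 < X.ε := hX.par.ε0
  set γ : ℝ := X.q / X.κ - 3 + η with hγ
  have hγ2 : X.q / X.κ - 1 + η - γ = 2 := by rw [hγ]; ring
  set K : ℝ := X.q + 3 * X.ε + X.ε * C with hK
  have hK0 : 0 < K := by (clear * - hq hε hC; positivity)
  obtain ⟨Rb, hRb1, hRb⟩ := barrier2 X.κ γ K (b := X.ε * δ / 2) (by positivity)
  set R2 : ℝ := max (max R1 Rb) (2 * K / X.κ ^ 2 + 1) with hR2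
  have hR21 : R1 ≤ R2 := (le_max_left _ _).trans (le_max_left _ _)
  have hR2b : Rb ≤ R2 := (le_max_right _ _).trans (le_max_left _ _)
  have hR2K : 2 * K / X.κ ^ 2 + 1 ≤ R2 := le_max_right _ _
  have hR2one : 1 ≤ R2 := hRb1.trans hR2b
  set C2 : ℝ := 4 * C * |C1| / δ + |C1| * (1 + (R2 + 1) ^ 2) + 1 with hC2
  have hC2a : 4 * C * |C1| / δ ≤ C2 := by
    have : 0 ≤ |C1| * (1 + (R2 + 1) ^ 2) := by (clear * - hRb1; positivity)
    rw [hC2]; linarith only [this]
  have hC2b : |C1| * (1 + (R2 + 1) ^ 2) ≤ C2 := by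
    have : 0 ≤ 4 * C * |C1| / δ := by (clear * - hC hδ; positivity)
    rw [hC2]; linarith only [this]
  have hC2p : 0 < C2 := by (clear * - hC hδ hRb1; positivity)
  refine ⟨R2, C2, hR21, hC2p, ?_⟩
  have hb := (barr_wt hκ γ).const_mul C2
  -- bounds by `s`
  have hs : ∀ᵐ x : R3, R1 < ‖x‖ →
      |X.d x| ≤ |C1| * ((1 + ‖x‖ ^ 2) * wt γ X.κ x) ∧
        X.p x ≤ |C1| * ((1 + ‖x‖ ^ 2) * wt γ X.κ x) := by
    filter_upwards [h1, hX.sq] with x hx hsq hR
    have h2 := hx hR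
    rw [xe2_wt hγ2 x] at h2
    have h3 : 0 < (1 + ‖x‖ ^ 2) * wt γ X.κ x := mul_pos (by (clear * -; positivity)) (wt_pos _ _ _)
    have h4 : X.s x ≤ |C1| * ((1 + ‖x‖ ^ 2) * wt γ X.κ x) :=
      h2.trans (mul_le_mul_of_nonneg_right (le_abs_self _) h3.le)
    have h5 := hX.s_nonneg x
    constructor
    · exact (abs_le_of_sq_le_sq (le_of_le_of_eq (le_add_of_nonneg_right (sq_nonneg _)) hsq.symm)
        h5).trans h4
    · refine le_trans ?_ h4
      exact le_trans (le_abs_self _)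
        (abs_le_of_sq_le_sq (le_of_le_of_eq (le_add_of_nonneg_left (sq_nonneg _)) hsq.symm) h5)
  have key := compare_ext (ρ := ρ) (R := R2) (K := X.κ ^ 2 / 2 + X.ε * δ)
    (by linarith only [hρ, hR1, hR21]) (hR1.trans hR21) (V := xe2V X.κ X.q X.ε δ C) (f := xe2f X.ε C X.d)
    (u := X.p) (b := fun x => C2 * wt γ X.κ x) hX.p_H1 hb.1 (xe2V_meas _ _ _ _ _)
  have hVpos : ∀ x : R3, R2 < ‖x‖ → 0 < xe2V X.κ X.q X.ε δ C x := by
    intro x hx
    have hx1 : 1 ≤ ‖x‖ := by linarith only [hρ, hR1, hR21, hx]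
    refine lt_of_lt_of_le ?_ (xe2V_low hε.le hC hx1)
    have h3 : K / ‖x‖ < X.κ ^ 2 / 2 := by
      rw [div_lt_iff₀ (by linarith only [hρ, hR1, hR21, hx])]
      have h4 : 2 * K / X.κ ^ 2 < ‖x‖ := by linarith only [hR2K, hx]
      rw [div_lt_iff₀ (by positivity)] at h4
      linarith only [h4]
    have h5 : 0 < X.ε * δ := by positivity
    rw [← hK]
    linarith only [h3, h5]
  refine key (fun x hx => ?_) hVpos (xe2f_memLp hε.le hC hX.d_H1.memLp hR2one)
    (fun h hg hT h0 => hX.p_ineq h hg hT h0) ?_ ?_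
  · rw [abs_of_pos (hVpos x hx)]
    exact xe2V_up hq.le hε.le hC x
  · -- the barrier is a supersolution
    filter_upwards [hs] with x hx hR
    have hx1 : 1 ≤ ‖x‖ := by linarith only [hρ, hR1, hR21, hR]
    have hx0 : 0 < ‖x‖ := by linarith only [hρ, hR1, hR21, hR]
    have hw := wt_pos γ X.κ x
    have h2 := (hx (by linarith only [hR21, hR])).1
    have h3 := hRb x (by linarith only [hR2b, hR])
    rw [hb.2 x]
    have h4 : (X.κ ^ 2 / 2 + 2 * (X.ε * δ / 2) - K / ‖x‖) * wt γ X.κ x ≤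
        xe2V X.κ X.q X.ε δ C x * wt γ X.κ x := by
      apply mul_le_mul_of_nonneg_right _ hw.le
      have := xe2V_low (κ := X.κ) (q := X.q) (δ := δ) hε.le hC hx1
      rw [← hK] at this
      linarith only [this]
    have h5 : X.ε * δ / 2 * wt γ X.κ x ≤
        -(1 / 2) * lap (wt γ X.κ) x + xe2V X.κ X.q X.ε δ C x * wt γ X.κ x := by linarith only [h4, h3]
    have h6 : xe2f X.ε C X.d x ≤ 2 * (X.ε * C) * |C1| * wt γ X.κ x := by
      unfold xe2f
      calc X.ε * C / ‖x‖ ^ 2 * |X.d x|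
          ≤ X.ε * C / ‖x‖ ^ 2 * (|C1| * ((1 + ‖x‖ ^ 2) * wt γ X.κ x)) :=
            mul_le_mul_of_nonneg_left h2 (by (clear * - hε hC hx1; positivity))
        _ = X.ε * C * |C1| * wt γ X.κ x * ((1 + ‖x‖ ^ 2) / ‖x‖ ^ 2) := by ring
        _ ≤ X.ε * C * |C1| * wt γ X.κ x * 2 := by
            apply mul_le_mul_of_nonneg_left _ (by (clear * - hε hC hw; positivity))
            rw [div_le_iff₀ (by (clear * - hx1; positivity))]
            have : 1 ≤ ‖x‖ ^ 2 := one_le_pow₀ hx1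
            linarith only [this]
        _ = 2 * (X.ε * C) * |C1| * wt γ X.κ x := by ring
    calc xe2f X.ε C X.d x ≤ 2 * (X.ε * C) * |C1| * wt γ X.κ x := h6
      _ = (4 * C * |C1| / δ) * (X.ε * δ / 2 * wt γ X.κ x) := by field_simp; ring
      _ ≤ C2 * (X.ε * δ / 2 * wt γ X.κ x) :=
          mul_le_mul_of_nonneg_right hC2a (by (clear * - hε hδ hw; positivity))
      _ ≤ C2 * (-(1 / 2) * lap (wt γ X.κ) x + xe2V X.κ X.q X.ε δ C x * wt γ X.κ x) :=
          mul_le_mul_of_nonneg_left h5 hC2p.le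
      _ = -(1 / 2) * (C2 * lap (wt γ X.κ) x) +
          xe2V X.κ X.q X.ε δ C x * (C2 * wt γ X.κ x) := by ring
  · -- the collar
    filter_upwards [hs] with x hx hR hR'
    have hw := wt_pos γ X.κ x
    refine (hx (by linarith only [hR21, hR])).2.trans ?_
    calc |C1| * ((1 + ‖x‖ ^ 2) * wt γ X.κ x) = (|C1| * (1 + ‖x‖ ^ 2)) * wt γ X.κ x := by ring
      _ ≤ C2 * wt γ X.κ x := by
          apply mul_le_mul_of_nonneg_right _ hw.le
          refine le_trans ?_ hC2b
          apply mul_le_mul_of_nonneg_left _ (abs_nonneg _)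
          have := pow_le_pow_left₀ (norm_nonneg x) hR'.le 2
          linarith only [this]

end

end Vale.Agent.P363.D
end
end

section

section

/-!
# P363, block X: (E3)
-/

namespace Vale.Agent.P363.D

open MeasureTheory Set Filter Topology
open scoped ENNReal ContDiff

noncomputable section

theorem xe3_Vle {δ C ρ R : ℝ} (hC : 0 ≤ C) (hR : ρ ≤ R) (hR0 : 0 ≤ R) {X : SD} (hX : X.Ok δ C ρ)
    (x : R3) (hx : R < ‖x‖) : |X.V x - (X.κ ^ 2 / 2 - X.q / ‖x‖)| ≤ C / ‖x‖ ^ 2 := by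
  have hX' : Scal X.κ X.q X.ε δ C ρ X.C' X.n X.D X.d X.dg X.s X.sg X.p X.pg X.V X.S X.TP := hX
  have hx0 : 0 < ‖x‖ := by linarith only [hR0, hx]
  refine (hX'.V_le x (by linarith)).trans ?_
  apply div_le_div_of_nonneg_right _ (by positivity)
  exact mul_le_of_le_one_left hC hX'.par.ε1

theorem xe3_Vb {δ C ρ R : ℝ} (hC : 0 ≤ C) (hR : ρ ≤ R) (hR100 : 100 * (1 + C) ≤ R) {X : SD}
    (hX : X.Ok δ C ρ) (x : R3) (hx : R < ‖x‖) : 0 < X.V x ∧ |X.V x| ≤ 3 + C := by
  have hX' : Scal X.κ X.q X.ε δ C ρ X.C' X.n X.D X.d X.dg X.s X.sg X.p X.pg X.V X.S X.TP := hX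
  have hp := hX'.par
  have h100 : 100 ≤ R := by linarith only [hC, hR100]
  have hx1 : 100 ≤ ‖x‖ := by linarith only [hC, hR100, hx]
  have hx0 : 0 < ‖x‖ := by linarith
  have h1 := abs_le.1 (xe3_Vle hC hR (by linarith) hX x hx)
  have h2 : X.q / ‖x‖ ≤ 3 / 200 := by
    rw [div_le_iff₀ hx0]
    have := hp.qu
    linarith only [hC, hR100, hx, this]
  have h2' : 0 ≤ X.q / ‖x‖ := div_nonneg (by linarith only [hp.ql]) hx0.le
  have h3 : C / ‖x‖ ^ 2 ≤ 1 / 100 := by
    rw [div_le_iff₀ (by positivity)]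
    have h4 : 100 * C ≤ ‖x‖ := by linarith only [hR100, hx]
    have h5 : ‖x‖ ≤ ‖x‖ ^ 2 := by
      have := mul_le_mul_of_nonneg_right (show (1 : ℝ) ≤ ‖x‖ by linarith only [hC, hR100, hx]) hx0.le
      rw [sq]; linarith only [this]
    linarith only [hR100, hx, h5]
  have h4 : 2 / 25 ≤ X.κ ^ 2 / 2 := by
    have := mul_self_le_mul_self (show (0 : ℝ) ≤ 2 / 5 by norm_num) hp.κl
    rw [sq]; linarith only [this]
  have h5 : X.κ ^ 2 / 2 ≤ 1 := by
    have := mul_self_le_mul_self (by linarith only [hp.κl] : (0 : ℝ) ≤ X.κ) hp.κu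
    rw [sq]; linarith only [this]
  constructor
  · linarith only [h1, h2, h3, h4]
  · rw [abs_le]
    constructor <;> linarith only [hC, h1, h2', h3, h5, h2, h4]

theorem xe3_inv_sq {x : R3} (hx : 1 ≤ ‖x‖) : 1 / ‖x‖ ^ 2 ≤ 2 * rad x ^ (-2 : ℝ) := by
  have hr1 : 1 ≤ rad x := one_le_rad x
  have hr0 : 0 < rad x := by linarith
  have hx2 : 1 ≤ ‖x‖ ^ 2 := one_le_pow₀ hx
  have h1 : rad x ^ (-2 : ℝ) = (1 + ‖x‖ ^ 2)⁻¹ := by
    rw [Real.rpow_neg hr0.le, ← rad_sq]
    congr 1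
    exact_mod_cast Real.rpow_natCast (rad x) 2
  rw [h1, ← div_eq_mul_inv, div_le_div_iff₀ (by linarith only [hx2]) (by linarith only [hx2])]
  linarith only [hx2]

theorem xe3_ps {δ C ρ : ℝ} {X : SD} (hX : X.Ok δ C ρ) : ∀ᵐ x : R3, X.p x ≤ X.s x := by
  have hX' : Scal X.κ X.q X.ε δ C ρ X.C' X.n X.D X.d X.dg X.s X.sg X.p X.pg X.V X.S X.TP := hX
  filter_upwards [hX'.sq] with x hx
  have h1 := hX'.s_nonneg x
  have h2 := hX'.p_nonneg x
  exact abs_le_of_sq_le_sq' (by (by_contra nlg; linarith [mul_eq_zero_of_left (sub_eq_zero.2 hx) (X.p x ^ 2 - (X.s x ^ 2)), mul_pos (sub_pos.2 (not_le.1 nlg)) (sub_pos.2 (not_le.1 nlg)), mul_nonneg (sq_nonneg (X.d x : ℝ)) (le_of_lt (sub_pos.2 (not_le.1 nlg)))])) h1 |>.2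

theorem xe3_Sp {δ C ρ R : ℝ} (hC : 0 ≤ C) (hR : ρ ≤ R) (hR1 : 1 ≤ R) {X : SD}
    (hX : X.Ok δ C ρ) : ∀ᵐ x : R3, R < ‖x‖ → |X.S x| ≤ C * X.p x := by
  have hX' : Scal X.κ X.q X.ε δ C ρ X.C' X.n X.D X.d X.dg X.s X.sg X.p X.pg X.V X.S X.TP := hX
  filter_upwards [hX'.S_le] with x hx hRx
  refine (hx (by linarith)).trans ?_
  apply mul_le_mul_of_nonneg_right _ (hX'.p_nonneg x)
  have hx1 : 1 ≤ ‖x‖ := by linarith
  rw [div_le_iff₀ (by positivity)]
  have h2 : 1 ≤ ‖x‖ ^ 2 := one_le_pow₀ hx1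
  have h3 : X.ε * C ≤ C := mul_le_of_le_one_left hC hX'.par.ε1
  exact h3.trans (le_mul_of_one_le_right hC h2)

theorem xe3_Sw {δ C ρ η R R1 C1 c3 : ℝ} (hC : 0 ≤ C) (hC1 : 0 < C1) (hR : ρ ≤ R) (hR1 : 1 ≤ R)
    (hRR : R1 ≤ R) {X : SD} (hX : X.Ok δ C ρ) (hE : X.E1 η R1 C1)
    (hε3 : 2 * C * C1 * X.ε ≤ c3) : ∀ᵐ x : R3, R < ‖x‖ →
      |X.S x| ≤ c3 * (rad x ^ (-1 + 2 * η) * wt (X.q / X.κ - 2 - η) X.κ x) := by
  have hX' : Scal X.κ X.q X.ε δ C ρ X.C' X.n X.D X.d X.dg X.s X.sg X.p X.pg X.V X.S X.TP := hX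
  filter_upwards [hX'.S_le, xe3_ps hX, hE] with x hx hpx hex hRx
  have hx1 : 1 ≤ ‖x‖ := by linarith only [hR1, hRx]
  have hx0 : 0 < ‖x‖ := by linarith
  have h1 : X.p x ≤ C1 * wt (X.q / X.κ - 1 + η) X.κ x := hpx.trans (hex (by linarith))
  have hr1 : 1 ≤ rad x := one_le_rad x
  have hr0 : 0 < rad x := by linarith only [hr1]
  have h2 : wt (X.q / X.κ - 1 + η) X.κ x =
      rad x ^ (1 + 2 * η) * wt (X.q / X.κ - 2 - η) X.κ x := by
    rw [wt_eq (X.q / X.κ - 1 + η) (X.q / X.κ - 2 - η) X.κ x]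
    congr 2
    ring
  have h3 := xe3_inv_sq hx1
  have hw := wt_pos (X.q / X.κ - 2 - η) X.κ x
  have h4 : rad x ^ (-1 + 2 * η) = rad x ^ (-2 : ℝ) * rad x ^ (1 + 2 * η) := by
    rw [← Real.rpow_add hr0]; congr 1; ring
  have hr2 : 0 < rad x ^ (-2 : ℝ) := Real.rpow_pos_of_pos hr0 _
  have hr3 : 0 < rad x ^ (1 + 2 * η) := Real.rpow_pos_of_pos hr0 _
  have hε0 := hX'.par.ε0
  rw [h2] at h1
  calc |X.S x| ≤ X.ε * C / ‖x‖ ^ 2 * X.p x := hx (by linarith only [hR, hRx])
    _ = X.ε * C * (1 / ‖x‖ ^ 2) * X.p x := by ring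
    _ ≤ X.ε * C * (2 * rad x ^ (-2 : ℝ)) *
          (C1 * (rad x ^ (1 + 2 * η) * wt (X.q / X.κ - 2 - η) X.κ x)) :=
        mul_le_mul (mul_le_mul_of_nonneg_left h3 (mul_nonneg hε0.le hC)) h1 (hX'.p_nonneg x)
          (mul_nonneg (mul_nonneg hε0.le hC) (by positivity))
    _ = (2 * C * C1 * X.ε) * (rad x ^ (-1 + 2 * η) * wt (X.q / X.κ - 2 - η) X.κ x) := by
        rw [h4]; ring
    _ ≤ c3 * (rad x ^ (-1 + 2 * η) * wt (X.q / X.κ - 2 - η) X.κ x) :=
        mul_le_mul_of_nonneg_right hε3 (by rw [h4]; (clear * - hr1 hw; positivity))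

theorem xe3_weak {δ C ρ : ℝ} {X : SD} (hX : X.Ok δ C ρ) (h : R3 → ℝ) (hg : Fin 3 → R3 → ℝ)
    (hT : Test ρ h hg) :
    (1 / 2) * (∑ k, ∫ x, - X.dg k x * hg k x) + ∫ x, X.V x * - X.d x * h x ≤
      ∫ x, - X.S x * h x := by
  have hX' : Scal X.κ X.q X.ε δ C ρ X.C' X.n X.D X.d X.dg X.s X.sg X.p X.pg X.V X.S X.TP := hX
  have h1 := hX'.d_eq h hg hT
  have e1 : (∑ k, ∫ x, - X.dg k x * hg k x) = - ∑ k, ∫ x, X.dg k x * hg k x := by
    rw [← Finset.sum_neg_distrib]
    refine Finset.sum_congr rfl fun k _ => ?_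
    rw [← integral_neg]
    refine integral_congr_ae (ae_of_all _ fun x => ?_)
    simp only; ring
  have e2 : ∫ x, X.V x * - X.d x * h x = - ∫ x, X.V x * X.d x * h x := by
    rw [← integral_neg]
    refine integral_congr_ae (ae_of_all _ fun x => ?_)
    simp only; ring
  have e3 : ∫ x, - X.S x * h x = - ∫ x, X.S x * h x := by
    rw [← integral_neg]
    refine integral_congr_ae (ae_of_all _ fun x => ?_)
    simp only; ring
  rw [e1, e2, e3]
  linarith

theorem xe3_memLp {δ C ρ R : ℝ} (hC : 0 ≤ C) (hR : ρ ≤ R) (hR1 : 1 ≤ R) {X : SD}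
    (hX : X.Ok δ C ρ) :
    MemLp ({x : R3 | R < ‖x‖ ∧ 0 < x 2}.indicator (fun x => - X.S x)) 2 volume := by
  have hX' : Scal X.κ X.q X.ε δ C ρ X.C' X.n X.D X.d X.dg X.s X.sg X.p X.pg X.V X.S X.TP := hX
  have hx2 : Measurable (fun x : R3 => x 2) := by fun_prop
  have hms : MeasurableSet {x : R3 | R < ‖x‖ ∧ 0 < x 2} :=
    (measurableSet_lt measurable_const measurable_norm).inter
      (measurableSet_lt measurable_const hx2)
  refine MemLp.mono' (g := fun x => C * X.p x) (hX'.p_H1.memLp.const_mul C)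
    ((hX'.S_meas.neg).indicator hms) ?_
  filter_upwards [xe3_Sp hC hR hR1 hX] with x hx
  by_cases h : x ∈ {x : R3 | R < ‖x‖ ∧ 0 < x 2}
  · rw [Set.indicator_of_mem h, Real.norm_eq_abs, abs_neg]
    exact hx h.1
  · rw [Set.indicator_of_notMem h, norm_zero]
    exact mul_nonneg hC (hX'.p_nonneg x)

theorem xe3_collar {c cN c3 m M w R t k d x2 ch : ℝ} (hc30 : 0 < c3)
    (hm : 0 < m) (h3 : 0 < x2) (hw1 : m ≤ w) (hw2 : w ≤ M)
    (hcN0 : 0 < cN) (hc3M : c3 * M = cN * Real.exp (-(R + 1) / 2)) (ht : t < R + 1)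
    (hch : c * ch = cN * (x2 * Real.exp (-t / 2))) (hk : k ≤ x2 - 3 / 2)
    (hd : -(c3 * m) ≤ d - c * ch) : - d ≤ -c3 * (w * k) := by
  have h7 : Real.exp (-(R + 1) / 2) ≤ Real.exp (-t / 2) := Real.exp_le_exp.2 (by linarith only [ht])
  have h8 : c3 * M * x2 ≤ c * ch := by
    rw [hch, hc3M]
    have := mul_le_mul_of_nonneg_left h7 (mul_pos hcN0 h3).le
    linarith only [this]
  have hw : 0 < w := hm.trans_le hw1
  have h9 : c3 * (w * k) ≤ c3 * (w * (x2 - 3 / 2)) :=
    mul_le_mul_of_nonneg_left (mul_le_mul_of_nonneg_left hk hw.le) hc30.le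
  have h10 : c3 * w * x2 ≤ c3 * M * x2 :=
    mul_le_mul_of_nonneg_right (mul_le_mul_of_nonneg_left hw2 hc30.le) h3.le
  have h11 : c3 * m ≤ c3 * w := mul_le_mul_of_nonneg_left hw1 hc30.le
  have h12 : 0 < c3 * w := by positivity
  have h13 : c3 * (w * (x2 - 3 / 2)) = c3 * w * x2 - 3 / 2 * (c3 * w) := by ring
  linarith only [h12, h11, h10, h9, h8, hd]

/-- XE3. (E3), uniform in the parameters. -/
theorem E3_holds {δ C ρ η c : ℝ} (hC : 0 ≤ C) (hρ : 1 ≤ ρ) (hη : 0 < η) (hη1 : η ≤ 1 / 32)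
    (hc : 0 < c) : ∃ R3' c3 τ : ℝ, ρ + 1 ≤ R3' ∧ 0 < c3 ∧ 0 < τ ∧
      ∀ X : SD, X.Ok δ C ρ → X.Close C c τ → X.E3 η R3' c3 := by
  obtain ⟨R1, C1, hR1, hC1, hE1⟩ := E1_holds (δ := δ) (C := C) (ρ := ρ) (η := η) hC hρ hη hη1
  obtain ⟨RB, hRB, hbar⟩ := barrier3 hη hη1 C
  obtain ⟨R, hRR1, hRRB, hR100⟩ : ∃ R : ℝ, R1 ≤ R ∧ RB ≤ R ∧ 100 * (1 + C) ≤ R :=
    ⟨max R1 (max RB (100 * (1 + C))), le_max_left _ _, (le_max_left _ _).trans (le_max_right _ _),
      (le_max_right _ _).trans (le_max_right _ _)⟩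
  have hR1' : 1 ≤ R := hRB.trans hRRB
  have hR0 : 0 < R := by linarith only [hC, hR100]
  have hρR : ρ ≤ R := by linarith only [hR1, hRR1]
  obtain ⟨m, M, hm, hM, hmM⟩ := wt_bounds (R := R + 1) (by linarith only [hC, hR100])
  obtain ⟨cN, hcN⟩ : ∃ cN : ℝ, cN = c / √(32 * Real.pi) := ⟨_, rfl⟩
  have hpi : 0 < √(32 * Real.pi) := Real.sqrt_pos.2 (by positivity)
  have hcN0 : 0 < cN := by rw [hcN]; positivity
  obtain ⟨c3, hc3⟩ : ∃ c3 : ℝ, c3 = cN * Real.exp (-(R + 1) / 2) / M := ⟨_, rfl⟩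
  have hc30 : 0 < c3 := by rw [hc3]; positivity
  have hc3M : c3 * M = cN * Real.exp (-(R + 1) / 2) := by
    rw [hc3]; field_simp
  obtain ⟨τ1, hτ1, hclose⟩ := d_close (δ := δ) (C := C) (ρ := ρ) hC hρ c (τ' := c3 * m)
    (mul_pos hc30 hm)
  have hden : 0 < 2 * C * C1 + 1 := by (clear * - hC hC1; positivity)
  refine ⟨R, c3, min τ1 (c3 / (2 * C * C1 + 1)), hR1.trans hRR1, hc30,
    lt_min hτ1 (div_pos hc30 hden), ?_⟩
  intro X hX hXc
  have hXc1 : X.Close C c τ1 := ⟨hXc.ε_lt.trans_le (min_le_left _ _),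
    hXc.κ_lt.trans_le (min_le_left _ _), hXc.q_le, hXc.int, hXc.lt.trans_le (min_le_left _ _)⟩
  have hcl := hclose X hX hXc1
  have hX' : Scal X.κ X.q X.ε δ C ρ X.C' X.n X.D X.d X.dg X.s X.sg X.p X.pg X.V X.S X.TP := hX
  have hp := hX'.par
  have hκ0 : 0 < X.κ := by linarith only [hp.κl]
  have hε : X.ε < c3 / (2 * C * C1 + 1) := hXc.ε_lt.trans_le (min_le_right _ _)
  have hε3 : 2 * C * C1 * X.ε ≤ c3 := by
    rw [lt_div_iff₀ hden] at hε
    have := hp.ε0
    linarith only [hε, this]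
  have hqκ1 : X.q / X.κ ≤ 15 / 4 := by
    rw [div_le_iff₀ hκ0]
    have := hp.κl; have := hp.qu; (clear η c hC hρ hη hη1 hc R1 C1 hR1 hC1 hE1 RB hRB hbar R hRR1 hRRB hR100 hR1' hR0 hρR m M hm hM hmM cN hcN hpi hcN0 c3 hc3 hc30 hc3M τ1 hτ1 hclose hden hXc hXc1 hcl hκ0 hε hε3; linarith)
  have hqκ0 : 0 ≤ X.q / X.κ := div_nonneg (by linarith only [hp.ql]) hκ0.le
  have hγ10 : |X.q / X.κ - 2 - η| ≤ 10 := by
    rw [abs_le]; constructor <;> linarith only [hη, hqκ1, hη1, hqκ0]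
  -- the barrier
  obtain ⟨hb1, hb2⟩ := (barr_wt_kk hκ0 (X.q / X.κ - 2 - η)).const_mul (-c3)
  have hH1 : H1o (fun x => - X.d x) (fun k x => - X.dg k x) :=
    ⟨hX'.d_H1.memLp.neg, fun k => (hX'.d_H1.memLp' k).neg, fun k => (hX'.d_H1.acl k).neg⟩
  have hSw := xe3_Sw hC hC1 hρR hR1' hRR1 hX (hE1 X hX) hε3
  have key := compare_half (ρ := ρ) (R := R) (K := 3 + C) (V := X.V) (f := fun x => - X.S x)
    (u := fun x => - X.d x)
    (b := fun x => -c3 * (wt (X.q / X.κ - 2 - η) X.κ x * kk (x 2)))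
    (ug := fun k x => - X.dg k x) hR0 hρR hH1 hb1 hX'.V_meas ?_ ?_
    (fun x hx => (xe3_Vb hC hρR hR100 hX x hx).2) (fun x hx => (xe3_Vb hC hρR hR100 hX x hx).1)
    (xe3_memLp hC hρR hR1' hX) (fun h hg hT _ => xe3_weak hX h hg hT) ?_ ?_
  · show ∀ᵐ x : R3, R < ‖x‖ → 0 < x 2 → c3 * wt (X.q / X.κ - 2 - η) X.κ x * kk (x 2) ≤ X.d x
    filter_upwards [key] with x hx h1 h2
    have := hx h1 h2
    linarith only [this]
  · filter_upwards [hX'.d_odd] with x hx
    rw [hx]
  · intro x _ hx2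
    rw [hx2]
    have hw := wt_pos (X.q / X.κ - 2 - η) X.κ x
    have h0 : kk 0 = -(3 / 2) := by unfold kk; norm_num
    rw [h0]
    have := mul_pos hc30 hw
    linarith only [this]
  · filter_upwards [hSw] with x hx h1 h2
    rw [hb2]
    have h3 := hbar X.κ X.q (X.V x) x hp.κl hp.κu hp.ql hp.qu (by linarith only [hRRB, h1]) h2.le
      (xe3_Vle hC hρR hR0.le hX x h1)
    have h4 := mul_le_mul_of_nonneg_left h3 hc30.le
    have h5 := (abs_le.1 (hx h1)).1
    linarith only [h4, h5]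
  · filter_upwards [hcl] with x hx h1 h2 h3
    have h4 := (abs_le.1 (hx (by linarith only [hR1, hRR1, h1]))).1
    have h5 : KD.chi 4 x = x 2 * Real.exp (-‖x‖ / 2) / √(32 * Real.pi) := rfl
    have h6 : c * KD.chi 4 x = cN * (x 2 * Real.exp (-‖x‖ / 2)) := by
      rw [h5, hcN]; ring
    obtain ⟨hw1, hw2⟩ := hmM X.κ (X.q / X.κ - 2 - η) x hp.κl hp.κu hγ10 (by linarith only [h2])
    exact xe3_collar hc30 hm h3 hw1 hw2 hcN0 hc3M h2 h6 (kk_le h3.le) h4

end

end Vale.Agent.P363.D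
end
end

section

section

/-!
# P363, block X: smallness on the slab
-/

namespace Vale.Agent.P363.D

open MeasureTheory Set Filter Topology
open scoped ENNReal ContDiff

noncomputable section

/-- The slab. -/
def xslS (r a : ℝ) : Set R3 := {x : R3 | |x 0 - r| < 1 ∧ |x 1| < 1 ∧ |x 2| < a}

theorem xsl_meas (r a : ℝ) : MeasurableSet (xslS r a) := by
  have h0 : IsOpen {x : R3 | |x 0 - r| < 1} := isOpen_lt (by fun_prop) continuous_const
  have h1 : IsOpen {x : R3 | |x 1| < 1} := isOpen_lt (by fun_prop) continuous_const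
  have h2 : IsOpen {x : R3 | |x 2| < a} := isOpen_lt (by fun_prop) continuous_const
  exact (h0.inter (h1.inter h2)).measurableSet

theorem xsl_volume (r a : ℝ) : volume (xslS r a) = ENNReal.ofReal (8 * a) := by
  have h := PiLp.volume_preserving_ofLp (Fin 3)
  have e : xslS r a = (WithLp.ofLp : R3 → Fin 3 → ℝ) ⁻¹'
      (univ.pi ![Ioo (r - 1) (r + 1), Ioo (-1) 1, Ioo (-a) a]) := by
    ext x
    simp only [xslS, Set.mem_ofPred_eq, mem_preimage, Set.mem_pi, mem_univ, true_imp_iff,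
      abs_lt]
    constructor
    · rintro ⟨⟨h1, h2⟩, ⟨h3, h4⟩, h5, h6⟩ i
      have h7 : r - 1 < x 0 := by linarith only [h1]
      have h8 : x 0 < r + 1 := by linarith
      fin_cases i
      · exact ⟨h7, h8⟩
      · exact ⟨h3, h4⟩
      · exact ⟨h5, h6⟩
    · intro h
      have h0 := h 0
      have h1 := h 1
      have h2 := h 2
      simp only [Matrix.cons_val_zero, Matrix.cons_val_one, Matrix.cons_val, mem_Ioo] at h0 h1 h2
      exact ⟨⟨by linarith only [h0], by linarith [h0.2]⟩, h1, h2⟩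
  have hm : MeasurableSet (univ.pi ![Ioo (r - 1) (r + 1), Ioo (-1) 1, Ioo (-a) a]) := by
    refine MeasurableSet.univ_pi fun i => ?_
    fin_cases i
    · exact measurableSet_Ioo
    · exact measurableSet_Ioo
    · exact measurableSet_Ioo
  rw [e, h.measure_preimage hm.nullMeasurableSet, volume_pi_pi, Fin.prod_univ_three]
  simp only [Matrix.cons_val_zero, Matrix.cons_val_one, Matrix.cons_val, Real.volume_Ioo]
  rw [← ENNReal.ofReal_mul (by linarith only []), ← ENNReal.ofReal_mul (by nlinarith only [])]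
  congr 1
  ring

theorem xsl_real (r : ℝ) {a : ℝ} (ha : 0 < a) : volume.real (xslS r a) = 8 * a := by
  rw [measureReal_def, xsl_volume r a, ENNReal.toReal_ofReal (by positivity)]

theorem xsl_sub {r a t : ℝ} (ha1 : a ≤ 1) (ht : 3 ≤ t) :
    xslS r a ⊆ Metric.ball (EuclideanSpace.single 0 r : R3) t := by
  intro x hx
  obtain ⟨h0, h1, h2⟩ := hx
  rw [Metric.mem_ball, dist_eq_norm, EuclideanSpace.norm_eq, Fin.sum_univ_three]
  have e0 : (x - EuclideanSpace.single 0 r : R3) 0 = x 0 - r := by simp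
  have e1 : (x - EuclideanSpace.single 0 r : R3) 1 = x 1 := by simp
  have e2 : (x - EuclideanSpace.single 0 r : R3) 2 = x 2 := by simp only [Fin.isValue, PiLp.sub_apply, ne_eq, Fin.reduceEq, not_false_eq_true, PiLp.single_eq_of_ne, sub_zero]
  rw [e0, e1, e2, Real.norm_eq_abs, Real.norm_eq_abs, Real.norm_eq_abs]
  have b0 : |x 0 - r| ^ 2 < 1 := by
    have := abs_nonneg (x 0 - r)
    nlinarith only [h0, this]
  have b1 : |x 1| ^ 2 < 1 := by
    have := abs_nonneg (x 1)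
    (by_contra nlg; linarith [mul_nonneg (le_of_lt (sub_pos.2 h1)) (sub_nonneg.2 this), mul_pos (sub_pos.2 h1) (sub_pos.2 h1), mul_nonneg (sub_nonneg.2 (not_lt.1 nlg)) (sub_nonneg.2 this), mul_nonneg (sub_nonneg.2 (not_lt.1 nlg)) (le_of_lt (sub_pos.2 h1))])
  have b2 : |x 2| ^ 2 < 1 := by
    have := abs_nonneg (x 2)
    (by_contra nlg; linarith [mul_nonneg (le_of_lt (sub_pos.2 h2)) (sub_nonneg.2 this), mul_pos (sub_pos.2 h2) (sub_pos.2 h2), mul_nonneg (sub_nonneg.2 ha1) (sub_nonneg.2 this), mul_nonneg (sub_nonneg.2 ha1) (le_of_lt (sub_pos.2 h2)), mul_nonneg (sub_nonneg.2 ha1) (sub_nonneg.2 ha1), mul_nonneg (sub_nonneg.2 (not_lt.1 nlg)) (sub_nonneg.2 this), mul_nonneg (sub_nonneg.2 (not_lt.1 nlg)) (le_of_lt (sub_pos.2 h2)), mul_nonneg (sub_nonneg.2 (not_lt.1 nlg)) (sub_nonneg.2 ha1)])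
  rw [Real.sqrt_lt' (by linarith)]
  (clear * - ht b0 b1 b2; nlinarith)

/-- The weights at the centre. -/
theorem xsl_wt (γ : ℝ) {κ r : ℝ} (hκ : 0 ≤ κ) (hr : 1 ≤ r) :
    wt γ κ (EuclideanSpace.single 0 r : R3) ≤ 2 ^ |γ| * (r ^ γ * Real.exp (-(κ * r))) := by
  have hr0 : 0 < r := by linarith only [hr]
  have hn : ‖(EuclideanSpace.single 0 r : R3)‖ = r := by
    rw [PiLp.norm_single, Real.norm_of_nonneg hr0.le]
  have h1 : r ≤ rad (EuclideanSpace.single 0 r : R3) := by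
    have := norm_le_rad (EuclideanSpace.single 0 r : R3)
    rwa [hn] at this
  have h2 : rad (EuclideanSpace.single 0 r : R3) ≤ 2 * r := by
    have := rad_le (EuclideanSpace.single 0 r : R3)
    rw [hn] at this
    linarith only [hr, this]
  set R := rad (EuclideanSpace.single 0 r : R3) with hR
  have hR0 : 0 < R := by linarith
  have h3 : R ^ γ ≤ 2 ^ |γ| * r ^ γ := by
    have e : R ^ γ = (R / r) ^ γ * r ^ γ := by
      rw [← Real.mul_rpow (by positivity) hr0.le, div_mul_cancel₀ _ hr0.ne']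
    rw [e]
    apply mul_le_mul_of_nonneg_right _ (Real.rpow_nonneg hr0.le _)
    have q1 : 1 ≤ R / r := by rwa [le_div_iff₀ hr0, one_mul]
    have q2 : R / r ≤ 2 := by rwa [div_le_iff₀ hr0]
    calc (R / r) ^ γ ≤ (R / r) ^ |γ| := Real.rpow_le_rpow_of_exponent_le q1 (le_abs_self _)
      _ ≤ 2 ^ |γ| := Real.rpow_le_rpow (by positivity) q2 (abs_nonneg _)
  have h4 : Real.exp (-(κ * R)) ≤ Real.exp (-(κ * r)) := by
    apply Real.exp_le_exp.mpr
    linarith only [mul_nonneg (sub_nonneg.2 hκ) (sub_nonneg.2 h1)]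
  unfold wt
  rw [← hR, ← mul_assoc]
  exact mul_le_mul h3 h4 (Real.exp_pos _).le (by positivity)

/-- XSlab. The field `slab` of `ExOut`. -/
theorem slab_holds {δ C ρ η η' K R4 : ℝ} (hC : 0 ≤ C) (hρ : 1 ≤ ρ) (hη : 0 < η)
    (hη1 : η ≤ 1 / 32) (hη' : η ≤ η') {X : SD} (hX : X.Ok δ C ρ)
    (hK : ∀ x : R3, R4 ≤ ‖x‖ → ∀ᵐ y : R3, y ∈ Metric.ball x 6 →
      X.s y ≤ K * wt (X.q / X.κ - 1 + η) X.κ x ∧ X.p y ≤ K * wt (X.q / X.κ - 3 + η) X.κ x) :
    ∃ R1 C1 : ℝ, ∀ r : ℝ, R1 < r →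
    ∫ x in {x : R3 | |x 0 - r| < 1 ∧ |x 1| < 1 ∧ |x 2| < r ^ (-4 : ℝ)}, X.n x ≤
      C1 * r ^ (-4 : ℝ) * (r ^ (X.q / X.κ - 5 / 2 + η') * Real.exp (-(X.κ * r))) ^ 2 := by
  obtain ⟨K', R5, hK', hR5, hdg⟩ := dg_ball hC hρ hX hK
  have hκ : 0 < X.κ := lt_of_lt_of_le (by norm_num) hX.par.κl
  set γ1 := X.q / X.κ - 1 + η with hγ1
  set γ2 := X.q / X.κ - 3 + η with hγ2
  set γ3 := X.q / X.κ - 5 / 2 + η' with hγ3
  refine ⟨max (max 1 R4) R5, 4 * (K' * (2 ^ |γ1|) ^ 2 + 8 * (K ^ 2 * (2 ^ |γ2|) ^ 2)),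
    fun r hr => ?_⟩
  have hr1 : 1 < r := lt_of_le_of_lt ((le_max_left _ _).trans (le_max_left _ _)) hr
  have hr4 : R4 < r := lt_of_le_of_lt ((le_max_right _ _).trans (le_max_left _ _)) hr
  have hr5 : R5 < r := lt_of_le_of_lt (le_max_right _ _) hr
  have hr0 : 0 < r := by linarith only [hr1]
  set a : ℝ := r ^ (-4 : ℝ) with ha
  have ha0 : 0 < a := Real.rpow_pos_of_pos hr0 _
  have ha1 : a ≤ 1 := Real.rpow_le_one_of_one_le_of_nonpos hr1.le (by norm_num)
  set x0 : R3 := EuclideanSpace.single 0 r with hx0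
  have hn : ‖x0‖ = r := by
    rw [hx0, PiLp.norm_single, Real.norm_of_nonneg hr0.le]
  change ∫ x in xslS r a, X.n x ≤ _
  have hS := xsl_meas r a
  have hd2 : Integrable (fun x => X.d x ^ 2) := hX.d_H1.memLp.integrable_sq
  have hp2 : Integrable (fun x => X.p x ^ 2) := hX.p_H1.memLp.integrable_sq
  have e1 : ∫ x in xslS r a, X.n x =
      4 * (∫ x in xslS r a, X.d x ^ 2) + 4 * ∫ x in xslS r a, X.p x ^ 2 := by
    have e2 : ∫ x in xslS r a, X.n x = ∫ x in xslS r a, (4 * X.d x ^ 2 + 4 * X.p x ^ 2) := by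
      refine setIntegral_congr_ae hS ?_
      filter_upwards [hX.n_eq, hX.sq] with x h1 h2 _
      rw [h1, h2, mul_add]
    rw [e2, integral_add (hd2.integrableOn.const_mul 4) (hp2.integrableOn.const_mul 4),
      integral_const_mul, integral_const_mul]
  -- the part of `d`
  have hd : ∫ x in xslS r a, X.d x ^ 2 ≤ a ^ 2 * (K' * wt γ1 X.κ x0 ^ 2) := by
    refine (slab_odd (hX.d_H1.acl 2) hX.d_H1.memLp (hX.d_H1.memLp' 2) hX.d_odd r ha0).trans ?_
    refine mul_le_mul_of_nonneg_left ?_ (sq_nonneg a)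
    have h1 : ∫ x in xslS r a, X.dg 2 x ^ 2 ≤ ∫ y in Metric.ball x0 3, X.dg 2 y ^ 2 :=
      setIntegral_mono_set (hX.d_H1.memLp' 2).integrable_sq.integrableOn
        (ae_of_all _ fun x => sq_nonneg _) (xsl_sub ha1 le_rfl).eventuallyLE
    have h2 : ∫ y in Metric.ball x0 3, X.dg 2 y ^ 2 ≤
        ∑ k, ∫ y in Metric.ball x0 3, X.dg k y ^ 2 :=
      Finset.single_le_sum (f := fun k => ∫ y in Metric.ball x0 3, X.dg k y ^ 2)
        (fun k _ => integral_nonneg fun x => sq_nonneg _) (Finset.mem_univ 2)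
    exact h1.trans (h2.trans (hdg x0 (by rw [hn]; exact hr5.le)))
  -- the part of `p`
  have hp : ∫ x in xslS r a, X.p x ^ 2 ≤ 8 * a * (K ^ 2 * wt γ2 X.κ x0 ^ 2) := by
    have h1 : ∫ x in xslS r a, X.p x ^ 2 ≤ ∫ _x in xslS r a, (K * wt γ2 X.κ x0) ^ 2 := by
      refine setIntegral_mono_ae_restrict hp2.integrableOn ?_ ?_
      · refine integrableOn_const ?_
        rw [xsl_volume r a]
        exact ENNReal.ofReal_ne_top
      · rw [Filter.EventuallyLE, ae_restrict_iff' hS]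
        filter_upwards [hK x0 (by rw [hn]; exact hr4.le)] with y hy hyS
        exact pow_le_pow_left₀ (hX.p_nonneg y)
          (hy (xsl_sub ha1 (by norm_num) hyS)).2 2
    refine h1.trans (le_of_eq ?_)
    rw [setIntegral_const, xsl_real r ha0, smul_eq_mul, mul_pow]
  have w1 := xsl_wt γ1 hκ.le hr1.le
  have w2 := xsl_wt γ2 hκ.le hr1.le
  rw [← hx0] at w1 w2
  have p1 := wt_pos γ1 X.κ x0
  have p2 := wt_pos γ2 X.κ x0
  have q1 : wt γ1 X.κ x0 ^ 2 ≤ (2 ^ |γ1|) ^ 2 * (r ^ γ1 * Real.exp (-(X.κ * r))) ^ 2 := by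
    rw [← mul_pow]
    exact pow_le_pow_left₀ p1.le w1 2
  have q2 : wt γ2 X.κ x0 ^ 2 ≤ (2 ^ |γ2|) ^ 2 * (r ^ γ2 * Real.exp (-(X.κ * r))) ^ 2 := by
    rw [← mul_pow]
    exact pow_le_pow_left₀ p2.le w2 2
  have hγ : r ^ γ2 ≤ r ^ γ3 := by
    apply Real.rpow_le_rpow_of_exponent_le hr1.le
    rw [hγ2, hγ3]
    linarith only [hη']
  have hE : 0 < Real.exp (-(X.κ * r)) := Real.exp_pos _
  set T : ℝ := (r ^ γ3 * Real.exp (-(X.κ * r))) ^ 2 with hT
  have hT0 : 0 ≤ T := sq_nonneg _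
  have t2 : (r ^ γ2 * Real.exp (-(X.κ * r))) ^ 2 ≤ T := by
    apply pow_le_pow_left₀ (by positivity)
    exact mul_le_mul_of_nonneg_right hγ hE.le
  have t1 : a * (r ^ γ1 * Real.exp (-(X.κ * r))) ^ 2 ≤ T := by
    have e3 : a * (r ^ γ1 * Real.exp (-(X.κ * r))) ^ 2 =
        (r ^ γ2 * Real.exp (-(X.κ * r))) ^ 2 := by
      have e4 : r ^ γ2 = r ^ (-2 : ℝ) * r ^ γ1 := by
        rw [← Real.rpow_add hr0]
        congr 1
        rw [hγ1, hγ2]
        ring
      have e5 : a = (r ^ (-2 : ℝ)) ^ 2 := by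
        rw [ha, ← Real.rpow_natCast, ← Real.rpow_mul hr0.le]
        norm_num
      rw [e4, e5]
      ring
    rw [e3]
    exact t2
  have z1 : a ^ 2 * (K' * wt γ1 X.κ x0 ^ 2) ≤ a * (K' * (2 ^ |γ1|) ^ 2 * T) := by
    calc a ^ 2 * (K' * wt γ1 X.κ x0 ^ 2)
        ≤ a ^ 2 * (K' * ((2 ^ |γ1|) ^ 2 * (r ^ γ1 * Real.exp (-(X.κ * r))) ^ 2)) := by
          (clear * - q1 hK' hr1; gcongr)
      _ = a * (K' * (2 ^ |γ1|) ^ 2 * (a * (r ^ γ1 * Real.exp (-(X.κ * r))) ^ 2)) := by ring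
      _ ≤ a * (K' * (2 ^ |γ1|) ^ 2 * T) := by (clear * - t1 hK' hr1; gcongr)
  have z2 : 8 * a * (K ^ 2 * wt γ2 X.κ x0 ^ 2) ≤ 8 * a * (K ^ 2 * (2 ^ |γ2|) ^ 2 * T) := by
    calc 8 * a * (K ^ 2 * wt γ2 X.κ x0 ^ 2)
        ≤ 8 * a * (K ^ 2 * ((2 ^ |γ2|) ^ 2 * (r ^ γ2 * Real.exp (-(X.κ * r))) ^ 2)) := by
          (clear * - q2 hr1; gcongr)
      _ = 8 * a * (K ^ 2 * (2 ^ |γ2|) ^ 2 * (r ^ γ2 * Real.exp (-(X.κ * r))) ^ 2) := by ring
      _ ≤ 8 * a * (K ^ 2 * (2 ^ |γ2|) ^ 2 * T) := by (clear * - t2 hr1; gcongr)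
  rw [e1]
  calc 4 * (∫ x in xslS r a, X.d x ^ 2) + 4 * ∫ x in xslS r a, X.p x ^ 2
      ≤ 4 * (a * (K' * (2 ^ |γ1|) ^ 2 * T)) + 4 * (8 * a * (K ^ 2 * (2 ^ |γ2|) ^ 2 * T)) := by
        linarith only [hd, hp, z1, z2]
    _ = 4 * (K' * (2 ^ |γ1|) ^ 2 + 8 * (K ^ 2 * (2 ^ |γ2|) ^ 2)) * a * T := by ring

end

end Vale.Agent.P363.D
end
end

section

section

/-!
# P363, block X: assembly
-/

namespace Vale.Agent.P363.D

open MeasureTheory Set Filter Topology
open scoped ENNReal ContDiff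

noncomputable section

/-- XMain. Output of the scalar analysis, `c > 0`. -/
theorem scal_out_pos {δ C ρ c η : ℝ} (hδ : 0 < δ) (hC : 0 ≤ C) (hρ : 1 ≤ ρ) (hc : 0 < c)
    (hη : 0 < η) (hη1 : η ≤ 1 / 40) : ∃ τ : ℝ, 0 < τ ∧
    ∀ X : SD, X.Ok δ C ρ → X.Close C c τ →
      ExOut X.n X.D X.κ (X.q - η) (X.q / X.κ - 5 / 2 + η) := by
  have hη0 : 0 < η / 2 := by positivity
  have hη2 : η / 2 ≤ 1 / 32 := by linarith only [hη1]
  obtain ⟨R3', c3, τ, -, hc3, hτ, h3⟩ := E3_holds (δ := δ) hC hρ hη0 hη2 hc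
  obtain ⟨R1, C1, hR1, hC1, h1⟩ := E1_holds (δ := δ) hC hρ hη0 hη2
  refine ⟨τ, hτ, fun X hX hcl => ?_⟩
  have e1 := h1 X hX
  have e3 := h3 X hX hcl
  obtain ⟨R2, C2, -, hC2, e2⟩ := E2_holds hδ hC hρ hη0 hη2 (by linarith only [hR1]) hX e1
  obtain ⟨c4, R4, hc4, -, hlow⟩ := d_lower hc3 hX e3
  obtain ⟨K, R5, -, -, hup⟩ := sp_upper hC1 hC2 hX e1 e2
  have hpar := hX.par
  have hκ : 0 < X.κ := by (clear * - hη hη1 hpar; linarith [hpar.κl])
  obtain ⟨hpos, hup'⟩ := up_holds (η' := η) (R4 := max R4 R5) hC hρ hη0 hη2 hη hc4 hX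
    (fun x hx => hup x ((le_max_right _ _).trans hx))
    (fun x hx => hlow x ((le_max_left _ _).trans hx))
  have hslab := slab_holds (η' := η) hC hρ hη0 hη2 (by linarith only [hη]) hX hup
  refine ⟨hκ, by linarith [hpar.ql], ?_, hX.n_nonneg, hX.n_int, hX.n_acl, hX.D_int, hX.D2_int,
    hpos, hup', hslab⟩
  have h4 : η / X.κ ≤ (5 / 2) * η := by
    rw [div_le_iff₀ hκ]
    linarith [mul_nonneg (le_of_lt (sub_pos.2 hη)) (sub_nonneg.2 hpar.κl)]
  rw [sub_div]
  linarith only [hη1, h4]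

lemma xmain_H1o_neg {f : R3 → ℝ} {f' : Fin 3 → R3 → ℝ} (h : H1o f f') :
    H1o (fun x => -f x) (fun k x => -f' k x) :=
  ⟨h.memLp.neg, fun k => (h.memLp' k).neg, fun k => (h.acl k).neg⟩

/-- The data with `d` replaced by `-d`. -/
def SD.flip (X : SD) : SD :=
  { X with d := fun x => -X.d x, dg := fun k x => -X.dg k x, S := fun x => -X.S x }

lemma SD.Ok.flip {δ C ρ : ℝ} {X : SD} (h : X.Ok δ C ρ) : X.flip.Ok δ C ρ where
  par := h.par
  C'_nonneg := h.C'_nonneg
  d_H1 := xmain_H1o_neg h.d_H1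
  s_H1 := h.s_H1
  p_H1 := h.p_H1
  s_nonneg := h.s_nonneg
  p_nonneg := h.p_nonneg
  sq := by
    filter_upwards [h.sq] with x hx
    simpa only [SD.flip, even_two, Even.neg_pow] using hx
  s_norm := h.s_norm
  d_odd := by
    filter_upwards [h.d_odd] with x hx
    simp [SD.flip, hx]
  n_nonneg := h.n_nonneg
  n_eq := h.n_eq
  n_int := h.n_int
  n_acl := h.n_acl
  D_int := h.D_int
  D2_int := h.D2_int
  V_meas := h.V_meas
  V_le := h.V_le
  S_meas := h.S_meas.neg
  S_le := by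
    filter_upwards [h.S_le] with x hx
    simpa only [SD.flip, abs_neg] using hx
  d_eq := fun g gg hg => by
    have h1 := h.d_eq g gg hg
    simp only [SD.flip, neg_mul, mul_neg, integral_neg, Finset.sum_neg_distrib]
    linarith
  p_ineq := fun g gg hg hg0 => by
    have h1 := h.p_ineq g gg hg hg0
    simpa only [SD.flip, abs_neg] using h1
  s_ineq := h.s_ineq
  TP_nonneg := h.TP_nonneg
  TP_int := h.TP_int
  cacc := fun χ h1 h2 h3 => by
    have h4 := h.cacc χ h1 h2 h3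
    simpa only [SD.flip, neg_sq] using h4
  energy := fun g gg h1 h2 h3 h4 h5 => by
    have h6 := h.energy g gg h1 h2 h3 h4 h5
    simpa only [SD.flip, neg_sq] using h6

lemma SD.Close.flip {C c τ : ℝ} {X : SD} (h : X.Close C c τ) : X.flip.Close C (-c) τ := by
  have h1 : (fun x => (X.flip.d x - -c * KD.chi 4 x) ^ 2)
      = fun x => (X.d x - c * KD.chi 4 x) ^ 2 := by
    funext x
    simp only [SD.flip]
    ring
  refine ⟨h.ε_lt, h.κ_lt, h.q_le, ?_, ?_⟩
  · rw [h1]; exact h.int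
  · rw [h1]; exact h.lt

/-- XMain. Output of the scalar analysis. -/
theorem scal_out {δ C ρ c η : ℝ} (hδ : 0 < δ) (hC : 0 ≤ C) (hρ : 1 ≤ ρ) (hc : c ≠ 0)
    (hη : 0 < η) (hη1 : η ≤ 1 / 40) : ∃ τ : ℝ, 0 < τ ∧
    ∀ X : SD, X.Ok δ C ρ → X.Close C c τ →
      ExOut X.n X.D X.κ (X.q - η) (X.q / X.κ - 5 / 2 + η) := by
  rcases lt_or_gt_of_ne hc with hc | hc
  · obtain ⟨τ, hτ, h⟩ := scal_out_pos (c := -c) hδ hC hρ (by linarith only [hc]) hη hη1
    exact ⟨τ, hτ, fun X hX hcl => h X.flip hX.flip hcl.flip⟩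
  · exact scal_out_pos hδ hC hρ hc hη hη1

end

end Vale.Agent.P363.D
end
end

section

section

/-!
# P363, block X: the exact side, from the scalar data and the scalar analysis
-/

namespace Vale.Agent.P363.D

open MeasureTheory Set Filter Topology
open scoped ENNReal ContDiff

noncomputable section

/-- BLOCK X (B5): the exact side (statement of `exact_side` in `Main.lean`). -/
theorem exact_side_proof (A R δ M c η : ℝ) (hA : 0 ≤ A) (hR : 0 < R) (hδ : 0 < δ)
    (hc : c ≠ 0) (hη : 0 < η) (hη2 : η ≤ 1 / 40) : ∃ τ : ℝ, 0 < τ ∧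
    ∀ (ε E4 E3 : ℝ) (F : X4 → ℝ) (Fx : Fin 3 → X4 → ℝ) (Fy : Fin 3 → Fin 3 → X4 → ℝ)
      (Φ : Conf 3 → ℝ) (Φy : Fin 3 → Fin 3 → Conf 3 → ℝ), 0 < ε → ε < τ →
      Sys A R ε δ M E4 E3 F Fx Fy Φ Φy → |E3 - E4 - 1 / 8| < τ →
      Integrable (fun x => (dys F Φ x - c * KD.chi 4 x) ^ 2) volume →
      ∫ x, (dys F Φ x - c * KD.chi 4 x) ^ 2 < τ →
      ∃ κ q p : ℝ, ExOut (dens F) (densD F Fx) κ q p := by
  obtain ⟨C, ρ, hC, hρ, hAC, hsys⟩ := sys_scal A R δ M hA hR hδ
  obtain ⟨τ1, hτ1, hout⟩ := scal_out (δ := δ) (C := C) (ρ := ρ) hδ hC hρ hc hη hη2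
  refine ⟨min τ1 (min (1 / 100) (1 / (2 * (C + 1)))), by (clear * - hτ1 hC; positivity), ?_⟩
  intro ε E4 E3 F Fx Fy Φ Φy hε hετ hS hE hdi hd
  have h1 : ε < τ1 := lt_of_lt_of_le hετ (min_le_left _ _)
  have h2 : ε < 1 / 100 :=
    lt_of_lt_of_le hετ ((min_le_right _ _).trans (min_le_left _ _))
  have h3 : ε < 1 / (2 * (C + 1)) :=
    lt_of_lt_of_le hετ ((min_le_right _ _).trans (min_le_right _ _))
  have hE1 : |E3 - E4 - 1 / 8| < τ1 := lt_of_lt_of_le hE (min_le_left _ _)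
  have hE2 : |E3 - E4 - 1 / 8| < 1 / 100 :=
    lt_of_lt_of_le hE ((min_le_right _ _).trans (min_le_left _ _))
  have hCε : C * ε ≤ 1 / 2 := by
    rw [lt_div_iff₀ (by (clear * - hC; positivity))] at h3
    linarith only [hε, h3]
  obtain ⟨C2, dg, s, sg, p, pg, V, S, TP, hScal⟩ :=
    hsys ε E4 E3 F Fx Fy Φ Φy hε (by linarith only [h2]) hCε hE2 hS
  have hpos : 0 ≤ 2 * (E3 - E4) := by
    have := (abs_lt.mp hE2).1
    linarith only [this]
  let X : SD := ⟨√(2 * (E3 - E4)), 1 + ε * (2 * A - 3), ε, C2, dens F, densD F Fx, dys F Φ,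
    dg, s, sg, p, pg, V, S, TP⟩
  refine ⟨_, _, _, hout X hScal ⟨h1, ?_, ?_, hdi, lt_of_lt_of_le hd (min_le_left _ _)⟩⟩
  · show |√(2 * (E3 - E4)) ^ 2 / 2 - 1 / 8| < τ1
    rw [Real.sq_sqrt hpos]
    convert hE1 using 2
    ring
  · show |1 + ε * (2 * A - 3) - 1| ≤ C * ε
    rw [show 1 + ε * (2 * A - 3) - 1 = ε * (2 * A - 3) by ring, abs_mul, abs_of_pos hε, mul_comm]
    exact mul_le_mul_of_nonneg_right hAC hε.le

end

end Vale.Agent.P363.D
end
end

section

section

/-!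
# Passage between the judged definitions (`Vale.Agent.P363.Stmt`) and the working ones
(`Vale.Agent.P363`), for the disproof
-/

namespace Vale.Agent.P363.D.Bridge4

open MeasureTheory
open scoped ContDiff ENNReal

lemma update_eq {N : ℕ} (i : Fin N) (k : Fin 3) (x : Fin N → R3) (t : ℝ) :
    Function.update x i (x i + t • EuclideanSpace.single k (1:ℝ)) = x + t • axisDir i k := by
  ext1 j
  by_cases h : j = i
  · subst h
    simp [axisDir]
  · simp only [ne_eq, h, not_false_eq_true, Function.update_of_ne, axisDir, Pi.add_apply, Pi.smul_apply, Pi.single_eq_of_ne, smul_zero, add_zero]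

lemma pd_eq {N : ℕ} (i : Fin N) (k : Fin 3) {φ : (Fin N → R3) → ℝ} (hφ : ContDiff ℝ ∞ φ)
    (x : Fin N → R3) : Stmt.pd i k φ x = fderiv ℝ φ x (axisDir i k) := by
  unfold Stmt.pd
  simp_rw [update_eq]
  have h1 : HasFDerivAt φ (fderiv ℝ φ x) x := ((hφ.differentiable (by simp)) x).hasFDerivAt
  have h2 : HasDerivAt (fun t : ℝ => x + t • axisDir i k) (axisDir i k) 0 := by
    simpa using ((hasDerivAt_id (0:ℝ)).smul_const (axisDir i k)).const_add x
  have h3 : HasFDerivAt φ (fderiv ℝ φ x) (x + (0:ℝ) • axisDir i k) := by simpa using h1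
  exact (h3.comp_hasDerivAt (0:ℝ) h2).deriv

lemma weak_iff {N : ℕ} (i : Fin N) (k : Fin 3) (f g : (Fin N → R3) → ℂ) :
    Stmt.IsWeakDeriv i k f g ↔ IsWeakDeriv (axisDir i k) f g := by
  have e1 : ∀ φ : (Fin N → R3) → ℝ, ContDiff ℝ ∞ φ →
      Stmt.intC (fun x => (Stmt.pd i k φ x : ℂ) * f x)
        = ∫ x, ((fderiv ℝ φ x (axisDir i k) : ℝ) : ℂ) * f x := by
    intro φ hφ
    have : (fun x => (Stmt.pd i k φ x : ℂ) * f x)
        = fun x => ((fderiv ℝ φ x (axisDir i k) : ℝ) : ℂ) * f x := by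
      funext x; rw [pd_eq i k hφ]
    rw [this]; rfl
  constructor
  · intro h φ h1 h2
    rw [← e1 φ h1]
    exact h φ ⟨h1, h2⟩
  · intro h φ h1
    rw [e1 φ h1.1]
    exact h φ h1.1 h1.2

/-- Forget the wrappers. -/
noncomputable def toOld {N : ℕ} (Ψ : Stmt.ElectronState N) : ElectronState N where
  amp := Ψ.amp
  grad := Ψ.grad
  amp_memLp := Ψ.amp_memLp
  grad_memLp := Ψ.grad_memLp
  grad_weak := fun s i k => (weak_iff i k _ _).1 (Ψ.grad_weak s i k)
  antisymm := Ψ.antisymm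

/-- Put the wrappers. -/
noncomputable def toNew {N : ℕ} (Ψ : ElectronState N) : Stmt.ElectronState N where
  amp := Ψ.amp
  grad := Ψ.grad
  amp_memLp := Ψ.amp_memLp
  grad_memLp := Ψ.grad_memLp
  grad_weak := fun s i k => (weak_iff i k _ _).2 (Ψ.grad_weak s i k)
  antisymm := Ψ.antisymm

lemma ground_old {N : ℕ} {w : (Fin N → R3) → ℝ} {Ψ : Stmt.ElectronState N}
    (h : Stmt.IsGroundState w Ψ) : IsGroundState w (toOld Ψ) :=
  ⟨h.1, fun Φ hΦ => h.2 (toNew Φ) hΦ⟩

lemma ground_new {N : ℕ} {w : (Fin N → R3) → ℝ} {Ψ : ElectronState N}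
    (h : IsGroundState w Ψ) : Stmt.IsGroundState w (toNew Ψ) :=
  ⟨h.1, fun Φ hΦ => h.2 (toOld Φ) hΦ⟩

lemma repr_old {n : ℕ} {ρ : R3 → ℝ} (h : Stmt.NonintEnsembleRepresentable n ρ) :
    NonintEnsembleRepresentable n ρ := by
  obtain ⟨v, ⟨a, b, ha, hb, hab⟩, p, Φ, h1, h2, h3, h4⟩ := h
  exact ⟨v, ⟨a, b, ha, hb, hab⟩, p, fun k => toOld (Φ k), h1, h2, fun k => ground_old (h3 k), h4⟩

end Vale.Agent.P363.D.Bridge4
end
end

section

section

/-! # The negative answer, for the judged definitions, in existential form -/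

namespace Vale.Agent.P363.D

open MeasureTheory

/-- The two definitions of the reflections agree. -/
theorem KD_refl_eq' (k : Fin 3) (x : R3) : KD.refl k x = refl k x := by
  ext i
  by_cases h : i = k
  · subst h
    simp [KD.refl, refl]
    try ring
  · simp [KD.refl, refl, h]

/-- **A Coulomb molecule with three nuclei and four electrons with a ground state whose density is
not noninteracting ensemble representable.** -/
theorem exists_not_representable :
    ∃ (Zs : Fin 3 → ℕ) (Rs : Fin 3 → R3) (Ψ : ElectronState 4), (∀ j, 1 ≤ Zs j) ∧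
      Function.Injective Rs ∧ IsGroundState (coulombPotential Zs Rs) Ψ ∧
      ¬ NonintEnsembleRepresentable 3 (density Ψ) := by
  obtain ⟨A, R, δ, M, c, q, hA, hR, hδ, hc, hq0, hq2, hpert⟩ := perturbation
  obtain ⟨τ1, hτ1, hks⟩ := KD.ks_main hyd_ineq hq0 hq2
  obtain ⟨τ2, hτ2, hex⟩ := exact_side_proof A R δ M c (1 / 40) (by positivity) hR hδ hc
    (by norm_num) (by norm_num)
  obtain ⟨ε0, hε0, hP⟩ := hpert (min τ1 τ2) (by positivity)
  obtain ⟨Z, hZ⟩ := exists_nat_gt (1 / (min ε0 τ2))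
  have hm : 0 < min ε0 τ2 := by (clear * - hε0 hτ2; positivity)
  have hZ0 : (0 : ℝ) < Z := lt_trans (by (clear * - hε0 hτ2; positivity)) hZ
  have hZε : 1 / (Z : ℝ) < min ε0 τ2 := by
    rw [div_lt_iff₀ hZ0]
    rw [div_lt_iff₀ hm] at hZ
    linarith only [hZ]
  have hε : (0 : ℝ) < 1 / Z := by (clear * - hZ0; positivity)
  obtain ⟨E4, E3, F, Fx, Fy, Φ, Φy, Ψs, hS, hE, ⟨hdi, hd⟩, hG, hdens, hsym, hT, hn⟩ :=
    hP (1 / Z) hε (lt_of_lt_of_le hZε (min_le_left _ _))
  have hle1 : min τ1 τ2 ≤ τ1 := min_le_left _ _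
  have hle2 : min τ1 τ2 ≤ τ2 := min_le_right _ _
  obtain ⟨κ, q', p, hX⟩ := hex (1 / Z) E4 E3 F Fx Fy Φ Φy hε
    (lt_of_lt_of_le hZε (min_le_right _ _)) hS
    (lt_of_lt_of_le hE hle2) hdi (lt_of_lt_of_le hd hle2)
  have hZ' : 0 < Z := by exact_mod_cast hZ0
  obtain ⟨Zs, Rs, Ψ, hZs, hRs, hGΨ, himp⟩ := scaling Z A hZ' hA R hR Ψs hG
  refine ⟨Zs, Rs, Ψ, hZs, hRs, hGΨ, fun hrep => ?_⟩
  have hr := himp hrep
  obtain ⟨v, e, φ, φ', hK⟩ := hks Ψs hG.1 (by simpa only [KD_refl_eq'] using hsym 0)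
    (by linarith only [hT, hle1]) (by linarith only [hn, hle1]) hr
  exact KX.final_ks hdens hX hK

/-- The same for the judged definitions. -/
theorem stmt_exists : ∃ (Z : Fin 3 → ℕ) (R : Fin 3 → Stmt.R3) (Ψ : Stmt.ElectronState 4),
    (∀ j, 1 ≤ Z j) ∧ Function.Injective R ∧ Stmt.IsGroundState (Stmt.coulombPotential Z R) Ψ ∧
      ¬ Stmt.NonintEnsembleRepresentable 3 (Stmt.density Ψ) := by
  obtain ⟨Z, R, Ψ, hZ, hR, hG, hn⟩ := exists_not_representable
  exact ⟨Z, R, Bridge4.toNew Ψ, hZ, hR, Bridge4.ground_new hG,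
    fun h => hn (Bridge4.repr_old h)⟩

end Vale.Agent.P363.D
end
end
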